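import Claimed.Agent.R291.Tool.TriSC

/-!
# Row 291 (S0539), Ann/Place : PLACES WITHOUT CURVES (abstract part)      (owner helper36; prefix `plc_`, defs `Plc*` / `plc*`)      no sorry

Unit ANN, blocks A1 (LSS) and A3 (RSW (56), note `origin/helper187:notes/R291/g1_helper187.md`).   Design: `origin/helper36:notes/R291/adv36_A1A3.md` Secs. IV, V.
Language = `Tool/TriSC` (`TscR G s u v`, `TscConn`, `tscComp`, `TriSCOn`).   Any simple graph; no lattice, no probability, no curves, no cyclic order.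

* `PlcTouch G S T`      the sets `S`, `T` share a vertex or contain adjacent vertices
* **`plc_hex4`**        HEX FOR FOUR CONNECTED SETS: `s` TriSC, `S2, S4 ⊆ P` connected, `S1, S3` connected, each touching `S2` and `S4`:  a path in `P` from `S2` to `S4`, or a
                        connected `M ⊆ s \ P` meeting `S1` and `S3`.      (replaces the boundary arcs `AB0, B0C, CD1, D1A` and the label analysis A.1 of 187)
* `plc_first_hit`       first visit of `K` by a path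
* `PlcStrip G Q D B`    a connected `Q` with two ends `D`, `B`;   `PlcCutset G Q D B K`  a connected `K ⊆ Q` off the ends which separates them;   `plcSide G Q K D`  the part of `Q \ K` joined to `D`
* `plc_dich`, `plc_flip`, **`plc_middle`**      disjoint connected separators are linearly ordered; of three, one is in the middle      (replaces "disjoint ac-crosscuts are ordered")
* **`plc_block`**       a separator `π` on the `D`-side of `K₂`: no path from `D` off `π` comes to `K₂` or next to it      (187 Lemma B, Step 1)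
* **`plc_two_sides`**   cochain lemma: the two sides of a connected `χ` are not joined in `Q \ χ`;   **`plc_c2`** = 187 C2: two invariant runs of one axis lie in different components of `Q ∩ ρ Q`
* `plc_layer_side`      every component of `Q \ K` is attached to `K` across `ρ Left` only or across `ρ Right` only (Timar)
* `plc_exit`            a connected set which leaves a component of `Q \ K` does it through its layer
* **`plc_touch_mirror`**  `ρ La` touches `Lc`, or `ρ Lc` touches `La`  (the only place where A.1 distinguished two cases)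
* `plcCellG sv`, **`plc_cell_sc`**      THE GRAPH OF THE CELLS OF A TriSC COMPLEX IS TriSC (every edge in exactly one cell, cells = cliques): Hex / Timar on the cells of irregular, thin or glued domains (55's Sec. 5, cure (b): no fattening)
-/

set_option autoImplicit false
set_option linter.unusedSectionVars false
set_option linter.unusedVariables false

namespace Claimed.Agent.R291

open Relation

section abstract

variable {V : Type*} {G : SimpleGraph V}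

/-! ### 1. Hex for four connected sets -/

/-- the two sets share a vertex or contain adjacent vertices -/
def PlcTouch (G : SimpleGraph V) (S T : Set V) : Prop := ∃ a ∈ S, ∃ b ∈ T, a = b ∨ G.Adj a b

theorem plc_touch_symm {S T : Set V} (h : PlcTouch G S T) : PlcTouch G T S := by
  obtain ⟨a, ha, b, hb, hab⟩ := h
  exact ⟨b, hb, a, ha, hab.elim (fun e => Or.inl e.symm) (fun e => Or.inr e.symm)⟩

theorem plc_touch_map {V' : Type*} {G' : SimpleGraph V'} (e : V → V') (he : ∀ a b, G.Adj a b → G'.Adj (e a) (e b)) {S T : Set V}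
    (h : PlcTouch G S T) : PlcTouch G' (e '' S) (e '' T) := by
  obtain ⟨a, ha, b, hb, hab⟩ := h
  exact ⟨e a, Set.mem_image_of_mem e ha, e b, Set.mem_image_of_mem e hb, hab.elim (fun h => Or.inl (h ▸ rfl)) (fun h => Or.inr (he _ _ h))⟩

/-- three connected sets in a row -/
theorem plc_conn3 {S2 S1 S4 : Set V} (c2 : TscConn G S2) (c1 : TscConn G S1) (c4 : TscConn G S4) (t12 : PlcTouch G S1 S2)
    (t14 : PlcTouch G S1 S4) : TscConn G (S2 ∪ S1 ∪ S4) := by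
  obtain ⟨a, ha, b, hb, hab⟩ := plc_touch_symm t12
  obtain ⟨a', ha', b', hb', hab'⟩ := t14
  exact tsc_conn_union (tsc_conn_union c2 c1 ha hb hab) c4 (Or.inr ha') hb' hab'

/-- **HEX FOR FOUR CONNECTED SETS**.   Nothing says that the four sets lie on a boundary or are cyclically ordered. -/
theorem plc_hex4 {s P S1 S2 S3 S4 : Set V} (hs : TriSCOn (ZMod 2) G s) (hP : P ⊆ s) (h2 : S2 ⊆ P) (h4 : S4 ⊆ P)
    (c2 : TscConn G S2) (c4 : TscConn G S4) (n2 : S2.Nonempty) (n4 : S4.Nonempty) (h1 : S1 ⊆ s) (h3 : S3 ⊆ s)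
    (c1 : TscConn G S1) (c3 : TscConn G S3) (t12 : PlcTouch G S1 S2) (t14 : PlcTouch G S1 S4) (t32 : PlcTouch G S3 S2)
    (t34 : PlcTouch G S3 S4) :
    (∃ u ∈ S2, ∃ v ∈ S4, TscR G P u v) ∨
      ∃ M : Set V, M ⊆ s \ P ∧ TscConn G M ∧ (M ∩ S1).Nonempty ∧ (M ∩ S3).Nonempty := by
  obtain ⟨t, ht⟩ := n2
  obtain ⟨b, hb⟩ := n4
  by_cases hno : TscR G P t b
  · exact Or.inl ⟨t, ht, b, hb, hno⟩
  obtain ⟨M, hM, hMc, hmeet⟩ := tsc_hex hs hP (h2 ht) (h4 hb) hno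
  have key : ∀ S : Set V, S ⊆ s → TscConn G S → PlcTouch G S S2 → PlcTouch G S S4 → (M ∩ S).Nonempty := by
    intro S hS cS tS2 tS4
    have hsub : S2 ∪ S ∪ S4 ⊆ s := by
      rintro x ((hx | hx) | hx)
      · exact hP (h2 hx)
      · exact hS hx
      · exact hP (h4 hx)
    obtain ⟨x, hxQ, hxM⟩ := hmeet _ hsub (plc_conn3 c2 cS c4 tS2 tS4 t (Or.inl (Or.inl ht)) b (Or.inr hb))
    rcases hxQ with (hx | hx) | hx
    · exact ((hM hxM).2 (h2 hx)).elim
    · exact ⟨x, hxM, hx⟩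
    · exact ((hM hxM).2 (h4 hx)).elim
  exact Or.inr ⟨M, hM, hMc, key S1 h1 c1 t12 t14, key S3 h3 c3 t32 t34⟩

/-! ### 2. first visit -/

theorem plc_R_not_mem {Q K : Set V} {a b : V} (h : TscR G (Q \ K) a b) (ha : a ∉ K) : b ∉ K := by
  induction h with
  | refl => exact ha
  | tail _ hbc _ => exact hbc.2.2.2

/-- **first visit** of `K` by a path inside `Q` which starts off `K` -/
theorem plc_first_hit {Q K : Set V} {a b : V} (h : TscR G Q a b) (ha : a ∉ K) :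
    TscR G (Q \ K) a b ∨ ∃ v k, TscR G (Q \ K) a v ∧ v ∈ Q ∧ v ∉ K ∧ k ∈ K ∧ k ∈ Q ∧ G.Adj v k := by
  induction h with
  | refl => exact Or.inl ReflTransGen.refl
  | @tail v w _ hvw ih =>
    rcases ih with h | h
    · have hv : v ∉ K := plc_R_not_mem h ha
      by_cases hw : w ∈ K
      · exact Or.inr ⟨v, w, h, hvw.2.1, hv, hw, hvw.2.2, hvw.1⟩
      · exact Or.inl (h.tail ⟨hvw.1, ⟨hvw.2.1, hv⟩, ⟨hvw.2.2, hw⟩⟩)
    · exact Or.inr h

/-! ### 3. strips, separators, sides -/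

/-- a connected set with two ends -/
structure PlcStrip (G : SimpleGraph V) (Q D B : Set V) : Prop where
  conn : TscConn G Q
  dQ : D ⊆ Q
  bQ : B ⊆ Q
  dne : D.Nonempty
  bne : B.Nonempty

theorem PlcStrip.symm {Q D B : Set V} (h : PlcStrip G Q D B) : PlcStrip G Q B D := ⟨h.conn, h.bQ, h.dQ, h.bne, h.dne⟩

/-- `K` separates `D` from `B` inside `Q` -/
def PlcSep (G : SimpleGraph V) (Q K D B : Set V) : Prop := ∀ d ∈ D, ∀ b ∈ B, ¬ TscR G (Q \ K) d b

theorem PlcSep.symm {Q K D B : Set V} (h : PlcSep G Q K D B) : PlcSep G Q K B D := fun b hb d hd hp => h d hd b hb (tsc_R_symm hp)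

/-- a connected separator of the two ends, off the ends -/
structure PlcCutset (G : SimpleGraph V) (Q D B K : Set V) : Prop where
  sub : K ⊆ Q
  conn : TscConn G K
  dK : ∀ d ∈ D, d ∉ K
  bK : ∀ b ∈ B, b ∉ K
  sep : PlcSep G Q K D B

theorem PlcCutset.symm {Q D B K : Set V} (h : PlcCutset G Q D B K) : PlcCutset G Q B D K := ⟨h.sub, h.conn, h.bK, h.dK, h.sep.symm⟩

/-- the part of `Q \ K` joined to `D` off `K` -/
def plcSide (G : SimpleGraph V) (Q K D : Set V) : Set V := {v | v ∈ Q \ K ∧ ∃ d ∈ D, TscR G (Q \ K) d v}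

theorem plc_side_sub (Q K D : Set V) : plcSide G Q K D ⊆ Q \ K := fun _ h => h.1

theorem plc_side_adj {Q K D : Set V} {v w : V} (hv : v ∈ plcSide G Q K D) (hw : w ∈ Q \ K) (h : G.Adj v w) : w ∈ plcSide G Q K D := by
  obtain ⟨hv1, d, hd, hp⟩ := hv
  exact ⟨hw, d, hd, hp.tail ⟨h, hv1, hw⟩⟩

theorem plc_side_R {Q K D : Set V} {v w : V} (hv : v ∈ plcSide G Q K D) (h : TscR G (Q \ K) v w) : w ∈ plcSide G Q K D := by
  induction h with
  | refl => exact hv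
  | tail _ hbc ih => exact plc_side_adj ih hbc.2.2 hbc.1

/-- a path off `K` which starts in the side stays in the side -/
theorem plc_side_path {Q K D : Set V} {v w : V} (hv : v ∈ plcSide G Q K D) (h : TscR G (Q \ K) v w) : TscR G (plcSide G Q K D) v w := by
  induction h with
  | refl => exact ReflTransGen.refl
  | @tail b c hab hbc ih =>
    have hb := plc_side_R hv hab
    exact ih.tail ⟨hbc.1, hb, plc_side_adj hb hbc.2.2 hbc.1⟩

theorem plc_side_end {Q K D : Set V} {d : V} (hd : d ∈ D) (hQ : d ∈ Q) (hK : d ∉ K) : d ∈ plcSide G Q K D :=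
  ⟨⟨hQ, hK⟩, d, hd, ReflTransGen.refl⟩

theorem plc_side_disj {Q K D B : Set V} (h : PlcSep G Q K D B) {v : V} (h1 : v ∈ plcSide G Q K D) (h2 : v ∈ plcSide G Q K B) : False := by
  obtain ⟨_, d, hd, hp⟩ := h1
  obtain ⟨_, b, hb, hp'⟩ := h2
  exact h d hd b hb (tsc_R_trans hp (tsc_R_symm hp'))

/-- a separator is adjacent to the side of `D` -/
theorem plc_reach {Q D B K : Set V} (hS : PlcStrip G Q D B) (hK : PlcCutset G Q D B K) :
    ∃ v ∈ plcSide G Q K D, ∃ k ∈ K, G.Adj v k := by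
  obtain ⟨d, hd⟩ := hS.dne
  obtain ⟨b, hb⟩ := hS.bne
  rcases plc_first_hit (hS.conn d (hS.dQ hd) b (hS.bQ hb)) (hK.dK d hd) with h | ⟨v, k, hp, _, _, hk, _, hvk⟩
  · exact (hK.sep d hd b hb h).elim
  · exact ⟨v, plc_side_R (plc_side_end hd (hS.dQ hd) (hK.dK d hd)) hp, k, hk, hvk⟩

/-- every point of the side of `D` is joined to `K` inside (side ∪ `K`) -/
theorem plc_side_to_K {Q D B K : Set V} (hS : PlcStrip G Q D B) (hK : PlcCutset G Q D B K) {x : V} (hx : x ∈ plcSide G Q K D) :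
    ∃ k ∈ K, TscR G (plcSide G Q K D ∪ K) x k := by
  obtain ⟨_, d, hd, hp⟩ := hx
  obtain ⟨b, hb⟩ := hS.bne
  have hds := plc_side_end (G := G) hd (hS.dQ hd) (hK.dK d hd)
  rcases plc_first_hit (hS.conn d (hS.dQ hd) b (hS.bQ hb)) (hK.dK d hd) with h | ⟨v, k, hq, _, _, hk, _, hvk⟩
  · exact (hK.sep d hd b hb h).elim
  · refine ⟨k, hk, ?_⟩
    have h1 : TscR G (plcSide G Q K D ∪ K) x d := tsc_R_mono Set.subset_union_left (tsc_R_symm (plc_side_path hds hp))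
    have h2 : TscR G (plcSide G Q K D ∪ K) d v := tsc_R_mono Set.subset_union_left (plc_side_path hds hq)
    exact (tsc_R_trans h1 h2).tail ⟨hvk, Or.inl (plc_side_R hds hq), Or.inr hk⟩

/-- **dichotomy**: a connected separator disjoint from `K` lies on one side of `K` -/
theorem plc_dich {Q D B K K' : Set V} (hS : PlcStrip G Q D B) (hK : PlcCutset G Q D B K) (hK' : PlcCutset G Q D B K')
    (hdis : ∀ x ∈ K, x ∉ K') : K' ⊆ plcSide G Q K D ∨ K' ⊆ plcSide G Q K B := by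
  obtain ⟨d, hd⟩ := hS.dne
  obtain ⟨b, hb⟩ := hS.bne
  obtain ⟨k₁, hk₁, p₁⟩ := plc_side_to_K hS hK (plc_side_end (G := G) hd (hS.dQ hd) (hK.dK d hd))
  obtain ⟨k₂, hk₂, p₂⟩ := plc_side_to_K hS.symm hK.symm (plc_side_end (G := G) hb (hS.bQ hb) (hK.bK b hb))
  set R := plcSide G Q K D ∪ K ∪ plcSide G Q K B with hR
  have hpath : TscR G R d b := by
    refine tsc_R_trans (tsc_R_mono (fun z hz => Or.inl hz) p₁) (tsc_R_trans (tsc_R_mono (fun z hz => Or.inl (Or.inr hz)) (hK.conn k₁ hk₁ k₂ hk₂)) ?_)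
    exact tsc_R_symm (tsc_R_mono (fun z hz => hz.elim (fun h => Or.inr h) (fun h => Or.inl (Or.inr h))) p₂)
  have hRQ : R ⊆ Q := by
    rintro z ((hz | hz) | hz)
    · exact hz.1.1
    · exact hK.sub hz
    · exact hz.1.1
  have hex : ∃ x ∈ R, x ∈ K' := by
    by_contra hcon
    push Not at hcon
    have hRK : R ⊆ Q \ K' := fun z hz => ⟨hRQ hz, hcon z hz⟩
    exact hK'.sep d hd b hb (tsc_R_mono hRK hpath)
  obtain ⟨x, hxR, hxK'⟩ := hex
  have hsub : K' ⊆ Q \ K := fun z hz => ⟨hK'.sub hz, fun h => hdis z h hz⟩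
  rcases hxR with (hx | hx) | hx
  · exact Or.inl fun y hy => plc_side_R hx (tsc_R_mono hsub (hK'.conn x hxK' y hy))
  · exact (hdis x hx hxK').elim
  · exact Or.inr fun y hy => plc_side_R hx (tsc_R_mono hsub (hK'.conn x hxK' y hy))

/-- **antisymmetry**: if `K'` is on the `D`-side of `K` then `K` and its `B`-side are on the `B`-side of `K'` -/
theorem plc_flip {Q D B K K' : Set V} (hS : PlcStrip G Q D B) (hK : PlcCutset G Q D B K) (h : K' ⊆ plcSide G Q K D) :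
    K ⊆ plcSide G Q K' B ∧ plcSide G Q K B ⊆ plcSide G Q K' B := by
  have hsub : plcSide G Q K B ∪ K ⊆ Q \ K' := by
    rintro z (hz | hz)
    · exact ⟨hz.1.1, fun hz' => plc_side_disj hK.sep (h hz') hz⟩
    · exact ⟨hK.sub hz, fun hz' => (h hz').1.2 hz⟩
  have h2 : plcSide G Q K B ⊆ plcSide G Q K' B := by
    rintro v hv
    obtain ⟨_, b, hb, hp⟩ := id hv
    have hbs := plc_side_end (G := G) hb (hS.bQ hb) (hK.bK b hb)
    exact ⟨hsub (Or.inl hv), b, hb, tsc_R_mono (fun z hz => hsub (Or.inl hz)) (plc_side_path hbs hp)⟩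
  refine ⟨fun k hk => ?_, h2⟩
  obtain ⟨v, hv, k₂, hk₂, hvk⟩ := plc_reach hS.symm hK.symm
  have h3 : k₂ ∈ plcSide G Q K' B := plc_side_adj (h2 hv) (hsub (Or.inr hk₂)) hvk
  exact plc_side_R h3 (tsc_R_mono (fun z hz => hsub (Or.inr hz)) (hK.conn k₂ hk₂ k hk))

/-- **of three pairwise disjoint connected separators one is in the middle** -/
theorem plc_middle {Q D B : Set V} (hS : PlcStrip G Q D B) (K : Fin 3 → Set V) (hK : ∀ i, PlcCutset G Q D B (K i))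
    (hdis : ∀ i j, i ≠ j → ∀ x ∈ K i, x ∉ K j) :
    ∃ i j k : Fin 3, i ≠ j ∧ j ≠ k ∧ i ≠ k ∧ K i ⊆ plcSide G Q (K j) D ∧ K k ⊆ plcSide G Q (K j) B := by
  have dich : ∀ i j, i ≠ j → K i ⊆ plcSide G Q (K j) D ∨ K i ⊆ plcSide G Q (K j) B := fun i j hij =>
    plc_dich hS (hK j) (hK i) (hdis j i hij.symm)
  have fl : ∀ i j, K i ⊆ plcSide G Q (K j) D → K j ⊆ plcSide G Q (K i) B := fun i j h => (plc_flip hS (hK j) h).1
  have fl' : ∀ i j, K i ⊆ plcSide G Q (K j) B → K j ⊆ plcSide G Q (K i) D := fun i j h => (plc_flip hS.symm (hK j).symm h).1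
  rcases dich 1 0 (by decide) with h10 | h10 <;> rcases dich 2 0 (by decide) with h20 | h20
  · rcases dich 2 1 (by decide) with h21 | h21
    · exact ⟨2, 1, 0, by decide, by decide, by decide, h21, fl 1 0 h10⟩
    · exact ⟨1, 2, 0, by decide, by decide, by decide, fl' 2 1 h21, fl 2 0 h20⟩
  · exact ⟨1, 0, 2, by decide, by decide, by decide, h10, h20⟩
  · exact ⟨2, 0, 1, by decide, by decide, by decide, h20, h10⟩
  · rcases dich 2 1 (by decide) with h21 | h21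
    · exact ⟨0, 2, 1, by decide, by decide, by decide, fl' 2 0 h20, fl 2 1 h21⟩
    · exact ⟨0, 1, 2, by decide, by decide, by decide, fl' 1 0 h10, h21⟩

/-- **BLOCKING** (187 Lemma B, Step 1): `π` separates the ends and lies on the `D`-side of the separator `K₂`.  A path from `D` off `π` never comes to `K₂` or next to `K₂`. -/
theorem plc_block {Q D B K₂ π : Set V} (hS : PlcStrip G Q D B) (h2 : PlcCutset G Q D B K₂) (hπ : π ⊆ plcSide G Q K₂ D)
    (hsep : PlcSep G Q π D B) (hDπ : ∀ d ∈ D, d ∉ π) {d z : V} (hd : d ∈ D) (hz : TscR G (Q \ π) d z) :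
    z ∉ K₂ ∧ ∀ w ∈ K₂, ¬ G.Adj z w := by
  have hsub : plcSide G Q K₂ B ∪ K₂ ⊆ Q \ π := by
    rintro x (hx | hx)
    · exact ⟨hx.1.1, fun hx' => plc_side_disj h2.sep (hπ hx') hx⟩
    · exact ⟨h2.sub hx, fun hx' => (hπ hx').1.2 hx⟩
  have hzQ : z ∈ Q \ π := tsc_R_mem hz ⟨hS.dQ hd, hDπ d hd⟩
  have main : ∀ w ∈ K₂, ¬ TscR G (Q \ π) d w := by
    intro w hw hp
    obtain ⟨b, hb⟩ := hS.bne
    obtain ⟨k, hk, p⟩ := plc_side_to_K hS.symm h2.symm (plc_side_end (G := G) hb (hS.bQ hb) (h2.bK b hb))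
    exact hsep d hd b hb (tsc_R_trans hp (tsc_R_trans (tsc_R_mono (fun x hx => hsub (Or.inr hx)) (h2.conn w hw k hk))
      (tsc_R_symm (tsc_R_mono hsub p))))
  exact ⟨fun h => main z h hz, fun w hw hzw => main w hw (hz.tail ⟨hzw, hzQ, hsub (Or.inr hw)⟩)⟩

/-! ### 4. the two sides of a run of the axis; C2 -/

/-- **the two sides of `χ` are not joined off `χ`**.   `Q \ χ = R ⊔ N`, no triangle of `Q` has a vertex in each of `χ`, `R`, `N`. -/
theorem plc_two_sides {Q χ R N : Set V} (hs : TriSCOn (ZMod 2) G Q) (hχ : χ ⊆ Q) (hc : TscConn G χ) (hR : R ⊆ Q \ χ) (hN : N ⊆ Q \ χ)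
    (hcov : Q \ χ ⊆ R ∪ N) (hdis : ∀ x ∈ R, x ∉ N)
    (hno : ∀ c ∈ χ, ∀ r ∈ R, ∀ n ∈ N, G.Adj c r → G.Adj c n → G.Adj r n → False)
    {r n c c' : V} (hr : r ∈ R) (hn : n ∈ N) (hcχ : c ∈ χ) (hc' : c' ∈ χ) (h1 : G.Adj c r) (h2 : G.Adj c' n) :
    ¬ TscR G (Q \ χ) r n := by
  classical
  intro hpath
  have hd : ∀ a, a ∈ χ → a ∈ R → False := fun a h h' => (hR h').2 h
  have key : ∀ a ∈ χ, ∀ b ∈ R, ∀ e ∈ Q, G.Adj a b → G.Adj a e → G.Adj b e → e ∈ χ ∨ e ∈ R := by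
    intro a ha b hb e he hab hae hbe
    by_cases heχ : e ∈ χ
    · exact Or.inl heχ
    · rcases hcov ⟨he, heχ⟩ with h | h
      · exact Or.inr h
      · exact (hno a ha b hb e h hab hae hbe).elim
  let ω : V → V → ZMod 2 := fun u v => if (u ∈ χ ∧ v ∈ R) ∨ (v ∈ χ ∧ u ∈ R) then 1 else 0
  obtain ⟨f, hf⟩ := tsc_mod2 hs ω (fun u _ v _ _ => by simp only [ω, or_comm])
    (fun u hu v hv w hw huv hvw huw => tsc_aux (u ∈ χ) (u ∈ R) (v ∈ χ) (v ∈ R) (w ∈ χ) (w ∈ R) (hd u) (hd v) (hd w)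
      (fun h h' => key u h v h' w hw huv huw hvw) (fun h h' => key v h u h' w hw huv.symm hvw huw)
      (fun h h' => key u h w h' v hv huw huv hvw.symm) (fun h h' => key w h u h' v hv huw.symm hvw.symm huv)
      (fun h h' => key v h w h' u hu hvw huv.symm huw.symm) (fun h h' => key w h v h' u hu hvw.symm huw.symm huv.symm))
  have fχ : f c = f c' := by
    refine tsc_R_const f (fun p q h => ?_) (hc c hcχ c' hc')
    have e1 := hf p (hχ h.2.1) q (hχ h.2.2) h.1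
    have e2 : ω p q = 0 := by
      simp only [ω]
      rw [if_neg]
      rintro (⟨_, h'⟩ | ⟨_, h'⟩)
      · exact hd q h.2.2 h'
      · exact hd p h.2.1 h'
    rw [e2] at e1
    exact CharTwo.add_eq_zero.1 e1.symm
  have foff : f r = f n := by
    refine tsc_R_const f (fun p q h => ?_) hpath
    have e1 := hf p h.2.1.1 q h.2.2.1 h.1
    have e2 : ω p q = 0 := by
      simp only [ω]
      rw [if_neg]
      rintro (⟨h', _⟩ | ⟨h', _⟩)
      · exact h.2.1.2 h'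
      · exact h.2.2.2 h'
    rw [e2] at e1
    exact CharTwo.add_eq_zero.1 e1.symm
  have e1 : ω c r = 1 := by
    simp only [ω]
    exact if_pos (Or.inl ⟨hcχ, hr⟩)
  have e2 : ω c' n = 0 := by
    simp only [ω]
    rw [if_neg]
    rintro (⟨_, h'⟩ | ⟨h', _⟩)
    · exact hdis n h' hn
    · exact (hN hn).2 h'
  rw [hf c (hχ hcχ) r (hR hr).1 h1] at e1
  rw [hf c' (hχ hc') n (hN hn).1 h2, ← fχ, ← foff, e1] at e2
  exact absurd e2 (by decide)

/-- transport of a path by a map which sends `s` into `s'` -/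
theorem plc_R_map {s s' : Set V} (ρ : V → V) (hadj : ∀ a b, G.Adj a b → G.Adj (ρ a) (ρ b)) (hss : ∀ x ∈ s, ρ x ∈ s') {a b : V}
    (h : TscR G s a b) : TscR G s' (ρ a) (ρ b) :=
  tsc_R_mono (by rintro _ ⟨x, hx, rfl⟩; exact hss x hx) (tsc_R_map ρ hadj h)

/-- **C2 of 187**: two `ρ`-invariant connected sets `χ₀`, `χ₁` (runs of the thick axis), `χ₀` with two sides exchanged by `ρ`: they are not joined inside `Q ∩ ρ⁻¹ Q`. -/
theorem plc_c2 {Q χ₀ χ₁ R N : Set V} (ρ : V → V) (hρ : ∀ v, ρ (ρ v) = v) (hadj : ∀ a b, G.Adj a b → G.Adj (ρ a) (ρ b))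
    (hs : TriSCOn (ZMod 2) G Q) (hχ : χ₀ ⊆ Q) (hc : TscConn G χ₀) (hR : R ⊆ Q \ χ₀) (hN : N ⊆ Q \ χ₀)
    (hcov : Q \ χ₀ ⊆ R ∪ N) (hdis : ∀ x ∈ R, x ∉ N)
    (hno : ∀ c ∈ χ₀, ∀ r ∈ R, ∀ n ∈ N, G.Adj c r → G.Adj c n → G.Adj r n → False)
    (hi0 : ∀ v ∈ χ₀, ρ v ∈ χ₀) (hi1 : ∀ v ∈ χ₁, ρ v ∈ χ₁) (h1 : χ₁ ⊆ Q \ χ₀) (hc1 : TscConn G χ₁)
    (hRN : ∀ v ∈ R, ρ v ∈ Q → ρ v ∈ N) (hNR : ∀ v ∈ N, (∃ c ∈ χ₀, G.Adj c v) → ρ v ∈ Q → ρ v ∈ R)
    {x₀ x₁ : V} (h0 : x₀ ∈ χ₀) (hx1 : x₁ ∈ χ₁) : ¬ TscR G {v | v ∈ Q ∧ ρ v ∈ Q} x₀ x₁ := by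
  intro hp
  set W : Set V := {v | v ∈ Q ∧ ρ v ∈ Q} with hW
  have hWi : ∀ x ∈ W \ χ₀, ρ x ∈ W \ χ₀ := by
    rintro x ⟨⟨hx1, hx2⟩, hx3⟩
    refine ⟨⟨hx2, by rw [hρ]; exact hx1⟩, fun h => hx3 ?_⟩
    have := hi0 _ h
    rwa [hρ] at this
  have hWQ : W \ χ₀ ⊆ Q \ χ₀ := fun x hx => ⟨hx.1.1, hx.2⟩
  rcases plc_first_hit (tsc_R_symm hp) (h1 hx1).2 with h | ⟨v, k, hq, hvW, hvχ, hk, _, hvk⟩
  · exact plc_R_not_mem h (h1 hx1).2 h0
  · have hq' : TscR G (W \ χ₀) (ρ x₁) (ρ v) := plc_R_map ρ hadj hWi hq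
    have hvv : TscR G (Q \ χ₀) v (ρ v) :=
      tsc_R_trans (tsc_R_symm (tsc_R_mono hWQ hq)) (tsc_R_trans (tsc_R_mono h1 (hc1 x₁ hx1 (ρ x₁) (hi1 x₁ hx1))) (tsc_R_mono hWQ hq'))
    rcases hcov ⟨hvW.1, hvχ⟩ with hv | hv
    · exact plc_two_sides hs hχ hc hR hN hcov hdis hno hv (hRN v hv hvW.2) hk (hi0 k hk) hvk.symm (hadj _ _ hvk.symm) hvv
    · exact plc_two_sides hs hχ hc hR hN hcov hdis hno (hNR v hv ⟨k, hk, hvk.symm⟩ hvW.2) hv (hi0 k hk) hk (hadj _ _ hvk.symm) hvk.symm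
        (tsc_R_symm hvv)

/-! ### 5. attachment of the pieces, touching -/

/-- **every component of `Q \ K` is attached across one mirror side only**.   `K ⊆ Q ∩ ρ⁻¹ Q` connected, invariant, maximal; off `Q` the neighbours of `K` lie in `Lf ∪ Rt`, which are disjoint and not adjacent. -/
theorem plc_layer_side {Q K Lf Rt : Set V} (ρ : V → V) (hadj : ∀ a b, G.Adj a b → G.Adj (ρ a) (ρ b))
    (hs : TriSCOn (ZMod 2) G Q) (hKQ : K ⊆ Q) (hKc : TscConn G K) (hKi : ∀ k ∈ K, ρ k ∈ K)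
    (hmax : ∀ k ∈ K, ∀ w ∈ Q, ρ w ∈ Q → G.Adj k w → w ∈ K)
    (hdec : ∀ k ∈ K, ∀ v, G.Adj k v → v ∉ Q → v ∈ Lf ∨ v ∈ Rt)
    (hna : ∀ l ∈ Lf, ∀ r ∈ Rt, l ≠ r ∧ ¬ G.Adj l r) (x : V) :
    (∀ w ∈ tscComp G (Q \ K) x, (∃ k ∈ K, G.Adj k w) → ρ w ∈ Lf) ∨ (∀ w ∈ tscComp G (Q \ K) x, (∃ k ∈ K, G.Adj k w) → ρ w ∈ Rt) := by
  classical
  set L : Set V := {d | d ∈ tscComp G (Q \ K) x ∧ ∃ c ∈ K, G.Adj c d} with hL
  have hLc : TscConn G L := tsc_timar_out hs hKQ hKc x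
  have hLR : ∀ w ∈ L, ρ w ∈ Lf ∨ ρ w ∈ Rt := by
    rintro w ⟨hw, k, hk, hkw⟩
    refine hdec (ρ k) (hKi k hk) (ρ w) (hadj _ _ hkw) fun hρ => ?_
    exact hw.1.2 (hmax k hk w hw.1.1 hρ hkw)
  by_cases hne : L.Nonempty
  · obtain ⟨w₀, hw₀⟩ := hne
    have hconst : ∀ w ∈ L, (ρ w₀ ∈ Lf ↔ ρ w ∈ Lf) := by
      intro w hw
      have := tsc_R_const (fun z => (ρ z ∈ Lf : Prop)) (fun p q h => ?_) (hLc w₀ hw₀ w hw)
      · exact iff_of_eq this
      · refine propext ⟨fun hp => ?_, fun hq => ?_⟩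
        · rcases hLR q h.2.2 with h' | h'
          · exact h'
          · exact ((hna _ hp _ h').2 (hadj _ _ h.1)).elim
        · rcases hLR p h.2.1 with h' | h'
          · exact h'
          · exact ((hna _ hq _ h').2 (hadj _ _ h.1.symm)).elim
    by_cases h0 : ρ w₀ ∈ Lf
    · exact Or.inl fun w hw hk => (hconst w ⟨hw, hk⟩).1 h0
    · refine Or.inr fun w hw hk => ?_
      rcases hLR w ⟨hw, hk⟩ with h' | h'
      · exact (h0 ((hconst w ⟨hw, hk⟩).2 h')).elim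
      · exact h'
  · exact Or.inl fun w hw hk => (hne ⟨w, hw, hk⟩).elim

/-- a connected set `A ⊆ Q` which has a point in a component of `Q \ K` and a point outside it contains a point of the layer of that component, next to a point of `A ∩ K` -/
theorem plc_exit {Q K A : Set V} (hAQ : A ⊆ Q) (hA : TscConn G A) (x : V) {a₀ a₁ : V} (h0 : a₀ ∈ A) (h0' : a₀ ∉ tscComp G (Q \ K) x)
    (h1 : a₁ ∈ A) (h1' : a₁ ∈ tscComp G (Q \ K) x) :
    ∃ w ∈ A, w ∈ tscComp G (Q \ K) x ∧ ∃ k ∈ K, k ∈ A ∧ G.Adj k w := by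
  have claim : ∀ v, TscR G A a₁ v → v ∈ tscComp G (Q \ K) x ∨ ∃ w ∈ A, w ∈ tscComp G (Q \ K) x ∧ ∃ k ∈ K, k ∈ A ∧ G.Adj k w := by
    intro v hv
    induction hv with
    | refl => exact Or.inl h1'
    | @tail v w _ hvw ih =>
      rcases ih with h | h
      · by_cases hw : w ∈ K
        · exact Or.inr ⟨v, hvw.2.1, h, w, hw, hvw.2.2, hvw.1.symm⟩
        · exact Or.inl (tsc_comp_adj h ⟨hAQ hvw.2.2, hw⟩ hvw.1)
      · exact Or.inr h
  rcases claim a₀ (hA a₁ h1 a₀ h0) with h | h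
  · exact (h0' h).elim
  · exact h

/-- **TOUCHING** (replaces the two cases of 187 A.1).   `A`, `C ⊆ Q` connected (the layers `La`, `Lc`), both with a point in the component `Π` of `Q \ K` and a point outside it.
Then a point of `C ∩ Π` is adjacent to a point `k ∈ K` whose mirror image is next to `Lf`, or the same with (`A`, `Rt`). -/
theorem plc_touch_mirror {Q K Lf Rt A C : Set V} (ρ : V → V) (hadj : ∀ a b, G.Adj a b → G.Adj (ρ a) (ρ b))
    (hs : TriSCOn (ZMod 2) G Q) (hKQ : K ⊆ Q) (hKc : TscConn G K) (hKi : ∀ k ∈ K, ρ k ∈ K)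
    (hmax : ∀ k ∈ K, ∀ w ∈ Q, ρ w ∈ Q → G.Adj k w → w ∈ K)
    (hdec : ∀ k ∈ K, ∀ v, G.Adj k v → v ∉ Q → v ∈ Lf ∨ v ∈ Rt)
    (hna : ∀ l ∈ Lf, ∀ r ∈ Rt, l ≠ r ∧ ¬ G.Adj l r) (x : V)
    (hAQ : A ⊆ Q) (hA : TscConn G A) (hCQ : C ⊆ Q) (hC : TscConn G C)
    (hA0 : ∃ a ∈ A, a ∉ tscComp G (Q \ K) x) (hA1 : ∃ a ∈ A, a ∈ tscComp G (Q \ K) x)
    (hC0 : ∃ a ∈ C, a ∉ tscComp G (Q \ K) x) (hC1 : ∃ a ∈ C, a ∈ tscComp G (Q \ K) x) :
    (∃ w ∈ C, ∃ k ∈ K, G.Adj k w ∧ ∃ l ∈ Lf, G.Adj l (ρ k)) ∨ (∃ w ∈ A, ∃ k ∈ K, G.Adj k w ∧ ∃ r ∈ Rt, G.Adj r (ρ k)) := by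
  obtain ⟨a₀, ha₀, ha₀'⟩ := hA0
  obtain ⟨a₁, ha₁, ha₁'⟩ := hA1
  obtain ⟨c₀, hc₀, hc₀'⟩ := hC0
  obtain ⟨c₁, hc₁, hc₁'⟩ := hC1
  obtain ⟨w, hwA, hw, k, hk, _, hkw⟩ := plc_exit hAQ hA x ha₀ ha₀' ha₁ ha₁'
  obtain ⟨w', hwC, hw', k', hk', _, hkw'⟩ := plc_exit hCQ hC x hc₀ hc₀' hc₁ hc₁'
  rcases plc_layer_side ρ hadj hs hKQ hKc hKi hmax hdec hna x with h | h
  · exact Or.inl ⟨w', hwC, k', hk', hkw', ρ w', h w' hw' ⟨k', hk', hkw'⟩, (hadj _ _ hkw').symm⟩
  · exact Or.inr ⟨w, hwA, k, hk, hkw, ρ w, h w hw ⟨k, hk, hkw⟩, (hadj _ _ hkw).symm⟩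

/-! ### 6. the graph of the cells of a TriSC complex is TriSC -/

/-- the graph of the cells: two cells are adjacent iff they are different and share a site -/
def plcCellG {Y : Type*} (sv : Y → Set V) : SimpleGraph Y where
  Adj y y' := y ≠ y' ∧ ∃ v, v ∈ sv y ∧ v ∈ sv y'
  symm := ⟨fun y y' h => ⟨h.1.symm, h.2.imp fun v hv => ⟨hv.2, hv.1⟩⟩⟩
  loopless := ⟨fun y h => h.1 rfl⟩

/-- **CELL GRAPH**: `s` TriSC; the cells of `C` are non empty cliques inside `s`, every edge inside `s` lies in exactly one of them.   Then the graph of the cells is TriSC.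
No hypothesis on the shape (thin necks, glued sheets, cells of different sheets which share a site are all allowed). -/
theorem plc_cell_sc {Y : Type*} {s : Set V} {sv : Y → Set V} {C : Set Y} (hs : TriSCOn (ZMod 2) G s)
    (hsub : ∀ y ∈ C, sv y ⊆ s) (hne : ∀ y ∈ C, (sv y).Nonempty)
    (hcl : ∀ y ∈ C, ∀ u ∈ sv y, ∀ v ∈ sv y, u ≠ v → G.Adj u v)
    (hex : ∀ u ∈ s, ∀ v ∈ s, G.Adj u v → ∃ y ∈ C, u ∈ sv y ∧ v ∈ sv y)
    (huniq : ∀ y ∈ C, ∀ y' ∈ C, ∀ u v, u ≠ v → u ∈ sv y → v ∈ sv y → u ∈ sv y' → v ∈ sv y' → y = y') :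
    TriSCOn (ZMod 2) (plcCellG sv) C := by
  classical
  intro η hη
  -- symmetric form of `η`
  have hsym : ∀ y ∈ C, ∀ y' ∈ C, (plcCellG sv).Adj y y' → η y' y = η y y' := fun y hy y' hy' h => by
    rw [hη.anti y hy y' hy' h, CharTwo.neg_eq]
  let e : Y → Y → ZMod 2 := fun y y' => if y = y' then 0 else η y y'
  have e_self : ∀ y, e y y = 0 := fun y => by simp only [e, if_true]
  have e_ne : ∀ y y', y ≠ y' → e y y' = η y y' := fun y y' h => by simp only [e, if_neg h]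
  have e_symm : ∀ y ∈ C, ∀ y' ∈ C, ∀ v, v ∈ sv y → v ∈ sv y' → e y' y = e y y' := by
    intro y hy y' hy' v hv hv'
    by_cases h : y = y'
    · rw [h]
    · rw [e_ne y y' h, e_ne y' y (Ne.symm h), hsym y hy y' hy' ⟨h, v, hv, hv'⟩]
  -- three cells which pairwise share a site
  have e_tri : ∀ y₁ ∈ C, ∀ y₂ ∈ C, ∀ y₃ ∈ C, (∃ v, v ∈ sv y₁ ∧ v ∈ sv y₂) → (∃ v, v ∈ sv y₂ ∧ v ∈ sv y₃) → (∃ v, v ∈ sv y₁ ∧ v ∈ sv y₃) →
      e y₁ y₂ + e y₂ y₃ = e y₁ y₃ := by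
    intro y₁ h₁ y₂ h₂ y₃ h₃ a12 a23 a13
    by_cases e12 : y₁ = y₂
    · subst e12; rw [e_self, zero_add]
    by_cases e23 : y₂ = y₃
    · subst e23; rw [e_self, add_zero]
    by_cases e13 : y₁ = y₃
    · subst e13
      obtain ⟨v, hv, hv'⟩ := a12
      rw [e_self, e_symm y₁ h₁ y₂ h₂ v hv hv', CharTwo.add_self_eq_zero]
    · rw [e_ne _ _ e12, e_ne _ _ e23, e_ne _ _ e13]
      exact hη.tri y₁ h₁ y₂ h₂ y₃ h₃ ⟨e12, a12⟩ ⟨e23, a23⟩ ⟨e13, a13⟩
  rcases C.eq_empty_or_nonempty with hC0 | ⟨yd, hyd⟩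
  · exact ⟨0, fun u hu => by rw [hC0] at hu; exact hu.elim⟩
  -- base cell of a site, local potentials
  let y0 : V → Y := fun v => if h : ∃ y, y ∈ C ∧ v ∈ sv y then h.choose else yd
  have y0_spec : ∀ v y, y ∈ C → v ∈ sv y → y0 v ∈ C ∧ v ∈ sv (y0 v) := by
    intro v y hy hv
    have h : ∃ y, y ∈ C ∧ v ∈ sv y := ⟨y, hy, hv⟩
    simp only [y0, dif_pos h]
    exact h.choose_spec
  let lam : V → Y → ZMod 2 := fun v y => e (y0 v) y
  have lam_add : ∀ v, ∀ y ∈ C, ∀ y' ∈ C, v ∈ sv y → v ∈ sv y' → lam v y + lam v y' = e y y' := by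
    intro v y hy y' hy' hv hv'
    obtain ⟨h0, hv0⟩ := y0_spec v y hy hv
    simp only [lam]
    rw [e_symm y hy (y0 v) h0 v hv hv0]
    exact e_tri y hy (y0 v) h0 y' hy' ⟨v, hv, hv0⟩ ⟨v, hv0, hv'⟩ ⟨v, hv, hv'⟩
  -- the cell of an edge
  let c : V → V → Y := fun u v => if h : ∃ y, y ∈ C ∧ u ∈ sv y ∧ v ∈ sv y then h.choose else yd
  have c_spec : ∀ u ∈ s, ∀ v ∈ s, G.Adj u v → c u v ∈ C ∧ u ∈ sv (c u v) ∧ v ∈ sv (c u v) := by
    intro u hu v hv huv
    have h : ∃ y, y ∈ C ∧ u ∈ sv y ∧ v ∈ sv y := by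
      obtain ⟨y, hy, h1, h2⟩ := hex u hu v hv huv
      exact ⟨y, hy, h1, h2⟩
    simp only [c, dif_pos h]
    exact h.choose_spec
  have c_eq : ∀ u ∈ s, ∀ v ∈ s, G.Adj u v → ∀ y ∈ C, u ∈ sv y → v ∈ sv y → c u v = y := by
    intro u hu v hv huv y hy h1 h2
    obtain ⟨hc, hc1, hc2⟩ := c_spec u hu v hv huv
    exact huniq _ hc y hy u v huv.ne hc1 hc2 h1 h2
  let ω : V → V → ZMod 2 := fun u v => lam u (c u v) + lam v (c u v)
  obtain ⟨f, hf⟩ := tsc_mod2 hs ω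
    (fun u hu v hv huv => by
      obtain ⟨hc, hc1, hc2⟩ := c_spec u hu v hv huv
      simp only [ω]
      rw [c_eq v hv u hu huv.symm _ hc hc2 hc1, add_comm])
    (fun u hu v hv w hw huv hvw huw => by
      obtain ⟨h1, h1u, h1v⟩ := c_spec u hu v hv huv
      obtain ⟨h2, h2v, h2w⟩ := c_spec v hv w hw hvw
      obtain ⟨h3, h3u, h3w⟩ := c_spec u hu w hw huw
      have a := lam_add u _ h1 _ h3 h1u h3u
      have b := lam_add v _ h1 _ h2 h1v h2v
      have d := lam_add w _ h2 _ h3 h2w h3w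
      have t := e_tri _ h1 _ h2 _ h3 ⟨v, h1v, h2v⟩ ⟨w, h2w, h3w⟩ ⟨u, h1u, h3u⟩
      simp only [ω]
      have : lam u (c u v) + lam v (c u v) + (lam v (c v w) + lam w (c v w)) + (lam u (c u w) + lam w (c u w))
          = (lam u (c u v) + lam u (c u w)) + (lam v (c u v) + lam v (c v w)) + (lam w (c v w) + lam w (c u w)) := by ring
      rw [this, a, b, d, ← t]
      have h2' : ∀ x y : ZMod 2, x + y + x + y = 0 := by decide
      exact h2' _ _)
  -- the potential on the cells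
  let rep : Y → V := fun y => if h : (sv y).Nonempty then h.some else Classical.choice ⟨(hne yd hyd).some⟩
  have rep_spec : ∀ y ∈ C, rep y ∈ sv y := by
    intro y hy
    simp only [rep, dif_pos (hne y hy)]
    exact (hne y hy).some_mem
  have g_eq : ∀ y ∈ C, ∀ v ∈ sv y, f (rep y) + lam (rep y) y = f v + lam v y := by
    intro y hy v hv
    by_cases h : rep y = v
    · rw [h]
    · have hr := rep_spec y hy
      have hadj := hcl y hy _ hr v hv h
      have h1 := hf _ (hsub y hy hr) v (hsub y hy hv) hadj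
      simp only [ω] at h1
      rw [c_eq _ (hsub y hy hr) v (hsub y hy hv) hadj y hy hr hv] at h1
      have h2' : ∀ a b x y : ZMod 2, a + b = x + y → x + a = y + b := by decide
      exact h2' _ _ _ _ h1
  refine ⟨fun y => f (rep y) + lam (rep y) y, ?_⟩
  intro y hy y' hy' hyy'
  obtain ⟨hne', v, hv, hv'⟩ := hyy'
  show η y y' = (f (rep y') + lam (rep y') y') - (f (rep y) + lam (rep y) y)
  rw [g_eq y hy v hv, g_eq y' hy' v hv', ← e_ne y y' hne', ← lam_add v y hy y' hy' hv hv']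
  have h2' : ∀ a b x : ZMod 2, a + b = x + b - (x + a) := by decide
  exact h2' _ _ _

end abstract

end Claimed.Agent.R291
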