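import Claimed.Agent.R291.Defs.Cut
import Claimed.Agent.R291.Dis.Amb
import Claimed.Agent.R291.Pl.CellPath
import Claimed.Agent.R291.Tool.TriSCLat
import Claimed.Agent.R291.Cell.VirtAd

/-!
# Row 291 (S0539), Ann/Model : A0 = THE MODEL ADAPTER OF THE CHAIN OF THEOREM 2.3      (owner + architect helper22; prefix `am_` / `Am` / `am`)

TOOLS T0-T8 of `origin/helper121:notes/R291/T23_CHAIN.md` Sec. 0 as CLOSED statements on `ClSys` (Defs/Cell 115, Dis/Base 146, Defs/Cut 22).      Guide: `origin/helper22:notes/R291/ann_A0_22.md`.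
CONSUMERS: A1 (55, 116), A2 (193, 20), A3 (187, 1), A4 (147, 5), A5 (278, 12), A6 (149, 33), A7 (121).      PRODUCERS used: `dis_assoc`, `dis_order` (160 + 133 + adapter 46), `dis_cut` (67), `dis_feas` (62), `tsc_*` (147).

## PART A  abstract (any `ClSys`; topology only through `ClDisk S` / `S.SC`)
* T0  `am_disk`            `ClOk` + cells of at most 3 sites + `S.SC` + connected  ⟹  `ClDisk S`
* CUT `am_cut`             **MASTER PRODUCT FORMULA**: under `ClCut S s I` the inside is the intrinsic law `cuE S s I`, independent of the outside;   `am_amb` its normalised form (= (AMB) of 146, abstract)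
* T3  `am_inv_iff`, `am_search`          signed search: `{clInv = J}` = cut + an event inside `J`; law off `J` = `P^s`;      `am_inn_inn`, `am_lay_inn`  iterated domains (a search INSIDE a cut law)
* T8  `am_one_sign`, `am_searchO`        unsigned search (through closed cells) + Timar: ONE sign around a connected target
* T1  `am_fkg`      T2  `am_order` (b.c. + histories), `am_dom_plus`, `am_dom_minus` (domain monotonicity)
* T4  `am_order_eq`        plus-equalities (Lemma 9.8) and VIRTUAL ties along chains of common extreme pins (187 A.4(ii), 278 D1).      Ports and patch (Lemmas 9.6, 9.7): typed by A1 (55, 116) on these names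
* T5  `am_iso`, `am_flipB_*`, `am_flipW_*`, `am_swap_wt2`
* T6  `am_wt2_fst`, `am_wt2_snd` (marginals), `am_wt2_nonneg` (`q ≥ 1/2`), `am_wt2_cover` (closed^B ⊆ open^W), `am_N2_fst`, `am_N2_snd`, `am_cut2` (master formula with both statuses)
## PART B  the plane (`V = Y = TV`): `amLay D`, **`amE x s D K F`, `amP x s D K L`** = `P^s_D`, class `Y`;   every finite `D`, NO hypothesis on its shape (the ambient is a large box)
## PART C  cylinder, class `Z`: file `Ann/ModelCyl.lean` (next).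
-/

set_option autoImplicit false
set_option linter.unusedSectionVars false
set_option linter.unusedVariables false
set_option linter.unusedSimpArgs false

namespace Claimed.Agent.R291

open Relation Claims Claims.C0467

section abstract

variable {V Y : Type} [DecidableEq V] [DecidableEq Y]

/-! ## PART A -/

/-- restriction of a constraint to the part `I` (sites of `I`, cells inside `I`) -/
def ClCon.res (K : ClCon V Y) (S : ClSys V Y) (I : Finset V) : ClCon V Y :=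
  ⟨K.Bp ∩ I, K.Bm ∩ I, K.Eq.filter (fun e => e.1 ∈ I ∧ e.2 ∈ I), K.Op ∩ S.cin I, K.Om ∩ S.cin I, K.Cl ∩ S.cin I, K.Wp ∩ I, K.Wm ∩ I⟩

/-- the constraint lives inside `I` -/
structure ClCon.In (K : ClCon V Y) (S : ClSys V Y) (I : Finset V) : Prop where
  bp : K.Bp ⊆ I
  bm : K.Bm ⊆ I
  eq : ∀ e ∈ K.Eq, e.1 ∈ I ∧ e.2 ∈ I
  op : K.Op ⊆ S.cin I
  om : K.Om ⊆ S.cin I
  cl : K.Cl ⊆ S.cin I
  wp : K.Wp ⊆ I
  wm : K.Wm ⊆ I

open Classical in
/-- the component of `z` in the complement of `J`, as a finite set -/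
noncomputable def cuComp (S : ClSys V Y) (J : Finset V) (z : V) : Finset V :=
  S.A.filter (fun v => v ∈ tscComp S.gr ((↑S.A : Set V) \ ↑J) z)

/-- helper of `am_disk`: parity of three "different" indicators -/
theorem am_disk_aux (a b c : Prop) [Decidable a] [Decidable b] [Decidable c] :
    (if (a ↔ b) then (0 : ZMod 2) else 1) + (if (b ↔ c) then 0 else 1) + (if (a ↔ c) then 0 else 1) = 0 := by
  by_cases ha : a <;> by_cases hb : b <;> by_cases hc : c <;> simp [ha, hb, hc] <;> decide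

/-- **T0**.   OWNER 22.   PROVED by 269.   PLAN: `conn` from `TscConn`; `split`: the cochain `1{W u ≠ W v} 1{u, v ∈ B}` is closed on the 3-cliques of `S.gr` (a mixed 3-clique: its two mixed edges lie in `B`-mixed cells, where `W` is constant), `tsc_mod2`. -/
theorem am_disk (S : ClSys V Y) (hS : ClOk S) (hc : ∀ y ∈ S.C, (S.sv y).card ≤ 3) (hsc : S.SC) (hcn : TscConn S.gr (↑S.A : Set V)) :
    ClDisk S := by
  classical
  refine { toClOk := hS, card := hc, conn := ?_, split := ?_ }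
  · intro U hU hconst
    -- membership in `U` is constant along the edges
    have hstep : ∀ a b, TscStep S.gr (↑S.A : Set V) a b → ((a ∈ U) = (b ∈ U)) := by
      rintro a b ⟨⟨_, y, hy, ha, hb⟩, _, _⟩
      rcases hconst y hy with h | h
      · exact propext ⟨fun _ => h hb, fun _ => h ha⟩
      · exact propext ⟨fun h' => (h a ha h').elim, fun h' => (h b hb h').elim⟩
    by_cases hne : ∃ a ∈ S.A, a ∈ U
    · obtain ⟨a, haA, haU⟩ := hne
      left
      intro b hb
      have := tsc_R_const (fun v => v ∈ U) hstep (hcn a (Finset.mem_coe.2 haA) b (Finset.mem_coe.2 hb))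
      exact this ▸ haU
    · right
      intro v hv hvU
      exact hne ⟨v, hv, hvU⟩
  · intro B hB W hW hBW
    let ω : V → V → ZMod 2 := fun u v => if u ∈ B ∧ v ∈ B then (if (u ∈ W ↔ v ∈ W) then 0 else 1) else 0
    -- across a `B`-mixed edge `W` does not change
    have hmix : ∀ u v, S.gr.Adj u v → u ∈ B → v ∉ B → (u ∈ W ↔ v ∈ W) := by
      rintro u v ⟨_, y, hy, hu, hv⟩ huB hvB
      have hnc : ¬ ClConst B (S.sv y) := by
        rintro (h | h)
        · exact hvB (h hv)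
        · exact h u hu huB
      rcases hBW y hy hnc with h | h
      · exact ⟨fun _ => h hv, fun _ => h hu⟩
      · exact ⟨fun h' => (h u hu h').elim, fun h' => (h v hv h').elim⟩
    obtain ⟨f, hf⟩ := tsc_mod2 hsc ω
      (fun u _ v _ _ => by
        simp only [ω]
        by_cases h1 : u ∈ B <;> by_cases h2 : v ∈ B <;> simp [h1, h2, iff_comm])
      (fun u _ v _ w _ huv hvw huw => by
        simp only [ω]
        by_cases h1 : u ∈ B <;> by_cases h2 : v ∈ B <;> by_cases h3 : w ∈ B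
        · simp only [h1, h2, h3, and_self, if_true]
          exact am_disk_aux _ _ _
        · have e : (u ∈ W ↔ v ∈ W) := (hmix u w huw h1 h3).trans (hmix v w hvw h2 h3).symm
          simp [h1, h2, h3, e]
        · have e : (u ∈ W ↔ w ∈ W) := (hmix u v huv h1 h2).trans (hmix w v hvw.symm h3 h2).symm
          simp [h1, h2, h3, e]
        · simp [h1, h2, h3]
        · have e : (v ∈ W ↔ w ∈ W) := (hmix v u huv.symm h2 h1).trans (hmix w u huw.symm h3 h1).symm
          simp [h1, h2, h3, e]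
        · simp [h1, h2, h3]
        · simp [h1, h2, h3]
        · simp [h1, h2, h3])
    have hz2 : ∀ a b : ZMod 2, ((a = 1 ↔ b = 1) ↔ a + b = 0) := by decide
    refine ⟨S.A.filter (fun u => f u = 1), Finset.filter_subset _ _, fun y hy => ⟨?_, ?_⟩⟩
    · intro hyB u hu v hv
      have huA := hS.sub y hy hu
      have hvA := hS.sub y hy hv
      by_cases huv : u = v
      · subst huv; simp
      · have h1 := hf u (Finset.mem_coe.2 huA) v (Finset.mem_coe.2 hvA) ⟨huv, y, hy, hu, hv⟩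
        simp only [ω, hyB hu, hyB hv, and_self, if_true] at h1
        simp only [Finset.mem_filter, huA, hvA, true_and]
        rw [hz2, ← h1]
        by_cases e : (u ∈ W ↔ v ∈ W) <;> simp [e]
    · intro hyB
      -- `f` is constant on the cell
      have hconst : ∀ u ∈ S.sv y, ∀ v ∈ S.sv y, (f u = 1 ↔ f v = 1) := by
        intro u hu v hv
        by_cases huv : u = v
        · subst huv; rfl
        · have huA := hS.sub y hy hu
          have hvA := hS.sub y hy hv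
          have h1 := hf u (Finset.mem_coe.2 huA) v (Finset.mem_coe.2 hvA) ⟨huv, y, hy, hu, hv⟩
          rw [hz2, ← h1]
          simp only [ω]
          by_cases h2 : u ∈ B ∧ v ∈ B
          · rw [if_pos h2]
            have hnc : ¬ ClConst B (S.sv y) := by
              rintro (h | h)
              · exact hyB h
              · exact h u hu h2.1
            have e : (u ∈ W ↔ v ∈ W) := by
              rcases hBW y hy hnc with h | h
              · exact ⟨fun _ => h hv, fun _ => h hu⟩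
              · exact ⟨fun h' => (h u hu h').elim, fun h' => (h v hv h').elim⟩
            rw [if_pos e]
          · rw [if_neg h2]
      by_cases hne : ∃ a ∈ S.sv y, f a = 1
      · obtain ⟨a, ha, hfa⟩ := hne
        left
        intro b hb
        exact Finset.mem_filter.2 ⟨hS.sub y hy hb, (hconst a ha b hb).1 hfa⟩
      · right
        intro v hv hv'
        exact hne ⟨v, hv, (Finset.mem_filter.1 hv').2⟩

/-- **SWAP with an outside observable** (62's `dam_swap` with a weight `G` which does not see the inside): `N(G F) M(1) = N(G) M(F)` -/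
theorem am_swapG {S S' : ClSys V Y} (h : DamSub S S') (s : Bool) {Kin Kout : ClCfg V Y → Prop} {F G : ClCfg V Y → ℝ}
    (hKin : ClLocP S'.A S'.C Kin) (hKout : DamOut S'.A S'.C Kout) (hF : ClLoc S'.A S'.C F)
    (hG : ∀ η ω : ClCfg V Y, G (damMix S'.A S'.C η ω) = G ω) :
    S.N (DamKa S S' s Kin Kout) (fun ω => G ω * F ω) * S'.N (DamKi S S' s Kin) (fun _ => 1)
      = S.N (DamKa S S' s Kin Kout) G * S'.N (DamKi S S' s Kin) F := by
  classical
  unfold ClSys.N
  rw [Finset.sum_mul_sum, Finset.sum_mul_sum, ← Finset.sum_product', ← Finset.sum_product']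
  refine Finset.sum_nbij' (fun p => (damMix S'.A S'.C p.2 p.1, damRes S'.A S'.C p.1))
    (fun p => (damMix S'.A S'.C p.2 p.1, damRes S'.A S'.C p.1)) ?_ ?_ ?_ ?_ ?_
  · intro p hp
    obtain ⟨h1, _⟩ := Finset.mem_product.1 hp
    exact Finset.mem_product.2 ⟨dam_mix_mem h h1, dam_res_mem S S' _⟩
  · intro p hp
    obtain ⟨h1, _⟩ := Finset.mem_product.1 hp
    exact Finset.mem_product.2 ⟨dam_mix_mem h h1, dam_res_mem S S' _⟩
  · intro p hp
    obtain ⟨_, h2⟩ := Finset.mem_product.1 hp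
    exact Prod.ext (dam_mix_res_mix _ _ _ _) (dam_res_mix h2 _)
  · intro p hp
    obtain ⟨_, h2⟩ := Finset.mem_product.1 hp
    exact Prod.ext (dam_mix_res_mix _ _ _ _) (dam_res_mix h2 _)
  · rintro ⟨ω, η⟩ hp
    obtain ⟨_, h2⟩ := Finset.mem_product.1 hp
    have hev := dam_ev_swap S S' s hKin hKout η ω
    simp only
    by_cases hc : DamKa S S' s Kin Kout ω ∧ DamKi S S' s Kin η
    · obtain ⟨c1, c2⟩ := hc
      obtain ⟨c3, c4⟩ := hev.1 ⟨c1, c2⟩
      rw [if_pos c1, if_pos c2, if_pos c3, if_pos c4, dam_wt_split h ω, dam_wt_split h (damMix S'.A S'.C η ω), dam_res_mix h2,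
        dam_rw_mix c1.1 c3.1, dam_loc_res hF, hG]
      ring
    · have hc' := fun hh => hc (hev.2 hh)
      have e1 : (if DamKa S S' s Kin Kout ω then S.wt ω * (G ω * F ω) else 0) * (if DamKi S S' s Kin η then S'.wt η * 1 else 0) = 0 := by
        by_cases c1 : DamKa S S' s Kin Kout ω
        · rw [if_neg (fun c2 => hc ⟨c1, c2⟩), mul_zero]
        · rw [if_neg c1, zero_mul]
      have e2 : (if DamKa S S' s Kin Kout (damMix S'.A S'.C η ω) then S.wt (damMix S'.A S'.C η ω) * G (damMix S'.A S'.C η ω) else 0)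
          * (if DamKi S S' s Kin (damRes S'.A S'.C ω) then S'.wt (damRes S'.A S'.C ω) * F (damRes S'.A S'.C ω) else 0) = 0 := by
        by_cases c1 : DamKa S S' s Kin Kout (damMix S'.A S'.C η ω)
        · rw [if_neg (fun c2 => hc' ⟨c1, c2⟩), mul_zero]
        · rw [if_neg c1, zero_mul]
      rw [e1, e2]

/-- a constraint of zero mass kills every sum -/
theorem am_N_zero (S : ClSys V Y) (hS : ClOk S) (K : ClCfg V Y → Prop) (h0 : S.Z K = 0) (X : ClCfg V Y → ℝ) : S.N K X = 0 := by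
  classical
  rw [dis_Z_eq] at h0
  unfold ClSys.N at h0 ⊢
  have hnn : ∀ ω ∈ S.cfgs, 0 ≤ (if K ω then S.wt ω * 1 else 0) := fun ω _ => by
    split_ifs
    · rw [mul_one]; exact dis_wt_nonneg S hS ω
    · exact le_rfl
  have hz := (Finset.sum_eq_zero_iff_of_nonneg hnn).1 h0
  refine Finset.sum_eq_zero fun ω hω => ?_
  have := hz ω hω
  split_ifs with hK
  · rw [if_pos hK, mul_one] at this
    rw [this, zero_mul]
  · rfl

/-- the layer of 62 is the layer of `Defs/Cut` -/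
theorem am_lay_dam (S : ClSys V Y) (I : Finset V) : damLay S (S.inn I) = cuLay S I := by
  ext u
  unfold damLay cuLay
  rw [Finset.mem_inter, Finset.mem_biUnion, Finset.mem_filter]
  constructor
  · rintro ⟨⟨y, hy, h4⟩, h5⟩
    obtain ⟨h1, h2⟩ := Finset.mem_sdiff.1 (Finset.mem_filter.1 hy).1
    exact ⟨h5, y, h1, h4, fun hh => h2 (Finset.mem_filter.2 ⟨h1, hh⟩)⟩
  · rintro ⟨h5, y, h1, h4, h2⟩
    exact ⟨⟨y, Finset.mem_filter.2 ⟨Finset.mem_sdiff.2 ⟨h1, fun hh => h2 (Finset.mem_filter.1 hh).2⟩, ⟨u, Finset.mem_inter.2 ⟨h4, h5⟩⟩⟩, h4⟩, h5⟩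

theorem am_inn_ok (S : ClSys V Y) (hS : ClOk S) (I : Finset V) : ClOk (S.inn I) where
  sub := fun y hy => (Finset.mem_filter.1 hy).2
  ne := fun y hy => hS.ne y (Finset.mem_filter.1 hy).1
  q0 := fun y hy => hS.q0 y (Finset.mem_filter.1 hy).1
  q1 := fun y hy => hS.q1 y (Finset.mem_filter.1 hy).1

/-- **MASTER PRODUCT FORMULA** (TEX[lem:cell-cut], TEX[annulus:ambient] second half).   No topology.   OWNER 22.
PLAN: `S.cfgs` = product of the configurations of `S.inn I` and of `S.inn (S.A \ I)` and of the statuses of the crossing cells; under the cut the weight is `wt_in * ∏ q * wt_out`, the crossing cells pin `B = s` on `cuLay S I`. -/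
theorem am_cut (S : ClSys V Y) (hS : ClOk S) (s : Bool) (I : Finset V) (hI : I ⊆ S.A) (Kin Kout : ClCfg V Y → Prop)
    (hin : ClLocP I (S.cin I) Kin) (hout : ClLocP (S.A \ I) (S.cout I) Kout) (F G : ClCfg V Y → ℝ)
    (hF : ClLoc I (S.cin I) F) (hG : ClLoc (S.A \ I) (S.cout I) G) :
    S.N (fun ω => ClCut S s I ω ∧ Kin ω ∧ Kout ω) (fun ω => G ω * F ω) =
      S.N (fun ω => ClCut S s I ω ∧ Kin ω ∧ Kout ω) G * cuE S s I Kin F := by
  have h : DamSub S (S.inn I) := dam_inn_sub S hI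
  have hC : (S.inn I).C = S.cin (S.inn I).A := rfl
  have hX : damX S (S.inn I) ⊆ S.C := fun y hy => (Finset.mem_sdiff.1 (Finset.mem_filter.1 hy).1).1
  have hcg : ∀ ω ∈ S.cfgs, S.wt ω ≠ 0 → ((ClCut S s I ω ∧ Kin ω ∧ Kout ω) ↔ DamKa S (S.inn I) s Kin Kout ω) := by
    intro ω _ hw
    unfold DamKa
    rw [← dam_cut_tau hX (fun y hy => hS.ne y (hX hy)) s hw, ← dam_cut_X hC]
    rfl
  have hKi : (fun ω : ClCfg V Y => CuPin s (cuLay S I) ω ∧ Kin ω) = DamKi S (S.inn I) s Kin := by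
    funext ω
    unfold DamKi
    rw [am_lay_dam]
    rfl
  have hGm : ∀ η ω : ClCfg V Y, G (damMix (S.inn I).A (S.inn I).C η ω) = G ω := by
    intro η ω
    refine hG _ _ ?_ ?_ ?_
    · ext v
      simp only [damMix, ClSys.inn, Finset.mem_inter, Finset.mem_union, Finset.mem_sdiff]
      tauto
    · ext v
      simp only [damMix, ClSys.inn, Finset.mem_inter, Finset.mem_union, Finset.mem_sdiff]
      tauto
    · ext y
      simp only [damMix, ClSys.inn, ClSys.cin, ClSys.cout, Finset.mem_inter, Finset.mem_union, Finset.mem_sdiff, Finset.mem_filter]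
      tauto
  have hsw := am_swapG (F := F) (G := G) h s (Kin := Kin) (Kout := Kout) hin (dam_out_of_loc S I hout) hF hGm
  rw [dam_N_congr S hcg, dam_N_congr S hcg]
  unfold cuE
  rw [hKi, dis_E_eq, dis_Z_eq]
  by_cases h0 : (S.inn I).N (DamKi S (S.inn I) s Kin) (fun _ => 1) = 0
  · rw [h0, div_zero, mul_zero]
    have hz : S.Z (DamKa S (S.inn I) s Kin Kout) = 0 := by
      by_contra hne
      exact dam_feas_in h (fun y hy => ⟨(hS.q0 y hy).le, hS.q1 y hy⟩) s hin hne (by rw [dis_Z_eq]; exact h0)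
    exact am_N_zero S hS _ hz _
  · rw [← mul_div_assoc, ← hsw, mul_div_cancel_right₀ _ h0]

/-- (AMB), abstract: the law inside a cut is the intrinsic cut law -/
theorem am_amb (S : ClSys V Y) (hS : ClOk S) (s : Bool) (I : Finset V) (hI : I ⊆ S.A) (Kin Kout : ClCfg V Y → Prop)
    (hin : ClLocP I (S.cin I) Kin) (hout : ClLocP (S.A \ I) (S.cout I) Kout)
    (hf : 0 < S.Z (fun ω => ClCut S s I ω ∧ Kin ω ∧ Kout ω)) (F : ClCfg V Y → ℝ) (hF : ClLoc I (S.cin I) F) :
    S.E (fun ω => ClCut S s I ω ∧ Kin ω ∧ Kout ω) F = cuE S s I Kin F := by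
  have h := am_cut S hS s I hI Kin Kout hin hout F (fun _ => 1) hF (fun _ _ _ _ _ => rfl)
  rw [dis_E_eq, dis_Z_eq]
  rw [dis_Z_eq] at hf
  simp only [one_mul] at h
  rw [h, mul_div_cancel_left₀ _ hf.ne']

theorem am_mem_cin (S : ClSys V Y) (I : Finset V) (y : Y) : y ∈ S.cin I ↔ y ∈ S.C ∧ S.sv y ⊆ I := Finset.mem_filter
theorem am_mem_cout (S : ClSys V Y) (I : Finset V) (y : Y) : y ∈ S.cout I ↔ y ∈ S.C ∧ ¬ S.sv y ⊆ I ∧ ¬ clCross S I y := Finset.mem_filter
theorem am_mem_lay (S : ClSys V Y) (I : Finset V) (u : V) : u ∈ cuLay S I ↔ u ∈ I ∧ ∃ y ∈ S.C, u ∈ S.sv y ∧ ¬ S.sv y ⊆ I := Finset.mem_filter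
theorem am_inn_A (S : ClSys V Y) (I : Finset V) : (S.inn I).A = I := rfl
theorem am_inn_C (S : ClSys V Y) (I : Finset V) : (S.inn I).C = S.cin I := rfl
theorem am_inn_sv (S : ClSys V Y) (I : Finset V) : (S.inn I).sv = S.sv := rfl
theorem am_inn_q (S : ClSys V Y) (I : Finset V) : (S.inn I).q = S.q := rfl

/-- iterated domains -/
theorem am_inn_inn (S : ClSys V Y) {I D : Finset V} (h : I ⊆ D) : (S.inn D).inn I = S.inn I := by
  have hc : (S.inn D).cin I = S.cin I := by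
    ext y
    rw [am_mem_cin, am_mem_cin, am_inn_C, am_mem_cin, am_inn_sv]
    exact ⟨fun hy => ⟨hy.1.1, hy.2⟩, fun hy => ⟨⟨hy.1, hy.2.trans h⟩, hy.2⟩⟩
  show (⟨I, (S.inn D).cin I, S.sv, S.q⟩ : ClSys V Y) = ⟨I, S.cin I, S.sv, S.q⟩
  rw [hc]

/-- the layer of `I` inside `D` is the layer of `I`, if `I` avoids the layer of `D` -/
theorem am_lay_inn (S : ClSys V Y) {I D : Finset V} (h : I ⊆ D) (hd : Disjoint I (cuLay S D)) : cuLay (S.inn D) I = cuLay S I := by
  ext u
  rw [am_mem_lay, am_mem_lay]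
  constructor
  · rintro ⟨hu, y, hy, h1, h2⟩
    exact ⟨hu, y, ((am_mem_cin S D y).1 hy).1, h1, h2⟩
  · rintro ⟨hu, y, hy, h1, h2⟩
    refine ⟨hu, y, (am_mem_cin S D y).2 ⟨hy, ?_⟩, h1, h2⟩
    by_contra hn
    exact Finset.disjoint_left.1 hd hu ((am_mem_lay S D u).2 ⟨h hu, y, hy, h1, hn⟩)

/-- a search inside a cut law finds a cut law of the ambient system -/
theorem am_cuE_inn (S : ClSys V Y) {I D : Finset V} (h : I ⊆ D) (hd : Disjoint I (cuLay S D)) (s : Bool) (K : ClCfg V Y → Prop)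
    (F : ClCfg V Y → ℝ) : cuE (S.inn D) s I K F = cuE S s I K F := by
  unfold cuE
  rw [am_inn_inn S h, am_lay_inn S h hd]

/-- **T3, the event**: the invaded set is `J` iff `S.A \ J` is a cut set, no equality edge leaves `J`, and the invasion computed INSIDE `J` fills `J`.   OWNER 22. -/
theorem am_inv_iff (S : ClSys V Y) (hS : ClOk S) (s : Bool) (E : Finset (V × V)) (hE : ∀ e ∈ E, e.1 ∈ S.A ∧ e.2 ∈ S.A) (ω : ClCfg V Y)
    (O J : Finset V) (hO : O ⊆ J) (hJ : J ⊆ S.A) :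
    clInv S s E ω O = J ↔ (ClCut S s (S.A \ J) ω ∧ (∀ e ∈ E, (e.1 ∈ J ↔ e.2 ∈ J)) ∧ clInv (S.inn J) s E ω O = J) := by
  constructor
  · intro h
    have hmem : ∀ u ∈ O, ∀ v, ReflTransGen (clStep S s E ω) u v → v ∈ J := by
      intro u hu v hr
      have hvA : v ∈ S.A := by
        rcases ReflTransGen.cases_tail hr with h1 | ⟨c, _, hc⟩
        · rw [h1]; exact hJ (hO hu)
        · rcases hc with ⟨y, hy, _, h2, _⟩ | h2 | h2
          · exact hS.sub y hy h2
          · exact (hE _ h2).2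
          · exact (hE _ h2).1
      rw [← h]
      exact (dde_mem_inv S s E ω O v).2 ⟨hvA, u, hu, hr⟩
    refine ⟨by have := dis_inv_cut S hS s E ω O; rwa [h] at this, ?_, ?_⟩
    · intro e he
      constructor
      · intro h1
        rw [← h] at h1
        obtain ⟨_, u, hu, hr⟩ := (dde_mem_inv S s E ω O e.1).1 h1
        exact hmem u hu e.2 (hr.tail (Or.inr (Or.inl he)))
      · intro h1
        rw [← h] at h1
        obtain ⟨_, u, hu, hr⟩ := (dde_mem_inv S s E ω O e.2).1 h1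
        exact hmem u hu e.1 (hr.tail (Or.inr (Or.inr he)))
    · ext v
      rw [dde_mem_inv]
      constructor
      · exact fun h1 => h1.1
      · intro hv
        refine ⟨hv, ?_⟩
        rw [← h] at hv
        obtain ⟨-, u, hu, hr⟩ := (dde_mem_inv S s E ω O v).1 hv
        refine ⟨u, hu, ?_⟩
        clear hv
        induction hr with
        | refl => exact ReflTransGen.refl
        | @tail b c hab hbc ih =>
          refine ih.tail ?_
          rcases hbc with ⟨y, hy, h1, h2, h3⟩ | h2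
          · refine Or.inl ⟨y, ?_, h1, h2, h3⟩
            refine Finset.mem_filter.2 ⟨hy, fun w hw => ?_⟩
            exact hmem u hu w (hab.tail (Or.inl ⟨y, hy, h1, hw, h3⟩))
          · exact Or.inr h2
  · rintro ⟨hc, hEJ, hin⟩
    ext v
    rw [dde_mem_inv]
    constructor
    · rintro ⟨-, u, hu, hr⟩
      induction hr with
      | refl => exact hO hu
      | @tail b c _ hbc ih =>
        rcases hbc with ⟨y, hy, h1, h2, h3⟩ | h2 | h2
        · by_contra hcJ
          exact h3 (hc y hy ⟨⟨c, h2, Finset.mem_sdiff.2 ⟨hS.sub y hy h2, hcJ⟩⟩, b, h1, fun hb => (Finset.mem_sdiff.1 hb).2 ih⟩)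
        · exact (hEJ _ h2).1 ih
        · exact (hEJ _ h2).2 ih
    · intro hv
      refine ⟨hJ hv, ?_⟩
      rw [← hin] at hv
      obtain ⟨-, u, hu, hr⟩ := (dde_mem_inv (S.inn J) s E ω O v).1 hv
      refine ⟨u, hu, ?_⟩
      clear hv
      induction hr with
      | refl => exact ReflTransGen.refl
      | @tail b c _ hbc ih =>
        refine ih.tail ?_
        rcases hbc with ⟨y, hy, h1, h2, h3⟩ | h2
        · exact Or.inl ⟨y, (Finset.mem_filter.1 hy).1, h1, h2, h3⟩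
        · exact Or.inr h2

/-- a constraint restricted to `I` is an event inside `I` -/
theorem am_res_loc (S : ClSys V Y) (K : ClCon V Y) (I : Finset V) : ClLocP I (S.cin I) ((K.res S I).Holds S) := by
  intro ω ω' h1 h2 h3
  have hr : ddeRin S I ω = ddeRin S I ω' := by simp only [ddeRin, h1, h2, h3]
  refine dde_holds_congr S _ _ _ ?_ ?_ ?_ ?_
  · rintro v (hv | hv)
    · exact dcu_mem_of_inter h1 (Finset.mem_inter.1 hv).2
    · exact dcu_mem_of_inter h1 (Finset.mem_inter.1 hv).2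
  · rintro v (hv | hv)
    · exact dcu_mem_of_inter h2 (Finset.mem_inter.1 hv).2
    · exact dcu_mem_of_inter h2 (Finset.mem_inter.1 hv).2
  · intro e he
    have := (Finset.mem_filter.1 he).2
    exact ⟨dcu_mem_of_inter h2 this.1, dcu_mem_of_inter h2 this.2⟩
  · intro y hy
    have hyI : y ∈ S.cin I := by
      rcases hy with hy | hy | hy <;> exact (Finset.mem_inter.1 hy).2
    rw [← dde_tau_rin S I ω hyI, ← dde_tau_rin S I ω' hyI, hr]

/-- without crossing equality edges the two restrictions of a constraint coincide -/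
theorem am_inn_res (S : ClSys V Y) (K : ClCon V Y) (I : Finset V) (hE : ∀ e ∈ K.Eq, e.1 ∈ S.A ∧ e.2 ∈ S.A) (hx : DdeNoX S K.Eq I) :
    K.inn S I = K.res S I := by
  have : K.Eq.filter (fun e => e.1 ∈ I ∨ e.2 ∈ I) = K.Eq.filter (fun e => e.1 ∈ I ∧ e.2 ∈ I) := by
    refine Finset.filter_congr fun e he => ⟨?_, fun h => Or.inl h.1⟩
    rintro (h | h)
    · refine ⟨h, ?_⟩
      by_contra hn
      exact (hx e he).1 ⟨h, Finset.mem_sdiff.2 ⟨(hE e he).2, hn⟩⟩
    · refine ⟨?_, h⟩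
      by_contra hn
      exact (hx e he).2 ⟨h, Finset.mem_sdiff.2 ⟨(hE e he).1, hn⟩⟩
  unfold ClCon.inn ClCon.res
  rw [this]

open Classical in
/-- **T3, SEARCH** (TEX[annulus:search], exploration after TEX[discrete:online]): given the invaded set `J` and ANY record `G` inside `J`, the law off `J` is the cut law.   `K` may contain `W` labels.   OWNER 22. -/
theorem am_search (S : ClSys V Y) (hS : ClOk S) (s : Bool) (K : ClCon V Y) (hE : ∀ e ∈ K.Eq, e.1 ∈ S.A ∧ e.2 ∈ S.A) (O J : Finset V)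
    (hO : O ⊆ J) (hJ : J ⊆ S.A) (G F : ClCfg V Y → ℝ) (hG : ClLoc J (S.cin J) G) (hF : ClLoc (S.A \ J) (S.cin (S.A \ J)) F) :
    S.N (K.Holds S) (fun ω => if clInv S s K.Eq ω O = J then G ω * F ω else 0) =
      S.N (K.Holds S) (fun ω => if clInv S s K.Eq ω O = J then G ω else 0) * cuE S s (S.A \ J) ((K.res S (S.A \ J)).Holds S) F := by
  set I := S.A \ J with hI
  have hIA : I ⊆ S.A := Finset.sdiff_subset
  have hJI : S.A \ I = J := Finset.sdiff_sdiff_eq_self hJ
  by_cases hx : DdeNoX S K.Eq I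
  · set a : ClCfg V Y → ℝ := fun ω => (if clInv S s K.Eq (ddeExt S s I ω) O = S.A \ I then (1 : ℝ) else 0) with ha
    have haL : ClLoc (S.A \ I) (S.cout I) a := dde_loc_ext S s I (fun ω => if clInv S s K.Eq ω O = S.A \ I then (1 : ℝ) else 0)
    have hGL : ClLoc (S.A \ I) (S.cout I) G := dde_loc_mono hJI.ge (dde_cin_cout S hS hJI.ge) hG
    have hout : ClLocP (S.A \ I) (S.cout I) (fun ω => (K.out S I).Holds S (ddeExt S s I ω)) := by
      intro ω ω' h1 h2 h3
      simp only [ddeExt, h1, h2, h3]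
    have key : ∀ H : ClCfg V Y → ℝ, S.N (K.Holds S) (fun ω => if clInv S s K.Eq ω O = J then H ω else 0) =
        S.N (fun ω => ClCut S s I ω ∧ (K.res S I).Holds S ω ∧ (K.out S I).Holds S (ddeExt S s I ω)) (fun ω => a ω * H ω) := by
      intro H
      rw [← hJI, dde_N_inv S hS s K O I hIA]
      unfold ClSys.N
      refine Finset.sum_congr rfl fun ω hω => ?_
      have hiff : (K.Holds S ω ∧ ClCut S s I ω) ↔ (ClCut S s I ω ∧ (K.res S I).Holds S ω ∧ (K.out S I).Holds S (ddeExt S s I ω)) := by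
        constructor
        · rintro ⟨h1, h2⟩
          have := (dde_fact S hS s K I hx ω hω h2).1 h1
          refine ⟨h2, ?_, this.2⟩
          rw [← am_inn_res S K I hE hx]
          exact (dde_holds_inn S K I hx ω hω).2 this.1
        · rintro ⟨h2, h3, h4⟩
          refine ⟨(dde_fact S hS s K I hx ω hω h2).2 ⟨?_, h4⟩, h2⟩
          rw [← am_inn_res S K I hE hx] at h3
          exact (dde_holds_inn S K I hx ω hω).1 h3
      simp only [hiff, ha]
    rw [key, key]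
    have := am_cut S hS s I hIA ((K.res S I).Holds S) (fun ω => (K.out S I).Holds S (ddeExt S s I ω)) (am_res_loc S K I) hout F
      (fun ω => a ω * G ω) hF (dde_loc_mul haL hGL)
    rw [← this]
    congr 1
    funext ω
    ring
  · have hne : ∀ ω, clInv S s K.Eq ω O ≠ J := fun ω h => hx (dde_inv_noX S s K.Eq O I hIA ω (h.trans hJI.symm))
    have z1 : (fun ω => if clInv S s K.Eq ω O = J then G ω * F ω else 0) = fun _ => (0 : ℝ) := by
      funext ω; rw [if_neg (hne ω)]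
    have z2 : (fun ω => if clInv S s K.Eq ω O = J then G ω else 0) = fun _ => (0 : ℝ) := by
      funext ω; rw [if_neg (hne ω)]
    rw [z1, z2]
    have z3 : S.N (K.Holds S) (fun _ => (0 : ℝ)) = 0 := by
      unfold ClSys.N
      simp
    rw [z3, zero_mul]

/-- helper of `am_one_sign`: the parity computation on a 3-clique.  `j_` = "in `J`", `d_` = "in `D`", `p_` = "plus". -/
theorem am_one_sign_aux (ja da pa jb db pb jc dc pc : Prop) [Decidable ja] [Decidable da] [Decidable pa] [Decidable jb] [Decidable db]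
    [Decidable pb] [Decidable jc] [Decidable dc] [Decidable pc]
    (xa : ja → da → False) (xb : jb → db → False) (xc : jc → dc → False)
    (tab : da → jb ∨ db) (tba : db → ja ∨ da) (tac : da → jc ∨ dc) (tca : dc → ja ∨ da) (tbc : db → jc ∨ dc) (tcb : dc → jb ∨ db)
    (sab : ja → db → (pa ↔ pb)) (sba : jb → da → (pa ↔ pb)) (sac : ja → dc → (pa ↔ pc)) (sca : jc → da → (pa ↔ pc))
    (sbc : jb → dc → (pb ↔ pc)) (scb : jc → db → (pb ↔ pc)) :
    (if ((ja ∧ db) ∨ (jb ∧ da)) ∧ pa then (1 : ZMod 2) else 0) + (if ((jb ∧ dc) ∨ (jc ∧ db)) ∧ pb then 1 else 0)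
      + (if ((ja ∧ dc) ∨ (jc ∧ da)) ∧ pa then 1 else 0) = 0 := by
  by_cases h1 : ja <;> by_cases h2 : da <;> by_cases h3 : jb <;> by_cases h4 : db <;> by_cases h5 : jc <;> by_cases h6 : dc <;>
    by_cases h7 : pa <;> by_cases h8 : pb <;> by_cases h9 : pc <;>
    simp only [h1, h2, h3, h4, h5, h6, h7, h8, h9, true_and, and_true, false_and, and_false, or_self, or_true, true_or, if_true, if_false,
      forall_const, false_or, or_false, imp_false, not_true_eq_false, IsEmpty.forall_iff, not_false_eq_true, iff_true, true_iff, iff_false,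
      false_iff, iff_self] at * <;> decide

/-- **T8, ONE SIGN** (Timar): invade from a connected set `O` through the CLOSED cells; all the cells between the invaded set and the component `D` of a site `z` have the same sign, so `D` is a cut set.   OWNER 22 (with 147).   PROVED by 269.
PLAN: the cochain argument of `tsc_core` for the class of the boundary edges of sign plus: two boundary edges in a common 3-clique share a site, and each of them lies in an open cell. -/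
theorem am_one_sign (S : ClSys V Y) (hS : ClOk S) (hsc : S.SC) (ω : ClCfg V Y) (hω : ∀ y ∈ S.C, y ∈ ω.O → ClConst ω.B (S.sv y))
    (O : Finset V) (hO : O ⊆ S.A) (hOc : TscConn S.gr (↑O : Set V)) (z : V) :
    ∃ s : Bool, ClCut S s (cuComp S (cuInvO S ∅ ω O) z) ω := by
  classical
  set J := cuInvO S ∅ ω O with hJ
  set D := cuComp S J z with hD
  have hJmem : ∀ v, v ∈ J ↔ v ∈ S.A ∧ ∃ u ∈ O, ReflTransGen (CuStepG S (fun y => y ∈ ω.O) ∅) u v := by
    intro v; simp only [hJ, cuInvO, cuInvG, Finset.mem_filter]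
  have hDmem : ∀ v, v ∈ D ↔ v ∈ S.A ∧ v ∈ tscComp S.gr ((↑S.A : Set V) \ ↑J) z := by
    intro v; simp only [hD, cuComp, Finset.mem_filter]
  have hJA : ∀ v, v ∈ J → v ∈ S.A := fun v h => ((hJmem v).1 h).1
  have hDA : ∀ v, v ∈ D → v ∈ S.A := fun v h => ((hDmem v).1 h).1
  have hJD : ∀ v, v ∈ J → v ∈ D → False := fun v h h' => ((hDmem v).1 h').2.1.2 (Finset.mem_coe.2 h)
  -- a neighbour of `D` lies in `J` or in `D`
  have hnb : ∀ u v, u ∈ D → v ∈ S.A → S.gr.Adj u v → v ∈ J ∨ v ∈ D := by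
    intro u v hu hv hadj
    by_cases hvJ : v ∈ J
    · exact Or.inl hvJ
    · exact Or.inr ((hDmem v).2 ⟨hv, tsc_comp_adj ((hDmem u).1 hu).2 ⟨Finset.mem_coe.2 hv, fun h => hvJ (Finset.mem_coe.1 h)⟩ hadj⟩)
  -- a cell with a site in `J` and a site off `J` is open
  have hopen : ∀ y ∈ S.C, ∀ j ∈ S.sv y, ∀ d ∈ S.sv y, j ∈ J → d ∉ J → y ∈ ω.O := by
    intro y hy j hj d hd hjJ hdJ
    by_contra hcl
    obtain ⟨_, u, hu, hR⟩ := (hJmem j).1 hjJ
    exact hdJ ((hJmem d).2 ⟨hS.sub y hy hd, u, hu, hR.tail (Or.inl ⟨y, hy, hj, hd, hcl⟩)⟩)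
  -- the first spin agrees at the two ends of an edge between `J` and `D`
  have hsame : ∀ j d, j ∈ J → d ∈ D → S.gr.Adj j d → (j ∈ ω.B ↔ d ∈ ω.B) := by
    rintro j d hj hd ⟨_, y, hy, hjy, hdy⟩
    rcases hω y hy (hopen y hy j hjy d hdy hj fun h => hJD d h hd) with h | h
    · exact ⟨fun _ => h hdy, fun _ => h hjy⟩
    · exact ⟨fun h' => (h j hjy h').elim, fun h' => (h d hdy h').elim⟩
  -- `J` is connected
  have hOJ : ∀ u ∈ O, u ∈ J := fun u hu => (hJmem u).2 ⟨hO hu, u, hu, ReflTransGen.refl⟩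
  have hJreach : ∀ u ∈ O, ∀ v, ReflTransGen (CuStepG S (fun y => y ∈ ω.O) ∅) u v → TscR S.gr (↑J : Set V) u v := by
    intro u hu v hR
    induction hR with
    | refl => exact ReflTransGen.refl
    | @tail b c hub hbc ih =>
      rcases hbc with ⟨y, hy, hb, hc', hcl⟩ | h | h
      · by_cases hbc' : b = c
        · subst hbc'; exact ih
        · have hbJ : b ∈ J := (hJmem b).2 ⟨hS.sub y hy hb, u, hu, hub⟩
          have hcJ : c ∈ J := (hJmem c).2 ⟨hS.sub y hy hc', u, hu, hub.tail (Or.inl ⟨y, hy, hb, hc', hcl⟩)⟩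
          exact ih.tail ⟨⟨hbc', y, hy, hb, hc'⟩, Finset.mem_coe.2 hbJ, Finset.mem_coe.2 hcJ⟩
      · simp at h
      · simp at h
  have hJc : TscConn S.gr (↑J : Set V) := by
    intro a ha b hb
    obtain ⟨_, u, hu, hRa⟩ := (hJmem a).1 (Finset.mem_coe.1 ha)
    obtain ⟨_, u', hu', hRb⟩ := (hJmem b).1 (Finset.mem_coe.1 hb)
    have h1 := hJreach u hu a hRa
    have h2 := hJreach u' hu' b hRb
    have h3 : TscR S.gr (↑J : Set V) u u' :=
      tsc_R_mono (fun v hv => Finset.mem_coe.2 (hOJ v (Finset.mem_coe.1 hv))) (hOc u (Finset.mem_coe.2 hu) u' (Finset.mem_coe.2 hu'))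
    exact tsc_R_trans (tsc_R_symm h1) (tsc_R_trans h3 h2)
  have hDc : TscConn S.gr (↑D : Set V) := by
    have e : (↑D : Set V) = tscComp S.gr ((↑S.A : Set V) \ ↑J) z := by
      ext v
      rw [Finset.mem_coe, hDmem]
      exact ⟨fun h => h.2, fun h => ⟨Finset.mem_coe.1 h.1.1, h⟩⟩
    rw [e]; exact tsc_comp_conn z
  -- the cochain
  let c : V → V → ZMod 2 := fun u v => if ((u ∈ J ∧ v ∈ D) ∨ (v ∈ J ∧ u ∈ D)) ∧ u ∈ ω.B then 1 else 0
  obtain ⟨f, hf⟩ := tsc_mod2 hsc c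
    (fun u _ v _ huv => by
      simp only [c]
      by_cases h : (u ∈ J ∧ v ∈ D) ∨ (v ∈ J ∧ u ∈ D)
      · have h' : (v ∈ J ∧ u ∈ D) ∨ (u ∈ J ∧ v ∈ D) := h.symm
        have e : (u ∈ ω.B ↔ v ∈ ω.B) := by
          rcases h with h | h
          · exact hsame u v h.1 h.2 huv
          · exact (hsame v u h.1 h.2 huv.symm).symm
        simp only [h, h', true_and, e]
      · have h' : ¬ ((v ∈ J ∧ u ∈ D) ∨ (u ∈ J ∧ v ∈ D)) := fun h' => h h'.symm
        simp only [h, h', false_and])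
    (fun u hu v hv w hw huv hvw huw => by
      have hu' := Finset.mem_coe.1 hu
      have hv' := Finset.mem_coe.1 hv
      have hw' := Finset.mem_coe.1 hw
      exact am_one_sign_aux (u ∈ J) (u ∈ D) (u ∈ ω.B) (v ∈ J) (v ∈ D) (v ∈ ω.B) (w ∈ J) (w ∈ D) (w ∈ ω.B)
        (hJD u) (hJD v) (hJD w)
        (fun h => hnb u v h hv' huv) (fun h => hnb v u h hu' huv.symm) (fun h => hnb u w h hw' huw) (fun h => hnb w u h hu' huw.symm)
        (fun h => hnb v w h hw' hvw) (fun h => hnb w v h hv' hvw.symm)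
        (fun h h' => hsame u v h h' huv) (fun h h' => (hsame v u h h' huv.symm).symm) (fun h h' => hsame u w h h' huw)
        (fun h h' => (hsame w u h h' huw.symm).symm) (fun h h' => hsame v w h h' hvw) (fun h h' => (hsame w v h h' hvw.symm).symm))
  have fJ : ∀ a ∈ J, ∀ b ∈ J, f a = f b := by
    intro a ha b hb
    refine tsc_R_const f (fun p q h => ?_) (hJc a (Finset.mem_coe.2 ha) b (Finset.mem_coe.2 hb))
    have hp := Finset.mem_coe.1 h.2.1
    have hq := Finset.mem_coe.1 h.2.2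
    have h1 := hf p (Finset.mem_coe.2 (hJA p hp)) q (Finset.mem_coe.2 (hJA q hq)) h.1
    have h2 : c p q = 0 := by
      simp only [c]
      rw [if_neg]
      rintro ⟨⟨_, h'⟩ | ⟨_, h'⟩, _⟩
      · exact hJD q hq h'
      · exact hJD p hp h'
    rw [h2] at h1
    exact CharTwo.add_eq_zero.1 h1.symm
  have fD : ∀ a ∈ D, ∀ b ∈ D, f a = f b := by
    intro a ha b hb
    refine tsc_R_const f (fun p q h => ?_) (hDc a (Finset.mem_coe.2 ha) b (Finset.mem_coe.2 hb))
    have hp := Finset.mem_coe.1 h.2.1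
    have hq := Finset.mem_coe.1 h.2.2
    have h1 := hf p (Finset.mem_coe.2 (hDA p hp)) q (Finset.mem_coe.2 (hDA q hq)) h.1
    have h2 : c p q = 0 := by
      simp only [c]
      rw [if_neg]
      rintro ⟨⟨h', _⟩ | ⟨h', _⟩, _⟩
      · exact hJD p h' hp
      · exact hJD q h' hq
    rw [h2] at h1
    exact CharTwo.add_eq_zero.1 h1.symm
  -- all the edges between `J` and `D` have the same sign
  have hall : ∀ j d j' d', j ∈ J → d ∈ D → S.gr.Adj j d → j' ∈ J → d' ∈ D → S.gr.Adj j' d' → (d ∈ ω.B ↔ d' ∈ ω.B) := by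
    intro j d j' d' hj hd hadj hj' hd' hadj'
    have e1 := hf j (Finset.mem_coe.2 (hJA j hj)) d (Finset.mem_coe.2 (hDA d hd)) hadj
    have e2 := hf j' (Finset.mem_coe.2 (hJA j' hj')) d' (Finset.mem_coe.2 (hDA d' hd')) hadj'
    rw [fJ j' hj' j hj, fD d' hd' d hd, ← e1] at e2
    simp only [c, hj, hd, hj', hd', and_self, true_or, true_and] at e2
    rw [← hsame j d hj hd hadj, ← hsame j' d' hj' hd' hadj']
    by_cases h1 : j ∈ ω.B <;> by_cases h2 : j' ∈ ω.B <;> simp [h1, h2] at e2 ⊢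
  -- a crossing cell contains an edge between `J` and `D`, is open, and its sign is the spin of its site in `D`
  have hcross : ∀ y ∈ S.C, clCross S D y → ∃ j d, j ∈ J ∧ d ∈ D ∧ S.gr.Adj j d ∧ clTau S ω y = if d ∈ ω.B then 1 else -1 := by
    rintro y hy ⟨⟨d, hdy, hd⟩, ⟨j, hjy, hj⟩⟩
    have hne : d ≠ j := fun h => hj (h ▸ hd)
    have hadj : S.gr.Adj d j := ⟨hne, y, hy, hdy, hjy⟩
    have hjJ : j ∈ J := (hnb d j hd (hS.sub y hy hjy) hadj).resolve_right hj
    have hyO := hopen y hy j hjy d hdy hjJ fun h => hJD d h hd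
    refine ⟨j, d, hjJ, hd, hadj.symm, ?_⟩
    unfold clTau
    rw [if_pos hyO]
    rcases hω y hy hyO with h | h
    · rw [if_pos h, if_pos (h hdy)]
    · rw [if_neg (fun h' => h d hdy (h' hdy)), if_neg (h d hdy)]
  by_cases hex : ∃ y ∈ S.C, clCross S D y
  · obtain ⟨y0, hy0, hc0⟩ := hex
    obtain ⟨j0, d0, hj0, hd0, hadj0, _⟩ := hcross y0 hy0 hc0
    refine ⟨decide (d0 ∈ ω.B), fun y hy hc => ?_⟩
    obtain ⟨j, d, hj, hd, hadj, ht⟩ := hcross y hy hc
    rw [ht]
    have e := hall j d j0 d0 hj hd hadj hj0 hd0 hadj0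
    unfold clSg
    by_cases h : d0 ∈ ω.B
    · simp [h, e.2 h]
    · have h2 : d ∉ ω.B := fun h' => h (e.1 h')
      simp [h, h2]
  · exact ⟨true, fun y hy hc => (hex ⟨y, hy, hc⟩).elim⟩

/-- kit of `am_searchO` (18; prefix `amso_`): membership in a general invaded set -/
theorem amso_mem_inv (S : ClSys V Y) (fav : Y → Prop) (E : Finset (V × V)) (O : Finset V) (v : V) :
    v ∈ cuInvG S fav E O ↔ v ∈ S.A ∧ ∃ u ∈ O, ReflTransGen (CuStepG S fav E) u v := by
  classical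
  unfold cuInvG
  rw [Finset.mem_filter]

/-- the invasion does not see the cells inside a set which it does not reach -/
theorem amso_reach_congr (S : ClSys V Y) (hS : ClOk S) (fav₁ fav₂ : Y → Prop) (E : Finset (V × V)) (O I : Finset V)
    (hT : ∀ y ∈ S.C, y ∉ S.cin I → (fav₁ y ↔ fav₂ y)) (hI : ∀ v ∈ cuInvG S fav₁ E O, v ∉ I) {u : V} (hu : u ∈ O) (v : V) :
    ReflTransGen (CuStepG S fav₁ E) u v ↔ ReflTransGen (CuStepG S fav₂ E) u v := by
  have key : ∀ b c, ReflTransGen (CuStepG S fav₁ E) u b → (CuStepG S fav₁ E b c ↔ CuStepG S fav₂ E b c) := by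
    intro b c hb
    unfold CuStepG
    refine or_congr ?_ Iff.rfl
    refine exists_congr fun y => ?_
    refine and_congr_right fun hy => and_congr_right fun hby => and_congr_right fun _ => ?_
    have hbInv : b ∈ cuInvG S fav₁ E O := (amso_mem_inv S fav₁ E O b).2 ⟨hS.sub y hy hby, u, hu, hb⟩
    have hyI : y ∉ S.cin I := fun h => hI b hbInv (((am_mem_cin S I y).1 h).2 hby)
    rw [hT y hy hyI]
  constructor
  · intro h
    induction h with
    | refl => exact ReflTransGen.refl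
    | tail hab hbc ih => exact ih.tail ((key _ _ hab).1 hbc)
  · intro h
    induction h with
    | refl => exact ReflTransGen.refl
    | tail hab hbc ih => exact ih.tail ((key _ _ ih).2 hbc)

theorem amso_inv_congr (S : ClSys V Y) (hS : ClOk S) (fav₁ fav₂ : Y → Prop) (E : Finset (V × V)) (O I : Finset V)
    (hT : ∀ y ∈ S.C, y ∉ S.cin I → (fav₁ y ↔ fav₂ y)) (hI : ∀ v ∈ cuInvG S fav₁ E O, v ∉ I) :
    cuInvG S fav₁ E O = cuInvG S fav₂ E O := by
  ext v
  rw [amso_mem_inv, amso_mem_inv]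
  refine and_congr_right fun _ => exists_congr fun u => and_congr_right fun hu => ?_
  exact amso_reach_congr S hS fav₁ fav₂ E O I hT hI hu v

/-- the restricted constraint is an inside event -/
theorem amso_res_loc (S : ClSys V Y) (K : ClCon V Y) (I : Finset V) : ClLocP I (S.cin I) ((K.res S I).Holds S) := by
  intro ω ω' h1 h2 h3
  have hr : ddeRin S I ω = ddeRin S I ω' := by simp only [ddeRin, h1, h2, h3]
  refine dde_holds_congr S _ _ _ ?_ ?_ ?_ ?_
  · intro v hv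
    refine dcu_mem_of_inter h1 ?_
    simp only [ClCon.res, Finset.mem_inter] at hv
    tauto
  · intro v hv
    refine dcu_mem_of_inter h2 ?_
    simp only [ClCon.res, Finset.mem_inter] at hv
    tauto
  · intro e he
    simp only [ClCon.res, Finset.mem_filter] at he
    exact ⟨dcu_mem_of_inter h2 he.2.1, dcu_mem_of_inter h2 he.2.2⟩
  · intro y hy
    have hyI : y ∈ S.cin I := by
      simp only [ClCon.res, Finset.mem_inter] at hy
      tauto
    rw [← dde_tau_rin S I ω hyI, ← dde_tau_rin S I ω' hyI, hr]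

/-- without equalities the two restrictions coincide -/
theorem amso_res_inn (S : ClSys V Y) (K : ClCon V Y) (hKe : K.Eq = ∅) (I : Finset V) : K.res S I = K.inn S I := by
  unfold ClCon.res ClCon.inn
  rw [hKe]
  rfl

open Classical in
/-- **UNSIGNED SEARCH, general form**: `D` any set of sites off `J` -/
theorem amso_search (S : ClSys V Y) (hS : ClOk S) (K : ClCon V Y) (hKe : K.Eq = ∅) (O J D : Finset V) (hD : D ⊆ S.A)
    (hJD : ∀ v ∈ J, v ∉ D) (s : Bool)
    (G F : ClCfg V Y → ℝ) (hG : ClLoc (S.A \ D) (S.cout D) G) (hF : ClLoc D (S.cin D) F) :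
    S.N (K.Holds S) (fun ω => if cuInvO S ∅ ω O = J ∧ ClCut S s D ω then G ω * F ω else 0) =
      S.N (K.Holds S) (fun ω => if cuInvO S ∅ ω O = J ∧ ClCut S s D ω then G ω else 0) *
        cuE S s D ((K.res S D).Holds S) F := by
  set Kout : ClCfg V Y → Prop := fun ω => (K.out S D).Holds S (ddeExt S s D ω) ∧ cuInvO S ∅ (ddeExt S s D ω) O = J with hKout
  have hout : ClLocP (S.A \ D) (S.cout D) Kout := by
    intro ω ω' h1 h2 h3
    simp only [hKout, ddeExt, h1, h2, h3]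
  have hev : ∀ ω ∈ S.cfgs, ((K.Holds S ω ∧ cuInvO S ∅ ω O = J ∧ ClCut S s D ω) ↔
      (ClCut S s D ω ∧ (K.res S D).Holds S ω ∧ Kout ω)) := by
    intro ω hω
    by_cases hc : ClCut S s D ω
    · have hO : ∀ y ∈ S.C, y ∉ S.cin D → (y ∈ ω.O ↔ y ∈ (ddeExt S s D ω).O) := by
        intro y _ hy
        have := dde_tau_ext S hS s D ω hω hc hy
        rw [← not_iff_not, ← dis_tau_zero S, ← dis_tau_zero S, this]
      have hinv : cuInvO S ∅ ω O = J ↔ cuInvO S ∅ (ddeExt S s D ω) O = J := by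
        unfold cuInvO
        constructor
        · intro h
          rw [← amso_inv_congr S hS _ _ ∅ O D hO (fun v hv => hJD v (h ▸ hv)), h]
        · intro h
          rw [← amso_inv_congr S hS _ _ ∅ O D (fun y hy hy' => (hO y hy hy').symm) (fun v hv => hJD v (h ▸ hv)), h]
      rw [dde_holds_split S K D, dde_holds_out S hS s K D ω hω hc, amso_res_inn S K hKe, hinv]
      simp only [hKout]
      tauto
    · tauto
  have hN : ∀ X : ClCfg V Y → ℝ, S.N (K.Holds S) (fun ω => if cuInvO S ∅ ω O = J ∧ ClCut S s D ω then X ω else 0) =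
      S.N (fun ω => ClCut S s D ω ∧ (K.res S D).Holds S ω ∧ Kout ω) X := by
    intro X
    unfold ClSys.N
    refine Finset.sum_congr rfl fun ω hω => ?_
    have h := hev ω hω
    dsimp only
    by_cases h1 : K.Holds S ω
    · by_cases h2 : cuInvO S ∅ ω O = J ∧ ClCut S s D ω
      · rw [if_pos h1, if_pos h2, if_pos (h.1 ⟨h1, h2⟩)]
      · rw [if_pos h1, if_neg h2, if_neg (fun hh => h2 (h.2 hh).2), mul_zero]
    · rw [if_neg h1, if_neg (fun hh => h1 (h.2 hh).1)]
  rw [hN, hN]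
  exact am_cut S hS s D hD _ Kout (amso_res_loc S K D) hout F G hF hG

open Classical in
/-- **T3 + T8, UNSIGNED SEARCH**: given the set `J` invaded through the closed cells, the sign `s` of the cut around `z` and any record off the component `D` of `z`, the law in `D` is `P^s_D`.   OWNER 22.   PROVED by 18 (`amso_search`: any `D` off `J`). -/
theorem am_searchO (S : ClSys V Y) (hS : ClOk S) (K : ClCon V Y) (hKe : K.Eq = ∅) (O J : Finset V) (hO : O ⊆ J) (hJ : J ⊆ S.A) (z : V) (s : Bool)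
    (G F : ClCfg V Y → ℝ) (hG : ClLoc (S.A \ cuComp S J z) (S.cout (cuComp S J z)) G) (hF : ClLoc (cuComp S J z) (S.cin (cuComp S J z)) F) :
    S.N (K.Holds S) (fun ω => if cuInvO S ∅ ω O = J ∧ ClCut S s (cuComp S J z) ω then G ω * F ω else 0) =
      S.N (K.Holds S) (fun ω => if cuInvO S ∅ ω O = J ∧ ClCut S s (cuComp S J z) ω then G ω else 0) *
        cuE S s (cuComp S J z) ((K.res S (cuComp S J z)).Holds S) F := by
  refine amso_search S hS K hKe O J (cuComp S J z) (Finset.filter_subset _ _) (fun v hv hv' => ?_) s G F hG hF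
  exact (Finset.mem_filter.1 hv').2.1.2 (Finset.mem_coe.2 hv)

/-! ### T1, T2: a cut as a legal history (helper46; prefix `amo_`) -/

/-- cells not inside `I` -/
def ClSys.cno (S : ClSys V Y) (I : Finset V) : Finset Y := S.C.filter (fun y => ¬ S.sv y ⊆ I)

/-- add to a history: the cells of `X` are open of sign `s`, their sites are pinned -/
def ClCon.opn (K : ClCon V Y) (S : ClSys V Y) (s : Bool) (X : Finset Y) : ClCon V Y :=
  if s then { K with Bp := K.Bp ∪ X.biUnion S.sv, Op := K.Op ∪ X }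
  else { K with Bm := K.Bm ∪ X.biUnion S.sv, Om := K.Om ∪ X }

theorem amo_tau_pos (S : ClSys V Y) (ω : ClCfg V Y) (y : Y) : clTau S ω y = 1 ↔ (y ∈ ω.O ∧ S.sv y ⊆ ω.B) := by
  unfold clTau; split_ifs <;> simp_all

theorem amo_tau_neg (S : ClSys V Y) (ω : ClCfg V Y) (y : Y) : clTau S ω y = -1 ↔ (y ∈ ω.O ∧ ¬ S.sv y ⊆ ω.B) := by
  unfold clTau; split_ifs <;> simp_all

/-- on the support of the weight, the enlarged history is the history and the event "the cells of `X` are open of sign `s`" -/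
theorem amo_holds_opn (S : ClSys V Y) (K : ClCon V Y) (s : Bool) (X : Finset Y) (hX : X ⊆ S.C) (ω : ClCfg V Y) (hw : S.wt ω ≠ 0) :
    (K.opn S s X).Holds S ω ↔ (K.Holds S ω ∧ ∀ y ∈ X, clTau S ω y = clSg s) := by
  cases s
  · simp only [ClCon.opn, ClCon.Holds, clSg, Bool.false_eq_true, if_false, Finset.mem_union, Finset.mem_biUnion]
    constructor
    · rintro ⟨h1, h2, h3, h4, h5, h6, h7, h8⟩
      exact ⟨⟨h1, fun v hv => h2 v (Or.inl hv), h3, h4, fun y hy => h5 y (Or.inl hy), h6, h7, h8⟩,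
        fun y hy => h5 y (Or.inr hy)⟩
    · rintro ⟨⟨h1, h2, h3, h4, h5, h6, h7, h8⟩, h9⟩
      refine ⟨h1, ?_, h3, h4, ?_, h6, h7, h8⟩
      · rintro v (hv | ⟨y, hy, hv⟩)
        · exact h2 v hv
        · have h10 := (amo_tau_neg S ω y).1 (h9 y hy)
          rcases dcu_open_const S hw (hX hy) h10.1 with h | h
          · exact absurd h h10.2
          · exact h v hv
      · rintro y (hy | hy)
        · exact h5 y hy
        · exact h9 y hy
  · simp only [ClCon.opn, ClCon.Holds, clSg, if_true, Finset.mem_union]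
    constructor
    · rintro ⟨h1, h2, h3, h4, h5, h6, h7, h8⟩
      exact ⟨⟨Finset.union_subset_left h1, h2, h3, fun y hy => h4 y (Or.inl hy), h5, h6, h7, h8⟩,
        fun y hy => h4 y (Or.inr hy)⟩
    · rintro ⟨⟨h1, h2, h3, h4, h5, h6, h7, h8⟩, h9⟩
      refine ⟨Finset.union_subset h1 ?_, h2, h3, ?_, h5, h6, h7, h8⟩
      · intro v hv
        obtain ⟨y, hy, hv⟩ := Finset.mem_biUnion.1 hv
        exact ((amo_tau_pos S ω y).1 (h9 y hy)).2 hv
      · rintro y (hy | hy)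
        · exact h4 y hy
        · exact h9 y hy

theorem amo_N_opn (S : ClSys V Y) (K : ClCon V Y) (s : Bool) (X : Finset Y) (hX : X ⊆ S.C) (G : ClCfg V Y → ℝ) :
    S.N ((K.opn S s X).Holds S) G = S.N (fun ω => K.Holds S ω ∧ ∀ y ∈ X, clTau S ω y = clSg s) G :=
  dcu_N_congr' S G fun ω _ hw => amo_holds_opn S K s X hX ω hw

theorem amo_legal_opn (S : ClSys V Y) (K : ClCon V Y) (hK : ClLegal S K) (s : Bool) (X : Finset Y) :
    ClLegal S (K.opn S s X) := by
  obtain ⟨h1, h2, h3, h4⟩ := hK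
  cases s
  · simp only [ClCon.opn, Bool.false_eq_true, if_false]
    refine ⟨h1, h2, fun y hy hy' v hv => ?_, h4⟩
    simp only [Finset.mem_union, Finset.mem_biUnion] at hy' ⊢
    by_cases hX : y ∈ X
    · exact Or.inr (Or.inr ⟨y, hX, hv⟩)
    · have := h3 y hy (by simp only [Finset.mem_union]; tauto) hv
      rcases Finset.mem_union.1 this with h | h
      · exact Or.inl h
      · exact Or.inr (Or.inl h)
  · simp only [ClCon.opn, if_true]
    refine ⟨h1, h2, fun y hy hy' v hv => ?_, h4⟩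
    simp only [Finset.mem_union, Finset.mem_biUnion] at hy' ⊢
    by_cases hX : y ∈ X
    · exact Or.inl (Or.inr ⟨y, hX, hv⟩)
    · have := h3 y hy (by simp only [Finset.mem_union]; tauto) hv
      rcases Finset.mem_union.1 this with h | h
      · exact Or.inl (Or.inl h)
      · exact Or.inr h

/-- order of the enlarged histories -/
theorem amo_le_opn (S : ClSys V Y) {K₁ K₂ : ClCon V Y} (hle : ClLe K₁ K₂) (s₁ s₂ : Bool) (X₁ X₂ : Finset Y)
    (h1 : s₁ = true → s₂ = true ∧ X₁ ⊆ X₂) (h2 : s₂ = false → s₁ = false ∧ X₂ ⊆ X₁) :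
    ClLe (K₁.opn S s₁ X₁) (K₂.opn S s₂ X₂) := by
  obtain ⟨a1, a2, a3, a4, a5, a6, a7⟩ := hle
  cases s₁ <;> cases s₂
  · have hX := (h2 rfl).2
    simp only [ClCon.opn, Bool.false_eq_true, if_false]
    refine ⟨a1, Finset.union_subset_union a2 (Finset.biUnion_subset_biUnion_of_subset_left _ hX), a3,
      Finset.union_subset_union a4 hX, a5, a6.trans ?_, a7⟩
    intro y hy
    simp only [Finset.mem_union] at hy ⊢
    tauto
  · simp only [ClCon.opn, Bool.false_eq_true, if_false, if_true]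
    refine ⟨a1.trans Finset.subset_union_left, a2.trans Finset.subset_union_left, a3.trans Finset.subset_union_left,
      a4.trans Finset.subset_union_left, a5.trans ?_, a6.trans ?_, a7⟩
    · intro y hy
      simp only [Finset.mem_union] at hy ⊢
      tauto
    · intro y hy
      simp only [Finset.mem_union] at hy ⊢
      tauto
  · exact absurd (h1 rfl).1 (by simp)
  · have hX := (h1 rfl).2
    simp only [ClCon.opn, if_true]
    refine ⟨Finset.union_subset_union a1 (Finset.biUnion_subset_biUnion_of_subset_left _ hX), a2,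
      Finset.union_subset_union a3 hX, a4, a5.trans ?_, a6, a7⟩
    intro y hy
    simp only [Finset.mem_union] at hy ⊢
    tauto

theorem amo_le_refl (K : ClCon V Y) : ClLe K K :=
  ⟨Finset.Subset.refl _, Finset.Subset.refl _, Finset.Subset.refl _, Finset.Subset.refl _, Finset.subset_union_left,
    Finset.subset_union_left, rfl⟩

theorem amo_tau_loc (S : ClSys V Y) {I : Finset V} {T' : Finset Y} {ω ω' : ClCfg V Y} (hB : ω.B ∩ I = ω'.B ∩ I)
    (hO : ω.O ∩ T' = ω'.O ∩ T') {y : Y} (hy : y ∈ T') (hs : S.sv y ⊆ I) : clTau S ω y = clTau S ω' y := by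
  have h1 : y ∈ ω.O ↔ y ∈ ω'.O := dcu_mem_of_inter hO hy
  have h2 : S.sv y ⊆ ω.B ↔ S.sv y ⊆ ω'.B :=
    ⟨fun h v hv => (dcu_mem_of_inter hB (hs hv)).1 (h hv), fun h v hv => (dcu_mem_of_inter hB (hs hv)).2 (h hv)⟩
  unfold clTau
  simp only [h1, h2]

/-- a history inside `I` is an event inside `I` -/
theorem amo_holds_loc (S : ClSys V Y) (K : ClCon V Y) (I : Finset V) (hKI : K.In S I) : ClLocP I (S.cin I) (K.Holds S) := by
  intro ω ω' hB hW hO
  refine dde_holds_congr S K ω ω' ?_ ?_ ?_ ?_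
  · rintro v (hv | hv)
    · exact dcu_mem_of_inter hB (hKI.bp hv)
    · exact dcu_mem_of_inter hB (hKI.bm hv)
  · rintro v (hv | hv)
    · exact dcu_mem_of_inter hW (hKI.wp hv)
    · exact dcu_mem_of_inter hW (hKI.wm hv)
  · intro e he
    exact ⟨dcu_mem_of_inter hW (hKI.eq e he).1, dcu_mem_of_inter hW (hKI.eq e he).2⟩
  · rintro y (hy | hy | hy)
    · exact amo_tau_loc S hB hO (hKI.op hy) (Finset.mem_filter.1 (hKI.op hy)).2
    · exact amo_tau_loc S hB hO (hKI.om hy) (Finset.mem_filter.1 (hKI.om hy)).2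
    · exact amo_tau_loc S hB hO (hKI.cl hy) (Finset.mem_filter.1 (hKI.cl hy)).2

theorem amo_in_mono (S : ClSys V Y) {K : ClCon V Y} {I I' : Finset V} (h : I ⊆ I') (hKI : K.In S I) : K.In S I' :=
  ⟨hKI.bp.trans h, hKI.bm.trans h, fun e he => ⟨h (hKI.eq e he).1, h (hKI.eq e he).2⟩, hKI.op.trans (dde_cin_mono S h),
    hKI.om.trans (dde_cin_mono S h), hKI.cl.trans (dde_cin_mono S h), hKI.wp.trans h, hKI.wm.trans h⟩

theorem amo_cout_sub (S : ClSys V Y) (hS : ClOk S) (I : Finset V) {y : Y} (hy : y ∈ S.cout I) : S.sv y ⊆ S.A \ I := by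
  obtain ⟨hC, h1, h2⟩ := Finset.mem_filter.1 hy
  intro v hv
  refine Finset.mem_sdiff.2 ⟨hS.sub y hC hv, fun hvI => h2 ⟨⟨v, hv, hvI⟩, ?_⟩⟩
  by_contra hn
  simp only [not_exists, not_and, not_not] at hn
  exact h1 hn

theorem amo_cx_sub (S : ClSys V Y) (I : Finset V) : S.cx I ⊆ S.C := Finset.filter_subset _ _
theorem amo_cout_subC (S : ClSys V Y) (I : Finset V) : S.cout I ⊆ S.C := Finset.filter_subset _ _
theorem amo_cno_sub (S : ClSys V Y) (I : Finset V) : S.cno I ⊆ S.C := Finset.filter_subset _ _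

/-- the cells not inside `I` are the crossing cells and the outer cells -/
theorem amo_cno_eq (S : ClSys V Y) (I : Finset V) : S.cno I = S.cx I ∪ S.cout I := by
  ext y
  simp only [ClSys.cno, ClSys.cx, ClSys.cout, Finset.mem_union, Finset.mem_filter]
  constructor
  · rintro ⟨h1, h2⟩
    by_cases hc : clCross S I y
    · exact Or.inl ⟨h1, hc⟩
    · exact Or.inr ⟨h1, h2, hc⟩
  · rintro (⟨h1, h2⟩ | ⟨h1, h2, _⟩)
    · obtain ⟨_, v, hv, hvI⟩ := h2
      exact ⟨h1, fun h => hvI (h hv)⟩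
    · exact ⟨h1, h2⟩

/-- the cells crossing a larger set are not inside `I` -/
theorem amo_cx_cno (S : ClSys V Y) {I I' : Finset V} (h : I ⊆ I') : S.cx I' ⊆ S.cno I := by
  intro y hy
  obtain ⟨h1, _, v, hv, hvI⟩ := Finset.mem_filter.1 hy
  exact Finset.mem_filter.2 ⟨h1, fun hh => hvI (h (hh hv))⟩

/-- **the cut formula for histories**: cut of sign `s` around `I`, history `K` inside, some outer cells open of sign `s` -/
theorem amo_cut (S : ClSys V Y) (hS : ClOk S) (s : Bool) (I : Finset V) (hI : I ⊆ S.A) (K : ClCon V Y) (hKI : K.In S I)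
    (Xo : Finset Y) (hXo : Xo ⊆ S.cout I) (F : ClCfg V Y → ℝ) (hF : ClLoc I (S.cin I) F) :
    S.N ((K.opn S s (S.cx I ∪ Xo)).Holds S) F = S.Z ((K.opn S s (S.cx I ∪ Xo)).Holds S) * cuE S s I (K.Holds S) F := by
  have hout : ClLocP (S.A \ I) (S.cout I) (fun ω => ∀ y ∈ Xo, clTau S ω y = clSg s) := by
    intro ω ω' hB hW hO
    exact forall₂_congr fun y hy => by rw [amo_tau_loc S hB hO (hXo hy) (amo_cout_sub S hS I (hXo hy))]
  have h := am_cut S hS s I hI (K.Holds S) (fun ω => ∀ y ∈ Xo, clTau S ω y = clSg s) (amo_holds_loc S K I hKI) hout F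
    (fun _ => 1) hF (fun _ _ _ _ _ => rfl)
  simp only [one_mul] at h
  have hX : S.cx I ∪ Xo ⊆ S.C := Finset.union_subset (amo_cx_sub S I) (hXo.trans (amo_cout_subC S I))
  have he : (fun ω => K.Holds S ω ∧ ∀ y ∈ S.cx I ∪ Xo, clTau S ω y = clSg s)
      = (fun ω => ClCut S s I ω ∧ K.Holds S ω ∧ ∀ y ∈ Xo, clTau S ω y = clSg s) := by
    funext ω
    apply propext
    unfold ClCut ClSys.cx
    simp only [Finset.mem_union, Finset.mem_filter]
    constructor
    · rintro ⟨h1, h2⟩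
      exact ⟨fun y hy hc => h2 y (Or.inl ⟨hy, hc⟩), h1, fun y hy => h2 y (Or.inr hy)⟩
    · rintro ⟨h1, h2, h3⟩
      refine ⟨h2, ?_⟩
      rintro y (⟨hy, hc⟩ | hy)
      · exact h1 y hy hc
      · exact h3 y hy
  rw [dis_Z_eq, amo_N_opn S K s _ hX, amo_N_opn S K s _ hX, he]
  exact h

/-- more open cells: a smaller partition function -/
theorem amo_Z_anti (S : ClSys V Y) (hS : ClOk S) (K : ClCon V Y) (s : Bool) {X X' : Finset Y} (hXX : X ⊆ X') (hX' : X' ⊆ S.C) :
    S.Z ((K.opn S s X').Holds S) ≤ S.Z ((K.opn S s X).Holds S) := by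
  classical
  rw [dis_Z_eq, dis_Z_eq, amo_N_opn S K s _ hX', amo_N_opn S K s _ (hXX.trans hX')]
  unfold ClSys.N
  refine Finset.sum_le_sum fun ω _ => ?_
  have hw := dis_wt_nonneg S hS ω
  by_cases h : K.Holds S ω ∧ ∀ y ∈ X', clTau S ω y = clSg s
  · rw [if_pos h, if_pos ⟨h.1, fun y hy => h.2 y (hXX hy)⟩]
  · rw [if_neg h]
    split_ifs
    · simpa using hw
    · exact le_rfl

theorem amo_inn_ok (S : ClSys V Y) (hS : ClOk S) (I : Finset V) : ClOk (S.inn I) :=
  ⟨fun y hy => (Finset.mem_filter.1 hy).2, fun y hy => hS.ne y (Finset.mem_filter.1 hy).1,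
    fun y hy => hS.q0 y (Finset.mem_filter.1 hy).1, fun y hy => hS.q1 y (Finset.mem_filter.1 hy).1⟩

theorem amo_Z_mono (S : ClSys V Y) (hS : ClOk S) {L L' : ClCfg V Y → Prop} (h : ∀ ω, L ω → L' ω) : S.Z L ≤ S.Z L' := by
  classical
  unfold ClSys.Z
  refine Finset.sum_le_sum fun ω _ => ?_
  have hw := dis_wt_nonneg S hS ω
  by_cases hL : L ω
  · rw [if_pos hL, if_pos (h ω hL)]
  · rw [if_neg hL]
    split_ifs
    · exact hw
    · exact le_rfl

theorem amo_Z_ge (S : ClSys V Y) (hS : ClOk S) (L : ClCfg V Y → Prop) {ω : ClCfg V Y} (hmem : ω ∈ S.cfgs) (hL : L ω) :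
    S.wt ω ≤ S.Z L := by
  classical
  unfold ClSys.Z
  refine le_trans (le_of_eq ?_) (Finset.single_le_sum (fun ω _ => ?_) hmem)
  · rw [if_pos hL]
  · split_ifs
    · exact dis_wt_nonneg S hS ω
    · exact le_rfl

theorem amo_const_congr {P P' t : Finset V} (h : ∀ v ∈ t, (v ∈ P ↔ v ∈ P')) : ClConst P t ↔ ClConst P' t := by
  unfold ClConst
  constructor
  · rintro (h1 | h1)
    · exact Or.inl fun v hv => (h v hv).1 (h1 hv)
    · exact Or.inr fun v hv hh => h1 v hv ((h v hv).2 hh)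
  · rintro (h1 | h1)
    · exact Or.inl fun v hv => (h v hv).2 (h1 hv)
    · exact Or.inr fun v hv hh => h1 v hv ((h v hv).1 hh)

theorem amo_feas_aux (S : ClSys V Y) (hS : ClOk S) (s : Bool) (I : Finset V) (hI : I ⊆ S.A) (Kin : ClCfg V Y → Prop)
    (hin : ClLocP I (S.cin I) Kin) (ω : ClCfg V Y) (hω : ω ∈ (S.inn I).cfgs) (hw : 0 < (S.inn I).wt ω) (hK : Kin ω)
    (Bn : Finset V) (ha : Bn ⊆ S.A) (hb : Bn ∩ I = ω.B ∩ I) (hc : ∀ y ∈ S.cno I, ClSgn s Bn (S.sv y)) :
    0 < S.Z (fun ω => Kin ω ∧ ∀ y ∈ S.cno I, clTau S ω y = clSg s) := by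
  classical
  rw [cl_mem_cfgs] at hω
  obtain ⟨hωB, hωW, hωO⟩ := hω
  have hωB' : ω.B ⊆ I := hωB
  have hωW' : ω.W ⊆ I := hωW
  have hωO' : ω.O ⊆ S.cin I := hωO
  set ω' : ClCfg V Y := ⟨Bn, ω.W, ω.O ∪ S.cno I⟩ with hω'
  have hmem : ω' ∈ S.cfgs := (cl_mem_cfgs S ω').2 ⟨ha, hωW'.trans hI,
    Finset.union_subset (hωO'.trans (Finset.filter_subset _ _)) (amo_cno_sub S I)⟩
  have hO : ω.O ∩ S.cin I = ω'.O ∩ S.cin I := by
    ext y
    simp only [hω', Finset.mem_inter, Finset.mem_union, ClSys.cno, ClSys.cin, Finset.mem_filter]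
    tauto
  have hK' : Kin ω' := (hin ω ω' hb.symm rfl hO).1 hK
  have hτ : ∀ y ∈ S.cno I, clTau S ω' y = clSg s := by
    intro y hy
    have h1 : y ∈ ω'.O := Finset.mem_union_right _ hy
    have h2 := hc y hy
    cases s
    · rw [dcu_sgn_false] at h2
      obtain ⟨v, hv⟩ := hS.ne y (amo_cno_sub S I hy)
      exact (amo_tau_neg S ω' y).2 ⟨h1, fun hh => h2 v hv (hh hv)⟩
    · rw [dcu_sgn_true] at h2
      exact (amo_tau_pos S ω' y).2 ⟨h1, h2⟩
  have hwt : 0 < S.wt ω' := by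
    refine Finset.prod_pos fun y hy => ?_
    by_cases hs : S.sv y ⊆ I
    · have hy' : y ∈ S.cin I := Finset.mem_filter.2 ⟨hy, hs⟩
      have h1 : clCellW (S.q y) (ClConst ω'.B (S.sv y)) (ClConst ω'.W (S.sv y)) (y ∈ ω'.O)
          = clCellW (S.q y) (ClConst ω.B (S.sv y)) (ClConst ω.W (S.sv y)) (y ∈ ω.O) :=
        dcu_cellW_congr _ (amo_const_congr fun v hv => dcu_mem_of_inter hb (hs hv)) Iff.rfl
          (dcu_mem_of_inter hO hy').symm
      rw [h1]
      have h2 : clCellW (S.q y) (ClConst ω.B (S.sv y)) (ClConst ω.W (S.sv y)) (y ∈ ω.O) ≠ 0 :=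
        (Finset.prod_ne_zero_iff.1 hw.ne') y hy'
      exact lt_of_le_of_ne (dis_cellW_nonneg (hS.q0 y hy).le (hS.q1 y hy) _ _ _) h2.symm
    · have hy' : y ∈ S.cno I := Finset.mem_filter.2 ⟨hy, hs⟩
      have h1 : y ∈ ω'.O := Finset.mem_union_right _ hy'
      have h2 : ClConst ω'.B (S.sv y) := dcu_sgn_const (hc y hy')
      unfold clCellW
      rw [if_pos h1, if_pos h2]
      exact hS.q0 y hy
  exact lt_of_lt_of_le hwt (amo_Z_ge S hS _ hmem ⟨hK', hτ⟩)

/-- **FEASIBILITY GOES UP**, strong form: with ALL the cells not inside `I` open of sign `s` -/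
theorem amo_feas (S : ClSys V Y) (hS : ClOk S) (s : Bool) (I : Finset V) (hI : I ⊆ S.A) (Kin : ClCfg V Y → Prop)
    (hin : ClLocP I (S.cin I) Kin) (hf : 0 < (S.inn I).Z (fun ω => CuPin s (cuLay S I) ω ∧ Kin ω)) :
    0 < S.Z (fun ω => Kin ω ∧ ∀ y ∈ S.cno I, clTau S ω y = clSg s) := by
  classical
  obtain ⟨ω, hω, hc, hpos⟩ : ∃ ω ∈ (S.inn I).cfgs, (CuPin s (cuLay S I) ω ∧ Kin ω) ∧ 0 < (S.inn I).wt ω := by
    by_contra hn
    unfold ClSys.Z at hf
    refine absurd hf (not_lt.2 (Finset.sum_nonpos fun ω hω => ?_))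
    split_ifs with h
    · exact not_lt.1 fun hp => hn ⟨ω, hω, h, hp⟩
    · exact le_rfl
  obtain ⟨hpin, hK⟩ := hc
  have hωB : ω.B ⊆ I := ((cl_mem_cfgs _ _).1 hω).1
  have hlay : ∀ y ∈ S.cno I, ∀ v ∈ S.sv y, v ∈ I → v ∈ cuLay S I := by
    intro y hy v hv hvI
    obtain ⟨h1, h2⟩ := Finset.mem_filter.1 hy
    exact Finset.mem_filter.2 ⟨hvI, y, h1, hv, h2⟩
  cases s
  · refine amo_feas_aux S hS false I hI Kin hin ω hω hpos hK ω.B (hωB.trans hI) rfl fun y hy => ?_
    rw [dcu_sgn_false]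
    intro v hv hvB
    have := (hpin v (hlay y hy v hv (hωB hvB))).1 hvB
    exact absurd this (by simp)
  · refine amo_feas_aux S hS true I hI Kin hin ω hω hpos hK (ω.B ∪ (S.A \ I))
      (Finset.union_subset (hωB.trans hI) Finset.sdiff_subset) ?_ fun y hy => ?_
    · ext v
      simp only [Finset.mem_inter, Finset.mem_union, Finset.mem_sdiff]
      tauto
    · rw [dcu_sgn_true]
      intro v hv
      by_cases hvI : v ∈ I
      · exact Finset.mem_union_left _ ((hpin v (hlay y hy v hv hvI)).2 rfl)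
      · exact Finset.mem_union_right _ (Finset.mem_sdiff.2 ⟨hS.sub y (amo_cno_sub S I hy) hv, hvI⟩)

theorem amo_feas_opn (S : ClSys V Y) (hS : ClOk S) (s : Bool) (I : Finset V) (hI : I ⊆ S.A) (K : ClCon V Y) (hKI : K.In S I)
    (hf : 0 < (S.inn I).Z (fun ω => CuPin s (cuLay S I) ω ∧ K.Holds S ω)) {X : Finset Y} (hX : X ⊆ S.cno I) :
    0 < S.Z ((K.opn S s X).Holds S) := by
  refine lt_of_lt_of_le ?_ (amo_Z_anti S hS K s hX (amo_cno_sub S I))
  rw [dis_Z_eq, amo_N_opn S K s _ (amo_cno_sub S I), ← dis_Z_eq]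
  exact amo_feas S hS s I hI _ (amo_holds_loc S K I hKI) hf

theorem amo_Z_nonneg (S : ClSys V Y) (hS : ClOk S) (L : ClCfg V Y → Prop) : 0 ≤ S.Z L := by
  classical
  unfold ClSys.Z
  refine Finset.sum_nonneg fun ω _ => ?_
  split_ifs
  · exact dis_wt_nonneg S hS ω
  · exact le_rfl

theorem amo_cuE_zero (S : ClSys V Y) (s : Bool) (I : Finset V) (K : ClCfg V Y → Prop)
    (hz : (S.inn I).Z (fun ω => CuPin s (cuLay S I) ω ∧ K ω) = 0) (F : ClCfg V Y → ℝ) : cuE S s I K F = 0 := by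
  unfold cuE
  rw [dis_E_eq, hz, div_zero]

theorem amo_cx_cno' (S : ClSys V Y) (I : Finset V) : S.cx I ∪ ∅ ⊆ S.cno I := by
  rw [Finset.union_empty]
  exact amo_cx_cno S (Finset.Subset.refl I)

/-- feasibility goes up: a feasible cut law is feasible in the ambient system.   OWNER 22. -/
theorem am_feas_amb (S : ClSys V Y) (hS : ClOk S) (s : Bool) (I : Finset V) (hI : I ⊆ S.A) (Kin : ClCfg V Y → Prop) (hin : ClLocP I (S.cin I) Kin)
    (hf : 0 < (S.inn I).Z (fun ω => CuPin s (cuLay S I) ω ∧ Kin ω)) : 0 < S.Z (fun ω => ClCut S s I ω ∧ Kin ω ∧ True) := by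
  refine lt_of_lt_of_le (amo_feas S hS s I hI Kin hin hf) (amo_Z_mono S hS fun ω h => ⟨fun y hy hc => ?_, h.1, trivial⟩)
  exact h.2 y (amo_cx_cno S (Finset.Subset.refl I) (Finset.mem_filter.2 ⟨hy, hc⟩))

/-- **T1, FKG** in a cut law under a legal history.   OWNER 22.   PLAN: `am_amb`, `{ClCut} ∧ K` is a legal history of `S`, `dis_assoc`. -/
theorem am_fkg (S : ClSys V Y) (hS : ClDisk S) (s : Bool) (I : Finset V) (hI : I ⊆ S.A) (K : ClCon V Y) (hK : ClLegal S K) (hKI : K.In S I)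
    (F G : ClCfg V Y → ℝ) (hF : ClMono S F) (hG : ClMono S G) (hFl : ClLoc I (S.cin I) F) (hGl : ClLoc I (S.cin I) G) :
    cuE S s I (K.Holds S) F * cuE S s I (K.Holds S) G ≤ cuE S s I (K.Holds S) (fun ω => F ω * G ω) := by
  have hO : ClOk S := hS.toClOk
  by_cases hz : (S.inn I).Z (fun ω => CuPin s (cuLay S I) ω ∧ K.Holds S ω) = 0
  · rw [amo_cuE_zero S s I _ hz, amo_cuE_zero S s I _ hz, amo_cuE_zero S s I _ hz, mul_zero]
  have hf : 0 < (S.inn I).Z (fun ω => CuPin s (cuLay S I) ω ∧ K.Holds S ω) :=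
    lt_of_le_of_ne (amo_Z_nonneg _ (amo_inn_ok S hO I) _) (Ne.symm hz)
  have hZ := amo_feas_opn S hO s I hI K hKI hf (amo_cx_cno' S I)
  have e1 := amo_cut S hO s I hI K hKI ∅ (Finset.empty_subset _) F hFl
  have e2 := amo_cut S hO s I hI K hKI ∅ (Finset.empty_subset _) G hGl
  have e3 := amo_cut S hO s I hI K hKI ∅ (Finset.empty_subset _) _ (dde_loc_mul hFl hGl)
  have h := dis_assoc S hS _ (amo_legal_opn S K hK s (S.cx I ∪ ∅)) F G hF hG
  rw [e1, e2, e3] at h
  refine le_of_mul_le_mul_left ?_ (mul_pos hZ hZ)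
  linarith

/-- **T2, ORDER** in the boundary condition and in the history.   OWNER 22. -/
theorem am_order (S : ClSys V Y) (hS : ClDisk S) (s₁ s₂ : Bool) (hs : s₁ ≤ s₂) (I : Finset V) (hI : I ⊆ S.A) (K₁ K₂ : ClCon V Y)
    (h₁ : ClLegal S K₁) (h₂ : ClLegal S K₂) (hI₁ : K₁.In S I) (hI₂ : K₂.In S I) (hle : ClLe K₁ K₂)
    (f₁ : 0 < (S.inn I).Z (fun ω => CuPin s₁ (cuLay S I) ω ∧ K₁.Holds S ω)) (f₂ : 0 < (S.inn I).Z (fun ω => CuPin s₂ (cuLay S I) ω ∧ K₂.Holds S ω))
    (F : ClCfg V Y → ℝ) (hF : ClMono S F) (hFl : ClLoc I (S.cin I) F) :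
    cuE S s₁ I (K₁.Holds S) F ≤ cuE S s₂ I (K₂.Holds S) F := by
  have hO : ClOk S := hS.toClOk
  have hZ₁ := amo_feas_opn S hO s₁ I hI K₁ hI₁ f₁ (amo_cx_cno' S I)
  have hZ₂ := amo_feas_opn S hO s₂ I hI K₂ hI₂ f₂ (amo_cx_cno' S I)
  have e1 := amo_cut S hO s₁ I hI K₁ hI₁ ∅ (Finset.empty_subset _) F hFl
  have e2 := amo_cut S hO s₂ I hI K₂ hI₂ ∅ (Finset.empty_subset _) F hFl
  have h := dis_order S hS _ _ (amo_legal_opn S K₁ h₁ s₁ (S.cx I ∪ ∅)) (amo_legal_opn S K₂ h₂ s₂ (S.cx I ∪ ∅))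
    (amo_le_opn S hle s₁ s₂ _ _ (fun h => ⟨cs_b_le_t hs h, Finset.Subset.refl _⟩)
      (fun h => ⟨cs_b_le_f hs h, Finset.Subset.refl _⟩)) F hF
  rw [e1, e2] at h
  refine le_of_mul_le_mul_left ?_ (mul_pos hZ₁ hZ₂)
  linarith

/-- **T2, DOMAIN MONOTONICITY, plus**: `P^+_I ≥ P^+_I'` on `I ⊆ I'`.   OWNER 22.   PLAN: in `S`: `Cut_+ I'` ≤ `Cut_+ I' ∧ Cut_+ I` (extra open-plus cells above), the second is `P^+_I` by `am_amb`. -/
theorem am_dom_plus (S : ClSys V Y) (hS : ClDisk S) (I I' : Finset V) (hII : I ⊆ I') (hI : I' ⊆ S.A) (K : ClCon V Y) (hK : ClLegal S K) (hKI : K.In S I)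
    (hf : 0 < (S.inn I).Z (fun ω => CuPin true (cuLay S I) ω ∧ K.Holds S ω)) (F : ClCfg V Y → ℝ) (hF : ClMono S F) (hFl : ClLoc I (S.cin I) F) :
    cuE S true I' (K.Holds S) F ≤ cuE S true I (K.Holds S) F := by
  have hO : ClOk S := hS.toClOk
  have hsub : S.cx I' ∪ ∅ ⊆ S.cx I ∪ S.cout I := by
    rw [Finset.union_empty, ← amo_cno_eq]
    exact amo_cx_cno S hII
  have hZ₂ := amo_feas_opn S hO true I (hII.trans hI) K hKI hf (amo_cno_eq S I).symm.subset
  have hZ₁ : 0 < S.Z ((K.opn S true (S.cx I' ∪ ∅)).Holds S) :=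
    lt_of_lt_of_le hZ₂ (amo_Z_anti S hO K true hsub (by rw [← amo_cno_eq]; exact amo_cno_sub S I))
  have e1 := amo_cut S hO true I' hI K (amo_in_mono S hII hKI) ∅ (Finset.empty_subset _) F
    (dde_loc_mono hII (dde_cin_mono S hII) hFl)
  have e2 := amo_cut S hO true I (hII.trans hI) K hKI (S.cout I) (Finset.Subset.refl _) F hFl
  have h := dis_order S hS _ _ (amo_legal_opn S K hK true (S.cx I' ∪ ∅)) (amo_legal_opn S K hK true (S.cx I ∪ S.cout I))
    (amo_le_opn S (amo_le_refl K) true true _ _ (fun _ => ⟨rfl, hsub⟩) (fun h => absurd h (by simp))) F hF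
  rw [e1, e2] at h
  refine le_of_mul_le_mul_left ?_ (mul_pos hZ₁ hZ₂)
  linarith

/-- **T2, DOMAIN MONOTONICITY, minus**: `P^-_I ≤ P^-_I'` on `I ⊆ I'`.   OWNER 22. -/
theorem am_dom_minus (S : ClSys V Y) (hS : ClDisk S) (I I' : Finset V) (hII : I ⊆ I') (hI : I' ⊆ S.A) (K : ClCon V Y) (hK : ClLegal S K) (hKI : K.In S I)
    (hf : 0 < (S.inn I).Z (fun ω => CuPin false (cuLay S I) ω ∧ K.Holds S ω)) (F : ClCfg V Y → ℝ) (hF : ClMono S F) (hFl : ClLoc I (S.cin I) F) :
    cuE S false I (K.Holds S) F ≤ cuE S false I' (K.Holds S) F := by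
  have hO : ClOk S := hS.toClOk
  have hsub : S.cx I' ∪ ∅ ⊆ S.cx I ∪ S.cout I := by
    rw [Finset.union_empty, ← amo_cno_eq]
    exact amo_cx_cno S hII
  have hZ₂ := amo_feas_opn S hO false I (hII.trans hI) K hKI hf (amo_cno_eq S I).symm.subset
  have hZ₁ : 0 < S.Z ((K.opn S false (S.cx I' ∪ ∅)).Holds S) :=
    lt_of_lt_of_le hZ₂ (amo_Z_anti S hO K false hsub (by rw [← amo_cno_eq]; exact amo_cno_sub S I))
  have e1 := amo_cut S hO false I' hI K (amo_in_mono S hII hKI) ∅ (Finset.empty_subset _) F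
    (dde_loc_mono hII (dde_cin_mono S hII) hFl)
  have e2 := amo_cut S hO false I (hII.trans hI) K hKI (S.cout I) (Finset.Subset.refl _) F hFl
  have h := dis_order S hS _ _ (amo_legal_opn S K hK false (S.cx I ∪ S.cout I)) (amo_legal_opn S K hK false (S.cx I' ∪ ∅))
    (amo_le_opn S (amo_le_refl K) false false _ _ (fun h => absurd h (by simp)) (fun _ => ⟨rfl, hsub⟩)) F hF
  rw [e1, e2] at h
  refine le_of_mul_le_mul_left ?_ (mul_pos hZ₁ hZ₂)
  linarith

/-- an equality `W u = W v` which the order theorem can digest in BOTH laws: an edge of a cell, or a tie along a chain of common plus pins, or along a chain of common minus pins -/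
def AmTie (S : ClSys V Y) (K₁ K₂ : ClCon V Y) (e : V × V) : Prop :=
  (∃ y ∈ S.C, e.1 ∈ S.sv y ∧ e.2 ∈ S.sv y) ∨ TscR S.gr (↑K₁.Bp : Set V) e.1 e.2 ∨ TscR S.gr (↑K₂.Bm : Set V) e.1 e.2

/-- order of histories with UNEQUAL equalities (`K₁` below): extra ties below only along chains of common plus pins, extra ties above only along chains of common minus pins -/
structure AmLe (S : ClSys V Y) (K₁ K₂ : ClCon V Y) : Prop where
  bp : K₁.Bp ⊆ K₂.Bp
  bm : K₂.Bm ⊆ K₁.Bm
  op : K₁.Op ⊆ K₂.Op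
  om : K₂.Om ⊆ K₁.Om
  cl1 : K₁.Cl ⊆ K₂.Cl ∪ K₂.Op
  cl2 : K₂.Cl ⊆ K₁.Cl ∪ K₁.Om
  eq_dn : ∀ e ∈ K₁.Eq, (e ∈ K₂.Eq ∧ AmTie S K₁ K₂ e) ∨ TscR S.gr (↑K₁.Bp : Set V) e.1 e.2
  eq_up : ∀ e ∈ K₂.Eq, (e ∈ K₁.Eq ∧ AmTie S K₁ K₂ e) ∨ TscR S.gr (↑K₂.Bm : Set V) e.1 e.2

/-- legality without the clause on the equalities -/
structure AmLegal (S : ClSys V Y) (K : ClCon V Y) : Prop where
  wp : K.Wp = ∅
  wm : K.Wm = ∅
  full : ∀ y ∈ S.C, y ∈ K.Op ∪ K.Om ∪ K.Cl → S.sv y ⊆ K.Bp ∪ K.Bm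

/-- **T4, PLUS-EQUALITIES AND VIRTUAL TIES** (TEX[annulus:plus-equalities]; 187 A.4(ii); 278 D1): a tie along common plus pins LOWERS, a tie along common minus pins RAISES.
PROVED by 160 (`Cell/VirtAd.lean`: `cva_order`; FKG version `cva_assoc`).   OWNER: adapter 46 + engine 160 (`CsHist.Le` has `E_dn`, `E_up`; a virtual tie = an edge cell of parameter `1`, `Split b` for the `b` which satisfy the pins). -/
theorem am_order_eq (S : ClSys V Y) (hS : ClDisk S) (K₁ K₂ : ClCon V Y) (h₁ : AmLegal S K₁) (h₂ : AmLegal S K₂) (hle : AmLe S K₁ K₂)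
    (F : ClCfg V Y → ℝ) (hF : ClMono S F) :
    S.N (K₁.Holds S) F * S.Z (K₂.Holds S) ≤ S.Z (K₁.Holds S) * S.N (K₂.Holds S) F :=
  cva_order S hS K₁ K₂ h₁.wp h₁.wm h₁.full h₂.wp h₂.wm h₂.full hle.bp hle.bm hle.op hle.om hle.cl1 hle.cl2 hle.eq_dn hle.eq_up F hF

/-! ### T5: symmetries -/

/-- helper of T5: membership in an image under a map which is injective on `A` -/
theorem am_t5_mem {V' : Type} [DecidableEq V'] {φ : V → V'} {A B : Finset V} (hi : Set.InjOn φ ↑A) (hB : B ⊆ A) {v : V} (hv : v ∈ A) :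
    φ v ∈ B.image φ ↔ v ∈ B := by
  rw [Finset.mem_image]
  constructor
  · rintro ⟨u, hu, e⟩
    have := hi (Finset.mem_coe.2 (hB hu)) (Finset.mem_coe.2 hv) e
    exact this ▸ hu
  · intro h
    exact ⟨v, h, rfl⟩

theorem am_t5_sub {V' : Type} [DecidableEq V'] {φ : V → V'} {A B s : Finset V} (hi : Set.InjOn φ ↑A) (hB : B ⊆ A) (hs : s ⊆ A) :
    s.image φ ⊆ B.image φ ↔ s ⊆ B := by
  constructor
  · intro h v hv
    exact (am_t5_mem hi hB (hs hv)).1 (h (Finset.mem_image_of_mem φ hv))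
  · exact Finset.image_subset_image

theorem am_t5_const {V' : Type} [DecidableEq V'] {φ : V → V'} {A B s : Finset V} (hi : Set.InjOn φ ↑A) (hB : B ⊆ A) (hs : s ⊆ A) :
    ClConst (B.image φ) (s.image φ) ↔ ClConst B s := by
  unfold ClConst
  rw [am_t5_sub hi hB hs]
  refine or_congr Iff.rfl ?_
  constructor
  · intro h v hv hvB
    exact h (φ v) (Finset.mem_image_of_mem φ hv) (Finset.mem_image_of_mem φ hvB)
  · intro h w hw
    obtain ⟨v, hv, rfl⟩ := Finset.mem_image.1 hw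
    rw [am_t5_mem hi hB (hs hv)]
    exact h v hv

theorem am_t5_inj {V' : Type} [DecidableEq V'] {φ : V → V'} {A B B' : Finset V} (hi : Set.InjOn φ ↑A) (hB : B ⊆ A) (hB' : B' ⊆ A)
    (e : B.image φ = B'.image φ) : B = B' :=
  Finset.Subset.antisymm ((am_t5_sub hi hB' hB).1 e.subset) ((am_t5_sub hi hB hB').1 e.symm.subset)

theorem am_t5_cellW (q : ℝ) {bc wc o bc' wc' o' : Prop} [Decidable bc] [Decidable wc] [Decidable o] [Decidable bc'] [Decidable wc'] [Decidable o']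
    (h1 : bc ↔ bc') (h2 : wc ↔ wc') (h3 : o ↔ o') : clCellW q bc wc o = clCellW q bc' wc' o' := by
  unfold clCellW
  by_cases a : bc' <;> by_cases b : wc' <;> by_cases c : o' <;> simp [h1, h2, h3, a, b, c]

/-- the weight is transported by an isomorphism -/
theorem am_iso_wt {V' Y' : Type} [DecidableEq V'] [DecidableEq Y'] (S : ClSys V Y) (S' : ClSys V' Y') (φ : V → V') (ψ : Y → Y') (h : CuIso S S' φ ψ)
    (hS : ∀ y ∈ S.C, S.sv y ⊆ S.A) (ω : ClCfg V Y) (hω : ω ∈ S.cfgs) : S'.wt (ω.map φ ψ) = S.wt ω := by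
  obtain ⟨hB, hW, hO⟩ := (cl_mem_cfgs S ω).1 hω
  unfold ClSys.wt
  rw [← h.C, Finset.prod_image (fun a ha b hb e => h.injY (Finset.mem_coe.2 ha) (Finset.mem_coe.2 hb) e)]
  refine Finset.prod_congr rfl fun y hy => ?_
  rw [h.q y hy, h.sv y hy]
  exact am_t5_cellW _ (am_t5_const h.injV hB (hS y hy)) (am_t5_const h.injV hW (hS y hy)) (am_t5_mem h.injY hO hy)

/-- **T5, ISOMORPHISMS**.   PROVED by 43. -/
theorem am_iso {V' Y' : Type} [DecidableEq V'] [DecidableEq Y'] (S : ClSys V Y) (S' : ClSys V' Y') (φ : V → V') (ψ : Y → Y') (h : CuIso S S' φ ψ)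
    (hS : ∀ y ∈ S.C, S.sv y ⊆ S.A) (K' : ClCfg V' Y' → Prop) (F' : ClCfg V' Y' → ℝ) :
    S'.N K' F' = S.N (fun ω => K' (ω.map φ ψ)) (fun ω => F' (ω.map φ ψ)) := by
  classical
  unfold ClSys.N
  symm
  refine Finset.sum_bij (fun ω _ => ω.map φ ψ) ?_ ?_ ?_ ?_
  · intro ω hω
    obtain ⟨hB, hW, hO⟩ := (cl_mem_cfgs S ω).1 hω
    rw [cl_mem_cfgs, ← h.A, ← h.C]
    exact ⟨Finset.image_subset_image hB, Finset.image_subset_image hW, Finset.image_subset_image hO⟩
  · intro ω hω ω' hω' e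
    obtain ⟨hB, hW, hO⟩ := (cl_mem_cfgs S ω).1 hω
    obtain ⟨hB', hW', hO'⟩ := (cl_mem_cfgs S ω').1 hω'
    have e1 : ω.B.image φ = ω'.B.image φ := congrArg ClCfg.B e
    have e2 : ω.W.image φ = ω'.W.image φ := congrArg ClCfg.W e
    have e3 : ω.O.image ψ = ω'.O.image ψ := congrArg ClCfg.O e
    exact ClCfg.ext (am_t5_inj h.injV hB hB' e1) (am_t5_inj h.injV hW hW' e2) (am_t5_inj h.injY hO hO' e3)
  · intro ω' hω'
    obtain ⟨hB, hW, hO⟩ := (cl_mem_cfgs S' ω').1 hω'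
    rw [← h.A] at hB hW
    rw [← h.C] at hO
    obtain ⟨B, hB1, hB2⟩ := Finset.subset_image_iff.1 hB
    obtain ⟨W, hW1, hW2⟩ := Finset.subset_image_iff.1 hW
    obtain ⟨O, hO1, hO2⟩ := Finset.subset_image_iff.1 hO
    refine ⟨⟨B, W, O⟩, (cl_mem_cfgs S _).2 ⟨hB1, hW1, hO1⟩, ?_⟩
    exact ClCfg.ext hB2 hW2 hO2
  · intro ω hω
    rw [am_iso_wt S S' φ ψ h hS ω hω]

/-- statuses are transported by an isomorphism -/
theorem am_iso_tau {V' Y' : Type} [DecidableEq V'] [DecidableEq Y'] (S : ClSys V Y) (S' : ClSys V' Y') (φ : V → V') (ψ : Y → Y') (h : CuIso S S' φ ψ)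
    (hS : ∀ y ∈ S.C, S.sv y ⊆ S.A) (ω : ClCfg V Y) (hω : ω ∈ S.cfgs) (y : Y) (hy : y ∈ S.C) : clTau S' (ω.map φ ψ) (ψ y) = clTau S ω y := by
  obtain ⟨hB, hW, hO⟩ := (cl_mem_cfgs S ω).1 hω
  have h1 : ψ y ∈ (ω.map φ ψ).O ↔ y ∈ ω.O := am_t5_mem h.injY hO hy
  have h2 : S'.sv (ψ y) ⊆ (ω.map φ ψ).B ↔ S.sv y ⊆ ω.B := by
    rw [h.sv y hy]
    exact am_t5_sub h.injV hB (hS y hy)
  unfold clTau
  simp only [h1, h2]

/-- helper: constancy is not changed by the flip -/
theorem am_t5_flip {A B s : Finset V} (hs : s ⊆ A) : (s ⊆ A \ B ↔ ∀ v ∈ s, v ∉ B) ∧ ((∀ v ∈ s, v ∉ A \ B) ↔ s ⊆ B) := by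
  constructor
  · constructor
    · intro h v hv
      exact (Finset.mem_sdiff.1 (h hv)).2
    · intro h v hv
      exact Finset.mem_sdiff.2 ⟨hs hv, h v hv⟩
  · constructor
    · intro h v hv
      by_contra hvB
      exact h v hv (Finset.mem_sdiff.2 ⟨hs hv, hvB⟩)
    · intro h v hv hv'
      exact (Finset.mem_sdiff.1 hv').2 (h hv)

/-- flip of the first spin: the weight -/
theorem am_flipB_wt (S : ClSys V Y) (hS : ∀ y ∈ S.C, S.sv y ⊆ S.A) (ω : ClCfg V Y) : S.wt (ω.flipB S.A) = S.wt ω := by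
  unfold ClSys.wt
  refine Finset.prod_congr rfl fun y hy => ?_
  refine am_t5_cellW _ ?_ Iff.rfl Iff.rfl
  obtain ⟨h1, h2⟩ := am_t5_flip (B := ω.B) (hS y hy)
  show ClConst (S.A \ ω.B) (S.sv y) ↔ ClConst ω.B (S.sv y)
  unfold ClConst
  rw [h1, h2]
  exact or_comm

/-- flip of the first spin: the statuses change sign (on the support) -/
theorem am_flipB_tau (S : ClSys V Y) (hS : ClOk S) (ω : ClCfg V Y) (hω : S.wt ω ≠ 0) (y : Y) (hy : y ∈ S.C) :
    clTau S (ω.flipB S.A) y = - clTau S ω y := by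
  have hf : clCellW (S.q y) (ClConst ω.B (S.sv y)) (ClConst ω.W (S.sv y)) (y ∈ ω.O) ≠ 0 := by
    unfold ClSys.wt at hω
    exact (Finset.prod_ne_zero_iff.1 hω) y hy
  obtain ⟨h1, -⟩ := am_t5_flip (B := ω.B) (hS.sub y hy)
  obtain ⟨v, hv⟩ := hS.ne y hy
  unfold clTau
  show (if y ∈ ω.O then (if S.sv y ⊆ S.A \ ω.B then (1 : ℤ) else -1) else 0) = _
  by_cases hO : y ∈ ω.O
  · have hc : ClConst ω.B (S.sv y) := by
      by_contra hc
      apply hf
      unfold clCellW
      rw [if_pos hO, if_neg hc]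
    rw [if_pos hO, if_pos hO]
    rcases hc with hc | hc
    · rw [if_pos hc, if_neg (fun h => (h1.1 h) v hv (hc hv))]
    · rw [if_pos (h1.2 hc), if_neg (fun h => hc v hv (h hv))]
      norm_num
  · rw [if_neg hO, if_neg hO]
    norm_num

/-- a spin and its flip are constant on the same subsets of `A` -/
theorem am_const_flip {A P s : Finset V} (hs : s ⊆ A) : ClConst (A \ P) s ↔ ClConst P s := by
  unfold ClConst
  constructor
  · rintro (h | h)
    · exact Or.inr fun v hv => (Finset.mem_sdiff.1 (h hv)).2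
    · exact Or.inl fun v hv => by
        by_contra hn
        exact h v hv (Finset.mem_sdiff.2 ⟨hs hv, hn⟩)
  · rintro (h | h)
    · exact Or.inr fun v hv hm => (Finset.mem_sdiff.1 hm).2 (h hv)
    · exact Or.inl fun v hv => Finset.mem_sdiff.2 ⟨hs hv, h v hv⟩

/-- flip of the second spin: the weight -/
theorem am_flipW_wt (S : ClSys V Y) (hS : ∀ y ∈ S.C, S.sv y ⊆ S.A) (ω : ClCfg V Y) : S.wt (ω.flipW S.A) = S.wt ω := by
  unfold ClSys.wt
  refine Finset.prod_congr rfl fun y hy => ?_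
  have e : ClConst (ω.flipW S.A).W (S.sv y) ↔ ClConst ω.W (S.sv y) := am_const_flip (hS y hy)
  show clCellW (S.q y) (ClConst ω.B (S.sv y)) (ClConst (ω.flipW S.A).W (S.sv y)) (y ∈ ω.O) = _
  unfold clCellW
  simp only [e]

/-- flip of the first spin: the sums -/
theorem am_flipB_N (S : ClSys V Y) (hS : ∀ y ∈ S.C, S.sv y ⊆ S.A) (K : ClCfg V Y → Prop) (F : ClCfg V Y → ℝ) :
    S.N K F = S.N (fun ω => K (ω.flipB S.A)) (fun ω => F (ω.flipB S.A)) := by
  classical
  unfold ClSys.N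
  symm
  refine Finset.sum_nbij' (fun ω => ω.flipB S.A) (fun ω => ω.flipB S.A) ?_ ?_ ?_ ?_ ?_
  · intro ω hω
    rw [cl_mem_cfgs] at hω ⊢
    exact ⟨Finset.sdiff_subset, hω.2.1, hω.2.2⟩
  · intro ω hω
    rw [cl_mem_cfgs] at hω ⊢
    exact ⟨Finset.sdiff_subset, hω.2.1, hω.2.2⟩
  · intro ω hω
    rw [cl_mem_cfgs] at hω
    ext1
    · exact Finset.sdiff_sdiff_eq_self hω.1
    · rfl
    · rfl
  · intro ω hω
    rw [cl_mem_cfgs] at hω
    ext1
    · exact Finset.sdiff_sdiff_eq_self hω.1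
    · rfl
    · rfl
  · intro ω _
    rw [am_flipB_wt S hS ω]

/-- flip of the second spin: the sums (`B`, `O`, hence the statuses, are not touched) -/
theorem am_flipW_N (S : ClSys V Y) (hS : ∀ y ∈ S.C, S.sv y ⊆ S.A) (K : ClCfg V Y → Prop) (F : ClCfg V Y → ℝ) :
    S.N K F = S.N (fun ω => K (ω.flipW S.A)) (fun ω => F (ω.flipW S.A)) := by
  classical
  unfold ClSys.N
  symm
  refine Finset.sum_nbij' (fun ω => ω.flipW S.A) (fun ω => ω.flipW S.A) ?_ ?_ ?_ ?_ ?_
  · intro ω hω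
    rw [cl_mem_cfgs] at hω ⊢
    exact ⟨hω.1, Finset.sdiff_subset, hω.2.2⟩
  · intro ω hω
    rw [cl_mem_cfgs] at hω ⊢
    exact ⟨hω.1, Finset.sdiff_subset, hω.2.2⟩
  · intro ω hω
    rw [cl_mem_cfgs] at hω
    ext1
    · rfl
    · exact Finset.sdiff_sdiff_eq_self hω.2.1
    · rfl
  · intro ω hω
    rw [cl_mem_cfgs] at hω
    ext1
    · rfl
    · exact Finset.sdiff_sdiff_eq_self hω.2.1
    · rfl
  · intro ω _
    rw [am_flipW_wt S hS ω]

/-! ### T6: the two-colour law -/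

theorem am_cellW2_swap (q : ℝ) (bc wc ob ow : Prop) [Decidable bc] [Decidable wc] [Decidable ob] [Decidable ow] :
    clCellW2 q wc bc ow ob = clCellW2 q bc wc ob ow := by
  unfold clCellW2
  split_ifs <;> rfl

theorem am_cellW2_sum (q : ℝ) (bc wc ob : Prop) [Decidable bc] [Decidable wc] [Decidable ob] :
    clCellW2 q bc wc ob True + clCellW2 q bc wc ob False = clCellW q bc wc ob := by
  unfold clCellW2 clCellW
  simp only [if_true, if_false]
  split_ifs <;> ring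

theorem am_mem_cfgs2 (S : ClSys V Y) (ω : ClCfg2 V Y) : ω ∈ S.cfgs2 ↔ ω.B ⊆ S.A ∧ ω.W ⊆ S.A ∧ ω.OB ⊆ S.C ∧ ω.OW ⊆ S.C := by
  unfold ClSys.cfgs2
  simp only [Finset.mem_map, Finset.mem_product, Finset.mem_powerset, Prod.exists]
  constructor
  · rintro ⟨a, b, c, d, h, rfl⟩; exact h
  · intro h; exact ⟨ω.B, ω.W, ω.OB, ω.OW, h, rfl⟩

theorem am_sum_cfgs2 (S : ClSys V Y) (f : ClCfg2 V Y → ℝ) :
    ∑ ω ∈ S.cfgs2, f ω = ∑ B ∈ S.A.powerset, ∑ W ∈ S.A.powerset, ∑ OB ∈ S.C.powerset, ∑ OW ∈ S.C.powerset, f ⟨B, W, OB, OW⟩ := by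
  unfold ClSys.cfgs2
  rw [Finset.sum_map, Finset.sum_product]
  refine Finset.sum_congr rfl fun B _ => ?_
  rw [Finset.sum_product]
  refine Finset.sum_congr rfl fun W _ => ?_
  rw [Finset.sum_product]
  rfl

/-- sum over the subsets of a product of factors which see the subset through membership only -/
theorem am_sum_powerset_prod {α : Type} [DecidableEq α] (X : Finset α) (h : α → Prop → ℝ) :
    ∑ O ∈ X.powerset, ∏ y ∈ X, h y (y ∈ O) = ∏ y ∈ X, (h y True + h y False) := by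
  rw [Finset.prod_add]
  refine Finset.sum_congr rfl fun O hO => ?_
  have hO' := Finset.mem_powerset.1 hO
  rw [← Finset.prod_sdiff hO', mul_comm]
  congr 1
  · exact Finset.prod_congr rfl fun y hy => by rw [eq_true hy]
  · exact Finset.prod_congr rfl fun y hy => by rw [eq_false (Finset.mem_sdiff.1 hy).2]

theorem am_cellW2_nonneg {q : ℝ} (h0 : 1 / 2 ≤ q) (h1 : q ≤ 1) (bc wc ob ow : Prop) [Decidable bc] [Decidable wc] [Decidable ob] [Decidable ow] :
    0 ≤ clCellW2 q bc wc ob ow := by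
  unfold clCellW2
  split_ifs <;> linarith

/-- colour swap preserves the two-colour weight -/
theorem am_swap_wt2 (S : ClSys V Y) (ω : ClCfg2 V Y) : S.wt2 ω.swap = S.wt2 ω := by
  unfold ClSys.wt2 ClCfg2.swap
  exact Finset.prod_congr rfl fun y _ => am_cellW2_swap _ _ _ _ _

/-- colour swap: the sums -/
theorem am_swap_N2 (S : ClSys V Y) (K : ClCfg2 V Y → Prop) (F : ClCfg2 V Y → ℝ) :
    S.N2 K F = S.N2 (fun ω => K ω.swap) (fun ω => F ω.swap) := by
  classical
  unfold ClSys.N2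
  refine Finset.sum_nbij' (fun ω => ω.swap) (fun ω => ω.swap) ?_ ?_ (fun _ _ => rfl) (fun _ _ => rfl) ?_
  · intro ω hω
    rw [am_mem_cfgs2] at hω ⊢
    exact ⟨hω.2.1, hω.1, hω.2.2.2, hω.2.2.1⟩
  · intro ω hω
    rw [am_mem_cfgs2] at hω ⊢
    exact ⟨hω.2.1, hω.1, hω.2.2.2, hω.2.2.1⟩
  · intro ω _
    have e : ω.swap.swap = ω := rfl
    beta_reduce
    rw [e, am_swap_wt2]

/-- the marginal on the statuses of the first colour is the cell law -/
theorem am_wt2_fst (S : ClSys V Y) (B W : Finset V) (OB : Finset Y) (hOB : OB ⊆ S.C) :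
    ∑ OW ∈ S.C.powerset, S.wt2 ⟨B, W, OB, OW⟩ = S.wt ⟨B, W, OB⟩ := by
  classical
  unfold ClSys.wt2 ClSys.wt
  have h := am_sum_powerset_prod S.C (fun y p => clCellW2 (S.q y) (ClConst B (S.sv y)) (ClConst W (S.sv y)) (y ∈ OB) p)
  rw [Finset.prod_congr rfl fun y _ => (am_cellW2_sum (S.q y) (ClConst B (S.sv y)) (ClConst W (S.sv y)) (y ∈ OB)).symm]
  convert h using 4

/-- the marginal on the statuses of the second colour is the cell law with the colours exchanged -/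
theorem am_wt2_snd (S : ClSys V Y) (B W : Finset V) (OW : Finset Y) (hOW : OW ⊆ S.C) :
    ∑ OB ∈ S.C.powerset, S.wt2 ⟨B, W, OB, OW⟩ = S.wt ⟨W, B, OW⟩ := by
  rw [← am_wt2_fst S W B OW hOW]
  exact Finset.sum_congr rfl fun OB _ => (am_swap_wt2 S ⟨W, B, OW, OB⟩)

/-- observables of the first colour -/
theorem am_N2_fst (S : ClSys V Y) (K : ClCfg V Y → Prop) (F : ClCfg V Y → ℝ) : S.N2 (fun ω => K ω.fst) (fun ω => F ω.fst) = S.N K F := by
  classical
  unfold ClSys.N2 ClSys.N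
  rw [am_sum_cfgs2, cl_sum_cfgs]
  refine Finset.sum_congr rfl fun B _ => Finset.sum_congr rfl fun W _ => Finset.sum_congr rfl fun OB hOB => ?_
  by_cases h : K ⟨B, W, OB⟩
  · rw [if_pos h, ← am_wt2_fst S B W OB (Finset.mem_powerset.1 hOB), Finset.sum_mul]
    exact Finset.sum_congr rfl fun OW _ => if_pos h
  · rw [if_neg h]
    exact Finset.sum_eq_zero fun OW _ => if_neg h

/-- observables of the second colour -/
theorem am_N2_snd (S : ClSys V Y) (K : ClCfg V Y → Prop) (F : ClCfg V Y → ℝ) : S.N2 (fun ω => K ω.snd) (fun ω => F ω.snd) = S.N K F := by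
  rw [am_swap_N2, ← am_N2_fst]
  rfl

/-- the two-colour weights are nonnegative for `q ≥ 1/2` (here `x² ≥ 1/2` enters) -/
theorem am_wt2_nonneg (S : ClSys V Y) (h0 : ∀ y ∈ S.C, 1 / 2 ≤ S.q y) (h1 : ∀ y ∈ S.C, S.q y ≤ 1) (ω : ClCfg2 V Y) : 0 ≤ S.wt2 ω :=
  Finset.prod_nonneg fun y hy => am_cellW2_nonneg (h0 y hy) (h1 y hy) _ _ _ _

/-- **T6**: on the support every cell is open for at least one colour; an open cell has its own spin constant; a cell on which one spin is not constant is open for the other colour only -/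
theorem am_wt2_cover (S : ClSys V Y) (ω : ClCfg2 V Y) (hω : S.wt2 ω ≠ 0) (y : Y) (hy : y ∈ S.C) :
    (y ∈ ω.OB ∨ y ∈ ω.OW) ∧ (y ∈ ω.OB → ClConst ω.B (S.sv y)) ∧ (y ∈ ω.OW → ClConst ω.W (S.sv y)) ∧
      (¬ ClConst ω.W (S.sv y) → y ∈ ω.OB ∧ y ∉ ω.OW) ∧ (¬ ClConst ω.B (S.sv y) → y ∈ ω.OW ∧ y ∉ ω.OB) := by
  have h := (Finset.prod_ne_zero_iff.1 hω) y hy
  unfold clCellW2 at h
  by_cases h1 : ClConst ω.B (S.sv y) <;> by_cases h2 : ClConst ω.W (S.sv y) <;> by_cases h3 : y ∈ ω.OB <;> by_cases h4 : y ∈ ω.OW <;>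
    simp [h1, h2, h3, h4] at h ⊢

/-! ### the master formula with both statuses: tools -/

/-- the subsets of `C` = (subsets of `C \ X`) x (subsets of `X`) -/
theorem am_sum_powerset_split {α : Type} [DecidableEq α] (C X : Finset α) (hX : X ⊆ C) (f : Finset α → ℝ) :
    ∑ O ∈ C.powerset, f O = ∑ O₁ ∈ (C \ X).powerset, ∑ O₂ ∈ X.powerset, f (O₁ ∪ O₂) := by
  rw [← Finset.sum_product']
  refine Finset.sum_nbij' (fun O => (O \ X, O ∩ X)) (fun p => p.1 ∪ p.2) ?_ ?_ ?_ ?_ ?_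
  · intro O hO
    rw [Finset.mem_powerset] at hO
    exact Finset.mem_product.2 ⟨Finset.mem_powerset.2 (Finset.sdiff_subset_sdiff hO le_rfl), Finset.mem_powerset.2 Finset.inter_subset_right⟩
  · intro p hp
    obtain ⟨h1, h2⟩ := Finset.mem_product.1 hp
    rw [Finset.mem_powerset] at h1 h2 ⊢
    exact Finset.union_subset (h1.trans Finset.sdiff_subset) (h2.trans hX)
  · intro O _
    exact Finset.sdiff_union_inter O X
  · intro p hp
    obtain ⟨h1, h2⟩ := Finset.mem_product.1 hp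
    rw [Finset.mem_powerset] at h1 h2
    refine Prod.ext ?_ ?_
    · ext v
      have a1 := @h1 v
      have a2 := @h2 v
      simp only [Finset.mem_sdiff, Finset.mem_union] at a1 ⊢
      tauto
    · ext v
      have a1 := @h1 v
      have a2 := @h2 v
      simp only [Finset.mem_sdiff, Finset.mem_union, Finset.mem_inter] at a1 ⊢
      tauto
  · intro O _
    simp only [Finset.sdiff_union_inter]

/-- the table of the cells of `X` may be replaced by any table with the same marginal, if the observable does not read the statuses in `X` -/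
theorem am_powerset_marg {α : Type} [DecidableEq α] (C X : Finset α) (hX : X ⊆ C) (h h' : α → Prop → ℝ)
    (hh : ∀ y ∈ X, h y True + h y False = h' y True + h' y False) (φ : Finset α → ℝ) (hφ : ∀ O, φ O = φ (O \ X)) :
    ∑ O ∈ C.powerset, (∏ y ∈ C, h y (y ∈ O)) * φ O
      = ∑ O ∈ C.powerset, ((∏ y ∈ C \ X, h y (y ∈ O)) * ∏ y ∈ X, h' y (y ∈ O)) * φ O := by
  rw [am_sum_powerset_split C X hX, am_sum_powerset_split C X hX]
  refine Finset.sum_congr rfl fun O₁ hO₁ => ?_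
  have h1 := Finset.mem_powerset.1 hO₁
  have key : ∀ k : α → Prop → ℝ, ∑ O₂ ∈ X.powerset, ((∏ y ∈ C \ X, h y (y ∈ O₁ ∪ O₂)) * ∏ y ∈ X, k y (y ∈ O₁ ∪ O₂)) * φ (O₁ ∪ O₂)
      = ((∏ y ∈ C \ X, h y (y ∈ O₁)) * ∏ y ∈ X, (k y True + k y False)) * φ O₁ := by
    intro k
    rw [← am_sum_powerset_prod X k, Finset.mul_sum, Finset.sum_mul]
    refine Finset.sum_congr rfl fun O₂ hO₂ => ?_
    have h2 := Finset.mem_powerset.1 hO₂
    have e1 : ∏ y ∈ C \ X, h y (y ∈ O₁ ∪ O₂) = ∏ y ∈ C \ X, h y (y ∈ O₁) :=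
      Finset.prod_congr rfl fun y hy => by
        have : (y ∈ O₁ ∪ O₂) = (y ∈ O₁) := propext (by
          rw [Finset.mem_union]
          exact ⟨fun hh => hh.elim id fun h3 => absurd (h2 h3) (Finset.mem_sdiff.1 hy).2, Or.inl⟩)
        rw [this]
    have e2 : ∏ y ∈ X, k y (y ∈ O₁ ∪ O₂) = ∏ y ∈ X, k y (y ∈ O₂) :=
      Finset.prod_congr rfl fun y hy => by
        have : (y ∈ O₁ ∪ O₂) = (y ∈ O₂) := propext (by
          rw [Finset.mem_union]
          exact ⟨fun hh => hh.elim (fun h3 => absurd hy (Finset.mem_sdiff.1 (h1 h3)).2) id, Or.inr⟩)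
        rw [this]
    have e3 : φ (O₁ ∪ O₂) = φ O₁ := by
      rw [hφ (O₁ ∪ O₂), hφ O₁]
      congr 1
      ext v
      have a2 := @h2 v
      simp only [Finset.mem_sdiff, Finset.mem_union]
      tauto
    rw [e1, e2, e3]
  have e0 : ∀ O₂ : Finset α, (∏ y ∈ C, h y (y ∈ O₁ ∪ O₂)) = (∏ y ∈ C \ X, h y (y ∈ O₁ ∪ O₂)) * ∏ y ∈ X, h y (y ∈ O₁ ∪ O₂) :=
    fun O₂ => (Finset.prod_sdiff hX).symm
  simp only [e0]
  rw [key h, key h', Finset.prod_congr rfl hh]


/-- restriction of a two-colour configuration to the sites `T` and the cells `T'` -/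
def amRes2 (T : Finset V) (T' : Finset Y) (ω : ClCfg2 V Y) : ClCfg2 V Y := ⟨ω.B ∩ T, ω.W ∩ T, ω.OB ∩ T', ω.OW ∩ T'⟩

/-- `η` on the sites `T` and the cells `T'`, `ω` elsewhere -/
def amMix2 (T : Finset V) (T' : Finset Y) (η ω : ClCfg2 V Y) : ClCfg2 V Y :=
  ⟨(η.B ∩ T) ∪ (ω.B \ T), (η.W ∩ T) ∪ (ω.W \ T), (η.OB ∩ T') ∪ (ω.OB \ T'), (η.OW ∩ T') ∪ (ω.OW \ T')⟩

/-- the two-colour factor of one cell -/
def amCw2 (S : ClSys V Y) (ω : ClCfg2 V Y) (y : Y) : ℝ :=
  clCellW2 (S.q y) (ClConst ω.B (S.sv y)) (ClConst ω.W (S.sv y)) (y ∈ ω.OB) (y ∈ ω.OW)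

/-- the factor of a crossing cell after the status of the second colour has been summed out (all the mass on "closed") -/
def amCx (S : ClSys V Y) (ω : ClCfg2 V Y) (y : Y) : ℝ := damCw S ω.fst y * (if y ∈ ω.OW then 0 else 1)

/-- the two-colour weight with the table of the cells of `X` replaced -/
def amWtX (S : ClSys V Y) (X : Finset Y) (ω : ClCfg2 V Y) : ℝ := (∏ y ∈ S.C \ X, amCw2 S ω y) * ∏ y ∈ X, amCx S ω y

/-- the factors of `amWtX` which do not belong to the inner system -/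
def amRw2 (S S' : ClSys V Y) (ω : ClCfg2 V Y) : ℝ :=
  (∏ y ∈ (S.C \ damX S S') \ S'.C, amCw2 S ω y) * ∏ y ∈ damX S S', amCx S ω y

/-- a two-colour observable which reads the sites of `T` and the cells of `T'` only -/
def AmIn2 (T : Finset V) (T' : Finset Y) (f : ClCfg2 V Y → ℝ) : Prop :=
  ∀ ω ω' : ClCfg2 V Y, ω.B ∩ T = ω'.B ∩ T → ω.W ∩ T = ω'.W ∩ T → ω.OB ∩ T' = ω'.OB ∩ T' → ω.OW ∩ T' = ω'.OW ∩ T' → f ω = f ω'

theorem am_cut2_eqns_cite : True := by
  have := @amRes2.eq_1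
  have := @amMix2.eq_1
  have := @amCw2.eq_1
  have := @amCx.eq_1
  have := @amWtX.eq_1
  have := @amRw2.eq_1
  have := @AmIn2.eq_1
  trivial

theorem am_wt2_eq (S : ClSys V Y) (ω : ClCfg2 V Y) : S.wt2 ω = ∏ y ∈ S.C, amCw2 S ω y := rfl

theorem am_res2_fst (T : Finset V) (T' : Finset Y) (ω : ClCfg2 V Y) : (amRes2 T T' ω).fst = damRes T T' ω.fst := rfl

theorem am_mix2_fst (T : Finset V) (T' : Finset Y) (η ω : ClCfg2 V Y) : (amMix2 T T' η ω).fst = damMix T T' η.fst ω.fst := rfl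

theorem am_res2_mem (S' : ClSys V Y) (ω : ClCfg2 V Y) : amRes2 S'.A S'.C ω ∈ S'.cfgs2 := by
  rw [am_mem_cfgs2]
  exact ⟨Finset.inter_subset_right, Finset.inter_subset_right, Finset.inter_subset_right, Finset.inter_subset_right⟩

theorem am_mix2_mem {S S' : ClSys V Y} (h : DamSub S S') {η ω : ClCfg2 V Y} (hω : ω ∈ S.cfgs2) : amMix2 S'.A S'.C η ω ∈ S.cfgs2 := by
  rw [am_mem_cfgs2] at hω ⊢
  exact ⟨Finset.union_subset (Finset.inter_subset_right.trans h.hA) (Finset.sdiff_subset.trans hω.1),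
    Finset.union_subset (Finset.inter_subset_right.trans h.hA) (Finset.sdiff_subset.trans hω.2.1),
    Finset.union_subset (Finset.inter_subset_right.trans h.hC) (Finset.sdiff_subset.trans hω.2.2.1),
    Finset.union_subset (Finset.inter_subset_right.trans h.hC) (Finset.sdiff_subset.trans hω.2.2.2)⟩

theorem am_mix2_res_mix (T : Finset V) (T' : Finset Y) (η ω : ClCfg2 V Y) : amMix2 T T' (amRes2 T T' ω) (amMix2 T T' η ω) = ω := by
  unfold amMix2 amRes2
  ext1 <;> exact dam_set1 _ _ _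

theorem am_res2_mix {S' : ClSys V Y} {η : ClCfg2 V Y} (hη : η ∈ S'.cfgs2) (ω : ClCfg2 V Y) : amRes2 S'.A S'.C (amMix2 S'.A S'.C η ω) = η := by
  rw [am_mem_cfgs2] at hη
  unfold amMix2 amRes2
  ext1
  · exact dam_set2 hη.1
  · exact dam_set2 hη.2.1
  · exact dam_set2 hη.2.2.1
  · exact dam_set2 hη.2.2.2

theorem am_in2_res {T : Finset V} {T' : Finset Y} {f : ClCfg2 V Y → ℝ} (hf : AmIn2 T T' f) (ω : ClCfg2 V Y) : f (amRes2 T T' ω) = f ω :=
  hf _ _ (dam_set3 _ _) (dam_set3 _ _) (dam_set3 _ _) (dam_set3 _ _)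

theorem am_in2_mix {T : Finset V} {T' : Finset Y} {f : ClCfg2 V Y → ℝ} (hf : AmIn2 T T' f) (η ω : ClCfg2 V Y) : f (amMix2 T T' η ω) = f η :=
  hf _ _ (dam_set4 _ _ _) (dam_set4 _ _ _) (dam_set4 _ _ _) (dam_set4 _ _ _)

theorem am_cw2_congr (S S' : ClSys V Y) (ω ω' : ClCfg2 V Y) (y : Y) (hq : S.q y = S'.q y) (hsv : S.sv y = S'.sv y)
    (hB : ∀ v ∈ S.sv y, (v ∈ ω.B ↔ v ∈ ω'.B)) (hW : ∀ v ∈ S.sv y, (v ∈ ω.W ↔ v ∈ ω'.W)) (hOB : y ∈ ω.OB ↔ y ∈ ω'.OB)
    (hOW : y ∈ ω.OW ↔ y ∈ ω'.OW) : amCw2 S ω y = amCw2 S' ω' y := by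
  unfold amCw2 clCellW2
  rw [← hsv, ← hq]
  simp only [dam_const_congr hB, dam_const_congr hW, hOB, hOW]

/-- the status of the second colour of the cells of `X` is summed out -/
theorem am_wtX_sum (S : ClSys V Y) (X : Finset Y) (hX : X ⊆ S.C) (Φ : ClCfg2 V Y → ℝ)
    (hΦ : ∀ (B W : Finset V) (OB OW : Finset Y), Φ ⟨B, W, OB, OW⟩ = Φ ⟨B, W, OB, OW \ X⟩) :
    ∑ ω ∈ S.cfgs2, S.wt2 ω * Φ ω = ∑ ω ∈ S.cfgs2, amWtX S X ω * Φ ω := by
  classical
  rw [am_sum_cfgs2, am_sum_cfgs2]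
  refine Finset.sum_congr rfl fun B _ => Finset.sum_congr rfl fun W _ => Finset.sum_congr rfl fun OB _ => ?_
  have h := am_powerset_marg S.C X hX (fun y p => clCellW2 (S.q y) (ClConst B (S.sv y)) (ClConst W (S.sv y)) (y ∈ OB) p)
    (fun y p => damCw S ⟨B, W, OB⟩ y * (if p then 0 else 1))
    (fun y _ => by
      unfold clCellW2 damCw clCellW
      simp only [if_true, if_false]
      split_ifs <;> ring)
    (fun OW => Φ ⟨B, W, OB, OW⟩) (fun OW => hΦ B W OB OW)
  unfold ClSys.wt2 amWtX amCw2 amCx ClCfg2.fst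
  convert h using 6
  rename_i O _ y _
  by_cases hx : y ∈ O <;> simp [hx]

theorem am_X_sub (S S' : ClSys V Y) : damX S S' ⊆ S.C := fun y hy => (Finset.mem_sdiff.1 (Finset.mem_filter.1 hy).1).1

theorem am_X_not (S S' : ClSys V Y) {y : Y} (hy : y ∈ damX S S') : y ∉ S'.C := (Finset.mem_sdiff.1 (Finset.mem_filter.1 hy).1).2

theorem am_wt2_res {S S' : ClSys V Y} (h : DamSub S S') (ω : ClCfg2 V Y) : ∏ y ∈ S'.C, amCw2 S ω y = S'.wt2 (amRes2 S'.A S'.C ω) := by
  rw [am_wt2_eq]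
  refine Finset.prod_congr rfl fun y hy => ?_
  refine am_cw2_congr S S' ω _ y (h.q_eq y hy).symm (h.sv_eq y hy).symm (fun v hv => ?_) (fun v hv => ?_) ?_ ?_
  · simp [amRes2, h.sv_in y hy hv]
  · simp [amRes2, h.sv_in y hy hv]
  · simp [amRes2, hy]
  · simp [amRes2, hy]

theorem am_wt2_split {S S' : ClSys V Y} (h : DamSub S S') (ω : ClCfg2 V Y) :
    S.wt2 ω = S'.wt2 (amRes2 S'.A S'.C ω) * ∏ y ∈ S.C \ S'.C, amCw2 S ω y := by
  rw [am_wt2_eq, ← am_wt2_res h, mul_comm, Finset.prod_sdiff h.hC]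

theorem am_wtX_split {S S' : ClSys V Y} (h : DamSub S S') (ω : ClCfg2 V Y) :
    amWtX S (damX S S') ω = S'.wt2 (amRes2 S'.A S'.C ω) * amRw2 S S' ω := by
  have hsub : S'.C ⊆ S.C \ damX S S' := fun y hy => Finset.mem_sdiff.2 ⟨h.hC hy, fun hX => am_X_not S S' hX hy⟩
  unfold amWtX amRw2
  rw [← am_wt2_res h, ← Finset.prod_sdiff hsub]
  ring

theorem am_rw2_mix {S S' : ClSys V Y} {s : Bool} {η ω : ClCfg2 V Y} (h1 : DamCut S (damX S S') s ω.fst)
    (h2 : DamCut S (damX S S') s (amMix2 S'.A S'.C η ω).fst) : amRw2 S S' (amMix2 S'.A S'.C η ω) = amRw2 S S' ω := by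
  unfold amRw2
  congr 1
  · refine Finset.prod_congr rfl fun y hy => ?_
    obtain ⟨hy1, hy2⟩ := Finset.mem_sdiff.1 hy
    obtain ⟨hy3, hy4⟩ := Finset.mem_sdiff.1 hy1
    have hdis : ∀ v ∈ S.sv y, v ∉ S'.A := fun v hv hv' =>
      hy4 (Finset.mem_filter.2 ⟨Finset.mem_sdiff.2 ⟨hy3, hy2⟩, ⟨v, Finset.mem_inter.2 ⟨hv, hv'⟩⟩⟩)
    refine am_cw2_congr S S _ _ y rfl rfl (fun v hv => ?_) (fun v hv => ?_) ?_ ?_
    · simp [amMix2, hdis v hv]
    · simp [amMix2, hdis v hv]
    · simp [amMix2, hy2]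
    · simp [amMix2, hy2]
  · refine Finset.prod_congr rfl fun y hy => ?_
    unfold amCx
    rw [dam_cw_cut S (h1 y hy), dam_cw_cut S (h2 y hy)]
    have : y ∈ (amMix2 S'.A S'.C η ω).OW ↔ y ∈ ω.OW := by simp [amMix2, am_X_not S S' hy]
    simp only [this]

theorem am_ev_swap2 (S S' : ClSys V Y) (s : Bool) (η ω : ClCfg2 V Y) :
    (DamCut S (damX S S') s ω.fst ∧ DamPin (damLay S S') s η.fst) ↔
      (DamCut S (damX S S') s (amMix2 S'.A S'.C η ω).fst ∧ DamPin (damLay S S') s (amRes2 S'.A S'.C ω).fst) := by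
  rw [am_mix2_fst, am_res2_fst, dam_cut_iff, dam_cut_iff, dam_cutO_mix, dam_pin_mix, dam_pin_res]
  tauto

open Classical in
/-- **SWAP, two colours** (cross-multiplied master formula; no hypothesis on the signs of the weights): `f`, `f'` read the inside, `g` reads the outside and NOT the status of the second colour of the crossing cells -/
theorem am_swap2 {S S' : ClSys V Y} (h : DamSub S S') (s : Bool) {f f' g : ClCfg2 V Y → ℝ}
    (hf : AmIn2 S'.A S'.C f) (hf' : AmIn2 S'.A S'.C f') (hg : ∀ η ω : ClCfg2 V Y, g (amMix2 S'.A S'.C η ω) = g ω)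
    (hgX : ∀ (B W : Finset V) (OB OW : Finset Y), g ⟨B, W, OB, OW⟩ = g ⟨B, W, OB, OW \ damX S S'⟩) :
    (∑ ω ∈ S.cfgs2, S.wt2 ω * (if DamCut S (damX S S') s ω.fst then g ω * f ω else 0))
        * (∑ η ∈ S'.cfgs2, S'.wt2 η * (if DamPin (damLay S S') s η.fst then f' η else 0))
      = (∑ ω ∈ S.cfgs2, S.wt2 ω * (if DamCut S (damX S S') s ω.fst then g ω * f' ω else 0))
        * (∑ η ∈ S'.cfgs2, S'.wt2 η * (if DamPin (damLay S S') s η.fst then f η else 0)) := by
  have hinX : ∀ k : ClCfg2 V Y → ℝ, AmIn2 S'.A S'.C k → ∀ (B W : Finset V) (OB OW : Finset Y),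
      k ⟨B, W, OB, OW⟩ = k ⟨B, W, OB, OW \ damX S S'⟩ := by
    intro k hk B W OB OW
    refine hk _ _ rfl rfl rfl ?_
    ext y
    simp only [Finset.mem_inter, Finset.mem_sdiff]
    exact ⟨fun hy => ⟨⟨hy.1, fun hX => am_X_not S S' hX hy.2⟩, hy.2⟩, fun hy => ⟨hy.1.1, hy.2⟩⟩
  have red : ∀ k : ClCfg2 V Y → ℝ, AmIn2 S'.A S'.C k →
      ∑ ω ∈ S.cfgs2, S.wt2 ω * (if DamCut S (damX S S') s ω.fst then g ω * k ω else 0)
        = ∑ ω ∈ S.cfgs2, amWtX S (damX S S') ω * (if DamCut S (damX S S') s ω.fst then g ω * k ω else 0) := by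
    intro k hk
    refine am_wtX_sum S _ (am_X_sub S S') _ fun B W OB OW => ?_
    rw [hgX B W OB OW, hinX k hk B W OB OW]
    rfl
  rw [red f hf, red f' hf', Finset.sum_mul_sum, Finset.sum_mul_sum, ← Finset.sum_product', ← Finset.sum_product']
  refine Finset.sum_nbij' (fun p => (amMix2 S'.A S'.C p.2 p.1, amRes2 S'.A S'.C p.1))
    (fun p => (amMix2 S'.A S'.C p.2 p.1, amRes2 S'.A S'.C p.1)) ?_ ?_ ?_ ?_ ?_
  · intro p hp
    obtain ⟨h1, _⟩ := Finset.mem_product.1 hp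
    exact Finset.mem_product.2 ⟨am_mix2_mem h h1, am_res2_mem S' _⟩
  · intro p hp
    obtain ⟨h1, _⟩ := Finset.mem_product.1 hp
    exact Finset.mem_product.2 ⟨am_mix2_mem h h1, am_res2_mem S' _⟩
  · intro p hp
    obtain ⟨_, h2⟩ := Finset.mem_product.1 hp
    exact Prod.ext (am_mix2_res_mix _ _ _ _) (am_res2_mix h2 _)
  · intro p hp
    obtain ⟨_, h2⟩ := Finset.mem_product.1 hp
    exact Prod.ext (am_mix2_res_mix _ _ _ _) (am_res2_mix h2 _)
  · rintro ⟨ω, η⟩ hp
    obtain ⟨_, h2⟩ := Finset.mem_product.1 hp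
    have hev := am_ev_swap2 S S' s η ω
    simp only
    by_cases hc : DamCut S (damX S S') s ω.fst ∧ DamPin (damLay S S') s η.fst
    · obtain ⟨c1, c2⟩ := hc
      obtain ⟨c3, c4⟩ := hev.1 ⟨c1, c2⟩
      rw [if_pos c1, if_pos c2, if_pos c3, if_pos c4, am_wtX_split h ω, am_wtX_split h (amMix2 S'.A S'.C η ω), am_res2_mix h2,
        am_rw2_mix c1 c3, am_in2_res hf, am_in2_mix hf', hg]
      ring
    · have hc' := fun hh => hc (hev.2 hh)
      have e1 : (amWtX S (damX S S') ω * (if DamCut S (damX S S') s ω.fst then g ω * f ω else 0))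
          * (S'.wt2 η * (if DamPin (damLay S S') s η.fst then f' η else 0)) = 0 := by
        by_cases c1 : DamCut S (damX S S') s ω.fst
        · rw [if_neg (fun c2 => hc ⟨c1, c2⟩), mul_zero, mul_zero]
        · rw [if_neg c1, mul_zero, zero_mul]
      have e2 : (amWtX S (damX S S') (amMix2 S'.A S'.C η ω) * (if DamCut S (damX S S') s (amMix2 S'.A S'.C η ω).fst then
            g (amMix2 S'.A S'.C η ω) * f' (amMix2 S'.A S'.C η ω) else 0))
          * (S'.wt2 (amRes2 S'.A S'.C ω) * (if DamPin (damLay S S') s (amRes2 S'.A S'.C ω).fst then f (amRes2 S'.A S'.C ω) else 0)) = 0 := by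
        by_cases c1 : DamCut S (damX S S') s (amMix2 S'.A S'.C η ω).fst
        · rw [if_neg (fun c2 => hc' ⟨c1, c2⟩), mul_zero, mul_zero]
        · rw [if_neg c1, mul_zero, zero_mul]
      rw [e1, e2]

/-- a two-colour configuration of nonzero weight has a first colour of nonzero weight -/
theorem am_wt_fst_ne (S : ClSys V Y) (hq : ∀ y ∈ S.C, S.q y ≠ 0) {ω : ClCfg2 V Y} (hw : S.wt2 ω ≠ 0) : S.wt ω.fst ≠ 0 := by
  unfold ClSys.wt2 at hw
  unfold ClSys.wt
  rw [Finset.prod_ne_zero_iff] at hw ⊢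
  intro y hy
  have h := hw y hy
  have hq' := hq y hy
  unfold clCellW2 at h
  unfold clCellW ClCfg2.fst
  by_cases h1 : ClConst ω.B (S.sv y) <;> by_cases h2 : ClConst ω.W (S.sv y) <;> by_cases h3 : y ∈ ω.OB <;> by_cases h4 : y ∈ ω.OW <;>
    simp [h1, h2, h3, h4] at h ⊢ <;> assumption

open Classical in
/-- the master formula with both statuses, cut of the first colour -/
theorem am_cut2_true (S : ClSys V Y) (hS : ClOk S) (h12 : ∀ y ∈ S.C, 1 / 2 ≤ S.q y) (s : Bool) (I : Finset V) (hI : I ⊆ S.A)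
    (Kin Kout : ClCfg2 V Y → Prop)
    (hin : ∀ ω ω' : ClCfg2 V Y, ω.B ∩ I = ω'.B ∩ I → ω.W ∩ I = ω'.W ∩ I → ω.OB ∩ S.cin I = ω'.OB ∩ S.cin I → ω.OW ∩ S.cin I = ω'.OW ∩ S.cin I → (Kin ω ↔ Kin ω'))
    (hout : ∀ ω ω' : ClCfg2 V Y, ω.B \ I = ω'.B \ I → ω.W \ I = ω'.W \ I → ω.OB ∩ S.cout I = ω'.OB ∩ S.cout I → ω.OW ∩ S.cout I = ω'.OW ∩ S.cout I → (Kout ω ↔ Kout ω'))
    (F G : ClCfg2 V Y → ℝ) (hF : CuIn2 S I F)
    (hG : ∀ ω ω' : ClCfg2 V Y, ω.B \ I = ω'.B \ I → ω.W \ I = ω'.W \ I → ω.OB ∩ S.cout I = ω'.OB ∩ S.cout I → ω.OW ∩ S.cout I = ω'.OW ∩ S.cout I → G ω = G ω') :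
    S.N2 (fun ω => ClCut S s I (ω.col true) ∧ Kin ω ∧ Kout ω) (fun ω => G ω * F ω) =
      S.N2 (fun ω => ClCut S s I (ω.col true) ∧ Kin ω ∧ Kout ω) G * cuE2 S true s I Kin F := by
  have h : DamSub S (S.inn I) := dam_inn_sub S hI
  have hC : (S.inn I).C = S.cin (S.inn I).A := rfl
  have hX : damX S (S.inn I) ⊆ S.C := am_X_sub S _
  set g : ClCfg2 V Y → ℝ := fun ω => if Kout ω then G ω else 0 with hgdef
  -- locality
  have hk : ∀ H : ClCfg2 V Y → ℝ, CuIn2 S I H → AmIn2 (S.inn I).A (S.inn I).C (fun ω => if Kin ω then H ω else 0) := by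
    intro H hH ω ω' a b c d
    have e1 : Kin ω ↔ Kin ω' := hin ω ω' a b c d
    have e2 : H ω = H ω' := hH ω ω' a b c d
    simp only [e1, e2]
  have hcc : ∀ (a b : Finset Y), ((a ∩ S.cin I) ∪ (b \ S.cin I)) ∩ S.cout I = b ∩ S.cout I := by
    intro a b
    ext y
    simp only [ClSys.cin, ClSys.cout, Finset.mem_inter, Finset.mem_union, Finset.mem_sdiff, Finset.mem_filter]
    tauto
  have hg : ∀ η ω : ClCfg2 V Y, g (amMix2 (S.inn I).A (S.inn I).C η ω) = g ω := by
    intro η ω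
    have e1 : Kout (amMix2 (S.inn I).A (S.inn I).C η ω) ↔ Kout ω := hout _ _ (dam_set5 _ _ _) (dam_set5 _ _ _) (hcc _ _) (hcc _ _)
    have e2 : G (amMix2 (S.inn I).A (S.inn I).C η ω) = G ω := hG _ _ (dam_set5 _ _ _) (dam_set5 _ _ _) (hcc _ _) (hcc _ _)
    simp only [hgdef, e1, e2]
  have hxc : ∀ OW : Finset Y, OW ∩ S.cout I = (OW \ damX S (S.inn I)) ∩ S.cout I := by
    intro OW
    ext y
    simp only [Finset.mem_inter, Finset.mem_sdiff]
    refine ⟨fun hy => ⟨⟨hy.1, fun hyX => ?_⟩, hy.2⟩, fun hy => ⟨hy.1.1, hy.2⟩⟩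
    exact ((am_mem_cout S I y).1 hy.2).2.2 ((dam_X_cross hC y).1 hyX).2
  have hgX : ∀ (B W : Finset V) (OB OW : Finset Y), g ⟨B, W, OB, OW⟩ = g ⟨B, W, OB, OW \ damX S (S.inn I)⟩ := by
    intro B W OB OW
    have e1 : Kout ⟨B, W, OB, OW⟩ ↔ Kout ⟨B, W, OB, OW \ damX S (S.inn I)⟩ := hout _ _ rfl rfl rfl (hxc OW)
    have e2 : G ⟨B, W, OB, OW⟩ = G ⟨B, W, OB, OW \ damX S (S.inn I)⟩ := hG _ _ rfl rfl rfl (hxc OW)
    simp only [hgdef, e1, e2]
  -- the sums
  have eA : ∀ H : ClCfg2 V Y → ℝ, S.N2 (fun ω => ClCut S s I (ω.col true) ∧ Kin ω ∧ Kout ω) (fun ω => G ω * H ω)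
      = ∑ ω ∈ S.cfgs2, S.wt2 ω * (if DamCut S (damX S (S.inn I)) s ω.fst then g ω * (if Kin ω then H ω else 0) else 0) := by
    intro H
    unfold ClSys.N2
    refine Finset.sum_congr rfl fun ω _ => ?_
    by_cases hw : S.wt2 ω = 0
    · simp [hw]
    · have e : ClCut S s I (ω.col true) ↔ DamCut S (damX S (S.inn I)) s ω.fst := by
        rw [← dam_cut_tau hX (fun y hy => hS.ne y (hX hy)) s (am_wt_fst_ne S (fun y hy => (hS.q0 y hy).ne') hw), ← dam_cut_X hC]
        rfl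
      simp only [e, hgdef]
      by_cases c1 : DamCut S (damX S (S.inn I)) s ω.fst <;> by_cases c2 : Kin ω <;> by_cases c3 : Kout ω <;> simp [c1, c2, c3]
  have eM : ∀ H : ClCfg2 V Y → ℝ, (S.inn I).N2 (fun ω => CuPin s (cuLay S I) (ω.col true) ∧ Kin ω) H
      = ∑ η ∈ (S.inn I).cfgs2, (S.inn I).wt2 η * (if DamPin (damLay S (S.inn I)) s η.fst then (if Kin η then H η else 0) else 0) := by
    intro H
    unfold ClSys.N2
    refine Finset.sum_congr rfl fun η _ => ?_
    have e : CuPin s (cuLay S I) (η.col true) ↔ DamPin (damLay S (S.inn I)) s η.fst := by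
      rw [am_lay_dam]
      rfl
    simp only [e]
    by_cases c1 : DamPin (damLay S (S.inn I)) s η.fst <;> by_cases c2 : Kin η <;> simp [c1, c2]
  have hsw := am_swap2 h s (hk F hF) (hk (fun _ => 1) (fun _ _ _ _ _ _ => rfl)) hg hgX
  rw [← eA F, ← eA (fun _ => 1), ← eM F, ← eM (fun _ => 1)] at hsw
  simp only [mul_one] at hsw
  unfold cuE2 ClSys.E2 ClSys.Z2
  by_cases h0 : (S.inn I).N2 (fun ω => CuPin s (cuLay S I) (ω.col true) ∧ Kin ω) (fun _ => 1) = 0
  · rw [h0, div_zero, mul_zero, eA F]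
    rw [eM] at h0
    have hnn : ∀ η ∈ (S.inn I).cfgs2,
        0 ≤ (S.inn I).wt2 η * (if DamPin (damLay S (S.inn I)) s η.fst then (if Kin η then (1 : ℝ) else 0) else 0) := by
      intro η _
      refine mul_nonneg (am_wt2_nonneg (S.inn I) (fun y hy => h12 y (h.hC hy)) (fun y hy => hS.q1 y (h.hC hy)) η) ?_
      split_ifs <;> norm_num
    have hz := (Finset.sum_eq_zero_iff_of_nonneg hnn).1 h0
    refine Finset.sum_eq_zero fun ω _ => ?_
    by_cases c1 : DamCut S (damX S (S.inn I)) s ω.fst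
    · by_cases c2 : Kin ω
      · have h3 := hz _ (am_res2_mem (S.inn I) ω)
        have c3 : DamPin (damLay S (S.inn I)) s (amRes2 (S.inn I).A (S.inn I).C ω).fst := by
          rw [am_res2_fst, dam_pin_res]
          exact ((dam_cut_iff S (S.inn I) s ω.fst).1 c1).2
        have c4 : Kin (amRes2 (S.inn I).A (S.inn I).C ω) :=
          (hin _ _ (dam_set3 _ _) (dam_set3 _ _) (dam_set3 _ _) (dam_set3 _ _)).2 c2
        rw [if_pos c3, if_pos c4, mul_one] at h3
        rw [am_wt2_split h ω, h3, zero_mul, zero_mul]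
      · rw [if_pos c1, if_neg c2, mul_zero, mul_zero]
    · rw [if_neg c1, mul_zero]
  · rw [← mul_div_assoc, ← hsw, mul_div_cancel_right₀ _ h0]

/-- **MASTER PRODUCT FORMULA WITH BOTH STATUSES**: a cut of the colour `c`.   The outside observable may NOT read the statuses of the crossing cells (the status of the other colour of a crossing cell sees both sides).
`h12` (`q ≥ 1/2`, nonnegative weights) is needed: for `q < 1/2` the mass of the inner constraint can vanish by cancellation.   The cross-multiplied form without `h12` is `am_swap2`. -/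
theorem am_cut2 (S : ClSys V Y) (hS : ClOk S) (h12 : ∀ y ∈ S.C, 1 / 2 ≤ S.q y) (c s : Bool) (I : Finset V) (hI : I ⊆ S.A)
    (Kin Kout : ClCfg2 V Y → Prop)
    (hin : ∀ ω ω' : ClCfg2 V Y, ω.B ∩ I = ω'.B ∩ I → ω.W ∩ I = ω'.W ∩ I → ω.OB ∩ S.cin I = ω'.OB ∩ S.cin I → ω.OW ∩ S.cin I = ω'.OW ∩ S.cin I → (Kin ω ↔ Kin ω'))
    (hout : ∀ ω ω' : ClCfg2 V Y, ω.B \ I = ω'.B \ I → ω.W \ I = ω'.W \ I → ω.OB ∩ S.cout I = ω'.OB ∩ S.cout I → ω.OW ∩ S.cout I = ω'.OW ∩ S.cout I → (Kout ω ↔ Kout ω'))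
    (F G : ClCfg2 V Y → ℝ) (hF : CuIn2 S I F)
    (hG : ∀ ω ω' : ClCfg2 V Y, ω.B \ I = ω'.B \ I → ω.W \ I = ω'.W \ I → ω.OB ∩ S.cout I = ω'.OB ∩ S.cout I → ω.OW ∩ S.cout I = ω'.OW ∩ S.cout I → G ω = G ω') :
    S.N2 (fun ω => ClCut S s I (ω.col c) ∧ Kin ω ∧ Kout ω) (fun ω => G ω * F ω) =
      S.N2 (fun ω => ClCut S s I (ω.col c) ∧ Kin ω ∧ Kout ω) G * cuE2 S c s I Kin F := by
  cases c with
  | true => exact am_cut2_true S hS h12 s I hI Kin Kout hin hout F G hF hG
  | false =>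
    have h := am_cut2_true S hS h12 s I hI (fun ω => Kin ω.swap) (fun ω => Kout ω.swap)
      (fun ω ω' a b c d => hin ω.swap ω'.swap b a d c) (fun ω ω' a b c d => hout ω.swap ω'.swap b a d c)
      (fun ω => F ω.swap) (fun ω => G ω.swap) (fun ω ω' a b c d => hF ω.swap ω'.swap b a d c)
      (fun ω ω' a b c d => hG ω.swap ω'.swap b a d c)
    rw [am_swap_N2 S _ (fun ω => G ω * F ω), am_swap_N2 S _ G]
    unfold cuE2 ClSys.E2 ClSys.Z2 at h ⊢
    rw [am_swap_N2 (S.inn I) _ F, am_swap_N2 (S.inn I) _ (fun _ => 1)]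
    exact h

end abstract

/-! ## PART B: the plane, class `Y` -/

/-- the layer of `D`: sites of `D` which lie in an up-cell not inside `D` -/
def amLay (D : Finset TV) : Finset TV :=
  D.filter (fun u => ¬ (cellV u ⊆ D ∧ cellV (u - (1, 0)) ⊆ D ∧ cellV (u - (0, 1)) ⊆ D))

/-- **`P^s_D`** (expectation): sites `D`, up-cells inside `D`, `B = s` on the layer, `W` free, extra constraint `K` -/
noncomputable def amE (x : ℝ) (s : Bool) (D : Finset TV) (K : ClCfg TV TV → Prop) (F : ClCfg TV TV → ℝ) : ℝ :=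
  (clInn x D).E (fun ω => CuPin s (amLay D) ω ∧ K ω) F

/-- **`P^s_D`** (probability) -/
noncomputable def amP (x : ℝ) (s : Bool) (D : Finset TV) (K L : ClCfg TV TV → Prop) : ℝ :=
  (clInn x D).P (fun ω => CuPin s (amLay D) ω ∧ K ω) L

/-- a finite box of sites -/
noncomputable def amBox (a b c d : ℤ) : Finset TV := Finset.Icc a b ×ˢ Finset.Icc c d

/-- the ambient boxes are disks.   OWNER 22.   PLAN: `am_disk`, `(clAmb x V).gr` = `triAdj` on `V`, `tsc_box_sc`, `tsc_box_conn`. -/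
theorem am_box_disk (x : ℝ) (hx0 : 0 < x) (hx1 : x ≤ 1) (a b c d : ℤ) (hab : a ≤ b) (hcd : c ≤ d) : ClDisk (clAmb x (amBox a b c d)) := by
  refine pcp_amb_disk_box x hx0 hx1 (a := a) (b := b) (c := c) (d := d) ?_
  ext p
  simp only [amBox, tscBox, Finset.coe_product, Finset.coe_Icc, Set.mem_prod, Set.mem_Icc, Set.mem_ofPred_eq]
  tauto

/-- every finite set has an ambient box which contains its closure -/
theorem am_box_exists (D : Finset TV) : ∃ a b c d : ℤ, a ≤ b ∧ c ≤ d ∧ latCl D ⊆ amBox a b c d := by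
  obtain ⟨M, hM⟩ : ∃ M : ℤ, 0 ≤ M ∧ ∀ p ∈ latCl D, |p.1| ≤ M ∧ |p.2| ≤ M := by
    refine ⟨∑ p ∈ latCl D, (|p.1| + |p.2|), Finset.sum_nonneg fun p _ => by positivity, fun p hp => ?_⟩
    have := Finset.single_le_sum (f := fun p : TV => |p.1| + |p.2|) (fun q _ => by positivity) hp
    exact ⟨by linarith [abs_nonneg p.2], by linarith [abs_nonneg p.1]⟩
  refine ⟨-M, M, -M, M, by linarith [hM.1], by linarith [hM.1], fun p hp => ?_⟩
  obtain ⟨h1, h2⟩ := hM.2 p hp
  simp only [amBox, Finset.mem_product, Finset.mem_Icc]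
  exact ⟨abs_le.1 h1, abs_le.1 h2⟩

/-- the sums of a system only see its sites, its cells, and `sv`, `q` on its cells -/
theorem am_sys_wt_congr {V Y : Type} [DecidableEq V] [DecidableEq Y] (S S' : ClSys V Y) (hC : S.C = S'.C) (hsv : ∀ y ∈ S.C, S.sv y = S'.sv y)
    (hq : ∀ y ∈ S.C, S.q y = S'.q y) (ω : ClCfg V Y) : S.wt ω = S'.wt ω := by
  unfold ClSys.wt
  rw [← hC]
  refine Finset.prod_congr rfl fun y hy => ?_
  rw [hsv y hy, hq y hy]

theorem am_sys_N_congr {V Y : Type} [DecidableEq V] [DecidableEq Y] (S S' : ClSys V Y) (hA : S.A = S'.A) (hC : S.C = S'.C) (hsv : ∀ y ∈ S.C, S.sv y = S'.sv y)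
    (hq : ∀ y ∈ S.C, S.q y = S'.q y) (K : ClCfg V Y → Prop) (F : ClCfg V Y → ℝ) : S.N K F = S'.N K F := by
  classical
  have hc : S.cfgs = S'.cfgs := by
    ext ω
    rw [cl_mem_cfgs, cl_mem_cfgs, hA, hC]
  unfold ClSys.N
  rw [hc]
  refine Finset.sum_congr rfl fun ω _ => ?_
  rw [am_sys_wt_congr S S' hC hsv hq ω]

theorem am_sys_E_congr {V Y : Type} [DecidableEq V] [DecidableEq Y] (S S' : ClSys V Y) (hA : S.A = S'.A) (hC : S.C = S'.C) (hsv : ∀ y ∈ S.C, S.sv y = S'.sv y)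
    (hq : ∀ y ∈ S.C, S.q y = S'.q y) (K : ClCfg V Y → Prop) (F : ClCfg V Y → ℝ) : S.E K F = S'.E K F := by
  rw [dis_E_eq, dis_E_eq, dis_Z_eq, dis_Z_eq, am_sys_N_congr S S' hA hC hsv hq, am_sys_N_congr S S' hA hC hsv hq]

theorem am_mem_cellV (u y : TV) : u ∈ cellV y ↔ y = u ∨ y = u - (1, 0) ∨ y = u - (0, 1) := by
  simp only [cellV, Finset.mem_insert, Finset.mem_singleton]
  constructor
  · rintro (rfl | rfl | rfl)
    · exact Or.inl rfl
    · exact Or.inr (Or.inl (by simp))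
    · exact Or.inr (Or.inr (by simp))
  · rintro (rfl | rfl | rfl)
    · exact Or.inl rfl
    · exact Or.inr (Or.inl (by simp))
    · exact Or.inr (Or.inr (by simp))

/-- the layer, in cell language -/
theorem am_mem_amLay (D : Finset TV) (u : TV) : u ∈ amLay D ↔ u ∈ D ∧ ∃ y, u ∈ cellV y ∧ ¬ cellV y ⊆ D := by
  unfold amLay
  rw [Finset.mem_filter]
  refine and_congr_right fun _ => ?_
  constructor
  · intro h
    by_contra hn
    push Not at hn
    exact h ⟨hn u ((am_mem_cellV u u).2 (Or.inl rfl)), hn _ ((am_mem_cellV u _).2 (Or.inr (Or.inl rfl))),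
      hn _ ((am_mem_cellV u _).2 (Or.inr (Or.inr rfl)))⟩
  · rintro ⟨y, hy, hn⟩ ⟨h1, h2, h3⟩
    rcases (am_mem_cellV u y).1 hy with rfl | rfl | rfl
    · exact hn h1
    · exact hn h2
    · exact hn h3

theorem am_pl_lay_amb (x : ℝ) {V D : Finset TV} (h : latCl D ⊆ V) : cuLay (clAmb x V) D = amLay D := by
  ext u
  rw [am_mem_lay, am_mem_amLay]
  refine and_congr_right fun hu => ?_
  have hV : ∀ y, u ∈ cellV y → cellV y ∩ V = cellV y := fun y hy => Finset.inter_eq_left.2 ((dam_cell_cl hy hu).trans h)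
  constructor
  · rintro ⟨y, _, h1, h2⟩
    have h1' : u ∈ cellV y := (Finset.mem_inter.1 h1).1
    refine ⟨y, h1', ?_⟩
    have h2' : ¬ cellV y ∩ V ⊆ D := h2
    rwa [hV y h1'] at h2'
  · rintro ⟨y, h1, h2⟩
    refine ⟨y, lat_mem_cells.2 ⟨u, h1, h (dam_sub_cl D hu)⟩, ?_, ?_⟩
    · show u ∈ cellV y ∩ V
      rw [hV y h1]; exact h1
    · show ¬ cellV y ∩ V ⊆ D
      rw [hV y h1]; exact h2

/-- the intrinsic planar law is the cut law of any ambient which contains the closure of `D`.   OWNER 22 (with 62: AMB).   PROVED by 18. -/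
theorem am_pl_eq (x : ℝ) (V D : Finset TV) (h : latCl D ⊆ V) (s : Bool) (K : ClCfg TV TV → Prop) (F : ClCfg TV TV → ℝ) :
    cuE (clAmb x V) s D K F = amE x s D K F := by
  unfold cuE amE
  rw [am_pl_lay_amb x h]
  have hs := dam_pl_sub x h
  have hC : ((clAmb x V).inn D).C = (clInn x D).C := (dam_pl_cin x h).symm
  have hA : ((clAmb x V).inn D).A = (clInn x D).A := rfl
  exact am_sys_E_congr ((clAmb x V).inn D) (clInn x D) hA hC (fun y hy => (hs.sv_eq y (hC ▸ hy)).symm)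
    (fun y hy => (hs.q_eq y (hC ▸ hy)).symm) _ _

/-! ### T1, T2 in the plane: the bridge `clInn x D` <-> `clAmb x V` (helper46; prefix `amp_`) -/

theorem amp_sub_cl (D : Finset TV) : D ⊆ latCl D := fun u hu => lat_mem_cl.2 (Or.inl hu)

theorem amp_cl_mono {D D' : Finset TV} (h : D ⊆ D') : latCl D ⊆ latCl D' := by
  intro u hu
  rcases lat_mem_cl.1 hu with h1 | ⟨v, hv, h1⟩
  · exact lat_mem_cl.2 (Or.inl (h h1))
  · exact lat_mem_cl.2 (Or.inr ⟨v, h hv, h1⟩)

theorem amp_cin_inn (x : ℝ) (D : Finset TV) : (clInn x D).cin D = latCellsIn D := by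
  ext y
  have e : y ∈ (clInn x D).cin D ↔ y ∈ latCellsIn D ∧ cellV y ∩ D ⊆ D := Finset.mem_filter
  rw [e]
  exact ⟨fun h => h.1, fun h => ⟨h, Finset.inter_subset_right⟩⟩

theorem amp_cin_amb (x : ℝ) {V D : Finset TV} (h : latCl D ⊆ V) : (clAmb x V).cin D = latCellsIn D := by
  ext y
  have e : y ∈ (clAmb x V).cin D ↔ y ∈ latCells V ∧ cellV y ∩ V ⊆ D := Finset.mem_filter
  rw [e, lat_mem_cells, lat_mem_cellsIn]
  constructor
  · rintro ⟨⟨u, hu, huV⟩, h2⟩
    have huD : u ∈ D := h2 (Finset.mem_inter.2 ⟨hu, huV⟩)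
    intro v hv
    exact h2 (Finset.mem_inter.2 ⟨hv, h (dam_cell_cl hu huD hv)⟩)
  · intro h2
    have hy : y ∈ cellV y := by simp [cellV]
    exact ⟨⟨y, hy, h (amp_sub_cl D (h2 hy))⟩, Finset.inter_subset_left.trans h2⟩

theorem amp_sv_inn (x : ℝ) {D : Finset TV} {y : TV} (hy : y ∈ latCellsIn D) : (clInn x D).sv y = cellV y :=
  Finset.inter_eq_left.2 (lat_mem_cellsIn.1 hy)

theorem amp_sv_amb (x : ℝ) {V D : Finset TV} (h : latCl D ⊆ V) {y : TV} (hy : y ∈ latCellsIn D) : (clAmb x V).sv y = cellV y :=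
  Finset.inter_eq_left.2 ((lat_mem_cellsIn.1 hy).trans ((amp_sub_cl D).trans h))

theorem amp_tau (x : ℝ) {V D : Finset TV} (h : latCl D ⊆ V) (ω : ClCfg TV TV) {y : TV} (hy : y ∈ latCellsIn D) :
    clTau (clAmb x V) ω y = clTau (clInn x D) ω y := by
  unfold clTau
  rw [amp_sv_amb x h hy, amp_sv_inn x hy]

theorem amp_cells_sub {V D : Finset TV} (h : latCl D ⊆ V) : latCellsIn D ⊆ latCells V := by
  intro y hy
  have hyy : y ∈ cellV y := by simp [cellV]
  exact lat_mem_cells.2 ⟨y, hyy, h (amp_sub_cl D (lat_mem_cellsIn.1 hy hyy))⟩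

theorem amp_in (x : ℝ) {V D : Finset TV} (h : latCl D ⊆ V) {K : ClCon TV TV} (hK : K.In (clInn x D) D) : K.In (clAmb x V) D := by
  obtain ⟨h1, h2, h3, h4, h5, h6, h7, h8⟩ := hK
  rw [amp_cin_inn] at h4 h5 h6
  refine ⟨h1, h2, h3, ?_, ?_, ?_, h7, h8⟩ <;> rw [amp_cin_amb x h] <;> assumption

theorem amp_holds (x : ℝ) {V D : Finset TV} (h : latCl D ⊆ V) {K : ClCon TV TV} (hK : K.In (clInn x D) D) :
    K.Holds (clInn x D) = K.Holds (clAmb x V) := by
  obtain ⟨h1, h2, h3, h4, h5, h6, h7, h8⟩ := hK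
  rw [amp_cin_inn] at h4 h5 h6
  funext ω
  apply propext
  unfold ClCon.Holds
  have e1 : (∀ y ∈ K.Op, clTau (clInn x D) ω y = 1) ↔ (∀ y ∈ K.Op, clTau (clAmb x V) ω y = 1) :=
    forall₂_congr fun y hy => by rw [amp_tau x h ω (h4 hy)]
  have e2 : (∀ y ∈ K.Om, clTau (clInn x D) ω y = -1) ↔ (∀ y ∈ K.Om, clTau (clAmb x V) ω y = -1) :=
    forall₂_congr fun y hy => by rw [amp_tau x h ω (h5 hy)]
  rw [e1, e2]

theorem amp_legal (x : ℝ) {V D : Finset TV} (h : latCl D ⊆ V) {K : ClCon TV TV} (hL : ClLegal (clInn x D) K)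
    (hK : K.In (clInn x D) D) : ClLegal (clAmb x V) K := by
  obtain ⟨h1, h2, h3, h4, h5, h6, h7, h8⟩ := hK
  rw [amp_cin_inn] at h4 h5 h6
  refine ⟨hL.wp, hL.wm, fun y hy hy' => ?_, fun e he => ?_⟩
  · have hyD : y ∈ latCellsIn D := by
      simp only [Finset.mem_union] at hy'
      rcases hy' with (hh | hh) | hh
      · exact h4 hh
      · exact h5 hh
      · exact h6 hh
    have := hL.full y hyD hy'
    rwa [amp_sv_inn x hyD, ← amp_sv_amb x h hyD] at this
  · obtain ⟨y, hy, e1, e2⟩ := hL.eq e he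
    have hyD : y ∈ latCellsIn D := hy
    refine ⟨y, amp_cells_sub h hyD, ?_, ?_⟩
    · rwa [amp_sv_inn x hyD, ← amp_sv_amb x h hyD] at e1
    · rwa [amp_sv_inn x hyD, ← amp_sv_amb x h hyD] at e2

theorem amp_mono (x : ℝ) {V D : Finset TV} (h : latCl D ⊆ V) {F : ClCfg TV TV → ℝ} (hF : ClMono (clInn x D) F) :
    ClMono (clAmb x V) F := by
  intro ω ω' hB hτ
  refine hF ω ω' hB fun y hy => ?_
  have hyD : y ∈ latCellsIn D := hy
  rw [← amp_tau x h ω hyD, ← amp_tau x h ω' hyD]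
  exact hτ y (amp_cells_sub h hyD)

/-- feasibility in the two languages (from `am_pl_eq` with the observable `1`) -/
theorem amp_feas (x : ℝ) {V D : Finset TV} (h : latCl D ⊆ V) (hS : ClOk (clAmb x V)) (s : Bool) (K : ClCfg TV TV → Prop)
    (hf : 0 < (clInn x D).Z (fun ω => CuPin s (amLay D) ω ∧ K ω)) :
    0 < ((clAmb x V).inn D).Z (fun ω => CuPin s (cuLay (clAmb x V) D) ω ∧ K ω) := by
  have h1 := am_pl_eq x V D h s K (fun _ => 1)
  have h2 : amE x s D K (fun _ => 1) = 1 := by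
    unfold amE
    rw [dis_E_eq, ← dis_Z_eq, div_self hf.ne']
  rw [h2] at h1
  refine lt_of_le_of_ne (amo_Z_nonneg _ (amo_inn_ok _ hS D) _) fun h0 => ?_
  rw [amo_cuE_zero _ s D K h0.symm] at h1
  exact zero_ne_one h1

theorem amp_cellsIn_mono {D D' : Finset TV} (h : D ⊆ D') : latCellsIn D ⊆ latCellsIn D' := fun y hy =>
  lat_mem_cellsIn.2 ((lat_mem_cellsIn.1 hy).trans h)

theorem amp_in_mono (x : ℝ) {D D' : Finset TV} (h : D ⊆ D') {K : ClCon TV TV} (hK : K.In (clInn x D) D) : K.In (clInn x D') D' := by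
  obtain ⟨h1, h2, h3, h4, h5, h6, h7, h8⟩ := hK
  rw [amp_cin_inn] at h4 h5 h6
  refine ⟨h1.trans h, h2.trans h, fun e he => ⟨h (h3 e he).1, h (h3 e he).2⟩, ?_, ?_, ?_, h7.trans h, h8.trans h⟩ <;>
    rw [amp_cin_inn]
  · exact h4.trans (amp_cellsIn_mono h)
  · exact h5.trans (amp_cellsIn_mono h)
  · exact h6.trans (amp_cellsIn_mono h)

/-- **T1 in the plane**: FKG for `P^s_D` under a legal history, EVERY finite `D` -/
theorem am_pl_fkg (x : ℝ) (hx0 : 0 < x) (hx1 : x ≤ 1) (s : Bool) (D : Finset TV) (K : ClCon TV TV) (hK : ClLegal (clInn x D) K) (hKD : K.In (clInn x D) D)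
    (F G : ClCfg TV TV → ℝ) (hF : ClMono (clInn x D) F) (hG : ClMono (clInn x D) G) (hFl : ClLoc D (latCellsIn D) F) (hGl : ClLoc D (latCellsIn D) G) :
    amE x s D (K.Holds (clInn x D)) F * amE x s D (K.Holds (clInn x D)) G ≤ amE x s D (K.Holds (clInn x D)) (fun ω => F ω * G ω) := by
  obtain ⟨a, b, c, d, hab, hcd, hV⟩ := am_box_exists D
  have hS := am_box_disk x hx0 hx1 a b c d hab hcd
  rw [← am_pl_eq x _ D hV, ← am_pl_eq x _ D hV, ← am_pl_eq x _ D hV, amp_holds x hV hKD]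
  exact am_fkg _ hS s D ((amp_sub_cl D).trans hV) K (amp_legal x hV hK hKD) (amp_in x hV hKD) F G (amp_mono x hV hF)
    (amp_mono x hV hG) (by rw [amp_cin_amb x hV]; exact hFl) (by rw [amp_cin_amb x hV]; exact hGl)

/-- **T2 in the plane**: boundary condition and history -/
theorem am_pl_order (x : ℝ) (hx0 : 0 < x) (hx1 : x ≤ 1) (s₁ s₂ : Bool) (hs : s₁ ≤ s₂) (D : Finset TV) (K₁ K₂ : ClCon TV TV)
    (h₁ : ClLegal (clInn x D) K₁) (h₂ : ClLegal (clInn x D) K₂) (hD₁ : K₁.In (clInn x D) D) (hD₂ : K₂.In (clInn x D) D) (hle : ClLe K₁ K₂)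
    (f₁ : 0 < (clInn x D).Z (fun ω => CuPin s₁ (amLay D) ω ∧ K₁.Holds (clInn x D) ω))
    (f₂ : 0 < (clInn x D).Z (fun ω => CuPin s₂ (amLay D) ω ∧ K₂.Holds (clInn x D) ω))
    (F : ClCfg TV TV → ℝ) (hF : ClMono (clInn x D) F) (hFl : ClLoc D (latCellsIn D) F) :
    amE x s₁ D (K₁.Holds (clInn x D)) F ≤ amE x s₂ D (K₂.Holds (clInn x D)) F := by
  obtain ⟨a, b, c, d, hab, hcd, hV⟩ := am_box_exists D
  have hS := am_box_disk x hx0 hx1 a b c d hab hcd
  have g₁ := amp_feas x hV hS.toClOk s₁ _ f₁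
  have g₂ := amp_feas x hV hS.toClOk s₂ _ f₂
  rw [← am_pl_eq x _ D hV, ← am_pl_eq x _ D hV]
  rw [amp_holds x hV hD₁] at g₁ ⊢
  rw [amp_holds x hV hD₂] at g₂ ⊢
  exact am_order _ hS s₁ s₂ hs D ((amp_sub_cl D).trans hV) K₁ K₂ (amp_legal x hV h₁ hD₁) (amp_legal x hV h₂ hD₂)
    (amp_in x hV hD₁) (amp_in x hV hD₂) hle g₁ g₂ F (amp_mono x hV hF) (by rw [amp_cin_amb x hV]; exact hFl)

/-- **T2 in the plane**: `P^+_D ≥ P^+_D'` for `D ⊆ D'` -/
theorem am_pl_dom_plus (x : ℝ) (hx0 : 0 < x) (hx1 : x ≤ 1) (D D' : Finset TV) (hDD : D ⊆ D') (K : ClCon TV TV) (hK : ClLegal (clInn x D) K)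
    (hKD : K.In (clInn x D) D) (hf : 0 < (clInn x D).Z (fun ω => CuPin true (amLay D) ω ∧ K.Holds (clInn x D) ω))
    (F : ClCfg TV TV → ℝ) (hF : ClMono (clInn x D) F) (hFl : ClLoc D (latCellsIn D) F) :
    amE x true D' (K.Holds (clInn x D')) F ≤ amE x true D (K.Holds (clInn x D)) F := by
  obtain ⟨a, b, c, d, hab, hcd, hV'⟩ := am_box_exists D'
  have hV := (amp_cl_mono hDD).trans hV'
  have hS := am_box_disk x hx0 hx1 a b c d hab hcd
  have g := amp_feas x hV hS.toClOk true _ hf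
  rw [← am_pl_eq x _ D hV, ← am_pl_eq x _ D' hV', amp_holds x hV' (amp_in_mono x hDD hKD)]
  rw [amp_holds x hV hKD] at g ⊢
  exact am_dom_plus _ hS D D' hDD ((amp_sub_cl D').trans hV') K (amp_legal x hV hK hKD) (amp_in x hV hKD) g F
    (amp_mono x hV hF) (by rw [amp_cin_amb x hV]; exact hFl)

/-- **T2 in the plane**: `P^-_D ≤ P^-_D'` for `D ⊆ D'` -/
theorem am_pl_dom_minus (x : ℝ) (hx0 : 0 < x) (hx1 : x ≤ 1) (D D' : Finset TV) (hDD : D ⊆ D') (K : ClCon TV TV) (hK : ClLegal (clInn x D) K)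
    (hKD : K.In (clInn x D) D) (hf : 0 < (clInn x D).Z (fun ω => CuPin false (amLay D) ω ∧ K.Holds (clInn x D) ω))
    (F : ClCfg TV TV → ℝ) (hF : ClMono (clInn x D) F) (hFl : ClLoc D (latCellsIn D) F) :
    amE x false D (K.Holds (clInn x D)) F ≤ amE x false D' (K.Holds (clInn x D')) F := by
  obtain ⟨a, b, c, d, hab, hcd, hV'⟩ := am_box_exists D'
  have hV := (amp_cl_mono hDD).trans hV'
  have hS := am_box_disk x hx0 hx1 a b c d hab hcd
  have g := amp_feas x hV hS.toClOk false _ hf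
  rw [← am_pl_eq x _ D hV, ← am_pl_eq x _ D' hV', amp_holds x hV' (amp_in_mono x hDD hKD)]
  rw [amp_holds x hV hKD] at g ⊢
  exact am_dom_minus _ hS D D' hDD ((amp_sub_cl D').trans hV') K (amp_legal x hV hK hKD) (amp_in x hV hKD) g F
    (amp_mono x hV hF) (by rw [amp_cin_amb x hV]; exact hFl)

/-- cells of the inner planar system inside a subset -/
theorem am_pl_cin_inn (x : ℝ) {I D : Finset TV} (h : I ⊆ D) : (clInn x D).cin I = latCellsIn I := by
  ext y
  rw [am_mem_cin, lat_mem_cellsIn]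
  show (y ∈ latCellsIn D ∧ cellV y ∩ D ⊆ I) ↔ _
  rw [lat_mem_cellsIn]
  constructor
  · rintro ⟨h1, h2⟩
    rwa [Finset.inter_eq_left.2 h1] at h2
  · intro h1
    exact ⟨h1.trans h, Finset.inter_subset_left.trans h1⟩

/-- the layer of a subset of `D` which avoids the layer of `D` -/
theorem am_pl_lay_inn (x : ℝ) {I D : Finset TV} (h : I ⊆ D) (hd : Disjoint I (amLay D)) : cuLay (clInn x D) I = amLay I := by
  ext u
  rw [am_mem_lay, am_mem_amLay]
  refine and_congr_right fun hu => ?_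
  have hD : ∀ y, u ∈ cellV y → cellV y ⊆ D := by
    intro y hy
    by_contra hn
    exact Finset.disjoint_left.1 hd hu ((am_mem_amLay D u).2 ⟨h hu, y, hy, hn⟩)
  constructor
  · rintro ⟨y, _, h1, h2⟩
    have h1' : u ∈ cellV y := (Finset.mem_inter.1 h1).1
    refine ⟨y, h1', ?_⟩
    have h2' : ¬ cellV y ∩ D ⊆ I := h2
    rwa [Finset.inter_eq_left.2 (hD y h1')] at h2'
  · rintro ⟨y, h1, h2⟩
    refine ⟨y, lat_mem_cellsIn.2 (hD y h1), ?_, ?_⟩
    · show u ∈ cellV y ∩ D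
      rw [Finset.inter_eq_left.2 (hD y h1)]; exact h1
    · show ¬ cellV y ∩ D ⊆ I
      rw [Finset.inter_eq_left.2 (hD y h1)]; exact h2

/-- the cut law of the inner planar system on a subset which avoids the layer is the intrinsic planar law -/
theorem am_pl_eq_inn (x : ℝ) {I D : Finset TV} (h : I ⊆ D) (hd : Disjoint I (amLay D)) (s : Bool) (K : ClCfg TV TV → Prop)
    (F : ClCfg TV TV → ℝ) : cuE (clInn x D) s I K F = amE x s I K F := by
  unfold cuE amE
  rw [am_pl_lay_inn x h hd]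
  have hA : ((clInn x D).inn I).A = (clInn x I).A := rfl
  have hC : ((clInn x D).inn I).C = (clInn x I).C := am_pl_cin_inn x h
  have e : ∀ y ∈ ((clInn x D).inn I).C, cellV y ∩ D = cellV y ∩ I := by
    intro y hy
    rw [hC] at hy
    have hy' : cellV y ⊆ I := lat_mem_cellsIn.1 hy
    rw [Finset.inter_eq_left.2 hy', Finset.inter_eq_left.2 (hy'.trans h)]
  refine am_sys_E_congr ((clInn x D).inn I) (clInn x I) hA hC (fun y hy => e y hy) (fun y hy => ?_) _ _
  show (if (cellV y ∩ D).card = 3 then x ^ 2 else x) = (if (cellV y ∩ I).card = 3 then x ^ 2 else x)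
  rw [e y hy]

open Classical in
/-- **T3 in the plane**: a search of sign `s` inside `P^{s'}_D`, started from a set `O` which contains the layer: the law off the invaded set `J` is `P^s_{D \ J}`.   PROVED by 18 (from `am_search`). -/
theorem am_pl_search (x : ℝ) (hx0 : 0 < x) (hx1 : x ≤ 1) (s' s : Bool) (D O J : Finset TV) (hL : amLay D ⊆ O) (hO : O ⊆ J) (hJ : J ⊆ D)
    (G F : ClCfg TV TV → ℝ) (hG : ClLoc J (latCellsIn J) G) (hF : ClLoc (D \ J) (latCellsIn (D \ J)) F) :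
    amE x s' D (fun _ => True) (fun ω => if clInv (clInn x D) s ∅ ω O = J then G ω * F ω else 0) =
      amE x s' D (fun _ => True) (fun ω => if clInv (clInn x D) s ∅ ω O = J then G ω else 0) * amE x s (D \ J) (fun _ => True) F := by
  have hS : ClOk (clInn x D) := pcp_inn_ok x hx0 hx1 D
  obtain ⟨K, hKe, hK, hKr⟩ : ∃ K : ClCon TV TV, K.Eq = ∅ ∧ (K.Holds (clInn x D) = fun ω => CuPin s' (amLay D) ω ∧ True) ∧
      ((K.res (clInn x D) (D \ J)).Holds (clInn x D) = fun _ => True) := by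
    have hdis : amLay D ∩ (D \ J) = ∅ := by
      ext v
      simp only [Finset.mem_inter, Finset.mem_sdiff, Finset.notMem_empty, iff_false]
      exact fun hv => hv.2.2 (hO (hL hv.1))
    refine ⟨⟨if s' then amLay D else ∅, if s' then ∅ else amLay D, ∅, ∅, ∅, ∅, ∅, ∅⟩, rfl, ?_, ?_⟩
    · funext ω
      cases s' <;> simp [ClCon.Holds, CuPin, Finset.subset_iff]
    · funext ω
      cases s' <;> simp [ClCon.Holds, ClCon.res, hdis]
  have hsub : D \ J ⊆ D := Finset.sdiff_subset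
  have hdj : Disjoint (D \ J) (amLay D) :=
    Finset.disjoint_left.2 fun v hv hv' => (Finset.mem_sdiff.1 hv).2 (hO (hL hv'))
  have h := am_search (clInn x D) hS s K (by rw [hKe]; simp) O J hO hJ G F (by rw [am_pl_cin_inn x hJ]; exact hG)
    (by
      show ClLoc (D \ J) ((clInn x D).cin (D \ J)) F
      rw [am_pl_cin_inn x hsub]; exact hF)
  rw [hKe] at h
  have hA : (clInn x D).A \ J = D \ J := rfl
  rw [hA, hKr, am_pl_eq_inn x hsub hdj, hK] at h
  unfold amE at h ⊢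
  rw [dis_E_eq, dis_E_eq, h]
  ring

/-- a lattice symmetry which maps up-cells to up-cells is an isomorphism of the inner systems -/
theorem am_pl_cuiso (x : ℝ) (D : Finset TV) (φ ψ : TV → TV) (hφ : Function.Injective φ) (hψ : Function.Bijective ψ)
    (hc : ∀ y, cellV (ψ y) = (cellV y).image φ) : CuIso (clInn x D) (clInn x (D.image φ)) φ ψ := by
  have hsub : ∀ y, cellV (ψ y) ⊆ D.image φ ↔ cellV y ⊆ D := by
    intro y
    rw [hc, Finset.image_subset_image_iff hφ]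
  have hsv : ∀ y, cellV (ψ y) ∩ D.image φ = (cellV y ∩ D).image φ := by
    intro y
    rw [hc, Finset.image_inter _ _ hφ]
  refine ⟨hφ.injOn, hψ.1.injOn, rfl, ?_, fun y _ => hsv y, fun y _ => ?_⟩
  · show (latCellsIn D).image ψ = latCellsIn (D.image φ)
    ext y'
    obtain ⟨y, rfl⟩ := hψ.2 y'
    rw [hψ.1.mem_finset_image, lat_mem_cellsIn, lat_mem_cellsIn, hsub]
  · show (if (cellV (ψ y) ∩ D.image φ).card = 3 then x ^ 2 else x) = (if (cellV y ∩ D).card = 3 then x ^ 2 else x)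
    rw [hsv, Finset.card_image_of_injective _ hφ]

theorem am_pl_lay_image (D : Finset TV) (φ ψ : TV → TV) (hφ : Function.Injective φ) (hψ : Function.Bijective ψ)
    (hc : ∀ y, cellV (ψ y) = (cellV y).image φ) : amLay (D.image φ) = (amLay D).image φ := by
  ext u'
  rw [am_mem_amLay]
  constructor
  · rintro ⟨h1, y', h2, h3⟩
    obtain ⟨u, hu, rfl⟩ := Finset.mem_image.1 h1
    obtain ⟨y, rfl⟩ := hψ.2 y'
    rw [hc, hφ.mem_finset_image] at h2
    rw [hc, Finset.image_subset_image_iff hφ] at h3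
    exact Finset.mem_image_of_mem φ ((am_mem_amLay D u).2 ⟨hu, y, h2, h3⟩)
  · intro hu'
    obtain ⟨u, hu, rfl⟩ := Finset.mem_image.1 hu'
    obtain ⟨h1, y, h2, h3⟩ := (am_mem_amLay D u).1 hu
    refine ⟨Finset.mem_image_of_mem φ h1, ψ y, ?_, ?_⟩
    · rw [hc, hφ.mem_finset_image]; exact h2
    · rw [hc, Finset.image_subset_image_iff hφ]; exact h3

/-- **T5 in the plane**, general form -/
theorem am_pl_iso (x : ℝ) (s : Bool) (D : Finset TV) (φ ψ : TV → TV) (hφ : Function.Injective φ) (hψ : Function.Bijective ψ)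
    (hc : ∀ y, cellV (ψ y) = (cellV y).image φ) (K : ClCfg TV TV → Prop) (F : ClCfg TV TV → ℝ) :
    amE x s (D.image φ) K F = amE x s D (fun ω => K (ω.map φ ψ)) (fun ω => F (ω.map φ ψ)) := by
  have hiso := am_pl_cuiso x D φ ψ hφ hψ hc
  have hS : ∀ y ∈ (clInn x D).C, (clInn x D).sv y ⊆ (clInn x D).A := fun y _ => Finset.inter_subset_right
  have hpin : ∀ ω : ClCfg TV TV, CuPin s (amLay (D.image φ)) (ω.map φ ψ) ↔ CuPin s (amLay D) ω := by
    intro ω
    unfold CuPin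
    rw [am_pl_lay_image D φ ψ hφ hψ hc]
    constructor
    · intro h v hv
      have := h (φ v) (Finset.mem_image_of_mem φ hv)
      rwa [show (ω.map φ ψ).B = ω.B.image φ from rfl, hφ.mem_finset_image] at this
    · intro h v' hv'
      obtain ⟨v, hv, rfl⟩ := Finset.mem_image.1 hv'
      rw [show (ω.map φ ψ).B = ω.B.image φ from rfl, hφ.mem_finset_image]
      exact h v hv
  unfold amE
  rw [dis_E_eq, dis_E_eq, dis_Z_eq, dis_Z_eq, am_iso _ _ φ ψ hiso hS, am_iso _ _ φ ψ hiso hS]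
  simp only [hpin]

/-- **T5 in the plane**: translations -/
theorem am_pl_shift (x : ℝ) (s : Bool) (D : Finset TV) (a : TV) (K : ClCfg TV TV → Prop) (F : ClCfg TV TV → ℝ) :
    amE x s (D.image (· + a)) K F = amE x s D (fun ω => K (ω.map (· + a) (· + a))) (fun ω => F (ω.map (· + a) (· + a))) := by
  refine am_pl_iso x s D (· + a) (· + a) (add_left_injective a) ⟨add_left_injective a, fun y => ⟨y - a, by simp⟩⟩ (fun y => ?_) K F
  simp only [cellV, Finset.image_insert, Finset.image_singleton]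
  congr 1
  · congr 1
    · abel
    · congr 1; abel

/-- rotation by 120 degrees (class preserving) on sites -/
def amRot3 (u : TV) : TV := (-u.1 - u.2, u.1)
/-- rotation by 120 degrees on up-cells: `cellV y ↦ cellV (amRot3c y)` -/
def amRot3c (y : TV) : TV := (-y.1 - y.2 - 1, y.1)
/-- reflection in a vertical axis (class preserving) on sites -/
def amRefV (u : TV) : TV := (-u.1 - u.2, u.2)
/-- reflection in a vertical axis on up-cells -/
def amRefVc (y : TV) : TV := (-y.1 - y.2 - 1, y.2)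

theorem am_rot3_inj : Function.Injective amRot3 := by
  intro u v h
  simp only [amRot3, Prod.mk.injEq] at h
  exact Prod.ext h.2 (by have := h.1; have := h.2; omega)

theorem am_rot3c_bij : Function.Bijective amRot3c := by
  constructor
  · intro u v h
    simp only [amRot3c, Prod.mk.injEq] at h
    exact Prod.ext h.2 (by have := h.1; have := h.2; omega)
  · intro y
    exact ⟨(y.2, -y.1 - y.2 - 1), by simp only [amRot3c]; exact Prod.ext (by simp only; omega) rfl⟩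

theorem am_refV_inj : Function.Injective amRefV := by
  intro u v h
  simp only [amRefV, Prod.mk.injEq] at h
  exact Prod.ext (by have := h.1; have := h.2; omega) h.2

theorem am_refVc_bij : Function.Bijective amRefVc := by
  constructor
  · intro u v h
    simp only [amRefVc, Prod.mk.injEq] at h
    exact Prod.ext (by have := h.1; have := h.2; omega) h.2
  · intro y
    exact ⟨(-y.1 - y.2 - 1, y.2), by simp only [amRefVc]; exact Prod.ext (by simp only; omega) rfl⟩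

theorem am_rot3_cell (y : TV) : cellV (amRot3c y) = (cellV y).image amRot3 := by
  obtain ⟨i, j⟩ := y
  ext ⟨a, b⟩
  simp only [cellV, amRot3, amRot3c, Finset.image_insert, Finset.image_singleton, Finset.mem_insert, Finset.mem_singleton, Prod.mk_add_mk,
    Prod.mk.injEq]
  omega

theorem am_refV_cell (y : TV) : cellV (amRefVc y) = (cellV y).image amRefV := by
  obtain ⟨i, j⟩ := y
  ext ⟨a, b⟩
  simp only [cellV, amRefV, amRefVc, Finset.image_insert, Finset.image_singleton, Finset.mem_insert, Finset.mem_singleton, Prod.mk_add_mk,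
    Prod.mk.injEq]
  omega

/-- **T5 in the plane**: rotation by 120 degrees -/
theorem am_pl_rot3 (x : ℝ) (s : Bool) (D : Finset TV) (K : ClCfg TV TV → Prop) (F : ClCfg TV TV → ℝ) :
    amE x s (D.image amRot3) K F = amE x s D (fun ω => K (ω.map amRot3 amRot3c)) (fun ω => F (ω.map amRot3 amRot3c)) :=
  am_pl_iso x s D amRot3 amRot3c am_rot3_inj am_rot3c_bij am_rot3_cell K F

/-- **T5 in the plane**: reflection in a vertical axis -/
theorem am_pl_refV (x : ℝ) (s : Bool) (D : Finset TV) (K : ClCfg TV TV → Prop) (F : ClCfg TV TV → ℝ) :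
    amE x s (D.image amRefV) K F = amE x s D (fun ω => K (ω.map amRefV amRefVc)) (fun ω => F (ω.map amRefV amRefVc)) :=
  am_pl_iso x s D amRefV amRefVc am_refV_inj am_refVc_bij am_refV_cell K F

/-- **T5 in the plane**: flip of the first spin exchanges `P^+_D` and `P^-_D` -/
theorem am_pl_flipB (x : ℝ) (s : Bool) (D : Finset TV) (K : ClCfg TV TV → Prop) (F : ClCfg TV TV → ℝ) :
    amE x s D K F = amE x (!s) D (fun ω => K (ω.flipB D)) (fun ω => F (ω.flipB D)) := by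
  have hS : ∀ y ∈ (clInn x D).C, (clInn x D).sv y ⊆ (clInn x D).A := fun y _ => Finset.inter_subset_right
  have hpin : ∀ ω : ClCfg TV TV, CuPin s (amLay D) (ω.flipB D) ↔ CuPin (!s) (amLay D) ω := by
    intro ω
    unfold CuPin
    refine forall₂_congr fun v hv => ?_
    have hvD : v ∈ D := ((am_mem_amLay D v).1 hv).1
    simp only [ClCfg.flipB, Finset.mem_sdiff, hvD, true_and]
    cases s <;> simp
  unfold amE
  rw [dis_E_eq, dis_E_eq, dis_Z_eq, dis_Z_eq, am_flipB_N _ hS, am_flipB_N _ hS (fun ω => CuPin s (amLay D) ω ∧ K ω) (fun _ => 1)]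
  show (clInn x D).N (fun ω => CuPin s (amLay D) (ω.flipB D) ∧ K (ω.flipB D)) _ / (clInn x D).N (fun ω => CuPin s (amLay D) (ω.flipB D) ∧ K (ω.flipB D)) _ = _
  simp only [hpin]
  rfl

/-- the equation lemmas of the definitions of this file are generated HERE -/
theorem am_defs_eqns_cite : True := by
  have := @ClCon.res.eq_1
  have := @cuComp.eq_1
  have := @AmTie.eq_1
  have := @amLay.eq_1
  have := @amE.eq_1
  have := @amP.eq_1
  have := @amBox.eq_1
  have := @amRot3.eq_1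
  have := @amRot3c.eq_1
  have := @amRefV.eq_1
  have := @amRefVc.eq_1
  trivial

end Claimed.Agent.R291
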