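import Claimed.Agent.R291.Defs.Ann
import Claimed.Agent.R291.Ann.Model
import Claimed.Agent.R291.Pl.CellPath

/-!
# Row 291 (S0539), Ann/Basic : ELEMENTARY CALCULUS OF THE LAWS `anP`, `anW`      (owner helper121; prefix `ann_`)

* sec. 1  probabilities `S.P K L` of ANY cell system: nonnegative, at most one, monotone (on the support), union bound, complement.
* sec. 2  the planar laws: bridge `anP = amP` (22) (`amLay D = latBd D`), feasibility, the same calculus for `anP`, `anW`.
* sec. 3  the intrinsic form of "plus cell" and the events `AnJoin`.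
All the leaves are elementary (finite sums).
-/

set_option autoImplicit false

namespace Claimed.Agent.R291

open Claims Claims.C0467

section abstract

variable {V Y : Type} [DecidableEq V] [DecidableEq Y]

/-! ### 1. probabilities of a cell system -/

theorem anq_Z_nonneg (S : ClSys V Y) (hS : ClOk S) (K : ClCfg V Y → Prop) : 0 ≤ S.Z K := by
  classical
  unfold ClSys.Z
  refine Finset.sum_nonneg fun ω _ => ?_
  split_ifs
  · exact dis_wt_nonneg S hS ω
  · exact le_rfl

theorem anq_P_eq (S : ClSys V Y) (K L : ClCfg V Y → Prop) [∀ ω, Decidable (K ω ∧ L ω)] :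
    S.P K L = (∑ ω ∈ S.cfgs, if K ω ∧ L ω then S.wt ω else 0) / S.Z K := by
  unfold ClSys.P ClSys.E
  congr 1
  refine Finset.sum_congr rfl fun ω _ => ?_
  by_cases h1 : K ω <;> by_cases h2 : L ω <;> simp [h1, h2]

/-- LEAF. `dis_wt_nonneg`. -/
theorem ann_clP_nonneg (S : ClSys V Y) (hS : ClOk S) (K L : ClCfg V Y → Prop) : 0 ≤ S.P K L := by
  classical
  rw [anq_P_eq]
  refine div_nonneg (Finset.sum_nonneg fun ω _ => ?_) (anq_Z_nonneg S hS K)
  split_ifs
  · exact dis_wt_nonneg S hS ω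
  · exact le_rfl

/-- LEAF. -/
theorem ann_clP_le_one (S : ClSys V Y) (hS : ClOk S) (K L : ClCfg V Y → Prop) : S.P K L ≤ 1 := by
  classical
  rw [anq_P_eq]
  refine div_le_one_of_le₀ ?_ (anq_Z_nonneg S hS K)
  unfold ClSys.Z
  refine Finset.sum_le_sum fun ω _ => ?_
  have := dis_wt_nonneg S hS ω
  by_cases h1 : K ω <;> by_cases h2 : L ω <;> simp [h1, h2, this]

/-- LEAF. monotone in the event, on the support of the law -/
theorem ann_clP_mono (S : ClSys V Y) (hS : ClOk S) (K L L' : ClCfg V Y → Prop)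
    (h : ∀ ω ∈ S.cfgs, S.wt ω ≠ 0 → K ω → L ω → L' ω) : S.P K L ≤ S.P K L' := by
  classical
  rw [anq_P_eq, anq_P_eq]
  refine div_le_div_of_nonneg_right ?_ (anq_Z_nonneg S hS K)
  refine Finset.sum_le_sum fun ω hω => ?_
  have h0 := dis_wt_nonneg S hS ω
  by_cases hw : S.wt ω = 0
  · simp [hw]
  by_cases h1 : K ω
  · by_cases h2 : L ω
    · have h3 := h ω hω hw h1 h2
      simp [h1, h2, h3]
    · by_cases h3 : L' ω <;> simp [h1, h2, h3, h0]
  · simp [h1]

/-- LEAF. union bound -/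
theorem ann_clP_union {ι : Type*} (S : ClSys V Y) (hS : ClOk S) (K : ClCfg V Y → Prop) (T : Finset ι) (L : ι → ClCfg V Y → Prop) :
    S.P K (fun ω => ∃ i ∈ T, L i ω) ≤ ∑ i ∈ T, S.P K (L i) := by
  classical
  simp only [anq_P_eq]
  rw [← Finset.sum_div]
  refine div_le_div_of_nonneg_right ?_ (anq_Z_nonneg S hS K)
  rw [Finset.sum_comm]
  refine Finset.sum_le_sum fun ω _ => ?_
  have h0 := dis_wt_nonneg S hS ω
  have hnn : ∀ i ∈ T, 0 ≤ (if K ω ∧ L i ω then S.wt ω else 0) := by
    intro i _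
    split_ifs
    · exact h0
    · exact le_rfl
  by_cases h1 : K ω ∧ ∃ i ∈ T, L i ω
  · obtain ⟨hK, i, hi, hL⟩ := h1
    rw [if_pos ⟨hK, i, hi, hL⟩]
    refine le_trans ?_ (Finset.single_le_sum hnn hi)
    rw [if_pos ⟨hK, hL⟩]
  · rw [if_neg h1]
    exact Finset.sum_nonneg hnn

/-- LEAF. complement -/
theorem ann_clP_compl (S : ClSys V Y) (K L : ClCfg V Y → Prop) (hZ : 0 < S.Z K) : S.P K (fun ω => ¬ L ω) = 1 - S.P K L := by
  classical
  rw [anq_P_eq, anq_P_eq, eq_sub_iff_add_eq, ← add_div, div_eq_one_iff_eq hZ.ne', ← Finset.sum_add_distrib]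
  unfold ClSys.Z
  refine Finset.sum_congr rfl fun ω _ => ?_
  by_cases h1 : K ω <;> by_cases h2 : L ω <;> simp [h1, h2]

/-- LEAF. two events -/
theorem ann_clP_or (S : ClSys V Y) (hS : ClOk S) (K L L' : ClCfg V Y → Prop) : S.P K (fun ω => L ω ∨ L' ω) ≤ S.P K L + S.P K L' := by
  classical
  rw [anq_P_eq, anq_P_eq, anq_P_eq, ← add_div]
  refine div_le_div_of_nonneg_right ?_ (anq_Z_nonneg S hS K)
  rw [← Finset.sum_add_distrib]
  refine Finset.sum_le_sum fun ω _ => ?_
  have h0 := dis_wt_nonneg S hS ω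
  by_cases h1 : K ω <;> by_cases h2 : L ω <;> by_cases h3 : L' ω <;> simp [h1, h2, h3, h0]

end abstract

/-! ### 2. the planar laws -/

/-- LEAF. the layer of 22 is the boundary layer of Defs/Lat (the three up-cells at `u` contain the six neighbours) -/
theorem ann_lay (D : Finset TV) : amLay D = latBd D := by
  unfold amLay latBd
  refine Finset.filter_congr fun u hu => ?_
  obtain ⟨a, b⟩ := u
  simp only [cellV, latDirs, Finset.insert_subset_iff, Finset.singleton_subset_iff, Finset.mem_insert,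
    Finset.mem_singleton, exists_eq_or_imp, exists_eq_left, Prod.mk_add_mk, Prod.mk_sub_mk, add_zero, sub_zero,
    sub_add_cancel]
  simp only [← sub_eq_add_neg, hu, true_and, and_true]
  tauto

theorem ann_pin_iff (s : Bool) (D : Finset TV) (ω : ClCfg TV TV) : (CuPin s (amLay D) ω ∧ True) ↔ DamPin (latBd D) s ω := by
  rw [ann_lay, and_true]; rfl

theorem ann_E_am (x : ℝ) (s : Bool) (I : Finset TV) (F : ClCfg TV TV → ℝ) : anE x s I F = amE x s I (fun _ => True) F := by
  unfold anE amE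
  congr 1
  funext ω
  exact propext (ann_pin_iff s I ω).symm

theorem ann_P_am (x : ℝ) (s : Bool) (I : Finset TV) (L : ClCfg TV TV → Prop) : anP x s I L = amP x s I (fun _ => True) L := by
  unfold anP amP
  congr 1
  funext ω
  exact propext (ann_pin_iff s I ω).symm

theorem anq_Z_pos_wit {V Y : Type} [DecidableEq V] [DecidableEq Y] (S : ClSys V Y) (hS : ClOk S) (K : ClCfg V Y → Prop)
    {ω : ClCfg V Y} (hω : ω ∈ S.cfgs) (hK : K ω) (hw : 0 < S.wt ω) : 0 < S.Z K := by
  classical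
  unfold ClSys.Z
  refine Finset.sum_pos' (fun ω _ => ?_) ⟨ω, hω, ?_⟩
  · split_ifs
    · exact dis_wt_nonneg S hS ω
    · exact le_rfl
  · rw [if_pos hK]; exact hw

/-- the constant spin `s` on `A` -/
theorem anq_const {V : Type} [DecidableEq V] (s : Bool) (A T : Finset V) (hT : T ⊆ A) :
    ClConst (if s = true then A else ∅) T := by
  cases s
  · right; intro v _; simp
  · left; simpa using hT

/-- LEAF. feasibility: `B ≡ s`, `W = ∅`, all cells open -/
theorem ann_Z_pos (x : ℝ) (hx0 : 0 < x) (hx2 : x ≤ 1) (s : Bool) (I : Finset TV) : 0 < (clInn x I).Z (DamPin (latBd I) s) := by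
  have hS := pcp_inn_ok x hx0 hx2 I
  refine anq_Z_pos_wit _ hS _ (ω := ⟨if s = true then I else ∅, ∅, latCellsIn I⟩) ?_ ?_ ?_
  · rw [cl_mem_cfgs]
    refine ⟨?_, Finset.empty_subset _, Finset.Subset.refl _⟩
    cases s
    · exact Finset.empty_subset _
    · exact Finset.Subset.refl _
  · intro v hv
    have hvI : v ∈ I := (Finset.mem_filter.1 hv).1
    unfold DamSg
    cases s <;> simp [hvI]
  · unfold ClSys.wt
    refine Finset.prod_pos fun y hy => ?_
    have h1 : ClConst (if s = true then I else ∅) ((clInn x I).sv y) := anq_const s I _ (hS.sub y hy)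
    have h2 : y ∈ latCellsIn I := hy
    unfold clCellW
    rw [if_pos h2, if_pos h1]
    exact hS.q0 y hy

/-- LEAF. feasibility for the law with the second spin pinned -/
theorem ann_ZW_pos (x : ℝ) (hx0 : 0 < x) (hx2 : x ≤ 1) (s : Bool) (I : Finset TV) :
    0 < (clInn x I).Z (fun ω => DamPin (latBd I) s ω.sw) := by
  have hS := pcp_inn_ok x hx0 hx2 I
  refine anq_Z_pos_wit _ hS _ (ω := ⟨∅, if s = true then I else ∅, latCellsIn I⟩) ?_ ?_ ?_
  · rw [cl_mem_cfgs]
    refine ⟨Finset.empty_subset _, ?_, Finset.Subset.refl _⟩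
    cases s
    · exact Finset.empty_subset _
    · exact Finset.Subset.refl _
  · intro v hv
    have hvI : v ∈ I := (Finset.mem_filter.1 hv).1
    unfold DamSg ClCfg.sw
    cases s <;> simp [hvI]
  · unfold ClSys.wt
    refine Finset.prod_pos fun y hy => ?_
    have h1 : ClConst (∅ : Finset TV) ((clInn x I).sv y) := Or.inr (fun v _ => by simp)
    have h2 : y ∈ latCellsIn I := hy
    unfold clCellW
    rw [if_pos h2, if_pos h1]
    exact hS.q0 y hy

theorem ann_P_nonneg (x : ℝ) (hx0 : 0 < x) (hx2 : x ≤ 1) (s : Bool) (I : Finset TV) (L : ClCfg TV TV → Prop) :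
    0 ≤ anP x s I L := ann_clP_nonneg _ (pcp_inn_ok x hx0 hx2 I) _ _

theorem ann_P_le_one (x : ℝ) (hx0 : 0 < x) (hx2 : x ≤ 1) (s : Bool) (I : Finset TV) (L : ClCfg TV TV → Prop) :
    anP x s I L ≤ 1 := ann_clP_le_one _ (pcp_inn_ok x hx0 hx2 I) _ _

theorem ann_P_mono (x : ℝ) (hx0 : 0 < x) (hx2 : x ≤ 1) (s : Bool) (I : Finset TV) (L L' : ClCfg TV TV → Prop)
    (h : ∀ ω, L ω → L' ω) : anP x s I L ≤ anP x s I L' :=
  ann_clP_mono _ (pcp_inn_ok x hx0 hx2 I) _ _ _ (fun ω _ _ _ => h ω)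

theorem ann_P_compl (x : ℝ) (hx0 : 0 < x) (hx2 : x ≤ 1) (s : Bool) (I : Finset TV) (L : ClCfg TV TV → Prop) :
    anP x s I (fun ω => ¬ L ω) = 1 - anP x s I L := ann_clP_compl _ _ _ (ann_Z_pos x hx0 hx2 s I)

theorem ann_W_compl (x : ℝ) (hx0 : 0 < x) (hx2 : x ≤ 1) (s : Bool) (I : Finset TV) (L : ClCfg TV TV → Prop) :
    anW x s I (fun ω => ¬ L ω) = 1 - anW x s I L := ann_clP_compl _ _ _ (ann_ZW_pos x hx0 hx2 s I)

/-! ### 3. plus cells, intrinsic form -/

/-- the cell `y` is open-plus -/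
def AnPlus (ω : ClCfg TV TV) (y : TV) : Prop := y ∈ ω.O ∧ cellV y ⊆ ω.B

/-- the cells `z`, `z'` are joined by a path of NON-plus cells with indices in `R` -/
def AnJoin (R : Set TV) (z z' : TV) (ω : ClCfg TV TV) : Prop := TscR tscG ({y | ¬ AnPlus ω y} ∩ R) z z'

/-- ball of cell indices -/
def anB (r : ℕ) : Set TV := {p | latN p ≤ r}

theorem ann_tau_plus (x : ℝ) (I : Finset TV) (ω : ClCfg TV TV) {y : TV} (hy : y ∈ latCellsIn I) :
    clTau (clInn x I) ω y = 1 ↔ AnPlus ω y := by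
  have hsv : (clInn x I).sv y = cellV y := by
    show cellV y ∩ I = cellV y
    exact Finset.inter_eq_left.2 (lat_mem_cellsIn.1 hy)
  unfold clTau AnPlus
  rw [hsv]
  split_ifs with h1 h2 <;> simp [h1, *]

theorem ann_basic_eqns_cite : True := by
  have := @AnPlus.eq_1
  have := @AnJoin.eq_1
  have := @anB.eq_1
  trivial

end Claimed.Agent.R291
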