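import Claimed.Agent.R291.Ann.Basic
import Claimed.Agent.R291.Pl.Ball

/-!
# Row 291 (S0539), Ann/Chain : (R3) THE CHAIN LEMMA      (owner helper121; prefix `ann_`)

`origin/helper121:notes/R291/T23_CHAIN.md` A7 (R3), `origin/helper278:notes/R291/renorm.md` R3.        `U(n, M) ≥ (1/4) (1 - π(m+1, M)) (1 - π(n, m))`   for `n < m`, `m + 1 < M`.
LAWS: `anP x s I` = first spin `s` on the layer, second spin free;   `anW x s I` = SECOND spin `s` on the layer, first spin free (statuses = those of the first spin in both).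
The colour swap `(B, W, O^B) ↔ (W, B, O^W)` exchanges "the law `anP x s I` seen through the statuses of the second colour" with `anW x s I`.

 (HALF) `ann_half`:   `anW x s I [Sep_+(layer, A)] ≥ (1/2) (1 - anP x s I [arm of sign s from the layer to A])`      (`I` finite with CONNECTED COMPLEMENT, `A ⊆ I` connected)
     (a) `ann_W_flip`      the flip of the first spin preserves `anW`:  `Sep_+` and `Sep_-` have the same probability
     (b) `ann_one_sign`    T8 (Timar, edge form `plh_timar_edge`): no chain of CLOSED cells from the layer to `A`  ⟹  `Sep_+` or `Sep_-`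
     (c) `ann_dom2`        T6 (`q ≥ 1/2`, two-colour law of 22): a chain of closed cells of the first colour from the layer is a chain of open cells of the second colour, of sign `s`
 (SEARCH) `ann_search2`:   search of a plus cut of the SECOND colour from the layer of `D` under `anP x false D`; off the invaded set the law is `anW x true I`.
 Then:  outer step = (HALF) for the colour `W` in `D = Λ_M` (`s = -`, `A = Λ_{m+1}`),  inner step = (HALF) for the colour `B` in `I ⊇ Λ_{m+1}` (`s = +`, `A = Λ_n`) + T2.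
-/

set_option autoImplicit false

namespace Claimed.Agent.R291

open Claims Claims.C0467

section ancabs

variable {V Y : Type} [DecidableEq V] [DecidableEq Y]

/-- the flip of the first spin in a probability -/
theorem anc_flip_P (S : ClSys V Y) (hS : ClOk S) (K K' L L' : ClCfg V Y → Prop)
    (hK : ∀ ω ∈ S.cfgs, S.wt ω ≠ 0 → (K (ω.flipB S.A) ↔ K' ω))
    (hL : ∀ ω ∈ S.cfgs, S.wt ω ≠ 0 → (L (ω.flipB S.A) ↔ L' ω)) : S.P K L = S.P K' L' := by
  classical
  unfold ClSys.P
  rw [dis_E_eq, dis_E_eq, dis_Z_eq, dis_Z_eq, am_flipB_N S hS.sub K, am_flipB_N S hS.sub K (fun _ => 1)]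
  congr 1
  · unfold ClSys.N
    refine Finset.sum_congr rfl fun ω hω => ?_
    by_cases hw : S.wt ω = 0
    · simp [hw]
    · have h1 := hK ω hω hw
      have h2 := hL ω hω hw
      by_cases a : K' ω <;> by_cases b : L' ω <;> simp [h1, h2, a, b]
  · unfold ClSys.N
    refine Finset.sum_congr rfl fun ω hω => ?_
    by_cases hw : S.wt ω = 0
    · simp [hw]
    · have h1 := hK ω hω hw
      by_cases a : K' ω <;> simp [h1, a]

theorem anc_sg_not (s : Bool) : clSg (!s) = - clSg s := by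
  cases s <;> simp [clSg]

theorem anc_flip_step (S : ClSys V Y) (hS : ClOk S) (ω : ClCfg V Y) (hw : S.wt ω ≠ 0) (s : Bool) (E : Finset (V × V)) (u v : V) :
    clStep S s E (ω.flipB S.A) u v ↔ clStep S (!s) E ω u v := by
  unfold clStep
  refine or_congr (exists_congr fun y => and_congr_right fun hy => and_congr_right fun _ => and_congr_right fun _ => ?_) Iff.rfl
  rw [am_flipB_tau S hS ω hw y hy, anc_sg_not]
  exact not_congr neg_eq_iff_eq_neg

theorem anc_flip_sep (S : ClSys V Y) (hS : ClOk S) (ω : ClCfg V Y) (hw : S.wt ω ≠ 0) (s : Bool) (E : Finset (V × V)) (O A : Finset V) :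
    ClSep S s E (ω.flipB S.A) O A ↔ ClSep S (!s) E ω O A := by
  have e : clStep S s E (ω.flipB S.A) = clStep S (!s) E ω := by
    funext u v
    exact propext (anc_flip_step S hS ω hw s E u v)
  unfold ClSep
  rw [e]

theorem anc_flip_con (S : ClSys V Y) (hS : ClOk S) (ω : ClCfg V Y) (hw : S.wt ω ≠ 0) (s : Bool) (O Z : Finset V) :
    CuCon S s (ω.flipB S.A) O Z ↔ CuCon S (!s) ω O Z := by
  have e : CuStepG S (fun y => clTau S (ω.flipB S.A) y ≠ clSg s) ∅ = CuStepG S (fun y => clTau S ω y ≠ clSg (!s)) ∅ := by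
    funext u v
    unfold CuStepG
    refine propext (or_congr (exists_congr fun y => and_congr_right fun hy => and_congr_right fun _ => and_congr_right fun _ => ?_) Iff.rfl)
    beta_reduce
    rw [am_flipB_tau S hS ω hw y hy, anc_sg_not]
    exact not_congr (not_congr neg_eq_iff_eq_neg)
  unfold CuCon
  rw [e]

theorem anc_stepG_symm (S : ClSys V Y) (fav : Y → Prop) (E : Finset (V × V)) {u v : V} (h : CuStepG S fav E u v) : CuStepG S fav E v u := by
  rcases h with ⟨y, hy, h1, h2, h3⟩ | h | h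
  · exact Or.inl ⟨y, hy, h2, h1, h3⟩
  · exact Or.inr (Or.inr h)
  · exact Or.inr (Or.inl h)

theorem anc_rtg_symm (S : ClSys V Y) (fav : Y → Prop) (E : Finset (V × V)) {u v : V} (h : Relation.ReflTransGen (CuStepG S fav E) u v) :
    Relation.ReflTransGen (CuStepG S fav E) v u := by
  induction h with
  | refl => exact Relation.ReflTransGen.refl
  | tail _ hbc ih => exact Relation.ReflTransGen.head (anc_stepG_symm S fav E hbc) ih

theorem anc_con_symm (S : ClSys V Y) (s : Bool) (ω : ClCfg V Y) (O Z : Finset V) : CuCon S s ω O Z ↔ CuCon S s ω Z O := by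
  constructor <;>
  · rintro ⟨u, hu, v, hv, hr⟩
    exact ⟨v, hv, u, hu, anc_rtg_symm S _ _ hr⟩

end ancabs

/-- LEAF (a).  PLAN: `am_flipB_N` on `clInn x I` (constraint invariant: it reads `ω.W` only), `am_flipB_tau` on the support: `clStep` for `true` becomes `clStep` for `false`; `dam_N_congr`-type argument on the support. -/
theorem ann_W_flip (x : ℝ) (hx0 : 0 < x) (hx2 : x ≤ 1) (s : Bool) (I O A : Finset TV) :
    anW x s I (fun ω => ClSep (clInn x I) true ∅ ω O A) = anW x s I (fun ω => ClSep (clInn x I) false ∅ ω O A) := by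
  have hS := pcp_inn_ok x hx0 hx2 I
  unfold anW
  exact anc_flip_P _ hS _ _ _ _ (fun ω _ _ => Iff.rfl) (fun ω _ hw => anc_flip_sep _ hS ω hw true ∅ O A)

theorem anc_cell_adj {y u v : TV} (hu : u ∈ cellV y) (hv : v ∈ cellV y) : u = v ∨ triAdj u v := by
  rw [tsc_adj_iff]
  simp only [cellV, Finset.mem_insert, Finset.mem_singleton, Prod.ext_iff, Prod.fst_add, Prod.snd_add] at hu hv ⊢
  omega

/-- a cell with a site in the interior of `I` is inside `I` -/
theorem anc_cell_int {I : Finset TV} {y c : TV} (hc : c ∈ cellV y) (hcI : c ∈ I) (hcb : c ∉ latBd I) : cellV y ⊆ I := by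
  intro w hw
  rcases anc_cell_adj hc hw with rfl | h
  · exact hcI
  · by_contra hn
    exact hcb (lat_mem_bd.2 ⟨hcI, w, h, hn⟩)

/-- a path which ends in `T` and does not start there has a step which enters `T` -/
theorem anc_enter {α : Type*} {R : α → α → Prop} {T : Set α} {u v : α} (h : Relation.ReflTransGen R u v) (hu : u ∉ T) (hv : v ∈ T) :
    ∃ b c, R b c ∧ b ∉ T ∧ c ∈ T := by
  induction h with
  | refl => exact absurd hv hu
  | @tail b c _ hbc ih =>
    by_cases hb : b ∈ T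
    · exact ih hb
    · exact ⟨b, c, hbc, hb, hv⟩

/-- LEAF (b) = T8 (deterministic, planar).
PLAN: `J'` = sites joined to `latBd I` by closed cells; `C = Iᶜ ∪ J'` is connected (each site of `latBd I` has a neighbour off `I`); `A` misses `C`; `T' = tscComp tscG Cᶜ a ⊇ A`.
`plh_timar_edge` (`tsc_plane`): the edges between `C` and `T'` are connected through triangles.  For such an edge `(u, v)`: `v ∉ latBd I`, so every up-cell at `v` is inside `I` (`plh_lay_iff`); the up-cell of the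
edge has the site `u ∈ J'` and the site `v ∉ J'`: it is open, so `B u = B v`.  Two edges in a triangle share a site: ONE sign `b`.  A chain from `latBd I` to `A` enters `T'` through such a cell, which has sign `b`. -/
theorem ann_one_sign (x : ℝ) (I A : Finset TV) (hI : TscConn tscG (↑I : Set TV)ᶜ) (hA : TscConn tscG (↑A : Set TV)) (hAI : A ⊆ I)
    (ω : ClCfg TV TV) (hω : ∀ y ∈ latCellsIn I, y ∈ ω.O → ClConst ω.B (cellV y)) (h : CuSepO (clInn x I) ∅ ω (latBd I) A) :
    ClSep (clInn x I) true ∅ ω (latBd I) A ∨ ClSep (clInn x I) false ∅ ω (latBd I) A := by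
  classical
  set S := clInn x I with hS
  set J : Set TV := {w | ∃ u ∈ latBd I, Relation.ReflTransGen (CuStepG S (fun y => y ∈ ω.O) ∅) u w} with hJ
  set C : Set TV := (↑I : Set TV)ᶜ ∪ J with hC
  have hsv : ∀ y ∈ latCellsIn I, S.sv y = cellV y := fun y hy => (pcp_inn_sv x I hy).1
  -- (F0) the layer is in `J`
  have F0 : ∀ u ∈ latBd I, u ∈ J := fun u hu => ⟨u, hu, Relation.ReflTransGen.refl⟩
  -- (F1)+(F2) a site of `J` is in `I` and joined in `C` to the layer
  have F1 : ∀ w ∈ J, w ∈ I ∧ ∃ u ∈ latBd I, TscR tscG C u w := by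
    rintro w ⟨u, hu, hr⟩
    induction hr with
    | refl => exact ⟨lat_bd_sub I hu, u, hu, tsc_R_refl _⟩
    | @tail b c hub hbc ih =>
      obtain ⟨_, u', hu', hr'⟩ := ih
      rcases hbc with ⟨y, hy, h1, h2, h3⟩ | hh | hh
      · have h1' := Finset.mem_inter.1 h1
        have h2' := Finset.mem_inter.1 h2
        refine ⟨h2'.2, u', hu', ?_⟩
        rcases anc_cell_adj h1'.1 h2'.1 with rfl | hadj
        · exact hr'
        · exact hr'.tail ⟨hadj, Or.inr ⟨u, hu, hub⟩, Or.inr ⟨u, hu, hub.tail (Or.inl ⟨y, hy, h1, h2, h3⟩)⟩⟩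
      · exact absurd hh (Finset.notMem_empty _)
      · exact absurd hh (Finset.notMem_empty _)
  have hIC : (↑I : Set TV)ᶜ ⊆ C := Set.subset_union_left
  have F2a : ∀ w ∈ C, ∃ z, z ∉ I ∧ TscR tscG C w z := by
    rintro w (hw | hw)
    · exact ⟨w, fun hc => hw (Finset.mem_coe.2 hc), tsc_R_refl _⟩
    · obtain ⟨_, u, hu, hr⟩ := F1 w hw
      obtain ⟨_, z, huz, hz⟩ := lat_mem_bd.1 hu
      exact ⟨z, hz, (tsc_R_symm hr).tail ⟨huz, Or.inr (F0 u hu), Or.inl (fun hc => hz (Finset.mem_coe.1 hc))⟩⟩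
  have F2 : TscConn tscG C := by
    intro p hp q hq
    obtain ⟨z, hz, hr⟩ := F2a p hp
    obtain ⟨z', hz', hr'⟩ := F2a q hq
    exact tsc_R_trans hr (tsc_R_trans (tsc_R_mono hIC (hI z (fun hc => hz (Finset.mem_coe.1 hc)) z' (fun hc => hz' (Finset.mem_coe.1 hc))))
      (tsc_R_symm hr'))
  have hCne : C.Nonempty := (I.finite_toSet.infinite_compl.nonempty).mono hIC
  -- (F3)
  have F3 : (↑A : Set TV) ⊆ Cᶜ := by
    rintro a ha (hc | ⟨u, hu, hr⟩)
    · exact hc (Finset.mem_coe.2 (hAI (Finset.mem_coe.1 ha)))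
    · exact h u hu a (Finset.mem_coe.1 ha) hr
  -- a cell between `J` and its complement is open
  have F4 : ∀ y ∈ latCellsIn I, ∀ u ∈ cellV y, ∀ v ∈ cellV y, u ∈ J → v ∉ J → y ∈ ω.O ∧ ClConst ω.B (cellV y) := by
    intro y hy u hu v hv huJ hvJ
    have ho : y ∈ ω.O := by
      by_contra hn
      obtain ⟨u0, hu0, hr⟩ := huJ
      exact hvJ ⟨u0, hu0, hr.tail (Or.inl ⟨y, hy, by rw [hsv y hy]; exact hu, by rw [hsv y hy]; exact hv, hn⟩)⟩
    exact ⟨ho, hω y hy ho⟩
  by_contra hcon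
  rw [not_or] at hcon
  obtain ⟨c1, c2⟩ := hcon
  unfold ClSep at c1 c2
  push Not at c1 c2
  obtain ⟨u1, hu1, a1, ha1, r1⟩ := c1
  obtain ⟨u2, hu2, a2, ha2, r2⟩ := c2
  set T : Set TV := tscComp tscG Cᶜ a1 with hT
  have hnice : PlhNice T := plh_comp_nice F2 hCne a1
  have hAT : (↑A : Set TV) ⊆ T := plh_conn_sub_comp hA F3 (Finset.mem_coe.2 ha1) (tsc_comp_self (F3 (Finset.mem_coe.2 ha1)))
  have hTC : ∀ v ∈ T, v ∈ I ∧ v ∉ J := by
    intro v hv
    have := hv.1
    refine ⟨?_, fun hj => this (Or.inr hj)⟩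
    by_contra hn
    exact this (Or.inl (fun hc => hn (Finset.mem_coe.1 hc)))
  -- a neighbour of `T` off `T` which lies in `I` is in `J`
  have hnb : ∀ v ∈ T, ∀ u, u ∉ T → triAdj v u → u ∈ I → u ∈ J := by
    intro v hv u hu hadj huI
    by_contra hj
    apply hu
    refine tsc_comp_adj hv ?_ hadj
    rintro (hc | hc)
    · exact hc (Finset.mem_coe.2 huI)
    · exact hj hc
  -- the sign of an edge
  have hE : ∀ e : TV × TV, PlhEdge tscG T Tᶜ e → (e.1 ∈ ω.B ↔ e.2 ∈ ω.B) := by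
    rintro e ⟨h1, h2, h3⟩
    obtain ⟨m1, m2⟩ := plh_cellOf_mem (e := e) h3
    obtain ⟨hvI, hvJ⟩ := hTC e.1 h1
    have hyI : cellV (plhCellOf e) ⊆ I := anc_cell_int m1 hvI (fun hc => hvJ (F0 _ hc))
    have huJ : e.2 ∈ J := hnb e.1 h1 e.2 h2 h3 (hyI m2)
    obtain ⟨_, hc⟩ := F4 _ (lat_mem_cellsIn.2 hyI) e.2 m2 e.1 m1 huJ hvJ
    rcases hc with hc | hc
    · exact ⟨fun _ => hc m2, fun _ => hc m1⟩
    · exact ⟨fun hh => absurd hh (hc _ m1), fun hh => absurd hh (hc _ m2)⟩
  have hEE : ∀ e e' : TV × TV, Relation.ReflTransGen (PlhEStep tscG T Tᶜ) e e' → (e.1 ∈ ω.B ↔ e'.1 ∈ ω.B) := by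
    intro e e' hr
    induction hr with
    | refl => exact Iff.rfl
    | @tail b c _ hbc ih =>
      refine ih.trans ?_
      rcases hbc.2.2 with ⟨hh, _⟩ | ⟨hh, _⟩
      · rw [hh]
      · rw [hE b hbc.1, hE c hbc.2.1, hh]
  -- the entering steps
  have hent : ∀ (s : Bool) (u a : TV), u ∈ latBd I → a ∈ A → Relation.ReflTransGen (clStep S s ∅ ω) u a →
      ∃ e : TV × TV, PlhEdge tscG T Tᶜ e ∧ (e.1 ∈ ω.B ↔ s = false) := by
    intro s u a hu ha hr
    have huT : u ∉ T := fun hc => (hTC u hc).2 (F0 u hu)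
    obtain ⟨b, c, hbc, hb, hc⟩ := anc_enter hr huT (hAT (Finset.mem_coe.2 ha))
    rcases hbc with ⟨y, hy, h1, h2, h3⟩ | hh | hh
    · have hy' : y ∈ latCellsIn I := hy
      rw [hsv y hy'] at h1 h2
      have hadj : triAdj c b := by
        rcases anc_cell_adj h2 h1 with rfl | hadj
        · exact absurd hc hb
        · exact hadj
      have hbI : b ∈ I := lat_mem_cellsIn.1 hy' h1
      have hbJ : b ∈ J := hnb c hc b hb hadj hbI
      obtain ⟨ho, hcst⟩ := F4 y hy' b h1 c h2 hbJ (hTC c hc).2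
      refine ⟨(c, b), ⟨hc, hb, hadj⟩, ?_⟩
      show c ∈ ω.B ↔ s = false
      unfold clTau at h3
      rw [if_pos ho, hsv y hy'] at h3
      cases s
      · simp only [clSg, Bool.false_eq_true, if_false] at h3
        have : cellV y ⊆ ω.B := by
          by_contra hn
          rw [if_neg hn] at h3
          exact h3 rfl
        simp [this h2]
      · simp only [clSg, if_true] at h3
        have hn : ¬ cellV y ⊆ ω.B := by
          intro hn
          rw [if_pos hn] at h3
          exact h3 rfl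
        have : c ∉ ω.B := by
          rcases hcst with hh | hh
          · exact absurd hh hn
          · exact hh c h2
        simp [this]
    · exact absurd hh (Finset.notMem_empty _)
    · exact absurd hh (Finset.notMem_empty _)
  obtain ⟨e1, he1, s1⟩ := hent true u1 a1 hu1 ha1 r1
  obtain ⟨e2, he2, s2⟩ := hent false u2 a2 hu2 ha2 r2
  have := hEE e1 e2 (plh_nice_edge hnice he1 he2)
  rw [s1, s2] at this
  simp at this

section as2abs

variable {V Y : Type} [DecidableEq V] [DecidableEq Y]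

/-! ### two-colour comparison (helper46; prefix `as2_`) -/

theorem as2_N2_nonneg (S : ClSys V Y) (h0 : ∀ y ∈ S.C, 1 / 2 ≤ S.q y) (h1 : ∀ y ∈ S.C, S.q y ≤ 1) (K : ClCfg2 V Y → Prop)
    (G : ClCfg2 V Y → ℝ) (hG : ∀ ω, 0 ≤ G ω) : 0 ≤ S.N2 K G := by
  classical
  unfold ClSys.N2
  refine Finset.sum_nonneg fun ω _ => ?_
  split_ifs
  · exact mul_nonneg (am_wt2_nonneg S h0 h1 ω) (hG ω)
  · exact le_rfl

/-- monotonicity of the two-colour sums, on the support -/
theorem as2_N2_mono (S : ClSys V Y) (h0 : ∀ y ∈ S.C, 1 / 2 ≤ S.q y) (h1 : ∀ y ∈ S.C, S.q y ≤ 1) (K : ClCfg2 V Y → Prop)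
    (G G' : ClCfg2 V Y → ℝ) (h : ∀ ω, S.wt2 ω ≠ 0 → K ω → G ω ≤ G' ω) : S.N2 K G ≤ S.N2 K G' := by
  classical
  unfold ClSys.N2
  refine Finset.sum_le_sum fun ω _ => ?_
  by_cases hK : K ω
  · rw [if_pos hK, if_pos hK]
    by_cases hw : S.wt2 ω = 0
    · rw [hw, zero_mul, zero_mul]
    · exact mul_le_mul_of_nonneg_left (h ω hw hK) (am_wt2_nonneg S h0 h1 ω)
  · rw [if_neg hK, if_neg hK]

/-- comparison of an event of the first colour with an event of the second colour -/
theorem as2_P_le (S : ClSys V Y) (h0 : ∀ y ∈ S.C, 1 / 2 ≤ S.q y) (h1 : ∀ y ∈ S.C, S.q y ≤ 1) (K₁ K₂ L₁ L₂ : ClCfg V Y → Prop)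
    (hK : ∀ ω : ClCfg2 V Y, K₁ ω.fst ↔ K₂ ω.snd)
    (h : ∀ ω : ClCfg2 V Y, S.wt2 ω ≠ 0 → K₁ ω.fst → L₁ ω.fst → L₂ ω.snd) : S.P K₁ L₁ ≤ S.P K₂ L₂ := by
  classical
  unfold ClSys.P
  rw [dis_E_eq, dis_E_eq, dis_Z_eq, dis_Z_eq, ← am_N2_fst S K₁, ← am_N2_fst S K₁, ← am_N2_snd S K₂, ← am_N2_snd S K₂]
  have e : (fun ω : ClCfg2 V Y => K₂ ω.snd) = fun ω => K₁ ω.fst := funext fun ω => propext (hK ω).symm
  rw [e]
  refine div_le_div_of_nonneg_right (as2_N2_mono S h0 h1 _ _ _ fun ω hw hk => ?_)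
    (as2_N2_nonneg S h0 h1 _ _ fun _ => zero_le_one)
  by_cases hL : L₁ ω.fst
  · rw [if_pos hL, if_pos (h ω hw hk hL)]
  · rw [if_neg hL]
    split_ifs <;> norm_num

/-- a constant spin on a cell has the sign of any of its sites -/
theorem as2_const_sg {P t : Finset V} (h : ClConst P t) {s : Bool} {b : V} (hb : b ∈ t) (hs : DamSg s P b) :
    ∀ v ∈ t, DamSg s P v := by
  intro v hv
  unfold DamSg at hs ⊢
  rcases h with h | h
  · exact ⟨fun _ => hs.1 (h hb), fun _ => h hv⟩
  · exact ⟨fun hh => absurd hh (h v hv), fun hh => absurd (hs.2 hh) (h b hb)⟩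

theorem as2_tau_sg (S : ClSys V Y) (ω : ClCfg V Y) {y : Y} (ho : y ∈ ω.O) {s : Bool} {b : V} (hb : b ∈ S.sv y)
    (h : ∀ v ∈ S.sv y, DamSg s ω.B v) : clTau S ω y = clSg s := by
  cases s
  · exact (amo_tau_neg S ω y).2 ⟨ho, fun hh => by simpa using (h b hb).1 (hh hb)⟩
  · exact (amo_tau_pos S ω y).2 ⟨ho, fun v hv => (h v hv).2 rfl⟩

/-- T6, deterministic part: a chain of cells closed for the first colour, issued from a site of second spin `s`, is a chain of cells of the second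
colour of sign `s` -/
theorem as2_chain (S : ClSys V Y) (ω : ClCfg2 V Y) (hω : S.wt2 ω ≠ 0) (s : Bool) (T A : Finset V) (hK : DamPin T s ω.snd)
    (h : ¬ CuSepO S ∅ ω.fst T A) : CuCon S s ω.snd T A := by
  unfold CuSepO at h
  simp only [not_forall, not_not] at h
  obtain ⟨u, hu, v, hv, hr⟩ := h
  refine ⟨u, hu, v, hv, ?_⟩
  have key : DamSg s ω.W v ∧ Relation.ReflTransGen (CuStepG S (fun y => clTau S ω.snd y ≠ clSg s) ∅) u v := by
    clear hv
    induction hr with
    | refl => exact ⟨hK u hu, Relation.ReflTransGen.refl⟩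
    | @tail b c _ hstep ih =>
      rcases hstep with ⟨y, hy, hb, hc, ho⟩ | hh | hh
      · obtain ⟨c1, _, c3, _, _⟩ := am_wt2_cover S ω hω y hy
        have hOW : y ∈ ω.OW := c1.resolve_left ho
        have hall := as2_const_sg (c3 hOW) hb ih.1
        refine ⟨hall c hc, ih.2.tail (Or.inl ⟨y, hy, hb, hc, not_not.2 ?_⟩)⟩
        exact as2_tau_sg S ω.snd hOW hb hall
      · exact absurd hh (Finset.notMem_empty _)
      · exact absurd hh (Finset.notMem_empty _)
  exact key.2

/-- **T6, abstract** -/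
theorem as2_dom2 (S : ClSys V Y) (h0 : ∀ y ∈ S.C, 1 / 2 ≤ S.q y) (h1 : ∀ y ∈ S.C, S.q y ≤ 1) (s : Bool) (T A : Finset V) :
    S.P (fun ω => DamPin T s ω.sw) (fun ω => ¬ CuSepO S ∅ ω T A) ≤ S.P (DamPin T s) (fun ω => CuCon S s ω T A) :=
  as2_P_le S h0 h1 _ _ _ _ (fun _ => Iff.rfl) fun ω hw hk hL => as2_chain S ω hw s T A hk hL

end as2abs

theorem as2_inn_q (x : ℝ) (hx1 : 1 / Real.sqrt 2 ≤ x) (hx2 : x ≤ 1) (I : Finset TV) :
    (∀ y ∈ (clInn x I).C, 1 / 2 ≤ (clInn x I).q y) ∧ ∀ y ∈ (clInn x I).C, (clInn x I).q y ≤ 1 := by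
  have hx0 : 0 < x := lt_of_lt_of_le (by positivity) hx1
  have h2 : 1 / 2 ≤ x ^ 2 := by
    have h3 : (1 / Real.sqrt 2) ^ 2 ≤ x ^ 2 := pow_le_pow_left₀ (by positivity) hx1 2
    rwa [div_pow, one_pow, Real.sq_sqrt (by norm_num)] at h3
  refine ⟨fun y hy => ?_, fun y hy => (pcp_inn_ok x hx0 hx2 I).q1 y hy⟩
  rw [(pcp_inn_sv x I hy).2]
  exact h2

/-- LEAF (c) = T6.   PLAN: two-colour law of `S = clInn x I` under `K ω = DamPin (latBd I) s ω.snd`:  left side = `S.P2 K (¬ CuSepO … ω.fst)` (`am_N2_fst`), right side = `S.P2 K (CuCon … s ω.snd)` (`am_N2_snd`);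
on the support (`am_wt2_cover`, `am_wt2_nonneg`, `q = x^2 ≥ 1/2`) a cell which is closed for the first colour is open for the second colour with constant second spin; along a chain issued from the layer the sign is `s`. -/
theorem ann_dom2 (x : ℝ) (hx1 : 1 / Real.sqrt 2 ≤ x) (hx2 : x ≤ 1) (s : Bool) (I A : Finset TV) :
    anW x s I (fun ω => ¬ CuSepO (clInn x I) ∅ ω (latBd I) A) ≤ anP x s I (fun ω => CuCon (clInn x I) s ω (latBd I) A) :=
  as2_dom2 _ (as2_inn_q x hx1 hx2 I).1 (as2_inn_q x hx1 hx2 I).2 s _ A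

/-- **(HALF)** -/
theorem ann_half (x : ℝ) (hx1 : 1 / Real.sqrt 2 ≤ x) (hx2 : x ≤ 1) (s : Bool) (I A : Finset TV) (hI : TscConn tscG (↑I : Set TV)ᶜ)
    (hA : TscConn tscG (↑A : Set TV)) (hAI : A ⊆ I) :
    1 / 2 * (1 - anP x s I (fun ω => CuCon (clInn x I) s ω (latBd I) A)) ≤
      anW x s I (fun ω => ClSep (clInn x I) true ∅ ω (latBd I) A) := by
  have hx0 : 0 < x := lt_of_lt_of_le (by positivity) hx1
  have hok := pcp_inn_ok x hx0 hx2 I
  have h1 := ann_dom2 x hx1 hx2 s I A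
  rw [ann_W_compl x hx0 hx2] at h1
  have h2 : anW x s I (fun ω => CuSepO (clInn x I) ∅ ω (latBd I) A) ≤
      anW x s I (fun ω => ClSep (clInn x I) true ∅ ω (latBd I) A ∨ ClSep (clInn x I) false ∅ ω (latBd I) A) := by
    refine ann_clP_mono _ hok _ _ _ (fun ω _ hw _ hsep => ann_one_sign x I A hI hA hAI ω (fun y hy ho => ?_) hsep)
    have := dam_open_const hw (show y ∈ (clInn x I).C from hy) ho
    rwa [(pcp_inn_sv x I hy).1] at this
  have h3 := ann_clP_or _ hok (fun ω => DamPin (latBd I) s ω.sw) (fun ω => ClSep (clInn x I) true ∅ ω (latBd I) A)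
    (fun ω => ClSep (clInn x I) false ∅ ω (latBd I) A)
  have h4 := ann_W_flip x hx0 hx2 s I (latBd I) A
  unfold anW at h1 h2 h4 ⊢
  linarith

section as2srch

variable {V Y : Type} [DecidableEq V] [DecidableEq Y]

/-! ### the search of a cut of the second colour (helper46; prefix `as2_`) -/

open Classical in
/-- indicator -/
noncomputable def as2I (p : Prop) : ℝ := if p then 1 else 0

theorem as2_I_pos {p : Prop} (h : p) : as2I p = 1 := by unfold as2I; rw [if_pos h]
theorem as2_I_neg {p : Prop} (h : ¬ p) : as2I p = 0 := by unfold as2I; rw [if_neg h]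
theorem as2_I_nonneg (p : Prop) : 0 ≤ as2I p := by unfold as2I; split_ifs <;> norm_num
theorem as2_I_mono {p q : Prop} (h : p → q) : as2I p ≤ as2I q := by
  by_cases hp : p
  · rw [as2_I_pos hp, as2_I_pos (h hp)]
  · rw [as2_I_neg hp]; exact as2_I_nonneg q

theorem as2_P_eq (S : ClSys V Y) (K L : ClCfg V Y → Prop) : S.P K L = S.N K (fun ω => as2I (L ω)) / S.N K (fun _ => 1) := by
  rw [← dis_Z_eq]; rfl

theorem as2_N2_false (S : ClSys V Y) (K : ClCfg2 V Y → Prop) (h : ∀ ω, ¬ K ω) (G : ClCfg2 V Y → ℝ) : S.N2 K G = 0 := by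
  classical
  unfold ClSys.N2
  exact Finset.sum_eq_zero fun ω _ => if_neg (h ω)

theorem as2_N2_congr (S : ClSys V Y) (K : ClCfg2 V Y → Prop) (G G' : ClCfg2 V Y → ℝ) (h : ∀ ω, K ω → G ω = G' ω) :
    S.N2 K G = S.N2 K G' := by
  classical
  unfold ClSys.N2
  refine Finset.sum_congr rfl fun ω _ => ?_
  by_cases hK : K ω
  · rw [if_pos hK, if_pos hK, h ω hK]
  · rw [if_neg hK, if_neg hK]

theorem as2_N2_smul (S : ClSys V Y) (K : ClCfg2 V Y → Prop) (G : ClCfg2 V Y → ℝ) (c : ℝ) :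
    S.N2 K (fun ω => c * G ω) = c * S.N2 K G := by
  classical
  unfold ClSys.N2
  rw [Finset.mul_sum]
  refine Finset.sum_congr rfl fun ω _ => ?_
  split_ifs
  · ring
  · ring

/-- decomposition according to the value of a set-valued function -/
theorem as2_N2_fiber (S : ClSys V Y) (K : ClCfg2 V Y → Prop) (G : ClCfg2 V Y → ℝ) (g : ClCfg2 V Y → Finset V)
    (hg : ∀ ω, g ω ⊆ S.A) : S.N2 K G = ∑ J ∈ S.A.powerset, S.N2 (fun ω => K ω ∧ g ω = J) G := by
  classical
  unfold ClSys.N2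
  rw [← Finset.sum_fiberwise_of_maps_to (g := g) (t := S.A.powerset) (fun ω _ => Finset.mem_powerset.2 (hg ω))]
  refine Finset.sum_congr rfl fun J _ => ?_
  rw [Finset.sum_filter]
  refine Finset.sum_congr rfl fun ω _ => ?_
  by_cases h1 : g ω = J
  · by_cases h2 : K ω
    · rw [if_pos h1, if_pos h2, if_pos ⟨h2, h1⟩]
    · rw [if_pos h1, if_neg h2, if_neg (fun h => h2 h.1)]
  · rw [if_neg h1, if_neg (fun h => h1 h.2)]

theorem as2_inv_sub (S : ClSys V Y) (s : Bool) (E : Finset (V × V)) (ω : ClCfg V Y) (O : Finset V) : clInv S s E ω O ⊆ S.A :=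
  fun v hv => ((dde_mem_inv S s E ω O v).1 hv).1

theorem as2_sub_inv (S : ClSys V Y) (s : Bool) (E : Finset (V × V)) (ω : ClCfg V Y) {O : Finset V} (hO : O ⊆ S.A) :
    O ⊆ clInv S s E ω O := fun v hv => (dde_mem_inv S s E ω O v).2 ⟨hO hv, v, hv, Relation.ReflTransGen.refl⟩

theorem as2_sep_iff (S : ClSys V Y) (s : Bool) (E : Finset (V × V)) (ω : ClCfg V Y) (O : Finset V) {A : Finset V} (hA : A ⊆ S.A) :
    ClSep S s E ω O A ↔ Disjoint (clInv S s E ω O) A := by
  rw [Finset.disjoint_left]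
  constructor
  · intro h v hv hvA
    obtain ⟨_, u, hu, hr⟩ := (dde_mem_inv S s E ω O v).1 hv
    exact h u hu v hvA hr
  · intro h u hu v hv hr
    exact h ((dde_mem_inv S s E ω O v).2 ⟨hA hv, u, hu, hr⟩) hv

/-- the cells inside `J` are the outer cells of the complement of `J` -/
theorem as2_cin_cout (S : ClSys V Y) (hS : ClOk S) {J : Finset V} {y : Y} (hy : y ∈ S.cin J) : y ∈ S.cout (S.A \ J) := by
  obtain ⟨h1, h2⟩ := (am_mem_cin S J y).1 hy
  obtain ⟨v, hv⟩ := hS.ne y h1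
  refine (am_mem_cout S _ y).2 ⟨h1, fun h => (Finset.mem_sdiff.1 (h hv)).2 (h2 hv), ?_⟩
  rintro ⟨⟨u, hu, huI⟩, _⟩
  exact (Finset.mem_sdiff.1 huI).2 (h2 hu)

/-- **one term of the search**: given the set `J` invaded from `O` through the cells which are not open-plus for the SECOND colour, and the first spin on `O`,
the law off `J` is the two-status cut law of the second colour -/
theorem as2_term (S : ClSys V Y) (hS : ClOk S) (h12 : ∀ y ∈ S.C, 1 / 2 ≤ S.q y) (t : Bool) (O J : Finset V) (hO : O ⊆ J) (hJ : J ⊆ S.A) (F : ClCfg2 V Y → ℝ)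
    (hF : CuIn2 S (S.A \ J) F) :
    S.N2 (fun ω => DamPin O t ω.fst ∧ clInv S true ∅ ω.snd O = J) F =
      S.N2 (fun ω => DamPin O t ω.fst ∧ clInv S true ∅ ω.snd O = J) (fun _ => 1) *
        cuE2 S false true (S.A \ J) (fun _ => True) F := by
  have hnI : ∀ v ∈ J, v ∉ S.A \ J := fun v hv h => (Finset.mem_sdiff.1 h).2 hv
  have hout : ∀ ω ω' : ClCfg2 V Y, ω.B \ (S.A \ J) = ω'.B \ (S.A \ J) → ω.W \ (S.A \ J) = ω'.W \ (S.A \ J) →
      ω.OB ∩ S.cout (S.A \ J) = ω'.OB ∩ S.cout (S.A \ J) → ω.OW ∩ S.cout (S.A \ J) = ω'.OW ∩ S.cout (S.A \ J) →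
      ((DamPin O t ω.fst ∧ clInv (S.inn J) true ∅ ω.snd O = J) ↔ (DamPin O t ω'.fst ∧ clInv (S.inn J) true ∅ ω'.snd O = J)) := by
    intro ω ω' hB hW _ hOW
    have e1 : DamPin O t ω.fst ↔ DamPin O t ω'.fst := by
      refine forall₂_congr fun v hv => ?_
      show (v ∈ ω.B ↔ t = true) ↔ (v ∈ ω'.B ↔ t = true)
      rw [dcu_mem_of_sdiff hB (hnI v (hO hv))]
    have e2 : clInv (S.inn J) true ∅ ω.snd O = clInv (S.inn J) true ∅ ω'.snd O := by
      refine dde_inv_congr (S.inn J) (am_inn_ok S hS J) true ∅ ω.snd ω'.snd O ∅ (fun y hy _ => ?_)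
        (fun v _ => Finset.notMem_empty v)
      have hy' : y ∈ S.cin J := hy
      have h1 : y ∈ ω.OW ↔ y ∈ ω'.OW := dcu_mem_of_inter hOW (as2_cin_cout S hS hy')
      have hs := ((am_mem_cin S J y).1 hy').2
      have h2 : S.sv y ⊆ ω.W ↔ S.sv y ⊆ ω'.W :=
        ⟨fun h v hv => (dcu_mem_of_sdiff hW (hnI v (hs hv))).1 (h hv), fun h v hv => (dcu_mem_of_sdiff hW (hnI v (hs hv))).2 (h hv)⟩
      show (if y ∈ ω.OW then (if S.sv y ⊆ ω.W then (1 : ℤ) else -1) else 0) = (if y ∈ ω'.OW then (if S.sv y ⊆ ω'.W then (1 : ℤ) else -1) else 0)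
      simp only [h1, h2]
    rw [e1, e2]
  have h := am_cut2 S hS h12 false true (S.A \ J) Finset.sdiff_subset (fun _ => True)
    (fun ω => DamPin O t ω.fst ∧ clInv (S.inn J) true ∅ ω.snd O = J) (fun _ _ _ _ _ _ => Iff.rfl) hout F (fun _ => 1) hF
    (fun _ _ _ _ _ _ => rfl)
  simp only [one_mul] at h
  have he : (fun ω : ClCfg2 V Y => DamPin O t ω.fst ∧ clInv S true ∅ ω.snd O = J) =
      (fun ω => ClCut S true (S.A \ J) (ω.col false) ∧ True ∧ DamPin O t ω.fst ∧ clInv (S.inn J) true ∅ ω.snd O = J) := by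
    funext ω
    apply propext
    have h1 := am_inv_iff S hS true ∅ (fun e he => absurd he (Finset.notMem_empty e)) ω.snd O J hO hJ
    have h2 : ω.col false = ω.snd := rfl
    rw [h1, h2]
    constructor
    · rintro ⟨a, b, _, d⟩
      exact ⟨b, trivial, a, d⟩
    · rintro ⟨a, _, b, d⟩
      exact ⟨b, a, fun e he => absurd he (Finset.notMem_empty e), d⟩
  rw [he]
  exact h

theorem as2_N2_zero (S : ClSys V Y) (K : ClCfg2 V Y → Prop) : S.N2 K (fun _ => 0) = 0 := by
  classical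
  unfold ClSys.N2
  refine Finset.sum_eq_zero fun ω _ => ?_
  split_ifs
  · exact mul_zero _
  · rfl

/-- the search, for one value `J` of the invaded set -/
theorem as2_perJ (S : ClSys V Y) (hS : ClOk S) (h12 : ∀ y ∈ S.C, 1 / 2 ≤ S.q y) (t : Bool) (O A : Finset V) (hO : O ⊆ S.A)
    (hA : A ⊆ S.A) (c : ℝ) (hc0 : 0 ≤ c) (L0 : ClCfg V Y → Prop) (Lin : Finset V → ClCfg V Y → Prop)
    (hloc : ∀ I, I ⊆ S.A → ClLocP I (S.cin I) (Lin I)) (himp : ∀ I, A ⊆ I → I ⊆ S.A → ∀ ω, Lin I ω → L0 ω)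
    (hc : ∀ ω : ClCfg V Y, ClSep S true ∅ ω O A → c ≤ cuE2 S false true (S.A \ clInv S true ∅ ω O) (fun _ => True)
      (fun ω' => as2I (Lin (S.A \ clInv S true ∅ ω O) ω'.fst))) (J : Finset V) :
    c * S.N2 (fun ω => DamPin O t ω.fst ∧ clInv S true ∅ ω.snd O = J) (fun ω => as2I (ClSep S true ∅ ω.snd O A)) ≤
      S.N2 (fun ω => DamPin O t ω.fst ∧ clInv S true ∅ ω.snd O = J) (fun ω => as2I (L0 ω.fst)) := by
  set K := fun ω : ClCfg2 V Y => DamPin O t ω.fst ∧ clInv S true ∅ ω.snd O = J with hK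
  have h1 := hS.q1
  by_cases hex : ∃ ω : ClCfg2 V Y, clInv S true ∅ ω.snd O = J
  swap
  · rw [as2_N2_false S K (fun ω h => hex ⟨ω, h.2⟩), as2_N2_false S K (fun ω h => hex ⟨ω, h.2⟩), mul_zero]
  obtain ⟨ω₀, h₀⟩ := hex
  have hOJ : O ⊆ J := h₀ ▸ as2_sub_inv S true ∅ ω₀.snd hO
  have hJA : J ⊆ S.A := h₀ ▸ as2_inv_sub S true ∅ ω₀.snd O
  by_cases hd : Disjoint J A
  · have e1 : S.N2 K (fun ω => as2I (ClSep S true ∅ ω.snd O A)) = S.N2 K (fun _ => 1) :=
      as2_N2_congr S K _ _ fun ω hk => as2_I_pos ((as2_sep_iff S true ∅ ω.snd O hA).2 (hk.2.symm ▸ hd))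
    have hAI : A ⊆ S.A \ J := fun v hv => Finset.mem_sdiff.2 ⟨hA hv, fun h => Finset.disjoint_left.1 hd h hv⟩
    have hF : CuIn2 S (S.A \ J) (fun ω => as2I (Lin (S.A \ J) ω.fst)) := by
      intro ω ω' a b c' _
      have := hloc (S.A \ J) Finset.sdiff_subset ω.fst ω'.fst a b c'
      show as2I (Lin (S.A \ J) ω.fst) = as2I (Lin (S.A \ J) ω'.fst)
      rw [propext this]
    have e2 := as2_term S hS h12 t O J hOJ hJA _ hF
    have e3 : S.N2 K (fun ω => as2I (Lin (S.A \ J) ω.fst)) ≤ S.N2 K (fun ω => as2I (L0 ω.fst)) :=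
      as2_N2_mono S h12 h1 K _ _ fun ω _ _ => as2_I_mono (himp _ hAI Finset.sdiff_subset ω.fst)
    have e4 : c ≤ cuE2 S false true (S.A \ J) (fun _ => True) (fun ω' => as2I (Lin (S.A \ J) ω'.fst)) := by
      have := hc ω₀.snd ((as2_sep_iff S true ∅ ω₀.snd O hA).2 (h₀.symm ▸ hd))
      rwa [h₀] at this
    have e5 : 0 ≤ S.N2 K (fun _ => 1) := as2_N2_nonneg S h12 h1 K _ fun _ => zero_le_one
    rw [e1]
    calc c * S.N2 K (fun _ => 1) = S.N2 K (fun _ => 1) * c := mul_comm _ _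
      _ ≤ S.N2 K (fun _ => 1) * cuE2 S false true (S.A \ J) (fun _ => True) (fun ω' => as2I (Lin (S.A \ J) ω'.fst)) :=
          mul_le_mul_of_nonneg_left e4 e5
      _ = S.N2 K (fun ω => as2I (Lin (S.A \ J) ω.fst)) := e2.symm
      _ ≤ _ := e3
  · have e1 : S.N2 K (fun ω => as2I (ClSep S true ∅ ω.snd O A)) = S.N2 K (fun _ => 0) :=
      as2_N2_congr S K _ _ fun ω hk => as2_I_neg fun hs => hd (hk.2 ▸ (as2_sep_iff S true ∅ ω.snd O hA).1 hs)
    rw [e1, as2_N2_zero, mul_zero]
    exact as2_N2_nonneg S h12 h1 K _ fun ω => as2_I_nonneg _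

/-- the two-status cut law of the second colour, seen through the first colour -/
theorem as2_cuE2_fst (S : ClSys V Y) (I : Finset V) (s : Bool) (L : ClCfg V Y → Prop) :
    cuE2 S false s I (fun _ => True) (fun ω => as2I (L ω.fst)) = (S.inn I).P (fun ω => DamPin (cuLay S I) s ω.sw) L := by
  rw [as2_P_eq, ← am_N2_fst, ← am_N2_fst]
  unfold cuE2 ClSys.E2 ClSys.Z2
  have e : (fun ω : ClCfg2 V Y => CuPin s (cuLay S I) (ω.col false) ∧ True) = fun ω => DamPin (cuLay S I) s ω.fst.sw := by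
    funext ω
    exact propext ⟨fun h => h.1, fun h => ⟨h, trivial⟩⟩
  rw [e]

/-- **SEARCH OF A PLUS CUT OF THE SECOND COLOUR**, abstract form -/
theorem as2_search (S : ClSys V Y) (hS : ClOk S) (h12 : ∀ y ∈ S.C, 1 / 2 ≤ S.q y) (t : Bool) (O A : Finset V) (hO : O ⊆ S.A)
    (hA : A ⊆ S.A) (c : ℝ) (hc0 : 0 ≤ c) (L0 : ClCfg V Y → Prop) (Lin : Finset V → ClCfg V Y → Prop)
    (hloc : ∀ I, I ⊆ S.A → ClLocP I (S.cin I) (Lin I)) (himp : ∀ I, A ⊆ I → I ⊆ S.A → ∀ ω, Lin I ω → L0 ω)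
    (hc : ∀ ω : ClCfg V Y, ClSep S true ∅ ω O A →
      c ≤ (S.inn (S.A \ clInv S true ∅ ω O)).P (fun ω' => DamPin (cuLay S (S.A \ clInv S true ∅ ω O)) true ω'.sw)
        (Lin (S.A \ clInv S true ∅ ω O))) :
    c * S.P (fun ω => DamPin O t ω.sw) (fun ω => ClSep S true ∅ ω O A) ≤ S.P (DamPin O t) L0 := by
  have h1 := hS.q1
  rw [as2_P_eq, as2_P_eq, ← am_N2_snd S (fun ω => DamPin O t ω.sw), ← am_N2_snd S (fun ω => DamPin O t ω.sw),
    ← am_N2_fst S (DamPin O t), ← am_N2_fst S (DamPin O t)]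
  have e : (fun ω : ClCfg2 V Y => DamPin O t ω.snd.sw) = fun ω => DamPin O t ω.fst := rfl
  rw [e, ← mul_div_assoc]
  refine div_le_div_of_nonneg_right ?_ (as2_N2_nonneg S h12 h1 _ _ fun _ => zero_le_one)
  rw [as2_N2_fiber S _ _ (fun ω => clInv S true ∅ ω.snd O) (fun ω => as2_inv_sub S true ∅ ω.snd O),
    as2_N2_fiber S _ (fun ω => as2I (L0 ω.fst)) (fun ω => clInv S true ∅ ω.snd O) (fun ω => as2_inv_sub S true ∅ ω.snd O),
    Finset.mul_sum]
  refine Finset.sum_le_sum fun J _ => ?_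
  exact as2_perJ S hS h12 t O A hO hA c hc0 L0 Lin hloc himp (fun ω hω => by rw [as2_cuE2_fst]; exact hc ω hω) J

end as2srch

/-- the complement of the part which is not invaded from the layer is connected -/
theorem as2_conn (x : ℝ) (D : Finset TV) (hD : TscConn tscG (↑D : Set TV)ᶜ) (s : Bool) (ω : ClCfg TV TV) :
    TscConn tscG (↑(D \ clInv (clInn x D) s ∅ ω (latBd D)) : Set TV)ᶜ := by
  set J := clInv (clInn x D) s ∅ ω (latBd D) with hJ
  set X : Set TV := (↑(D \ J) : Set TV)ᶜ with hX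
  have hDX : (↑D : Set TV)ᶜ ⊆ X := by
    intro u hu
    simp only [hX, Set.mem_compl_iff, Finset.mem_coe, Finset.mem_sdiff, not_and, not_not] at hu ⊢
    exact fun h => absurd h hu
  have hJX : ∀ u ∈ J, u ∈ X := by
    intro u hu
    simp only [hX, Set.mem_compl_iff, Finset.mem_coe, Finset.mem_sdiff, not_and, not_not]
    exact fun _ => hu
  -- every point of `X` is joined inside `X` to a point off `D`
  have key : ∀ u ∈ X, ∃ w, w ∉ D ∧ TscR tscG X u w := by
    intro u hu
    by_cases huD : u ∈ D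
    swap
    · exact ⟨u, huD, tsc_R_refl u⟩
    have huJ : u ∈ J := by
      simp only [hX, Set.mem_compl_iff, Finset.mem_coe, Finset.mem_sdiff, not_and, not_not] at hu
      exact hu huD
    obtain ⟨-, o, ho, hr⟩ := (dde_mem_inv (clInn x D) s ∅ ω (latBd D) u).1 huJ
    obtain ⟨hoD, w, how, hw⟩ := lat_mem_bd.1 ho
    have hoJ : o ∈ J := as2_sub_inv (clInn x D) s ∅ ω (lat_bd_sub D) ho
    have hpath : u ∈ J ∧ TscR tscG X o u := by
      clear huJ hu huD
      induction hr with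
      | refl => exact ⟨hoJ, tsc_R_refl o⟩
      | @tail b c hb hstep ih =>
        have hstep' := hstep
        rcases hstep with ⟨y, hy, h1, h2, _⟩ | hh | hh
        · have hcD : c ∈ D := (Finset.mem_inter.1 h2).2
          have hcJ : c ∈ J := (dde_mem_inv (clInn x D) s ∅ ω (latBd D) c).2 ⟨hcD, o, ho, hb.tail hstep'⟩
          refine ⟨hcJ, ?_⟩
          by_cases hbc : b = c
          · rw [← hbc]; exact ih.2
          · exact tsc_R_trans ih.2 (tsc_R_step (dam_cell_adj (Finset.mem_inter.1 h1).1 (Finset.mem_inter.1 h2).1 hbc)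
              (hJX b ih.1) (hJX c hcJ))
        · exact absurd hh (Finset.notMem_empty _)
        · exact absurd hh (Finset.notMem_empty _)
    refine ⟨w, hw, tsc_R_trans (tsc_R_symm hpath.2) (tsc_R_step how (hJX o hoJ) (hDX hw))⟩
  intro u hu v hv
  obtain ⟨w, hw, h1⟩ := key u hu
  obtain ⟨w', hw', h2⟩ := key v hv
  exact tsc_R_trans h1 (tsc_R_trans (tsc_R_mono hDX (hD w hw w' hw')) (tsc_R_symm h2))

/-- the law off the invaded set is `anW` -/
theorem as2_inn_W (x : ℝ) {I D : Finset TV} (h : I ⊆ D) (hd : Disjoint I (latBd D)) (s : Bool) (L : ClCfg TV TV → Prop) :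
    ((clInn x D).inn I).P (fun ω' => DamPin (cuLay (clInn x D) I) s ω'.sw) L = anW x s I L := by
  unfold anW ClSys.P
  rw [am_pl_lay_inn x h (by rw [ann_lay]; exact hd), ann_lay]
  have hA : ((clInn x D).inn I).A = (clInn x I).A := rfl
  have hC : ((clInn x D).inn I).C = (clInn x I).C := am_pl_cin_inn x h
  have e : ∀ y ∈ ((clInn x D).inn I).C, cellV y ∩ D = cellV y ∩ I := by
    intro y hy
    rw [hC] at hy
    have hy' : cellV y ⊆ I := lat_mem_cellsIn.1 hy
    rw [Finset.inter_eq_left.2 hy', Finset.inter_eq_left.2 (hy'.trans h)]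
  refine am_sys_E_congr ((clInn x D).inn I) (clInn x I) hA hC (fun y hy => e y hy) (fun y hy => ?_) _ _
  show (if (cellV y ∩ D).card = 3 then x ^ 2 else x) = (if (cellV y ∩ I).card = 3 then x ^ 2 else x)
  rw [e y hy]

/-- LEAF (SEARCH).   PLAN: `S = clInn x D`, two-colour law under `K ω = DamPin (latBd D) false ω.fst`.  `anP x false D L0 = S.P2 K (L0 ω.fst)` (`am_N2_fst`)  `≥ ∑_J S.P2 K (clInv S true ∅ ω.snd (latBd D) = J ∧ Lin (D \ J) ω.fst)`
(disjoint events, `himp`), the sum over `J ⊇ latBd D`, `J ⊆ D \ A`.  For each `J`: `am_inv_iff` (for `ω.snd`) + `am_cut2` (colour `false`, sign `true`, `I = D \ J`) + `am_N2_fst` on `S.inn I`: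
the term is `S.P2 K (clInv … = J) * anW x true (D \ J) (Lin (D \ J))`  (`cuLay S I = latBd I` since `I` misses `latBd D`; `S.inn I` and `clInn x I` have the same cells, sites, parameters).
`(↑(D \ J))ᶜ` is connected: `Dᶜ` is, each site of `latBd D` has a neighbour off `D`, each site of `J` is joined to `latBd D` inside `J`.
Finally `∑_J S.P2 K (clInv … = J) = S.P2 K (ClSep S true ∅ ω.snd (latBd D) A) = anW x false D (ClSep …)` (`am_N2_snd`). -/
theorem ann_search2 (x : ℝ) (hx1 : 1 / Real.sqrt 2 ≤ x) (hx2 : x ≤ 1) (D A : Finset TV) (hD : TscConn tscG (↑D : Set TV)ᶜ) (hA : A ⊆ D)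
    (c : ℝ) (hc0 : 0 ≤ c) (L0 : ClCfg TV TV → Prop) (Lin : Finset TV → ClCfg TV TV → Prop)
    (hloc : ∀ I, ClLocP I (latCellsIn I) (Lin I)) (himp : ∀ I, A ⊆ I → I ⊆ D → ∀ ω, Lin I ω → L0 ω)
    (hc : ∀ I, A ⊆ I → I ⊆ D \ latBd D → TscConn tscG (↑I : Set TV)ᶜ → c ≤ anW x true I (Lin I)) :
    c * anW x false D (fun ω => ClSep (clInn x D) true ∅ ω (latBd D) A) ≤ anP x false D L0 := by
  have hx0 : 0 < x := lt_of_lt_of_le (by positivity) hx1
  have hS := pcp_inn_ok x hx0 hx2 D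
  refine as2_search (clInn x D) hS (as2_inn_q x hx1 hx2 D).1 false (latBd D) A (lat_bd_sub D) hA c hc0 L0 Lin ?_ himp ?_
  · intro I hI
    have hI' : I ⊆ D := hI
    rw [am_pl_cin_inn x hI']
    exact hloc I
  · intro ω hω
    have hbd : latBd D ⊆ clInv (clInn x D) true ∅ ω (latBd D) := as2_sub_inv (clInn x D) true ∅ ω (lat_bd_sub D)
    have hdis := (as2_sep_iff (clInn x D) true ∅ ω (latBd D) (A := A) hA).1 hω
    have hID : D \ clInv (clInn x D) true ∅ ω (latBd D) ⊆ D := Finset.sdiff_subset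
    have hI2 : D \ clInv (clInn x D) true ∅ ω (latBd D) ⊆ D \ latBd D := Finset.sdiff_subset_sdiff (Finset.Subset.refl _) hbd
    have hAI : A ⊆ D \ clInv (clInn x D) true ∅ ω (latBd D) := fun v hv =>
      Finset.mem_sdiff.2 ⟨hA hv, fun h => Finset.disjoint_left.1 hdis h hv⟩
    have hd : Disjoint (D \ clInv (clInn x D) true ∅ ω (latBd D)) (latBd D) :=
      Finset.disjoint_left.2 fun v hv hv' => (Finset.mem_sdiff.1 (hI2 hv)).2 hv'
    have h := hc _ hAI hI2 (as2_conn x D hD true ω)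
    rw [← as2_inn_W x hID hd] at h
    exact h

/-- LEAF (deterministic): a circuit in a smaller domain is a circuit.   PLAN: in a chain of `D` from `latBd D` to `A` take the LAST site which is not in `I \ latBd I`; it lies in `latBd I` and the rest of the chain uses cells inside `I`
(`plh_lay_iff`), where `clTau` does not depend on the domain (`ann_tau_plus`). -/
theorem ann_sub_sep (x : ℝ) (I D A : Finset TV) (hID : I ⊆ D) (hAI : A ⊆ I) (ω : ClCfg TV TV)
    (h : ClSep (clInn x I) true ∅ ω (latBd I) A) : ClSep (clInn x D) true ∅ ω (latBd D) A := by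
  intro u hu v hv hr
  have key : v ∈ I → ∃ u' ∈ latBd I, Relation.ReflTransGen (clStep (clInn x I) true ∅ ω) u' v := by
    clear hv
    induction hr with
    | refl =>
      intro huI
      obtain ⟨_, w, huw, hw⟩ := lat_mem_bd.1 hu
      exact ⟨u, lat_mem_bd.2 ⟨huI, w, huw, fun hc => hw (hID hc)⟩, Relation.ReflTransGen.refl⟩
    | @tail b c _ hbc ih =>
      intro hcI
      by_cases hcb : c ∈ latBd I
      · exact ⟨c, hcb, Relation.ReflTransGen.refl⟩
      rcases hbc with ⟨y, hy, h1, h2, h3⟩ | hh | hh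
      · have h1' : b ∈ cellV y := (Finset.mem_inter.1 h1).1
        have h2' : c ∈ cellV y := (Finset.mem_inter.1 h2).1
        have hyI : cellV y ⊆ I := anc_cell_int h2' hcI hcb
        have hyI' : y ∈ latCellsIn I := lat_mem_cellsIn.2 hyI
        obtain ⟨u', hu', hr'⟩ := ih (hyI h1')
        refine ⟨u', hu', hr'.tail (Or.inl ⟨y, hyI', Finset.mem_inter.2 ⟨h1', hyI h1'⟩, Finset.mem_inter.2 ⟨h2', hcI⟩, ?_⟩)⟩
        intro ht
        apply h3
        have ht' : clTau (clInn x I) ω y = 1 := ht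
        show clTau (clInn x D) ω y = 1
        rw [ann_tau_plus x I ω hyI'] at ht'
        exact (ann_tau_plus x D ω hy).2 ht'
      · exact absurd hh (Finset.notMem_empty _)
      · exact absurd hh (Finset.notMem_empty _)
  obtain ⟨u', hu', hr'⟩ := key (hAI hv)
  exact h u' hu' v hv hr'

/-- LEAF (locality).   PLAN: `clStep (clInn x I)` reads `clTau` of the cells inside `I` only. -/
theorem ann_sep_loc (x : ℝ) (I O A : Finset TV) (s : Bool) : ClLocP I (latCellsIn I) (fun ω => ClSep (clInn x I) s ∅ ω O A) := by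
  intro ω ω' hB _ hO
  have ht : ∀ y ∈ (clInn x I).C, clTau (clInn x I) ω y = clTau (clInn x I) ω' y := by
    intro y hy
    have hy' : y ∈ latCellsIn I := hy
    have h1 : y ∈ ω.O ↔ y ∈ ω'.O := by
      have := Finset.ext_iff.1 hO y
      simpa [hy'] using this
    have h2 : (clInn x I).sv y ⊆ ω.B ↔ (clInn x I).sv y ⊆ ω'.B := by
      have hsub : (clInn x I).sv y ⊆ I := Finset.inter_subset_right
      constructor
      · intro h v hv
        have : v ∈ ω.B ∩ I := Finset.mem_inter.2 ⟨h hv, hsub hv⟩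
        rw [hB] at this
        exact (Finset.mem_inter.1 this).1
      · intro h v hv
        have : v ∈ ω'.B ∩ I := Finset.mem_inter.2 ⟨h hv, hsub hv⟩
        rw [← hB] at this
        exact (Finset.mem_inter.1 this).1
    unfold clTau
    simp only [h1, h2]
  have e : clStep (clInn x I) s ∅ ω = clStep (clInn x I) s ∅ ω' := by
    funext u v
    unfold clStep
    refine propext (or_congr (exists_congr fun y => and_congr_right fun hy => ?_) Iff.rfl)
    rw [ht y hy]
  show ClSep (clInn x I) s ∅ ω O A ↔ ClSep (clInn x I) s ∅ ω' O A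
  unfold ClSep
  rw [e]

theorem anc_free_holds (S : ClSys TV TV) : (clFree : ClCon TV TV).Holds S = fun _ => True := by
  funext ω
  simp [ClCon.Holds, clFree]

theorem anc_free_legal (S : ClSys TV TV) : ClLegal S (clFree : ClCon TV TV) :=
  ⟨rfl, rfl, fun y _ hy => by simp [clFree] at hy, fun e he => by simp [clFree] at he⟩

theorem anc_free_in (S : ClSys TV TV) (I : Finset TV) : (clFree : ClCon TV TV).In S I :=
  ⟨by simp [clFree], by simp [clFree], fun e he => by simp [clFree] at he, by simp [clFree], by simp [clFree], by simp [clFree],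
    by simp [clFree], by simp [clFree]⟩

/-- T2 for probabilities: `P^+_{D'} ≤ P^+_D` on increasing events of `D ⊆ D'` -/
theorem anc_dom_plus (x : ℝ) (hx0 : 0 < x) (hx2 : x ≤ 1) (D D' : Finset TV) (hDD : D ⊆ D') (L : ClCfg TV TV → Prop)
    (hL : ClMonoP (clInn x D) L) (hLl : ClLocP D (latCellsIn D) L) : anP x true D' L ≤ anP x true D L := by
  classical
  have hf : 0 < (clInn x D).Z (fun ω => CuPin true (amLay D) ω ∧ (clFree : ClCon TV TV).Holds (clInn x D) ω) := by
    have := ann_Z_pos x hx0 hx2 true D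
    have e : (fun ω => CuPin true (amLay D) ω ∧ (clFree : ClCon TV TV).Holds (clInn x D) ω) = DamPin (latBd D) true := by
      funext ω
      rw [anc_free_holds]
      exact propext (ann_pin_iff true D ω)
    rw [e]
    exact this
  have key := am_pl_dom_plus x hx0 hx2 D D' hDD clFree (anc_free_legal _) (anc_free_in _ _) hf (fun ω => if L ω then 1 else 0)
    (by
      intro ω ω' h1 h2
      beta_reduce
      by_cases a : L ω
      · rw [if_pos a, if_pos (hL ω ω' h1 h2 a)]
      · rw [if_neg a]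
        split_ifs <;> norm_num)
    (by
      intro ω ω' h1 h2 h3
      have := hLl ω ω' h1 h2 h3
      simp only [this])
  rw [anc_free_holds, anc_free_holds] at key
  rw [ann_P_am, ann_P_am]
  exact key

theorem anc_con_mono (S : ClSys TV TV) (O Z : Finset TV) : ClMonoP S (fun ω => CuCon S true ω O Z) := by
  rintro ω ω' _ ht ⟨u, hu, v, hv, hr⟩
  refine ⟨u, hu, v, hv, Relation.ReflTransGen.mono ?_ _ _ hr⟩
  rintro a b (⟨y, hy, ha, hb, hne⟩ | h2)
  · refine Or.inl ⟨y, hy, ha, hb, ?_⟩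
    have h1 := ht y hy
    simp only [clSg, if_true, not_not] at hne ⊢
    rcases dis_tau_cases S ω' y with h | h | h <;> omega
  · exact Or.inr h2

theorem anc_con_loc (x : ℝ) (I O Z : Finset TV) (s : Bool) : ClLocP I (latCellsIn I) (fun ω => CuCon (clInn x I) s ω O Z) := by
  intro ω ω' hB _ hO
  have ht : ∀ y ∈ (clInn x I).C, clTau (clInn x I) ω y = clTau (clInn x I) ω' y := fun y hy =>
    amo_tau_loc _ hB hO hy Finset.inter_subset_right
  have e : CuStepG (clInn x I) (fun y => clTau (clInn x I) ω y ≠ clSg s) ∅ = CuStepG (clInn x I) (fun y => clTau (clInn x I) ω' y ≠ clSg s) ∅ := by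
    funext u v
    unfold CuStepG
    refine propext (or_congr (exists_congr fun y => and_congr_right fun hy => ?_) Iff.rfl)
    beta_reduce
    rw [ht y hy]
  show CuCon (clInn x I) s ω O Z ↔ CuCon (clInn x I) s ω' O Z
  unfold CuCon
  rw [e]

/-- LEAF (T2 + deterministic).   PLAN: a plus chain of `I` from `latBd I` to `Λ_n` contains a plus chain of `Λ_m` from the sphere of radius `m` to `Λ_n` (last site of norm `≥ m`; `latBd I` misses `Λ_m`);
the event `CuCon (clInn x Λ_m) true ω Λ_n (latBd Λ_m)` is increasing and local in `Λ_m`: `am_pl_dom_plus` (`D = Λ_m ⊆ D' = I`), `ann_E_am`. -/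
theorem ann_con_dom (x : ℝ) (hx0 : 0 < x) (hx2 : x ≤ 1) (n m : ℕ) (hnm : n < m) (I : Finset TV) (hI : latBall 0 (m + 1) ⊆ I) :
    anP x true I (fun ω => CuCon (clInn x I) true ω (latBd I) (latBall 0 n)) ≤ anPi x n m := by
  have hmI : latBall (0 : TV) m ⊆ I := (plh_ball_mono 0 (by omega)).trans hI
  refine le_trans (ann_P_mono x hx0 hx2 true I _ (fun ω => CuCon (clInn x (latBall 0 m)) true ω (latBall 0 n) (latBd (latBall 0 m))) ?_)
    (anc_dom_plus x hx0 hx2 (latBall 0 m) I hmI _ (anc_con_mono _ _ _) (anc_con_loc x _ _ _ true))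
  intro ω hcon
  rw [anc_con_symm] at hcon
  obtain ⟨v, hv, u, hu, hr⟩ := hcon
  set R := CuStepG (clInn x (latBall 0 m)) (fun y => clTau (clInn x (latBall 0 m)) ω y ≠ clSg true) ∅ with hR
  have key : (∃ w' ∈ latBd (latBall (0 : TV) m), Relation.ReflTransGen R v w') ∨ (latN u < m ∧ Relation.ReflTransGen R v u) := by
    clear hu
    induction hr with
    | refl =>
      right
      have := lat_mem_ball.1 hv
      simp only [sub_zero] at this
      exact ⟨by omega, Relation.ReflTransGen.refl⟩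
    | @tail b c _ hbc ih =>
      rcases ih with ih | ⟨hb, hrb⟩
      · exact Or.inl ih
      rcases hbc with ⟨y, hy, h1, h2, h3⟩ | hh | hh
      · have hy' : y ∈ latCellsIn I := hy
        have h1' : b ∈ cellV y := (Finset.mem_inter.1 h1).1
        have h2' : c ∈ cellV y := (Finset.mem_inter.1 h2).1
        have hym : cellV y ⊆ latBall 0 m := by
          intro w hw
          rw [lat_mem_ball, sub_zero]
          rcases anc_cell_adj h1' hw with rfl | hadj
          · omega
          · have := plh_N_adj hadj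
            omega
        have hym' : y ∈ latCellsIn (latBall 0 m) := lat_mem_cellsIn.2 hym
        have hstep : R b c := by
          refine Or.inl ⟨y, hym', Finset.mem_inter.2 ⟨h1', hym h1'⟩, Finset.mem_inter.2 ⟨h2', hym h2'⟩, ?_⟩
          simp only [not_not] at h3 ⊢
          have h3' : clTau (clInn x I) ω y = 1 := h3
          show clTau (clInn x (latBall 0 m)) ω y = 1
          rw [ann_tau_plus x I ω hy'] at h3'
          exact (ann_tau_plus x _ ω hym').2 h3'
        have hc := lat_mem_ball.1 (hym h2')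
        rw [sub_zero] at hc
        rcases Nat.lt_or_ge (latN c) m with hlt | hge
        · exact Or.inr ⟨hlt, hrb.tail hstep⟩
        · refine Or.inl ⟨c, plh_bd_ball.2 ?_, hrb.tail hstep⟩
          rw [sub_zero]
          omega
      · exact absurd hh (Finset.notMem_empty _)
      · exact absurd hh (Finset.notMem_empty _)
  rcases key with ⟨w', hw', hr'⟩ | ⟨hlt, _⟩
  · exact ⟨v, hv, w', hw', hr'⟩
  · exfalso
    obtain ⟨_, z, huz, hz⟩ := lat_mem_bd.1 hu
    apply hz
    apply hI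
    rw [lat_mem_ball, sub_zero]
    have := plh_N_adj huz
    omega

/-- LEAF (flip).   PLAN: `am_pl_flipB` / `am_flipB_N` + `am_flipB_tau` on the support; `CuCon` is symmetric in its two sets (the step relation is symmetric). -/
theorem ann_pi_flip (x : ℝ) (hx0 : 0 < x) (hx2 : x ≤ 1) (n M : ℕ) :
    anP x false (latBall 0 M) (fun ω => CuCon (clInn x (latBall 0 M)) false ω (latBd (latBall 0 M)) (latBall 0 n)) = anPi x n M := by
  have hS := pcp_inn_ok x hx0 hx2 (latBall 0 M)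
  unfold anPi anP
  refine anc_flip_P _ hS _ _ _ _ (fun ω _ _ => ?_) (fun ω _ hw => ?_)
  · refine forall₂_congr fun v hv => ?_
    have hv' : v ∈ latBall 0 M := lat_bd_sub _ hv
    show (v ∈ latBall 0 M \ ω.B ↔ false = true) ↔ (v ∈ ω.B ↔ true = true)
    simp [hv']
  · rw [anc_flip_con _ hS ω hw, anc_con_symm]
    rfl

/-- **(R3) the chain lemma** -/
theorem ann_chain (x : ℝ) (hx1 : 1 / Real.sqrt 2 ≤ x) (hx2 : x ≤ 1) (n m M : ℕ) (hn : 1 ≤ n) (h1 : n < m) (h2 : m + 1 < M) :
    1 / 4 * (1 - anPi x (m + 1) M) * (1 - anPi x n m) ≤ anU x n M := by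
  have hx0 : 0 < x := lt_of_lt_of_le (by positivity) hx1
  have hπ : anPi x n m ≤ 1 := ann_P_le_one x hx0 hx2 _ _ _
  have hπ' : anPi x (m + 1) M ≤ 1 := ann_P_le_one x hx0 hx2 _ _ _
  have hsub : latBall (0 : TV) n ⊆ latBall 0 (m + 1) := plh_ball_mono 0 (by omega)
  -- inner step
  have hin : ∀ I : Finset TV, latBall 0 (m + 1) ⊆ I → I ⊆ latBall 0 M \ latBd (latBall 0 M) → TscConn tscG (↑I : Set TV)ᶜ →
      1 / 2 * (1 - anPi x n m) ≤ anW x true I (fun ω => ClSep (clInn x I) true ∅ ω (latBd I) (latBall 0 n)) := by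
    intro I hI _ hc
    have a1 := ann_half x hx1 hx2 true I (latBall 0 n) hc (plh_ball_conn 0 n) (hsub.trans hI)
    have a2 := ann_con_dom x hx0 hx2 n m h1 I hI
    linarith
  have hs := ann_search2 x hx1 hx2 (latBall 0 M) (latBall 0 (m + 1)) (plh_ball_compl_conn 0 M) (plh_ball_mono 0 (by omega))
    (1 / 2 * (1 - anPi x n m)) (by linarith)
    (fun ω => ClSep (clInn x (latBall 0 M)) true ∅ ω (latBd (latBall 0 M)) (latBall 0 n))
    (fun I ω => ClSep (clInn x I) true ∅ ω (latBd I) (latBall 0 n))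
    (fun I => ann_sep_loc x I _ _ true)
    (fun I hI hID ω h => ann_sub_sep x I _ _ hID (hsub.trans hI) ω h) hin
  -- outer step
  have hout := ann_half x hx1 hx2 false (latBall 0 M) (latBall 0 (m + 1)) (plh_ball_compl_conn 0 M) (plh_ball_conn 0 (m + 1))
    (plh_ball_mono 0 (by omega))
  rw [ann_pi_flip x hx0 hx2] at hout
  have hc0 : 0 ≤ 1 / 2 * (1 - anPi x n m) := by linarith
  have := mul_le_mul_of_nonneg_left hout hc0
  unfold anU
  nlinarith

end Claimed.Agent.R291
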