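import Claimed.Agent.R291.Ann.CylKit
import Claimed.Agent.R291.Defs.Seed

/-!
# Row 291 (S0539), Ann/CylMain : A4, THE TOP: `cy_main : CyKit P → (CYL)`      (owner helper83, co-head of ANN:A4 with helper5; prefix `cy_`)

TEX 09-annulus Sec. 9.3, 9.4 (TEX[annulus:first-seed], TEX[annulus:winding], TEX[annulus:seed]).   Plan with all constants: `origin/helper5:notes/R291/ann_A4_5.md` Sec. 1.
NO model: only the fields of `CyKit` / `CyLaw` (`Ann/CylKit`), the deterministic lemmas of that file (91) and arithmetic.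
* Sec. 1  soft consequences of `CyLaw`: `cy_le_one`, `cy_sub`, `cy_union_fin`, `cy_fkg_fin`
* Sec. 2  `cy_ext_prob`   extraction + union bound + shift
* Sec. 3  LEMMA BE: `cy_BE1` (slide to the matching law, extraction), `cy_BE2` (`rswl` + slide), `cy_BE3` (strips + `fkg` + `glue`), `cy_BE4` (`cy_wind` + finite FKG), `cy_BE`
* Sec. 4  STAGE A: `cy_seedA` (field `sym` + `refl`)
* Sec. 5  `cy_core` (one scale `m`), **`cy_main`**, `cy_main_minus`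
-/

set_option autoImplicit false
set_option linter.unusedSectionVars false
set_option linter.unusedVariables false

namespace Claimed.Agent.R291

open Claims Claims.C0467 Relation

/-- **(CYL)** in the vocabulary of the kit -/
def CyCyl (P : ℕ → ℕ → Bool → Bool → Set CyF → ℝ) : Prop :=
  ∀ (C : ℕ) (ε : ℝ), 0 < ε → ∃ δ : ℝ, 0 < δ ∧ ∃ H₀ : ℕ, ∀ (L H : ℕ) (T : Bool), H₀ ≤ H → H ≤ L → L ≤ C * H →
    ∀ c d : ℤ, 7 * (H : ℤ) ≤ 10 * c → (c : ℝ) + ε * H ≤ d → d ≤ (H : ℤ) - 4 → δ ≤ P L H T T (cyBlk 1 c d)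

/-- the mirror statement -/
def CyCylM (P : ℕ → ℕ → Bool → Bool → Set CyF → ℝ) : Prop :=
  ∀ (C : ℕ) (ε : ℝ), 0 < ε → ∃ δ : ℝ, 0 < δ ∧ ∃ H₀ : ℕ, ∀ (L H : ℕ) (T : Bool), H₀ ≤ H → H ≤ L → L ≤ C * H →
    ∀ c d : ℤ, 3 ≤ c → (c : ℝ) + ε * H ≤ d → 10 * d ≤ 3 * (H : ℤ) - 10 → δ ≤ P L H T T (cyBlk (-1) c d)

theorem cy_main_eqns_cite : True := by
  have := @CyCyl.eq_1
  have := @CyCylM.eq_1
  trivial

/-! ## 1. soft consequences -/

section soft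

variable {L H : ℕ} {Q : Bool → Bool → Set CyF → ℝ}

theorem cy_sub (h : CyLaw L H Q) (S T : Bool) {E E' : Set CyF} (hE : E ⊆ E') : Q S T E ≤ Q S T E' :=
  h.mono S T E E' fun _ _ ht => hE ht

theorem cy_le_one (h : CyLaw L H Q) (S T : Bool) (E : Set CyF) : Q S T E ≤ 1 :=
  (cy_sub h S T (Set.subset_univ E)).trans_eq (h.one S T)

/-- finite union bound -/
theorem cy_union_fin (h : CyLaw L H Q) (S T : Bool) {ι : Type} (s : Finset ι) (E : ι → Set CyF) :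
    Q S T (⋃ j ∈ s, E j) ≤ ∑ j ∈ s, Q S T (E j) := by
  classical
  induction s using Finset.induction_on with
  | empty => simp [h.zero]
  | insert a s ha ih =>
    rw [Finset.set_biUnion_insert, Finset.sum_insert ha]
    exact (h.union S T _ _).trans (by linarith)

/-- finite FKG -/
theorem cy_fkg_fin (h : CyLaw L H Q) (S T : Bool) {ι : Type} (s : Finset ι) (E : ι → Set CyF) (hi : ∀ j ∈ s, CyInc (E j))
    (hs : ∀ j ∈ s, CySup 3 ((H : ℤ) - 4) (E j)) : ∏ j ∈ s, Q S T (E j) ≤ Q S T (⋂ j ∈ s, E j) := by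
  classical
  have key : ∀ s : Finset ι, (∀ j ∈ s, CyInc (E j)) → (∀ j ∈ s, CySup 3 ((H : ℤ) - 4) (E j)) →
      CyInc (⋂ j ∈ s, E j) ∧ CySup 3 ((H : ℤ) - 4) (⋂ j ∈ s, E j) ∧ ∏ j ∈ s, Q S T (E j) ≤ Q S T (⋂ j ∈ s, E j) := by
    intro s
    induction s using Finset.induction_on with
    | empty =>
      intro _ _
      refine ⟨?_, ?_, ?_⟩
      · intro τ τ' _ _
        simp
      · intro τ τ' _
        simp
      · simp [h.one]
    | insert a s ha ih =>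
      intro hi hs
      obtain ⟨i1, i2, i3⟩ := ih (fun j hj => hi j (Finset.mem_insert_of_mem hj)) (fun j hj => hs j (Finset.mem_insert_of_mem hj))
      have a1 := hi a (Finset.mem_insert_self _ _)
      have a2 := hs a (Finset.mem_insert_self _ _)
      rw [Finset.set_biInter_insert, Finset.prod_insert ha]
      refine ⟨cy_inc_inter a1 i1, cy_sup_inter a2 i2, ?_⟩
      exact (mul_le_mul_of_nonneg_left i3 (h.nonneg _ _ _)).trans (h.fkg S T _ _ a1 i1 a2 i2)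
  exact (key s hi hs).2.2

/-! ## 2. extraction in probability -/

/-- PLAN: `cy_extract`: on periodic fields `cyVP 1 c d ⊆ ⋃ j ∈ Icc (-4) (Cm + 1), cyV 1 (j m) (j m + 6 m) c d ∪ cyH 1 (j m) (j m + 4 m) c d` (`j m ≤ L + m ≤ (Cm + 1) m`); `h.mono`, `cy_union_fin`, `h.union`,
`cy_mv_V`, `cy_mv_H` with `w = (j m, 0)`, `h.shift`; `card (Icc (-4) (Cm + 1)) = Cm + 6`. -/
theorem cy_ext_prob (h : CyLaw L H Q) (S T : Bool) (Cm : ℕ) {m c d : ℤ} (hL : 1 ≤ L) (hm : 1 ≤ m) (hLm : (L : ℤ) ≤ Cm * m) (hcd : c ≤ d) :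
    Q S T (cyVP 1 c d) ≤ ((Cm : ℝ) + 6) * (Q S T (cyV 1 0 (6 * m) c d) + Q S T (cyH 1 0 (4 * m) c d)) := by
  have h1 : Q S T (cyVP 1 c d) ≤ Q S T (⋃ j ∈ Finset.Icc (-4 : ℤ) ((Cm : ℤ) + 1),
      (cyV 1 (j * m) (j * m + 6 * m) c d ∪ cyH 1 (j * m) (j * m + 4 * m) c d)) := by
    refine h.mono S T _ _ fun τ hper hτ => ?_
    obtain ⟨j, hj1, hj2, hj3⟩ := cy_extract 1 (L := (L : ℤ)) (by exact_mod_cast hL) hm hcd hper hτ
    have hj4 : j ≤ (Cm : ℤ) + 1 := by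
      have : j * m ≤ ((Cm : ℤ) + 1) * m := by nlinarith
      exact le_of_mul_le_mul_right this (by omega)
    simp only [Set.mem_iUnion]
    exact ⟨j, Finset.mem_Icc.2 ⟨hj1, hj4⟩, hj3⟩
  refine h1.trans ((cy_union_fin h S T _ _).trans ?_)
  have h2 : ∀ j ∈ Finset.Icc (-4 : ℤ) ((Cm : ℤ) + 1), Q S T (cyV 1 (j * m) (j * m + 6 * m) c d ∪ cyH 1 (j * m) (j * m + 4 * m) c d) ≤
      Q S T (cyV 1 0 (6 * m) c d) + Q S T (cyH 1 0 (4 * m) c d) := by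
    intro j _
    refine (h.union S T _ _).trans (le_of_eq ?_)
    have e1 := h.shift S T (j * m) (cyV 1 0 (6 * m) c d)
    have e2 := h.shift S T (j * m) (cyH 1 0 (4 * m) c d)
    rw [cy_mv_V] at e1
    rw [cy_mv_H] at e2
    simp only [zero_add, add_zero] at e1 e2
    rw [← e1, ← e2, add_comm (6 * m), add_comm (4 * m)]
  refine (Finset.sum_le_sum h2).trans (le_of_eq ?_)
  rw [Finset.sum_const, Int.card_Icc, nsmul_eq_mul]
  congr 1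
  have : ((Cm : ℤ) + 1 + 1 - -4).toNat = Cm + 6 := by omega
  rw [this]
  push_cast
  ring

/-! ## 3. LEMMA BE -/

/-- steps 1, 2: slide by `3` to the matching law, then extraction (or `cy_Blk_H`). -/
theorem cy_BE1 (h : CyLaw L H Q) (S T : Bool) (Cm : ℕ) {m c : ℤ} {p : ℝ} (hp : 0 < p) (hL : 1 ≤ L) (hm : 1 ≤ m) (hLm : (L : ℤ) ≤ Cm * m) (hc : 3 ≤ c)
    (hH : c + m + 2 ≤ (H : ℤ) - 4) (hyp : p ≤ Q S T (cyVP 1 c (c + m - 1)) ∨ p ≤ Q S T (cyBlk 1 c (c + m - 1))) :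
    p / (2 * ((Cm : ℝ) + 6)) ≤ Q T T (cyV 1 0 (6 * m) (c + 3) (c + 3 + m - 1)) ∨ p / (2 * ((Cm : ℝ) + 6)) ≤ Q T T (cyH 1 0 (4 * m) (c + 3) (c + 3 + m - 1)) := by
  have hC : (0 : ℝ) < (Cm : ℝ) + 6 := by positivity
  have e : c + m - 1 + 3 = c + 3 + m - 1 := by ring
  rcases hyp with hyp | hyp
  · have s1 := h.slide S T T c (c + m - 1) 3 _ (cy_inc_VP c (c + m - 1)) (cy_sup_VP 1 c (c + m - 1)) hc le_rfl (by omega)
    rw [cy_mv_VP] at s1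
    simp only [e] at s1
    have s2 := cy_ext_prob h T T Cm (c := c + 3) (d := c + 3 + m - 1) hL hm hLm (by omega)
    have s3 : p ≤ ((Cm : ℝ) + 6) * (Q T T (cyV 1 0 (6 * m) (c + 3) (c + 3 + m - 1)) + Q T T (cyH 1 0 (4 * m) (c + 3) (c + 3 + m - 1))) :=
      hyp.trans (s1.trans s2)
    by_contra hcon
    push Not at hcon
    obtain ⟨c1, c2⟩ := hcon
    have c3 : ((Cm : ℝ) + 6) * (Q T T (cyV 1 0 (6 * m) (c + 3) (c + 3 + m - 1)) + Q T T (cyH 1 0 (4 * m) (c + 3) (c + 3 + m - 1))) <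
        ((Cm : ℝ) + 6) * (p / (2 * ((Cm : ℝ) + 6)) + p / (2 * ((Cm : ℝ) + 6))) := by
      apply mul_lt_mul_of_pos_left _ hC
      linarith
    have c4 : ((Cm : ℝ) + 6) * (p / (2 * ((Cm : ℝ) + 6)) + p / (2 * ((Cm : ℝ) + 6))) = p := by
      field_simp
      ring
    linarith
  · right
    have s1 := h.slide S T T c (c + m - 1) 3 _ (cy_inc_Blk c (c + m - 1)) (cy_sup_Blk 1 c (c + m - 1)) hc le_rfl (by omega)
    rw [cy_mv_Blk] at s1
    simp only [e] at s1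
    have s2 := cy_sub h T T (cy_Blk_H 1 0 (4 * m) (c + 3) (c + 3 + m - 1))
    have s3 : p / (2 * ((Cm : ℝ) + 6)) ≤ p := by
      apply div_le_self hp.le
      have : (0 : ℝ) ≤ Cm := Nat.cast_nonneg _
      linarith
    linarith

/-- step 6: `cy_wind` with `w = 46 m` + finite FKG over `j ∈ Icc (-1) (Cm + 1)`.
PLAN: `E j = cyV 1 (j w) (j w + w) c' d' ∩ cyH 1 (j w - w) (j w + 2 w) c' d'`, `c' = k + 3 m`, `d' = k + 7 m`; `Q (cyV …) = Q (cyV 1 (12 m) (58 m) c' d')` by `cy_mv_V` + `shift`;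
`cyH 1 (j w - w) (j w + 2 w) (k + 4 m) (k + 4 m + m - 1) ⊆ cyH … c' d'` by `cy_H_sub`; `h.fkg` in each `E j`, `cy_fkg_fin`; `⋂ E j ⊆ cyBlk` on periodic fields by `cy_wind`. -/
theorem cy_BE4 (h : CyLaw L H Q) (T : Bool) (Cm : ℕ) {m k : ℤ} {dV dH : ℝ} (hL : 1 ≤ L) (hm : 1 ≤ m) (hLm : (L : ℤ) ≤ Cm * m) (hk : 0 ≤ k) (hH : k + 7 * m ≤ (H : ℤ) - 4)
    (h0V : 0 ≤ dV) (h0H : 0 ≤ dH) (hV : dV ≤ Q T T (cyV 1 (12 * m) (58 * m) (k + 3 * m) (k + 7 * m)))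
    (hH' : dH ≤ Q T T (cyH 1 0 (138 * m) (k + 4 * m) (k + 4 * m + m - 1))) :
    (dV * dH) ^ (Cm + 3) ≤ Q T T (cyBlk 1 (k + 3 * m) (k + 7 * m)) := by
  set w : ℤ := 46 * m with hw
  set c' : ℤ := k + 3 * m with hc'
  set d' : ℤ := k + 7 * m with hd'
  let E : ℤ → Set CyF := fun j => cyV 1 (j * w) (j * w + w) c' d' ∩ cyH 1 (j * w - w) (j * w + 2 * w) c' d'
  have sV : ∀ a b : ℤ, CySup 3 ((H : ℤ) - 4) (cyV 1 a b c' d') := fun a b => cy_sup_mono (cy_sup_V 1 a b c' d') (by omega) hH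
  have sH : ∀ a b : ℤ, CySup 3 ((H : ℤ) - 4) (cyH 1 a b c' d') := fun a b => cy_sup_mono (cy_sup_H 1 a b c' d') (by omega) hH
  have hE : ∀ j : ℤ, dV * dH ≤ Q T T (E j) := by
    intro j
    have e1 := h.shift T T (j * w - 12 * m) (cyV 1 (12 * m) (58 * m) c' d')
    rw [cy_mv_V] at e1
    have a1 : 12 * m + (j * w - 12 * m, (0 : ℤ)).1 = j * w := by
      show 12 * m + (j * w - 12 * m) = j * w
      ring
    have a2 : 58 * m + (j * w - 12 * m, (0 : ℤ)).1 = j * w + w := by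
      show 58 * m + (j * w - 12 * m) = j * w + w
      rw [hw]; ring
    rw [a1, a2] at e1
    simp only [add_zero] at e1
    have e2 := h.shift T T (j * w - w) (cyH 1 0 (138 * m) (k + 4 * m) (k + 4 * m + m - 1))
    rw [cy_mv_H] at e2
    have a3 : 138 * m + (j * w - w, (0 : ℤ)).1 = j * w + 2 * w := by
      show 138 * m + (j * w - w) = j * w + 2 * w
      rw [hw]; ring
    rw [a3] at e2
    simp only [add_zero, zero_add] at e2
    have e3 := cy_sub h T T (cy_H_sub 1 (j * w - w) (j * w + 2 * w) (c := c') (d := d') (c' := k + 4 * m) (d' := k + 4 * m + m - 1)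
      (by omega) (by omega) (by omega))
    have f := h.fkg T T _ _ (cy_inc_V (j * w) (j * w + w) c' d') (cy_inc_H (j * w - w) (j * w + 2 * w) c' d') (sV _ _) (sH _ _)
    refine le_trans ?_ f
    apply mul_le_mul _ _ h0H (h.nonneg _ _ _)
    · rw [e1]; exact hV
    · exact le_trans (by rw [e2]; exact hH') e3
  have hprod : (dV * dH) ^ (Cm + 3) ≤ ∏ j ∈ Finset.Icc (-1 : ℤ) ((Cm : ℤ) + 1), Q T T (E j) := by
    have hc : (Finset.Icc (-1 : ℤ) ((Cm : ℤ) + 1)).card = Cm + 3 := by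
      rw [Int.card_Icc]
      omega
    rw [← hc, ← Finset.prod_const]
    exact Finset.prod_le_prod (fun _ _ => mul_nonneg h0V h0H) (fun j _ => hE j)
  refine hprod.trans ((cy_fkg_fin h T T _ E (fun j _ => cy_inc_inter (cy_inc_V _ _ _ _) (cy_inc_H _ _ _ _))
    (fun j _ => cy_sup_inter (sV _ _) (sH _ _))).trans ?_)
  refine h.mono T T _ _ fun τ hper hτ => ?_
  simp only [Set.mem_iInter] at hτ
  have hj : ∀ j : ℤ, -1 ≤ j → j * w ≤ L + w → j ∈ Finset.Icc (-1 : ℤ) ((Cm : ℤ) + 1) := by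
    intro j h1 h2
    refine Finset.mem_Icc.2 ⟨h1, ?_⟩
    by_contra hc
    push Not at hc
    have h3 : ((Cm : ℤ) + 2) * w ≤ j * w := by
      apply mul_le_mul_of_nonneg_right (by omega) (by omega)
    have h4 : (0 : ℤ) ≤ (Cm : ℤ) * m := by positivity
    rw [hw] at h2 h3
    nlinarith
  exact cy_wind 1 (L := (L : ℤ)) (w := w) (by exact_mod_cast hL) (by omega) (by omega) hper
    (fun j h1 h2 => (hτ j (hj j h1 h2)).1) (fun j h1 h2 => (hτ j (hj j h1 h2)).2)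

/-! ## 4. STAGE A -/

/-- PLAN: `k₁ = H / 3 - m - 2`, `κ = (H + k₁ + m + 8) / 2`; field `sym` at `T = true`: one of the four terms is `≥ 1/10`; the second one is transported by `refl` + `cy_rf_VP` to the band `H - k₁ - m .. H - 1 - k₁` of the other class. -/
theorem cy_seedA (h : CyLaw L H Q) {m : ℤ} (hm : 1 ≤ m) (hH : 200 * m ≤ (H : ℤ)) :
    ∃ (S T : Bool) (c₀ : ℤ), 3 * m + 3 ≤ c₀ ∧ 3 * c₀ ≤ 2 * (H : ℤ) + 9 ∧
      (1 / 10 ≤ Q S T (cyVP 1 c₀ (c₀ + m - 1)) ∨ 1 / 10 ≤ Q S T (cyBlk 1 c₀ (c₀ + m - 1))) := by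
  obtain ⟨k₁, hk₁⟩ : ∃ k₁ : ℤ, k₁ = (H : ℤ) / 3 - m - 2 := ⟨_, rfl⟩
  obtain ⟨κ, hκ⟩ : ∃ κ : ℤ, κ = ((H : ℤ) + k₁ + m + 8) / 2 := ⟨_, rfl⟩
  have hs := h.sym true k₁ m κ hm (by omega) (by omega) (by omega) (by omega)
  by_cases hA : 1 / 10 ≤ Q true true (cyVP 1 k₁ (k₁ + m - 1))
  · exact ⟨true, true, k₁, by omega, by omega, Or.inl hA⟩
  by_cases hB : 1 / 10 ≤ Q true true (cyVP (-1) k₁ (k₁ + m - 1))
  · obtain ⟨o, ho⟩ := h.refl true true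
    rw [ho, cy_rf_VP] at hB
    refine ⟨!true, !true, (H : ℤ) - k₁ - m, by omega, by omega, Or.inl ?_⟩
    have e1 : (H : ℤ) - 1 - (k₁ + m - 1) = (H : ℤ) - k₁ - m := by ring
    have e2 : (H : ℤ) - 1 - k₁ = (H : ℤ) - k₁ - m + m - 1 := by ring
    rw [e1, e2] at hB
    exact hB
  by_cases hC : 1 / 10 ≤ Q true true (cyVP 1 κ (κ + m - 1))
  · exact ⟨true, true, κ, by omega, by omega, Or.inl hC⟩
  by_cases hD : 1 / 10 ≤ Q true (!true) (cyBlk 1 κ (κ + m - 1))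
  · exact ⟨true, !true, κ, by omega, by omega, Or.inr hD⟩
  push Not at hA hB hC hD
  linarith

end soft

variable {P : ℕ → ℕ → Bool → Bool → Set CyF → ℝ}

/-- steps 3, 4: `rswl` at the band `c₁`, then slide (same class, `t = c₂ - c₁ ≥ 3`) to the band `c₂`. -/
theorem cy_BE2 (hK : CyKit P) (κ : ℕ) (δ : ℝ) (hδ : 0 < δ) :
    ∃ δ' : ℝ, 0 < δ' ∧ ∃ r₀ : ℕ, ∀ (L H : ℕ) (T : Bool) (c₁ c₂ m : ℤ), 20 ≤ H → H ≤ L → (r₀ : ℤ) ≤ m → ((κ : ℤ) + 20) * m ≤ L → 3 + m ≤ c₁ → c₁ + 3 ≤ c₂ →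
      c₂ + 2 * m ≤ (H : ℤ) - 4 → (δ ≤ P L H T T (cyV 1 0 (6 * m) c₁ (c₁ + m - 1)) ∨ δ ≤ P L H T T (cyH 1 0 (4 * m) c₁ (c₁ + m - 1))) →
      δ' ≤ P L H T T (cyH 1 0 (κ * m) c₂ (c₂ + m - 1)) := by
  obtain ⟨δ', hδ', r₀, hr⟩ := hK.rswl κ δ hδ
  refine ⟨δ', hδ', r₀, fun L H T c₁ c₂ m hH hHL hm hκ hc1 hc12 hc2 hyp => ?_⟩
  have hm0 : 0 ≤ m := le_trans (Int.natCast_nonneg r₀) hm
  have h1 := hr L H T c₁ m hH hHL hm hκ hc1 (by omega) hyp
  have hlaw := hK.law L H hH hHL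
  have s := hlaw.slide T T T c₁ (c₁ + m - 1) (c₂ - c₁) _ (cy_inc_H 0 (κ * m) c₁ (c₁ + m - 1)) (cy_sup_H 1 _ _ _ _)
    (by omega) (by omega) (by omega)
  rw [cy_mv_H] at s
  have e1 : c₁ + (c₂ - c₁) = c₂ := by ring
  have e2 : c₁ + m - 1 + (c₂ - c₁) = c₂ + m - 1 := by ring
  simp only [add_zero, e1, e2] at s
  exact h1.trans s

/-- step 5: the two strips, `fkg`, `glue`.   PLAN: `cy_H_sub` (a strip of `m` slabs inside the strip of `2 m` slabs), `cy_mv_H` + `shift` by `(10 m, 0)` for the lower one. -/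
theorem cy_BE3 (hK : CyKit P) :
    ∃ cG : ℝ, 0 < cG ∧ ∃ r₀ : ℕ, ∀ (L H : ℕ) (T : Bool) (k m : ℤ) (d₁ : ℝ), 20 ≤ H → H ≤ L → (r₀ : ℤ) ≤ m → 1 ≤ m → 100 * m ≤ L → 3 + 3 * m ≤ k → k + 13 * m ≤ (H : ℤ) - 4 → 0 ≤ d₁ →
      d₁ ≤ P L H T T (cyH 1 0 (60 * m) (k + 8 * m) (k + 8 * m + m - 1)) → d₁ ≤ P L H T T (cyH 1 0 (60 * m) k (k + m - 1)) →
      cG * d₁ ^ 2 ≤ P L H T T (cyV 1 (12 * m) (58 * m) (k + 3 * m) (k + 7 * m)) := by
  obtain ⟨cG, hcG, r₀, hg⟩ := hK.glue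
  refine ⟨cG, hcG, r₀, fun L H T k m d₁ hH hHL hr hm hL hk hkH hd h1 h2 => ?_⟩
  have hlaw := hK.law L H hH hHL
  have g := hg L H T k m hH hHL hr hL hk hkH
  have a1 : d₁ ≤ P L H T T (cyH 1 0 (60 * m) (k + 8 * m) (k + 10 * m - 1)) :=
    h1.trans (cy_sub hlaw T T (cy_H_sub 1 0 (60 * m) le_rfl (by omega) (by omega)))
  have e := hlaw.shift T T (10 * m) (cyH 1 0 (60 * m) k (k + m - 1))
  rw [cy_mv_H] at e
  have e1 : 60 * m + 10 * m = 70 * m := by ring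
  simp only [zero_add, add_zero, e1] at e
  have a2 : d₁ ≤ P L H T T (cyH 1 (10 * m) (70 * m) k (k + 2 * m - 1)) := by
    rw [← e] at h2
    exact h2.trans (cy_sub hlaw T T (cy_H_sub 1 (10 * m) (70 * m) le_rfl (by omega) (by omega)))
  have f := hlaw.fkg T T _ _ (cy_inc_H 0 (60 * m) (k + 8 * m) (k + 10 * m - 1)) (cy_inc_H (10 * m) (70 * m) k (k + 2 * m - 1))
    (cy_sup_mono (cy_sup_H 1 _ _ _ _) (by omega) (by omega)) (cy_sup_mono (cy_sup_H 1 _ _ _ _) (by omega) (by omega))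
  have a3 : d₁ ^ 2 ≤ P L H T T (cyH 1 0 (60 * m) (k + 8 * m) (k + 10 * m - 1)) * P L H T T (cyH 1 (10 * m) (70 * m) k (k + 2 * m - 1)) := by
    rw [sq]
    exact mul_le_mul a1 a2 hd (hd.trans a1)
  exact (mul_le_mul_of_nonneg_left (a3.trans f) hcG.le).trans g

/-- **LEMMA BE**: a vertical crossing or a blocked band of `m` slabs at `c`, under ANY law class `S`, gives a blocked band `k + 3 m .. k + 7 m` under the matching law, for every `k ≥ c + 6`. -/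
theorem cy_BE (hK : CyKit P) (Cm : ℕ) (p : ℝ) (hp : 0 < p) :
    ∃ δ : ℝ, 0 < δ ∧ ∃ r₀ : ℕ, ∀ (L H : ℕ) (S T : Bool) (m c k : ℤ), 20 ≤ H → H ≤ L → (r₀ : ℤ) ≤ m → 1 ≤ m → 200 * m ≤ L → (L : ℤ) ≤ Cm * m → 3 * m + 3 ≤ c → c + 6 ≤ k →
      k + 13 * m ≤ (H : ℤ) - 4 → (p ≤ P L H S T (cyVP 1 c (c + m - 1)) ∨ p ≤ P L H S T (cyBlk 1 c (c + m - 1))) →
      δ ≤ P L H T T (cyBlk 1 (k + 3 * m) (k + 7 * m)) := by
  have hC : (0 : ℝ) < 2 * ((Cm : ℝ) + 6) := by positivity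
  obtain ⟨δ', hδ', r1, h2⟩ := cy_BE2 hK 138 (p / (2 * ((Cm : ℝ) + 6))) (div_pos hp hC)
  obtain ⟨cG, hcG, r2, h3⟩ := cy_BE3 hK
  refine ⟨(cG * δ' ^ 2 * δ') ^ (Cm + 3), by positivity, max r1 r2, fun L H S T m c k h20 hHL hm hm1 hL hLm hc hk hH hyp => ?_⟩
  have h := hK.law L H h20 hHL
  have hr1 : (r1 : ℤ) ≤ m := le_trans (by exact_mod_cast le_max_left r1 r2) hm
  have hr2 : (r2 : ℤ) ≤ m := le_trans (by exact_mod_cast le_max_right r1 r2) hm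
  have hL1 : 1 ≤ L := by omega
  have s1 := cy_BE1 h S T Cm hp hL1 hm1 hLm (by omega) (by omega) hyp
  have s2 : ∀ c₂ : ℤ, c + 6 ≤ c₂ → c₂ + 2 * m ≤ (H : ℤ) - 4 → δ' ≤ P L H T T (cyH 1 0 (138 * m) c₂ (c₂ + m - 1)) := by
    intro c₂ g1 g2
    have := h2 L H T (c + 3) c₂ m h20 hHL hr1 (by push_cast; omega) (by omega) (by omega) g2 s1
    exact_mod_cast this
  have s3 : ∀ c₂ : ℤ, c + 6 ≤ c₂ → c₂ + 2 * m ≤ (H : ℤ) - 4 → δ' ≤ P L H T T (cyH 1 0 (60 * m) c₂ (c₂ + m - 1)) := by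
    intro c₂ g1 g2
    exact (s2 c₂ g1 g2).trans (cy_sub h T T (cy_H_narrow 1 c₂ (c₂ + m - 1) le_rfl (by omega)))
  have s4 := h3 L H T k m δ' h20 hHL hr2 hm1 (by omega) (by omega) hH hδ'.le (s3 _ (by omega) (by omega)) (s3 _ hk (by omega))
  exact cy_BE4 h T Cm hL1 hm1 hLm (by omega) (by omega) (by positivity) hδ'.le s4 (s2 _ (by omega) (by omega))

/-! ## 5. the main theorem -/

/-- one scale.   PLAN: `cy_seedA` gives `(S, T, c₀)`; `cy_BE` (`p = 1/10`) gives `δ₁`.   `T = T₁`: `k = c`.   `T ≠ T₁`: `k = c₀ + 6`, field `recov` with `κ' = k + 7 m + 3`, `cy_BE` (`p = δ₁ / 4`, law class `T`, test class `T₁`, band `κ'`), `k = c`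
(`κ' + 6 = c₀ + 7 m + 15 ≤ 0.7 H`). -/
theorem cy_core (hK : CyKit P) (Cm : ℕ) :
    ∃ δ : ℝ, 0 < δ ∧ ∃ r₀ : ℕ, ∀ (L H : ℕ) (T₁ : Bool) (m c : ℤ), 1000 ≤ H → H ≤ L → (r₀ : ℤ) ≤ m → 1 ≤ m → 1000 * m ≤ H → (L : ℤ) ≤ Cm * m → 7 * (H : ℤ) ≤ 10 * c →
      c + 13 * m ≤ (H : ℤ) - 4 → δ ≤ P L H T₁ T₁ (cyBlk 1 (c + 3 * m) (c + 7 * m)) := by
  obtain ⟨δ₁, hδ₁, r1, h1⟩ := cy_BE hK Cm (1 / 10) (by norm_num)
  obtain ⟨δ₂, hδ₂, r2, h2⟩ := cy_BE hK Cm (δ₁ / 4) (by positivity)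
  refine ⟨min δ₁ δ₂, lt_min hδ₁ hδ₂, max r1 r2, fun L H T₁ m c hH hHL hm hm1 hmH hLm hc hcH => ?_⟩
  have h20 : 20 ≤ H := by omega
  have h := hK.law L H h20 hHL
  have hr1 : (r1 : ℤ) ≤ m := le_trans (by exact_mod_cast le_max_left r1 r2) hm
  have hr2 : (r2 : ℤ) ≤ m := le_trans (by exact_mod_cast le_max_right r1 r2) hm
  have hHL' : (H : ℤ) ≤ L := by exact_mod_cast hHL
  have hH' : (1000 : ℤ) ≤ H := by exact_mod_cast hH
  obtain ⟨S, T, c₀, a1, a2, a3⟩ := cy_seedA h hm1 (by omega)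
  by_cases hT : T = T₁
  · subst hT
    exact (min_le_left _ _).trans (h1 L H S T m c₀ c h20 hHL hr1 hm1 (by omega) hLm a1 (by omega) hcH a3)
  · have b1 := h1 L H S T m c₀ (c₀ + 6) h20 hHL hr1 hm1 (by omega) hLm a1 le_rfl (by omega) a3
    have b2 := h.recov T T₁ (c₀ + 6 + 3 * m) (c₀ + 6 + 7 * m) (c₀ + 6 + 7 * m + 3) m (by omega) (by omega) le_rfl hm1 (by omega)
    have b3 : δ₁ / 4 ≤ P L H T T₁ (cyVP 1 (c₀ + 6 + 7 * m + 3) (c₀ + 6 + 7 * m + 3 + m - 1)) ∨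
        δ₁ / 4 ≤ P L H T T₁ (cyBlk 1 (c₀ + 6 + 7 * m + 3) (c₀ + 6 + 7 * m + 3 + m - 1)) := by
      by_contra hcon
      push Not at hcon
      linarith [hcon.1, hcon.2]
    exact (min_le_right _ _).trans (h2 L H T T₁ m (c₀ + 6 + 7 * m + 3) c h20 hHL hr2 hm1 (by omega) hLm (by omega) (by omega) hcH b3)

/-- **(CYL)**.   PLAN: `K = max 1000 (⌈20 / ε⌉₊ + 1)`, `m = H / K`, `Cm = 2 C K`, `H₀ = K (r₀ + 1) + 1000`; `cy_core`, `cy_Blk_sub` (`c ≤ c + 3 m`, `c + 7 m ≤ d` since `20 m ≤ ε H`). -/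
theorem cy_main (hK : CyKit P) : CyCyl P := by
  intro C ε hε
  obtain ⟨K, hK1, hK2⟩ : ∃ K : ℕ, 1000 ≤ K ∧ 20 / ε ≤ (K : ℝ) :=
    ⟨max 1000 (⌈20 / ε⌉₊ + 1), le_max_left _ _, (Nat.le_ceil _).trans (by exact_mod_cast (Nat.le_succ _).trans (le_max_right _ _))⟩
  obtain ⟨δ, hδ, r₀, hc⟩ := cy_core hK (2 * C * K)
  refine ⟨δ, hδ, K * (r₀ + 1) + 1000, fun L H T hH hHL hLC c d h7 hcd hd => ?_⟩
  have hKpos : 0 < K := by omega
  obtain ⟨m, hm⟩ : ∃ m : ℕ, m = H / K := ⟨_, rfl⟩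
  have m1 : m * K ≤ H := by rw [hm]; exact Nat.div_mul_le_self H K
  have m2 : H < (m + 1) * K := by
    rw [hm]
    have := Nat.lt_div_mul_add (a := H) hKpos
    nlinarith
  have m3 : r₀ + 1 ≤ m := by
    rw [hm, Nat.le_div_iff_mul_le hKpos]
    nlinarith
  have h20 : 20 ≤ H := by omega
  have h := hK.law L H h20 hHL
  have m4 : 1000 * m ≤ H := le_trans (by nlinarith) m1
  have m5 : L ≤ 2 * C * K * m := by
    have : C * H ≤ C * ((m + 1) * K) := Nat.mul_le_mul_left _ m2.le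
    have h2 : C * ((m + 1) * K) ≤ 2 * C * K * m := by
      have : m + 1 ≤ 2 * m := by omega
      calc C * ((m + 1) * K) ≤ C * ((2 * m) * K) := Nat.mul_le_mul_left _ (Nat.mul_le_mul_right _ this)
        _ = 2 * C * K * m := by ring
    omega
  have m6 : (20 : ℝ) * m ≤ ε * H := by
    have a1 : (20 : ℝ) ≤ ε * K := by
      rw [div_le_iff₀ hε] at hK2
      linarith
    have a2 : (m : ℝ) * K ≤ H := by exact_mod_cast m1
    have a3 : (0 : ℝ) ≤ m := Nat.cast_nonneg _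
    calc (20 : ℝ) * m ≤ ε * K * m := mul_le_mul_of_nonneg_right a1 a3
      _ = ε * (m * K) := by ring
      _ ≤ ε * H := mul_le_mul_of_nonneg_left a2 hε.le
  have m7 : c + 20 * (m : ℤ) ≤ d := by
    have : (c : ℝ) + 20 * (m : ℝ) ≤ d := by linarith
    exact_mod_cast this
  have r := hc L H T (m : ℤ) c (by omega) hHL (by exact_mod_cast (Nat.le_succ r₀).trans m3) (by exact_mod_cast (Nat.succ_le_succ (Nat.zero_le r₀)).trans m3)
    (by exact_mod_cast m4) (by exact_mod_cast m5) h7 (by omega)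
  exact r.trans (cy_sub h T T (cy_Blk_sub 1 (by omega) (by omega) (by omega)))

/-- the mirror statement.   PLAN: `refl` + `cy_rf_Blk`: `P T T (cyBlk (-1) c d) = P (!T) (!T) (cyBlk 1 (H - 1 - d) (H - 1 - c))`. -/
theorem cy_main_minus (hK : CyKit P) (h : CyCyl P) : CyCylM P := by
  intro C ε hε
  obtain ⟨δ, hδ, H₀, hh⟩ := h C ε hε
  refine ⟨δ, hδ, max H₀ 20, fun L H T hH hHL hLC c d hc hcd hd => ?_⟩
  have hlaw := hK.law L H (le_trans (le_max_right _ _) hH) hHL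
  obtain ⟨o, ho⟩ := hlaw.refl T T
  rw [ho (cyBlk (-1) c d), cy_rf_Blk]
  apply hh L H (!T) (le_trans (le_max_left _ _) hH) hHL hLC
  · omega
  · push_cast
    linarith
  · omega

/-- transfer to the concrete carrier `sdP` of `Defs/Seed`: the law side provides a kit whose diagonal is `sdP` (`Ann/CylBridge`) -/
theorem cy_to_sd (x : ℝ) (hK : CyKit P)
    (hA : ∀ (L H : ℕ) (T s : Bool) (c d : ℤ), 3 ≤ L → 1 ≤ H → P L H T T (cyBlk (if s then 1 else -1) c d) = sdP x L H T s (SdBlk c d)) : SdCyl x ∧ SdCylM x := by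
  have h1 := cy_main hK
  have h2 := cy_main_minus hK h1
  constructor
  · intro C ε hε
    obtain ⟨δ, hδ, H₀, h⟩ := h1 C ε hε
    refine ⟨δ, hδ, max H₀ 3, fun L H T a b c' c d e f g => ?_⟩
    rw [← hA L H T true c d (by omega) (by omega)]
    exact h L H T (by omega) b c' c d e f g
  · intro C ε hε
    obtain ⟨δ, hδ, H₀, h⟩ := h2 C ε hε
    refine ⟨δ, hδ, max H₀ 3, fun L H T a b c' c d e f g => ?_⟩
    rw [← hA L H T false c d (by omega) (by omega)]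
    exact h L H T (by omega) b c' c d e f g

end Claimed.Agent.R291
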