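import Claimed.Agent.R291.Ann.SeedDet
import Claimed.Agent.R291.Ann.Basic

/-!
# Row 291 (S0539), Ann/Seed : API OF THE MIXED CYLINDER LAW `sdP` (`Defs/Seed`)      (owner helper83, co-head of ANN:A4 with helper5; prefix `sd_` / `Sd`; proofs by helper135)

RULING of 24 (06:03Z): the TOP of A4 runs on the abstract kit of helper5 (`Ann/CylKit`, `Ann/CylMain : cy_main`).   The chain which was typed here at 06:10Z is WITHDRAWN (its nodes were never proved).
What stays = the LIBRARY on the concrete carrier, for the exits of A1, A2, A3, A5 typed on `sdP` and for the adapter of the law side: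
* `sd_set_per`, `sd_sys_ok`, `sd_Z_pos`, `sd_P_nonneg`, `sd_P_le_one`, `sd_P_mono` (only periodic sets matter), `sd_P_union`
* `SdCover`, `sdWin`, `sdSeed`, `sd_win_cover` (extraction as a covering family), `SdShift`, `sd_win_sum`
The contracts `SdRsw`, `SdLen`, `SdGlue`, `SdCyl`, `SdCylM` are in `Defs/Seed`.
-/

set_option autoImplicit false
set_option linter.unusedSectionVars false
set_option linter.unusedVariables false

namespace Claimed.Agent.R291

open Claims Claims.C0467 Relation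

/-! ## 1. two small contracts -/

/-- (T5) horizontal translations.   OWNER law side. -/
def SdShift (x : ℝ) : Prop :=
  ∀ (L H : ℕ) (T s : Bool) (a : ℤ) (E : Set TV → Prop), 3 ≤ L → sdP x L H T s (sdTr (a, 0) E) = sdP x L H T s E

/-- a finite family of increasing tests in the index rows `0..m` which covers "vertical crossing or blocked band" -/
structure SdCover (L m : ℕ) {ι : Type} (E : ι → Set TV → Prop) : Prop where
  inc : ∀ j, SdInc (E j)
  rows : ∀ j, SdRows 0 m (E j)
  cov : ∀ X : Set TV, PlsPer L X → SdVX 0 m X ∨ SdBlk 0 m X → ∃ j, E j X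

theorem sd_seed_eqns_cite : True := by
  have := @SdShift.eq_1
  trivial

/-! ## 3. basic API of `sdP` (leaves; no topology, only `0 ≤ wt`) -/

/-- the lifted sets are periodic -/
theorem sd_set_per (S : ClSys TV TV) (L : ℕ) (t : ℤ) (ω : ClCfg TV TV) : PlsPer L (sdSet S L t ω) := by
  intro u
  have h : sdRed L (u + ((L : ℤ), 0)) = sdRed L u := by
    simp [sdRed]
  simp only [sdSet, Set.mem_ofPred_eq, h]

/-- the system is sane.   LEAF. -/
theorem sd_sys_ok (x : ℝ) (hx0 : 0 < x) (hx1 : x ≤ 1) (L : ℕ) (hL : 1 ≤ L) (T : Bool) (a b : ℤ) : ClOk (sdSys x L T a b) := by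
  have hL0 : (0 : ℤ) < L := by exact_mod_cast hL
  refine ⟨fun y hy => ?_, fun y _ => ?_, fun _ _ => by show 0 < x ^ 2; positivity, fun _ _ => by show x ^ 2 ≤ 1; exact pow_le_one₀ hx0.le hx1⟩
  · have hy' : y ∈ sdCells L a b := hy
    simp only [sdCells, Finset.mem_product, Finset.mem_Ico] at hy'
    intro v hv
    have hv' : v ∈ sdCell L T y := hv
    show v ∈ sdSites L a b
    simp only [sdCell, Finset.mem_image] at hv'
    obtain ⟨u, hu, rfl⟩ := hv'
    simp only [sdSites, sdRed, Finset.mem_product, Finset.mem_Ico, Finset.mem_Icc]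
    refine ⟨⟨Int.emod_nonneg _ hL0.ne', Int.emod_lt_of_pos _ hL0⟩, ?_⟩
    cases T
    · simp only [Bool.false_eq_true, if_false, cellD, Finset.mem_insert, Finset.mem_singleton] at hu
      rcases hu with rfl | rfl | rfl <;> (try simp) <;> omega
    · simp only [if_true, cellV, Finset.mem_insert, Finset.mem_singleton] at hu
      rcases hu with rfl | rfl | rfl <;> (try simp) <;> omega
  · show (sdCell L T y).Nonempty
    unfold sdCell
    refine Finset.Nonempty.image ?_ _
    cases T
    · exact ⟨y + (1, 0), by simp [cellD]⟩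
    · exact ⟨y, by simp [cellV]⟩

/-- the mixed boundary condition is feasible.   LEAF (configuration: `W = ∅`, `B` = the rows `≥ 1`... any monotone profile; cells open iff `B` constant). -/
theorem sd_Z_pos (x : ℝ) (hx0 : 0 < x) (hx1 : x ≤ 1) (L H : ℕ) (hL : 1 ≤ L) (hH : 1 ≤ H) (T : Bool) : 0 < (sdSys x L T 0 H).Z (SdMix L 0 H) := by
  classical
  have hS := sd_sys_ok x hx0 hx1 L hL T 0 H
  obtain ⟨S, hSdef⟩ : ∃ S, S = sdSys x L T 0 H := ⟨_, rfl⟩
  rw [← hSdef] at hS ⊢
  obtain ⟨ω, hω⟩ : ∃ ω : ClCfg TV TV, ω = ⟨sdSites L 1 H, ∅, S.C.filter fun y => ClConst (sdSites L 1 H) (S.sv y)⟩ := ⟨_, rfl⟩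
  have hmem : ω ∈ S.cfgs := by
    rw [cl_mem_cfgs, hω, hSdef]
    refine ⟨?_, Finset.empty_subset _, Finset.filter_subset _ _⟩
    intro v hv
    show v ∈ sdSites L 0 H
    simp only [sdSites, Finset.mem_product, Finset.mem_Ico, Finset.mem_Icc] at hv ⊢
    omega
  have hK : SdMix L 0 H ω := by
    constructor
    · intro v hv
      simp only [sdRow, Finset.mem_product, Finset.mem_Ico, Finset.mem_singleton] at hv
      rw [hω]
      simp only [sdSites, Finset.mem_product, Finset.mem_Ico, Finset.mem_Icc]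
      simp
      omega
    · intro v hv
      simp only [sdRow, Finset.mem_product, Finset.mem_Ico, Finset.mem_singleton] at hv
      rw [hω]
      simp only [sdSites, Finset.mem_product, Finset.mem_Ico, Finset.mem_Icc]
      simp
      omega
  have hw : 0 < S.wt ω := by
    unfold ClSys.wt
    refine Finset.prod_pos fun y hy => ?_
    have hq := hS.q0 y hy
    have hW : ClConst ω.W (S.sv y) := Or.inr fun v _ => by rw [hω]; simp
    unfold clCellW
    by_cases hb : ClConst ω.B (S.sv y)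
    · have ho : y ∈ ω.O := by
        rw [hω]
        rw [hω] at hb
        exact Finset.mem_filter.2 ⟨hy, hb⟩
      rw [if_pos ho, if_pos hb]
      exact hq
    · have ho : y ∉ ω.O := by
        intro h
        rw [hω] at h hb
        exact hb (Finset.mem_filter.1 h).2
      rw [if_neg ho, if_pos hW, if_neg hb]
      exact hq
  unfold ClSys.Z
  refine Finset.sum_pos' (fun ω' _ => ?_) ⟨ω, hmem, ?_⟩
  · split_ifs
    · exact dis_wt_nonneg S hS ω'
    · exact le_rfl
  · rw [if_pos hK]
    exact hw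

theorem sd_P_nonneg (x : ℝ) (hx0 : 0 < x) (hx1 : x ≤ 1) (L H : ℕ) (hL : 1 ≤ L) (T s : Bool) (E : Set TV → Prop) : 0 ≤ sdP x L H T s E :=
  ann_clP_nonneg _ (sd_sys_ok x hx0 hx1 L hL T 0 H) _ _

theorem sd_P_le_one (x : ℝ) (hx0 : 0 < x) (hx1 : x ≤ 1) (L H : ℕ) (hL : 1 ≤ L) (T s : Bool) (E : Set TV → Prop) : sdP x L H T s E ≤ 1 :=
  ann_clP_le_one _ (sd_sys_ok x hx0 hx1 L hL T 0 H) _ _

/-- monotonicity in the event; only periodic sets matter -/
theorem sd_P_mono (x : ℝ) (hx0 : 0 < x) (hx1 : x ≤ 1) (L H : ℕ) (hL : 1 ≤ L) (T s : Bool) (E E' : Set TV → Prop)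
    (h : ∀ X : Set TV, PlsPer L X → E X → E' X) : sdP x L H T s E ≤ sdP x L H T s E' :=
  ann_clP_mono _ (sd_sys_ok x hx0 hx1 L hL T 0 H) _ _ _ fun ω _ _ _ hE => h _ (sd_set_per _ L _ ω) hE

/-- union bound -/
theorem sd_P_union (x : ℝ) (hx0 : 0 < x) (hx1 : x ≤ 1) (L H : ℕ) (hL : 1 ≤ L) (T s : Bool) {ι : Type} [Fintype ι] (E : ι → Set TV → Prop) :
    sdP x L H T s (fun X => ∃ j, E j X) ≤ ∑ j, sdP x L H T s (E j) := by
  have h := ann_clP_union (sdSys x L T 0 H) (sd_sys_ok x hx0 hx1 L hL T 0 H) (SdMix L 0 H) Finset.univ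
    (fun j ω => E j (sdSet (sdSys x L T 0 H) L (clSg s) ω))
  simp only [Finset.mem_univ, true_and] at h
  exact h

/-! ## 4. the windows -/

/-- the tests at the scale `m` in the index rows `0..m`: `(j, true)` = `V⁺` of the window `[j m, j m + 6 m]`, `(j, false)` = `H⁺` of the window `[j m, j m + 4 m]` -/
def sdWin (m N : ℕ) (j : Fin N × Bool) : Set TV → Prop :=
  if j.2 then SdV ((j.1 : ℕ) * m) ((j.1 : ℕ) * m + 6 * m) 0 m else SdH ((j.1 : ℕ) * m) ((j.1 : ℕ) * m + 4 * m) 0 m

/-- the seed quantity at the row `c` and the scale `m` -/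
noncomputable def sdSeed (x : ℝ) (L H : ℕ) (T : Bool) (c : ℤ) (m : ℕ) : ℝ :=
  sdP x L H T true (SdV 0 (6 * m) c (c + m)) + sdP x L H T true (SdH 0 (4 * m) c (c + m))

/-- N6 + S3: the windows cover.   PLAN: `sd_ext`; `sd_blk_H` for the window `(0, false)`; `sd_V_inc`, `sd_H_inc`, `sd_V_rows`, `sd_H_rows`. -/
theorem sd_win_cover (L m : ℕ) (hL : 1 ≤ L) (hm : 1 ≤ m) : SdCover L m (sdWin m (L / m + 6)) := by
  refine ⟨fun j => ?_, fun j => ?_, fun X hX h => ?_⟩
  · unfold sdWin
    split_ifs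
    · exact sd_V_inc _ _ _ _
    · exact sd_H_inc _ _ _ _
  · unfold sdWin
    split_ifs
    · exact sd_V_rows _ _ _ _
    · exact sd_H_rows _ _ _ _
  · rcases h with h | h
    · obtain ⟨j, hj, h1 | h1⟩ := sd_ext hL hm hX h
      · exact ⟨(⟨j, hj⟩, true), by simpa [sdWin] using h1⟩
      · exact ⟨(⟨j, hj⟩, false), by simpa [sdWin] using h1⟩
    · refine ⟨(⟨0, Nat.lt_of_lt_of_le (by norm_num) (Nat.le_add_left 6 (L / m))⟩, false), ?_⟩
      have := sd_blk_H (a := 0) (b := 0 + 4 * m) (c := 0) (d := m) (c' := 0) (d' := m) (by positivity) le_rfl le_rfl h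
      simpa [sdWin] using this

/-- N7: by translation invariance all the windows have the same probability.   PLAN: `Fintype.sum_prod_type`, `sd_tr_V`, `sd_tr_H`, `sd_tr_tr`, `SdShift`. -/
theorem sd_win_sum (x : ℝ) (hSh : SdShift x) (L H : ℕ) (hL : 3 ≤ L) (T : Bool) (c : ℤ) (m N : ℕ) :
    ∑ j, sdP x L H T true (sdUp c (sdWin m N j)) = N * sdSeed x L H T c m := by
  have hV : ∀ j : Fin N, sdP x L H T true (sdUp c (sdWin m N (j, true))) = sdP x L H T true (SdV 0 (6 * m) c (c + m)) := by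
    intro j
    have e : sdUp c (sdWin m N (j, true)) = sdTr (((j : ℕ) * m : ℤ), 0) (SdV 0 (6 * m) c (c + m)) := by
      unfold sdUp sdWin
      simp only [if_true]
      rw [sd_tr_V, sd_tr_V]
      simp
      ring_nf
    rw [e, hSh L H T true _ _ hL]
  have hH : ∀ j : Fin N, sdP x L H T true (sdUp c (sdWin m N (j, false))) = sdP x L H T true (SdH 0 (4 * m) c (c + m)) := by
    intro j
    have e : sdUp c (sdWin m N (j, false)) = sdTr (((j : ℕ) * m : ℤ), 0) (SdH 0 (4 * m) c (c + m)) := by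
      unfold sdUp sdWin
      simp only [Bool.false_eq_true, if_false]
      rw [sd_tr_H, sd_tr_H]
      simp
      ring_nf
    rw [e, hSh L H T true _ _ hL]
  rw [Fintype.sum_prod_type]
  simp only [Fintype.sum_bool, hV, hH]
  rw [Finset.sum_const, Finset.card_univ, Fintype.card_fin, nsmul_eq_mul]
  rfl

end Claimed.Agent.R291
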