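import Claimed.Agent.R291.Pl.SetForm

/-!
# Row 291 (S0539), Ann/RswDet : DETERMINISTIC LEMMAS OF THE RSW ESTIMATE (56)      (owner helper259; prefix `rsd_`)      no sorry

Unit ANN, block A3 (head helper187).   Raw statements on `TscR tscG` (set language of 269/147/112), independent of the definitions of `Ann/Rsw.lean`; the leaves of that file cite them.
`X z = 2 z.1 + z.2` is twice the Euclidean abscissa of the index `z`;   mirror `M_m z = (m - z.1 - z.2, z.2)` (`X ↦ 2m - X`);   shift `S_k z = (z.1 + k, z.2)` (`X ↦ X + 2k`).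
* `rsd_split`        a path inside `s` stays inside `t` or visits `s \ t`
* `rsd_reach`        (case (ii) of the scale descent) a bottom-top path `T` with `X ≤ M` meets every path of the band which starts on the bottom row on the left of the foot of `T` and reaches `X > M`;   `rsd_reach'` mirror form
* `rsd_meet`         two interlaced bottom-top paths inside `P ∩ band` lie in one cluster;   `rsd_chain`  a sequence of bottom-top paths, consecutive ones interlaced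
* `rsd_H`, `rsd_H_dual`      a path of `P ∩ band` from `z.1 ≤ A` to `B ≤ z.1` gives the horizontal crossing of `tscBox A B c d` in both forms
* `rsd_M_*`, `rsd_S_*`       mirror and shift: automorphisms, transport of `TscR`
* `rsd_fkg_list`, `rsd_union_list`, `rsd_pigeon`      a set function `pr` on events with explicit hypotheses
-/

set_option autoImplicit false
set_option linter.unusedSectionVars false
set_option linter.unusedVariables false

namespace Claimed.Agent.R291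

open Relation Set Claims.C0467

/-! ### paths -/

/-- a path inside `s` starting in `t` stays inside `t`, or visits a point of `s` outside `t` -/
theorem rsd_split {V : Type*} {G : SimpleGraph V} {s t : Set V} {u v : V} (h : TscR G s u v) (hu : u ∈ t) :
    TscR G (s ∩ t) u v ∨ ∃ w, w ∈ s ∧ w ∉ t ∧ TscR G s u w := by
  have key : (TscR G (s ∩ t) u v ∧ v ∈ t) ∨ ∃ w, w ∈ s ∧ w ∉ t ∧ TscR G s u w := by
    induction h with
    | refl => exact Or.inl ⟨ReflTransGen.refl, hu⟩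
    | @tail b c hab hbc ih =>
      rcases ih with ⟨h1, hb⟩ | h2
      · by_cases hc : c ∈ t
        · exact Or.inl ⟨h1.tail ⟨hbc.1, ⟨hbc.2.1, hb⟩, ⟨hbc.2.2, hc⟩⟩, hc⟩
        · exact Or.inr ⟨c, hbc.2.2, hc, hab.tail hbc⟩
      · exact Or.inr h2
  rcases key with h1 | h2
  · exact Or.inl h1.1
  · exact Or.inr h2

/-- two points of a common component -/
theorem rsd_comp_join {V : Type*} {G : SimpleGraph V} {s : Set V} {x y z : V} (h1 : z ∈ tscComp G s x) (h2 : z ∈ tscComp G s y) :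
    TscR G s x y := tsc_R_trans h1.2 (tsc_R_symm h2.2)

/-- on a row the first coordinate and `X` are ordered in the same way -/
theorem rsd_row_lt {p u : ℤ × ℤ} (h : p.2 = u.2) (hX : 2 * p.1 + p.2 < 2 * u.1 + u.2) : p.1 < u.1 := by omega

/-! ### forced intersections -/

/-- **case (ii)**: `T` a bottom-top path of the band with `X ≤ M`; `S` a path of the band from the bottom row, on the left of the foot of `T`, to a point with `X > M` -/
theorem rsd_reach {S T : Set (ℤ × ℤ)} {c d M : ℤ} {p w u v : ℤ × ℤ} (hp : p ∈ S) (hpw : TscR tscG S p w) (hS : S ⊆ plsBand c d)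
    (hu : u ∈ T) (huv : TscR tscG T u v) (hT : T ⊆ plsBand c d) (hTM : ∀ z ∈ T, 2 * z.1 + z.2 ≤ M)
    (hpc : p.2 = c) (huc : u.2 = c) (hvd : v.2 = d) (hpu : p.1 < u.1) (hw : M < 2 * w.1 + w.2) : (S ∩ T).Nonempty := by
  have hwS : w ∈ S := tsc_R_mem hpw hp
  have hwb := hS hwS
  have hvT : v ∈ T := tsc_R_mem huv hu
  set seg : Set (ℤ × ℤ) := {z | z.1 = w.1 ∧ w.2 ≤ z.2 ∧ z.2 ≤ d} with hseg
  have h1 : TscR tscG seg (w.1, w.2) (w.1, d) := by
    refine tsc_R_vseg (fun z hz1 hz2 => ?_)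
    rw [min_eq_left hwb.2] at hz1
    rw [max_eq_right hwb.2] at hz2
    exact ⟨rfl, hz1, hz2⟩
  have h2 : TscR tscG (S ∪ seg) p (w.1, d) :=
    tsc_R_trans (tsc_R_mono subset_union_left hpw) (tsc_R_mono subset_union_right h1)
  have hsub : S ∪ seg ⊆ plsBand c d := by
    rintro z (hz | hz)
    · exact hS hz
    · exact ⟨hwb.1.trans hz.2.1, hz.2.2⟩
  have hv := hTM v hvT
  obtain ⟨z, hz1, hz2⟩ := pls_interlace (S := S ∪ seg) (T := T) (c := c) (d := d) (Or.inl hp) h2 hu huv hsub hT hpc rfl huc hvd hpu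
    (by show v.1 < w.1; have := hwb.2; omega)
  rcases hz1 with hz1 | hz1
  · exact ⟨z, hz1, hz2⟩
  · exfalso
    have := hTM z hz2
    have h3 := hz1.1
    have h4 := hz1.2.1
    omega

/-- mirror form of `rsd_reach` -/
theorem rsd_reach' {S T : Set (ℤ × ℤ)} {c d M : ℤ} {p w u v : ℤ × ℤ} (hp : p ∈ S) (hpw : TscR tscG S p w) (hS : S ⊆ plsBand c d)
    (hu : u ∈ T) (huv : TscR tscG T u v) (hT : T ⊆ plsBand c d) (hTM : ∀ z ∈ T, M ≤ 2 * z.1 + z.2)
    (hpc : p.2 = c) (huc : u.2 = c) (hvd : v.2 = d) (hpu : u.1 < p.1) (hw : 2 * w.1 + w.2 < M) : (S ∩ T).Nonempty := by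
  have hwS : w ∈ S := tsc_R_mem hpw hp
  have hwb := hS hwS
  have hvT : v ∈ T := tsc_R_mem huv hu
  set seg : Set (ℤ × ℤ) := {z | z.1 + z.2 = w.1 + w.2 ∧ w.2 ≤ z.2 ∧ z.2 ≤ d} with hseg
  have h1 : ∀ k : ℕ, w.2 + k ≤ d → TscR tscG seg (w.1, w.2) (w.1 - k, w.2 + k) := by
    intro k
    induction k with
    | zero => intro _; simp only [Nat.cast_zero, sub_zero, add_zero]; exact tsc_R_refl _
    | succ k ih =>
      intro hk
      push_cast at hk
      refine (ih (by omega)).tail ⟨(tsc_adj_iff _ _).2 (by dsimp only; push_cast; omega), ⟨by dsimp only; ring, by dsimp only; omega, by dsimp only; omega⟩,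
        ⟨by dsimp only; push_cast; ring, by dsimp only; push_cast; omega, by dsimp only; push_cast; omega⟩⟩
  have h1' := h1 (d - w.2).toNat (by rw [Int.toNat_of_nonneg (by have := hwb.2; omega)]; omega)
  rw [Int.toNat_of_nonneg (by have := hwb.2; omega)] at h1'
  have e1 : w.2 + (d - w.2) = d := by ring
  rw [e1] at h1'
  have h2 : TscR tscG (S ∪ seg) p (w.1 - (d - w.2), d) :=
    tsc_R_trans (tsc_R_mono subset_union_left hpw) (tsc_R_mono subset_union_right h1')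
  have hsub : S ∪ seg ⊆ plsBand c d := by
    rintro z (hz | hz)
    · exact hS hz
    · exact ⟨hwb.1.trans hz.2.1, hz.2.2⟩
  have hv := hTM v hvT
  obtain ⟨z, hz2, hz1⟩ := pls_interlace (S := T) (T := S ∪ seg) (c := c) (d := d) hu huv (Or.inl hp) h2 hT hsub huc hvd hpc rfl hpu
    (by show w.1 - (d - w.2) < v.1; have := hwb.2; omega)
  rcases hz1 with hz1 | hz1
  · exact ⟨z, hz1, hz2⟩
  · exfalso
    have := hTM z hz2
    have h3 := hz1.1
    have h4 := hz1.2.1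
    omega

/-- two interlaced bottom-top paths inside `Q ⊆ band` lie in one cluster of `Q` -/
theorem rsd_meet {Q : Set (ℤ × ℤ)} {c d : ℤ} {p q u v : ℤ × ℤ} (hQ : Q ⊆ plsBand c d) (hp : p ∈ Q) (hpq : TscR tscG Q p q) (hu : u ∈ Q)
    (huv : TscR tscG Q u v) (hpc : p.2 = c) (hqd : q.2 = d) (huc : u.2 = c) (hvd : v.2 = d)
    (h : (p.1 < u.1 ∧ v.1 < q.1) ∨ (u.1 < p.1 ∧ q.1 < v.1)) : TscR tscG Q p u := by
  have hp' := tsc_comp_self (G := tscG) hp
  have hu' := tsc_comp_self (G := tscG) hu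
  have h1 := tsc_comp_R hp' hpq
  have h2 := tsc_comp_R hu' huv
  have s1 : tscComp tscG Q p ⊆ plsBand c d := (tsc_comp_sub p).trans hQ
  have s2 : tscComp tscG Q u ⊆ plsBand c d := (tsc_comp_sub u).trans hQ
  rcases h with h | h
  · obtain ⟨z, hz1, hz2⟩ := pls_interlace hp' h1 hu' h2 s1 s2 hpc hqd huc hvd h.1 h.2
    exact rsd_comp_join hz1 hz2
  · obtain ⟨z, hz1, hz2⟩ := pls_interlace hu' h2 hp' h1 s2 s1 huc hvd hpc hqd h.1 h.2
    exact rsd_comp_join hz2 hz1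

/-- a sequence of bottom-top paths inside `Q ⊆ band`, consecutive ones interlaced: one cluster -/
theorem rsd_chain {Q : Set (ℤ × ℤ)} {c d : ℤ} (hQ : Q ⊆ plsBand c d) (N : ℕ) (p q : ℕ → ℤ × ℤ)
    (h : ∀ i ≤ N, p i ∈ Q ∧ (p i).2 = c ∧ (q i).2 = d ∧ TscR tscG Q (p i) (q i))
    (hint : ∀ i < N, ((p i).1 < (p (i + 1)).1 ∧ (q (i + 1)).1 < (q i).1) ∨ ((p (i + 1)).1 < (p i).1 ∧ (q i).1 < (q (i + 1)).1)) :
    ∀ i ≤ N, TscR tscG Q (p 0) (p i) := by
  intro i
  induction i with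
  | zero => intro _; exact tsc_R_refl _
  | succ i ih =>
    intro hi
    obtain ⟨a1, a2, a3, a4⟩ := h i (by omega)
    obtain ⟨b1, b2, b3, b4⟩ := h (i + 1) hi
    exact tsc_R_trans (ih (by omega)) (rsd_meet hQ a1 a4 b1 b4 a2 a3 b2 b3 (hint i (by omega)))

/-! ### the horizontal crossing -/

/-- dual form: no bottom-top path off `P` in the box -/
theorem rsd_H_dual {P : Set (ℤ × ℤ)} {A B c d : ℤ} {p q : ℤ × ℤ} (hp : p ∈ P ∩ plsBand c d) (hpq : TscR tscG (P ∩ plsBand c d) p q)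
    (hpA : p.1 ≤ A) (hqB : B ≤ q.1) :
    ¬ (∃ u v, u ∈ tscBox A B c d \ P ∧ u.2 = c ∧ v.2 = d ∧ TscR tscG (tscBox A B c d \ P) u v) := by
  rintro ⟨u, v, hu, huc, hvd, huv⟩
  obtain ⟨z, hz1, hz2⟩ := pls_rect (a := A) (b := B) (c := c) (d := d) hp hpq (fun z hz => hz.2) hpA hqB hu huv
    (fun z hz => ⟨hz.1.1, hz.1.2.1⟩) huc.le hvd.ge
  exact hz2.2 hz1.1

/-- path form -/
theorem rsd_H {P : Set (ℤ × ℤ)} {A B c d : ℤ} (hAB : A ≤ B) (hcd : c ≤ d) {p q : ℤ × ℤ} (hp : p ∈ P ∩ plsBand c d)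
    (hpq : TscR tscG (P ∩ plsBand c d) p q) (hpA : p.1 ≤ A) (hqB : B ≤ q.1) :
    ∃ l r, l ∈ tscBox A B c d ∩ P ∧ l.1 = A ∧ r.1 = B ∧ TscR tscG (tscBox A B c d ∩ P) l r :=
  (pls_box_iff hAB hcd P).2 (rsd_H_dual hp hpq hpA hqB)

/-! ### mirror and shift -/

/-- mirror in the vertical axis `X = m` -/
def rsdM (m : ℤ) (z : ℤ × ℤ) : ℤ × ℤ := (m - z.1 - z.2, z.2)

/-- horizontal shift -/
def rsdS (k : ℤ) (z : ℤ × ℤ) : ℤ × ℤ := (z.1 + k, z.2)

theorem rsd_M_M (m : ℤ) (z : ℤ × ℤ) : rsdM m (rsdM m z) = z := by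
  unfold rsdM; ext <;> dsimp only <;> ring

theorem rsd_M_X (m : ℤ) (z : ℤ × ℤ) : 2 * (rsdM m z).1 + (rsdM m z).2 = 2 * m - (2 * z.1 + z.2) := by
  unfold rsdM; dsimp only; ring

theorem rsd_M_snd (m : ℤ) (z : ℤ × ℤ) : (rsdM m z).2 = z.2 := rfl

theorem rsd_S_S (k : ℤ) (z : ℤ × ℤ) : rsdS (-k) (rsdS k z) = z := by
  unfold rsdS; ext <;> simp

theorem rsd_S_S' (k : ℤ) (z : ℤ × ℤ) : rsdS k (rsdS (-k) z) = z := by
  unfold rsdS; ext <;> simp

theorem rsd_S_X (k : ℤ) (z : ℤ × ℤ) : 2 * (rsdS k z).1 + (rsdS k z).2 = 2 * z.1 + z.2 + 2 * k := by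
  unfold rsdS; dsimp only; ring

theorem rsd_S_snd (k : ℤ) (z : ℤ × ℤ) : (rsdS k z).2 = z.2 := rfl

theorem rsd_M_adj (m : ℤ) {a b : ℤ × ℤ} (h : tscG.Adj a b) : tscG.Adj (rsdM m a) (rsdM m b) := by
  rw [tsc_G_adj, tsc_adj_iff] at h ⊢
  unfold rsdM; dsimp only; omega

theorem rsd_S_adj (k : ℤ) {a b : ℤ × ℤ} (h : tscG.Adj a b) : tscG.Adj (rsdS k a) (rsdS k b) := by
  rw [tsc_G_adj, tsc_adj_iff] at h ⊢
  unfold rsdS; dsimp only; omega

/-- transport of a path by the mirror, preimage form -/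
theorem rsd_M_R (m : ℤ) {s : Set (ℤ × ℤ)} {u v : ℤ × ℤ} (h : TscR tscG s u v) : TscR tscG (rsdM m ⁻¹' s) (rsdM m u) (rsdM m v) := by
  induction h with
  | refl => exact ReflTransGen.refl
  | tail _ hbc ih =>
    exact ih.tail ⟨rsd_M_adj m hbc.1, by show rsdM m (rsdM m _) ∈ s; rw [rsd_M_M]; exact hbc.2.1,
      by show rsdM m (rsdM m _) ∈ s; rw [rsd_M_M]; exact hbc.2.2⟩

/-- the converse direction -/
theorem rsd_M_R' (m : ℤ) {s : Set (ℤ × ℤ)} {u v : ℤ × ℤ} (h : TscR tscG (rsdM m ⁻¹' s) u v) : TscR tscG s (rsdM m u) (rsdM m v) := by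
  induction h with
  | refl => exact ReflTransGen.refl
  | tail _ hbc ih => exact ih.tail ⟨rsd_M_adj m hbc.1, hbc.2.1, hbc.2.2⟩

/-- transport of a path by a shift, preimage form -/
theorem rsd_S_R (k : ℤ) {s : Set (ℤ × ℤ)} {u v : ℤ × ℤ} (h : TscR tscG s u v) : TscR tscG (rsdS (-k) ⁻¹' s) (rsdS k u) (rsdS k v) := by
  induction h with
  | refl => exact ReflTransGen.refl
  | tail _ hbc ih =>
    exact ih.tail ⟨rsd_S_adj k hbc.1, by show rsdS (-k) (rsdS k _) ∈ s; rw [rsd_S_S]; exact hbc.2.1,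
      by show rsdS (-k) (rsdS k _) ∈ s; rw [rsd_S_S]; exact hbc.2.2⟩

/-- the converse direction -/
theorem rsd_S_R' (k : ℤ) {s : Set (ℤ × ℤ)} {u v : ℤ × ℤ} (h : TscR tscG (rsdS k ⁻¹' s) u v) : TscR tscG s (rsdS k u) (rsdS k v) := by
  induction h with
  | refl => exact ReflTransGen.refl
  | tail _ hbc ih => exact ih.tail ⟨rsd_S_adj k hbc.1, hbc.2.1, hbc.2.2⟩

/-! ### a set function on events, explicit hypotheses -/

section pr

variable {α : Type*} [Preorder α] (pr : (α → Prop) → ℝ)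

/-- FKG for finitely many increasing events -/
theorem rsd_fkg_range (hnn : ∀ A, 0 ≤ pr A) (hmono : ∀ A B : α → Prop, (∀ Y, A Y → B Y) → pr A ≤ pr B)
    (hfkg : ∀ A B : α → Prop, (∀ Y Y', Y ≤ Y' → A Y → A Y') → (∀ Y Y', Y ≤ Y' → B Y → B Y') → pr A * pr B ≤ pr (fun Y => A Y ∧ B Y))
    (A : ℕ → α → Prop) (hA : ∀ i Y Y', Y ≤ Y' → A i Y → A i Y') (n : ℕ) :
    ∏ i ∈ Finset.range (n + 1), pr (A i) ≤ pr (fun Y => ∀ i ≤ n, A i Y) := by
  induction n with
  | zero =>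
    simp only [zero_add, Finset.range_one, Finset.prod_singleton]
    exact hmono _ _ (fun Y h i hi => by rw [Nat.le_zero.1 hi]; exact h)
  | succ n ih =>
    rw [Finset.prod_range_succ]
    calc (∏ i ∈ Finset.range (n + 1), pr (A i)) * pr (A (n + 1))
        ≤ pr (fun Y => ∀ i ≤ n, A i Y) * pr (A (n + 1)) := mul_le_mul_of_nonneg_right ih (hnn _)
      _ ≤ pr (fun Y => (∀ i ≤ n, A i Y) ∧ A (n + 1) Y) :=
          hfkg _ _ (fun Y Y' h h1 i hi => hA i Y Y' h (h1 i hi)) (hA (n + 1))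
      _ ≤ pr (fun Y => ∀ i ≤ n + 1, A i Y) := by
          refine hmono _ _ (fun Y h i hi => ?_)
          rcases Nat.lt_or_ge i (n + 1) with h1 | h1
          · exact h.1 i (by omega)
          · have : i = n + 1 := by omega
            rw [this]; exact h.2

/-- the same with a common lower bound -/
theorem rsd_fkg_pow (hnn : ∀ A, 0 ≤ pr A) (hmono : ∀ A B : α → Prop, (∀ Y, A Y → B Y) → pr A ≤ pr B)
    (hfkg : ∀ A B : α → Prop, (∀ Y Y', Y ≤ Y' → A Y → A Y') → (∀ Y Y', Y ≤ Y' → B Y → B Y') → pr A * pr B ≤ pr (fun Y => A Y ∧ B Y))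
    (A : ℕ → α → Prop) (hA : ∀ i Y Y', Y ≤ Y' → A i Y → A i Y') (n : ℕ) {t : ℝ} (ht : 0 ≤ t) (h : ∀ i ≤ n, t ≤ pr (A i)) :
    t ^ (n + 1) ≤ pr (fun Y => ∀ i ≤ n, A i Y) := by
  refine le_trans ?_ (rsd_fkg_range pr hnn hmono hfkg A hA n)
  calc t ^ (n + 1) = ∏ _i ∈ Finset.range (n + 1), t := by simp
    _ ≤ ∏ i ∈ Finset.range (n + 1), pr (A i) :=
        Finset.prod_le_prod (fun _ _ => ht) (fun i hi => h i (by have := Finset.mem_range.1 hi; omega))

/-- union bound over a finite family -/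
theorem rsd_union_finset (hmono : ∀ A B : α → Prop, (∀ Y, A Y → B Y) → pr A ≤ pr B) (hbot : pr (fun _ => False) ≤ 0)
    (hun : ∀ A B : α → Prop, pr (fun Y => A Y ∨ B Y) ≤ pr A + pr B) {ι : Type*} (s : Finset ι) (A : ι → α → Prop) :
    pr (fun Y => ∃ i ∈ s, A i Y) ≤ ∑ i ∈ s, pr (A i) := by
  classical
  induction s using Finset.induction_on with
  | empty =>
    simp only [Finset.sum_empty]
    exact le_trans (hmono _ _ (fun Y h => by obtain ⟨i, hi, _⟩ := h; simp at hi)) hbot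
  | insert i s hi ih =>
    rw [Finset.sum_insert hi]
    calc pr (fun Y => ∃ j ∈ insert i s, A j Y) ≤ pr (fun Y => A i Y ∨ ∃ j ∈ s, A j Y) := by
          refine hmono _ _ (fun Y h => ?_)
          obtain ⟨j, hj, hjY⟩ := h
          rcases Finset.mem_insert.1 hj with rfl | hj
          · exact Or.inl hjY
          · exact Or.inr ⟨j, hj, hjY⟩
      _ ≤ pr (A i) + pr (fun Y => ∃ j ∈ s, A j Y) := hun _ _
      _ ≤ pr (A i) + ∑ j ∈ s, pr (A j) := by linarith

/-- pigeonhole -/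
theorem rsd_pigeon (hmono : ∀ A B : α → Prop, (∀ Y, A Y → B Y) → pr A ≤ pr B) (hbot : pr (fun _ => False) ≤ 0)
    (hun : ∀ A B : α → Prop, pr (fun Y => A Y ∨ B Y) ≤ pr A + pr B) {ι : Type*} (s : Finset ι) (A : ι → α → Prop) {δ : ℝ} (hδ : 0 < δ)
    {N : ℕ} (hN : s.card ≤ N) (h : δ ≤ pr (fun Y => ∃ i ∈ s, A i Y)) : ∃ i ∈ s, δ / N ≤ pr (A i) := by
  by_contra hcon
  push_neg at hcon
  have h1 := rsd_union_finset pr hmono hbot hun s A
  rcases s.eq_empty_or_nonempty with rfl | hne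
  · simp only [Finset.sum_empty] at h1; linarith
  have hN0 : (0 : ℝ) < N := by
    have : 0 < s.card := Finset.card_pos.2 hne
    exact_mod_cast lt_of_lt_of_le this hN
  have h2 : ∑ i ∈ s, pr (A i) < ∑ _i ∈ s, δ / N := Finset.sum_lt_sum_of_nonempty hne hcon
  rw [Finset.sum_const, nsmul_eq_mul] at h2
  have h3 : (s.card : ℝ) * (δ / N) ≤ δ := by
    have : (s.card : ℝ) ≤ N := by exact_mod_cast hN
    calc (s.card : ℝ) * (δ / N) ≤ N * (δ / N) := mul_le_mul_of_nonneg_right this (by positivity)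
      _ = δ := by field_simp
  linarith

end pr

end Claimed.Agent.R291
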