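import Claimed.Agent.R291.Pl.SetForm
import Claimed.Agent.R291.Ann.RswDet

/-!
# Row 291 (S0539), Ann/Rsw : BLOCK A3 = THE RSW ESTIMATE (56), PART I = ABSTRACT THEOREM      (owner helper187, head A3; prefix `rsw_`, `Rsw`)

TEX[annulus:RSW] (09-annulus l.227-236; the proof is OURS: `origin/helper187:notes/R291/g1_helper187.md`, referees 193, 278, ADV 36).

    P[ V+(6r x r) ] ≥ δ   ⟹   P[ H+(4r x r) ] ≥ ψ(δ)          (PATH forms = left sides of `pls_box_iff'`, `pls_box_iff`)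

MODEL FREE.   `Y : Set (ℤ × ℤ)` = the LIFTED (periodic) set of the indices of the open-plus cells of one class;  cells are adjacent iff their indices are `triAdj`.
`RswLaw` = a "probability" on events of `Y` with: monotonicity, union bound, FKG for increasing events, horizontal shifts, mirrors `(u, v) ↦ (μ - u - v, v)`.
`rswX p = 2 u + v` = doubled Euclidean abscissa (a shift by `t` adds `2 t`, the mirror `μ` is `X ↦ 2 μ - X`).
The ONLY inputs from the model (PART II, `Ann/RswGlue.lean`, architect helper36) are the two gluing contracts `RswTip`, `RswTube` (bundled: `RswGlue`).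
Planar input: `pls_cross_h`, `pls_interlace`, `pls_rect`, `pls_box_iff` (112/191: proved).

PLAN (G1, steps 0-3).
 §1 calculus of the law.   §2 transport of the events.   §3 planar lemmas (`rsw_foot_cross`, `rsw_tip_cross`, `rsw_H_of_path`, `rsw_split`).
 §4 pigeonhole: landing intervals of half width `w`, `N = 13 M + 1` positions.
 §5 TILTED (`j - i ≥ 4 w + 2`): the crossings `γ + n w` and the mirror images `γ' + n w` meet in turn (`pls_interlace`).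
 §6 ALIGNED: common interval of half width `ws = 5 w + 1`, centre `m`; `E m l ρ` = crossing inside `[m - l, m + ρ]`; `F m` = one cluster holds crossings at `m` and at `m + σ`, `σ = 4 (ws + 1)`;
    scale descent `e ↦ e1 = e - e / 10 ↦ e2 = e1 - e1 / 10` by induction on the fuel `n`: (i) `E m e1 e1` likely: descend; (ii) `Asym` likely: it meets its mirror image; (iii) TIP;  `e ≤ 20 σ`: TUBE.
    chain: `F (m + j σ / 2)`, `j < n`, lie in one cluster (`rsw_foot_cross`).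
 §7 `rsw_main`.
-/

set_option autoImplicit false

namespace Claimed.Agent.R291

open Claims Claims.C0467 Relation

/-! ## §0 definitions -/

/-- doubled Euclidean abscissa -/
def rswX (p : ℤ × ℤ) : ℤ := 2 * p.1 + p.2

/-- Euclidean rectangle -/
def rswRect (A B c d : ℤ) : Set (ℤ × ℤ) := {p | A ≤ rswX p ∧ rswX p ≤ B ∧ c ≤ p.2 ∧ p.2 ≤ d}

/-- the set shifted to the right by `t` -/
def rswSh (t : ℤ) (Y : Set (ℤ × ℤ)) : Set (ℤ × ℤ) := {p | (p.1 - t, p.2) ∈ Y}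

/-- the mirror image of the set (`X ↦ 2 μ - X`) -/
def rswMi (μ : ℤ) (Y : Set (ℤ × ℤ)) : Set (ℤ × ℤ) := {p | (μ - p.1 - p.2, p.2) ∈ Y}

/-- increasing event -/
def RswInc (E : Set (ℤ × ℤ) → Prop) : Prop := ∀ Y Y' : Set (ℤ × ℤ), Y ⊆ Y' → E Y → E Y'

/-- what PART I uses of the law of the set of open-plus cells -/
structure RswLaw where
  P : (Set (ℤ × ℤ) → Prop) → ℝ
  mono : ∀ E E' : Set (ℤ × ℤ) → Prop, (∀ Y, E Y → E' Y) → P E ≤ P E'
  bot : P (fun _ => False) = 0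
  top : P (fun _ => True) = 1
  union : ∀ E E' : Set (ℤ × ℤ) → Prop, P (fun Y => E Y ∨ E' Y) ≤ P E + P E'
  fkg : ∀ E E' : Set (ℤ × ℤ) → Prop, RswInc E → RswInc E' → P E * P E' ≤ P (fun Y => E Y ∧ E' Y)
  shift : ∀ (t : ℤ) (E : Set (ℤ × ℤ) → Prop), P (fun Y => E (rswSh t Y)) = P E
  mirror : ∀ (μ : ℤ) (E : Set (ℤ × ℤ) → Prop), P (fun Y => E (rswMi μ Y)) = P E

/-- horizontal crossing of the lattice parallelogram, path form -/
def RswH (a b c d : ℤ) (Y : Set (ℤ × ℤ)) : Prop :=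
  ∃ l r, l ∈ tscBox a b c d ∩ Y ∧ l.1 = a ∧ r.1 = b ∧ TscR tscG (tscBox a b c d ∩ Y) l r

/-- vertical crossing of the lattice parallelogram, path form -/
def RswV (a b c d : ℤ) (Y : Set (ℤ × ℤ)) : Prop :=
  ∃ u v, u ∈ tscBox a b c d ∩ Y ∧ u.2 = c ∧ v.2 = d ∧ TscR tscG (tscBox a b c d ∩ Y) u v

/-- crossing inside `R` from the bottom interval `|X - i| ≤ w` to the top interval `|X - j| ≤ w` -/
def RswCr (R : Set (ℤ × ℤ)) (c d i j w : ℤ) (Y : Set (ℤ × ℤ)) : Prop :=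
  ∃ p q, p ∈ Y ∩ R ∧ p.2 = c ∧ q.2 = d ∧ (i - w ≤ rswX p ∧ rswX p ≤ i + w) ∧ (j - w ≤ rswX q ∧ rswX q ≤ j + w) ∧ TscR tscG (Y ∩ R) p q

/-- aligned crossing at the centre `m` inside `[m - l, m + ρ]` -/
def RswE (c d w m l ρ : ℤ) : Set (ℤ × ℤ) → Prop := RswCr (rswRect (m - l) (m + ρ) c d) c d m m w

/-- aligned crossing inside `[m - e, m + e2]` which reaches `X < m - e1` -/
def RswAsym (c d w m e e1 e2 : ℤ) (Y : Set (ℤ × ℤ)) : Prop :=
  ∃ p q z, p ∈ Y ∩ rswRect (m - e) (m + e2) c d ∧ p.2 = c ∧ q.2 = d ∧ (m - w ≤ rswX p ∧ rswX p ≤ m + w) ∧ (m - w ≤ rswX q ∧ rswX q ≤ m + w) ∧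
    TscR tscG (Y ∩ rswRect (m - e) (m + e2) c d) p z ∧ TscR tscG (Y ∩ rswRect (m - e) (m + e2) c d) z q ∧ rswX z < m - e1

/-- one cluster of the band holds a crossing at `m` and a crossing at `m + σ` -/
def RswF (c d w σ m : ℤ) (Y : Set (ℤ × ℤ)) : Prop :=
  ∃ p q p' q', p ∈ Y ∩ plsBand c d ∧ p.2 = c ∧ q.2 = d ∧ p'.2 = c ∧ q'.2 = d ∧ (m - w ≤ rswX p ∧ rswX p ≤ m + w) ∧ (m - w ≤ rswX q ∧ rswX q ≤ m + w) ∧
    (m + σ - w ≤ rswX p' ∧ rswX p' ≤ m + σ + w) ∧ (m + σ - w ≤ rswX q' ∧ rswX q' ≤ m + σ + w) ∧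
    TscR tscG (Y ∩ plsBand c d) p q ∧ TscR tscG (Y ∩ plsBand c d) p p' ∧ TscR tscG (Y ∩ plsBand c d) p' q'

/-- **TIP** (G1 step 3 (iii); Lemma C3 + Lemma B): if no crossing at `m`, `m + σ` has a short excursion on either side, the leftmost crossing at `m` and the rightmost one at `m + σ` are glued -/
def RswTip (𝔏 : RswLaw) (cg : ℝ) (c d w σ e e2 : ℤ) : Prop :=
  ∀ m : ℤ, cg * 𝔏.P (fun Y => RswE c d w m e e Y ∧ RswE c d w (m + σ) e e Y ∧ ¬ RswE c d w m e e2 Y ∧ ¬ RswE c d w m e2 e Y ∧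
    ¬ RswE c d w (m + σ) e e2 Y ∧ ¬ RswE c d w (m + σ) e2 e Y) ≤ 𝔏.P (RswF c d w σ m)

/-- **TUBE** (G1 terminal step; Lemma C4 + Lemma B) -/
def RswTube (𝔏 : RswLaw) (cg : ℝ) (c d w σ e : ℤ) : Prop :=
  ∀ m : ℤ, cg * 𝔏.P (fun Y => RswE c d w m e e Y ∧ RswE c d w (m + σ) e e Y) ≤ 𝔏.P (RswF c d w σ m)

/-- **the contract of PART II** at the band `[c, c + r]`, pigeonhole half width `w`:   `ws = 5 w + 1`, `σ = 4 (ws + 1) = 20 w + 8`.      (`12500 w ≤ r`, so `600 σ ≤ r`.) -/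
structure RswGlue (𝔏 : RswLaw) (cg : ℝ) (c r w : ℤ) : Prop where
  tip : ∀ e e2 : ℤ, e2 ≤ e → e + 3 * (20 * w + 8) + (5 * w + 1) + 8 ≤ 2 * e2 → e ≤ 14 * r → RswTip 𝔏 cg c (c + r) (5 * w + 1) (20 * w + 8) e e2
  tube : ∀ e : ℤ, e ≤ 20 * (20 * w + 8) → RswTube 𝔏 cg c (c + r) (5 * w + 1) (20 * w + 8) e

/-! ## §1 calculus of the law -/

namespace RswLaw

variable (𝔏 : RswLaw)

theorem rsw_nonneg (E : Set (ℤ × ℤ) → Prop) : 0 ≤ 𝔏.P E := by
  rw [← 𝔏.bot]; exact 𝔏.mono _ _ fun _ h => h.elim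

theorem rsw_congr {E E' : Set (ℤ × ℤ) → Prop} (h : ∀ Y, E Y ↔ E' Y) : 𝔏.P E = 𝔏.P E' :=
  le_antisymm (𝔏.mono _ _ fun Y => (h Y).1) (𝔏.mono _ _ fun Y => (h Y).2)

/-- finite union bound -/
theorem rsw_union_fin {ι : Type*} (s : Finset ι) (E : ι → Set (ℤ × ℤ) → Prop) : 𝔏.P (fun Y => ∃ i ∈ s, E i Y) ≤ ∑ i ∈ s, 𝔏.P (E i) := by
  classical
  induction s using Finset.induction_on with
  | empty => simp [𝔏.bot]
  | insert a s ha ih =>
    rw [Finset.sum_insert ha]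
    refine le_trans (𝔏.mono _ (fun Y => E a Y ∨ ∃ i ∈ s, E i Y) ?_) (le_trans (𝔏.union _ _) (by linarith))
    rintro Y ⟨i, hi, hE⟩
    rcases Finset.mem_insert.1 hi with rfl | hi
    · exact Or.inl hE
    · exact Or.inr ⟨i, hi, hE⟩

/-- pigeonhole -/
theorem rsw_pigeon {ι : Type*} (s : Finset ι) (E : ι → Set (ℤ × ℤ) → Prop) {E0 : Set (ℤ × ℤ) → Prop} (h : ∀ Y, E0 Y → ∃ i ∈ s, E i Y) {δ : ℝ} (hδ : 0 < δ)
    (h0 : δ ≤ 𝔏.P E0) : ∃ i ∈ s, δ / s.card ≤ 𝔏.P (E i) := by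
  by_contra hc
  push Not at hc
  have h1 : δ ≤ ∑ i ∈ s, 𝔏.P (E i) := h0.trans ((𝔏.mono _ _ h).trans (rsw_union_fin 𝔏 s E))
  rcases s.eq_empty_or_nonempty with rfl | hs
  · simp at h1; linarith
  · have h2 : ∑ i ∈ s, 𝔏.P (E i) < ∑ _i ∈ s, δ / s.card := Finset.sum_lt_sum_of_nonempty hs hc
    rw [Finset.sum_const, nsmul_eq_mul] at h2
    have h3 : (0 : ℝ) < s.card := by exact_mod_cast hs.card_pos
    rw [mul_div_cancel₀ _ h3.ne'] at h2
    linarith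

/-- finite FKG -/
theorem rsw_fkg_fin (n : ℕ) (E : ℕ → Set (ℤ × ℤ) → Prop) (hE : ∀ j < n, RswInc (E j)) {t : ℝ} (ht : 0 ≤ t) (h : ∀ j < n, t ≤ 𝔏.P (E j)) :
    t ^ n ≤ 𝔏.P (fun Y => ∀ j < n, E j Y) := by
  induction n with
  | zero => simp [𝔏.top]
  | succ n ih =>
    have h1 := ih (fun j hj => hE j (by omega)) (fun j hj => h j (by omega))
    have h2 := 𝔏.fkg _ _ (fun Y Y' hY h j hj => hE j (Nat.lt_succ_of_lt hj) Y Y' hY (h j hj) : RswInc (fun Y => ∀ j < n, E j Y)) (hE n (by omega))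
    have h3 : t ^ (n + 1) ≤ 𝔏.P (fun Y => ∀ j < n, E j Y) * 𝔏.P (E n) := by
      rw [pow_succ]
      exact mul_le_mul h1 (h n (by omega)) ht (𝔏.rsw_nonneg _)
    refine h3.trans (h2.trans (𝔏.mono _ _ ?_))
    rintro Y ⟨ha, hb⟩ j hj
    rcases Nat.lt_succ_iff_lt_or_eq.1 hj with hj | rfl
    · exact ha j hj
    · exact hb

/-- removal of a bad event -/
theorem rsw_diff (E B : Set (ℤ × ℤ) → Prop) : 𝔏.P E - 𝔏.P B ≤ 𝔏.P (fun Y => E Y ∧ ¬ B Y) := by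
  have h1 : 𝔏.P E ≤ 𝔏.P (fun Y => (E Y ∧ ¬ B Y) ∨ B Y) := 𝔏.mono _ _ fun Y hY => by
    by_cases hB : B Y
    · exact Or.inr hB
    · exact Or.inl ⟨hY, hB⟩
  have h2 := 𝔏.union (fun Y => E Y ∧ ¬ B Y) B
  linarith

end RswLaw

/-! ## §2 monotonicity and transport of the events -/

theorem rsw_inc_cr (R : Set (ℤ × ℤ)) (c d i j w : ℤ) : RswInc (RswCr R c d i j w) := by
  rintro Y Y' hYY ⟨p, q, hp, h1, h2, h3, h4, h5⟩
  exact ⟨p, q, ⟨hYY hp.1, hp.2⟩, h1, h2, h3, h4, tsc_R_mono (Set.inter_subset_inter_left _ hYY) h5⟩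

theorem rsw_inc_E (c d w m l ρ : ℤ) : RswInc (RswE c d w m l ρ) := rsw_inc_cr _ _ _ _ _ _

theorem rsw_inc_asym (c d w m e e1 e2 : ℤ) : RswInc (RswAsym c d w m e e1 e2) := by
  rintro Y Y' hYY ⟨p, q, z, hp, h1, h2, h3, h4, h5, h6, h7⟩
  exact ⟨p, q, z, ⟨hYY hp.1, hp.2⟩, h1, h2, h3, h4, tsc_R_mono (Set.inter_subset_inter_left _ hYY) h5,
    tsc_R_mono (Set.inter_subset_inter_left _ hYY) h6, h7⟩

theorem rsw_inc_F (c d w σ m : ℤ) : RswInc (RswF c d w σ m) := by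
  rintro Y Y' hYY ⟨p, q, p', q', hp, h1, h2, h3, h4, h5, h6, h7, h8, h9, h10, h11⟩
  exact ⟨p, q, p', q', ⟨hYY hp.1, hp.2⟩, h1, h2, h3, h4, h5, h6, h7, h8, tsc_R_mono (Set.inter_subset_inter_left _ hYY) h9,
    tsc_R_mono (Set.inter_subset_inter_left _ hYY) h10, tsc_R_mono (Set.inter_subset_inter_left _ hYY) h11⟩

theorem rsw_inc_mi {E : Set (ℤ × ℤ) → Prop} (h : RswInc E) (μ : ℤ) : RswInc (fun Y => E (rswMi μ Y)) := by
  intro Y Y' hYY hE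
  exact h _ _ (fun p hp => hYY hp) hE

theorem rsw_inc_all (n : ℕ) (E : ℕ → Set (ℤ × ℤ) → Prop) (hE : ∀ j < n, RswInc (E j)) : RswInc (fun Y => ∀ j < n, E j Y) :=
  fun Y Y' hY h j hj => hE j hj Y Y' hY (h j hj)

/-- a larger region -/
theorem rsw_cr_mono {R R' : Set (ℤ × ℤ)} (h : R ⊆ R') {c d i j w : ℤ} {Y : Set (ℤ × ℤ)} (hc : RswCr R c d i j w Y) : RswCr R' c d i j w Y := by
  obtain ⟨p, q, hp, h1, h2, h3, h4, h5⟩ := hc
  exact ⟨p, q, ⟨hp.1, h hp.2⟩, h1, h2, h3, h4, tsc_R_mono (Set.inter_subset_inter_right _ h) h5⟩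

/-- larger landing intervals -/
theorem rsw_cr_wide {R : Set (ℤ × ℤ)} {c d i j w i' j' w' : ℤ} (hi : i' - w' ≤ i - w ∧ i + w ≤ i' + w') (hj : j' - w' ≤ j - w ∧ j + w ≤ j' + w')
    {Y : Set (ℤ × ℤ)} (hc : RswCr R c d i j w Y) : RswCr R c d i' j' w' Y := by
  obtain ⟨p, q, hp, h1, h2, h3, h4, h5⟩ := hc
  exact ⟨p, q, hp, h1, h2, ⟨by omega, by omega⟩, ⟨by omega, by omega⟩, h5⟩

/-- paths and shifts -/
theorem rsw_R_sh (t : ℤ) {S : Set (ℤ × ℤ)} {p q : ℤ × ℤ} (h : TscR tscG S p q) : TscR tscG (rswSh t S) (p.1 + t, p.2) (q.1 + t, q.2) := by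
  have hm : ∀ z : ℤ × ℤ, z ∈ S → (z.1 + t, z.2) ∈ rswSh t S := by
    intro z hz
    show (z.1 + t - t, z.2) ∈ S
    rw [add_sub_cancel_right]; exact hz
  induction h with
  | refl => exact ReflTransGen.refl
  | tail _ hbc ih =>
    refine ih.tail ⟨?_, hm _ hbc.2.1, hm _ hbc.2.2⟩
    have := hbc.1
    rw [tsc_G_adj, tsc_adj_iff] at this ⊢
    dsimp only; omega

/-- paths and mirrors -/
theorem rsw_R_mi (μ : ℤ) {S : Set (ℤ × ℤ)} {p q : ℤ × ℤ} (h : TscR tscG S p q) : TscR tscG (rswMi μ S) (μ - p.1 - p.2, p.2) (μ - q.1 - q.2, q.2) := by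
  have hm : ∀ z : ℤ × ℤ, z ∈ S → (μ - z.1 - z.2, z.2) ∈ rswMi μ S := by
    intro z hz
    show (μ - (μ - z.1 - z.2) - z.2, z.2) ∈ S
    have : μ - (μ - z.1 - z.2) - z.2 = z.1 := by ring
    rw [this]; exact hz
  induction h with
  | refl => exact ReflTransGen.refl
  | tail _ hbc ih =>
    refine ih.tail ⟨?_, hm _ hbc.2.1, hm _ hbc.2.2⟩
    have := hbc.1
    rw [tsc_G_adj, tsc_adj_iff] at this ⊢
    dsimp only; omega

theorem rsw_sh_sh (t : ℤ) (Y : Set (ℤ × ℤ)) : rswSh (-t) (rswSh t Y) = Y := by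
  ext p
  show (p.1 - -t - t, p.2) ∈ Y ↔ p ∈ Y
  have : p.1 - -t - t = p.1 := by ring
  rw [this]

theorem rsw_mi_mi (μ : ℤ) (Y : Set (ℤ × ℤ)) : rswMi μ (rswMi μ Y) = Y := by
  ext p
  show (μ - (μ - p.1 - p.2) - p.2, p.2) ∈ Y ↔ p ∈ Y
  have : μ - (μ - p.1 - p.2) - p.2 = p.1 := by ring
  rw [this]

theorem rsw_sh_rect (t A B c d : ℤ) : rswSh t (rswRect A B c d) = rswRect (A + 2 * t) (B + 2 * t) c d := by
  ext p
  simp only [rswSh, rswRect, rswX, Set.mem_ofPred_eq]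
  constructor <;> intro h <;> refine ⟨?_, ?_, ?_, ?_⟩ <;> omega

theorem rsw_mi_rect (μ A B c d : ℤ) : rswMi μ (rswRect A B c d) = rswRect (2 * μ - B) (2 * μ - A) c d := by
  ext p
  simp only [rswMi, rswRect, rswX, Set.mem_ofPred_eq]
  constructor <;> intro h <;> refine ⟨?_, ?_, ?_, ?_⟩ <;> omega

theorem rsw_sh_band (t c d : ℤ) : rswSh t (plsBand c d) = plsBand c d := rfl

theorem rsw_mi_band (μ c d : ℤ) : rswMi μ (plsBand c d) = plsBand c d := rfl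

/-- a crossing and a shift, general region -/
theorem rsw_cr_sh_aux (t : ℤ) {R : Set (ℤ × ℤ)} {c d i j w : ℤ} {Y : Set (ℤ × ℤ)} (h : RswCr R c d i j w Y) :
    RswCr (rswSh t R) c d (i + 2 * t) (j + 2 * t) w (rswSh t Y) := by
  obtain ⟨p, q, hp, h1, h2, h3, h4, h5⟩ := h
  have hm : (p.1 + t, p.2) ∈ rswSh t (Y ∩ R) := by
    show (p.1 + t - t, p.2) ∈ Y ∩ R
    rw [add_sub_cancel_right]; exact hp
  unfold rswX at h3 h4
  exact ⟨(p.1 + t, p.2), (q.1 + t, q.2), hm, h1, h2, ⟨by unfold rswX; dsimp only; omega, by unfold rswX; dsimp only; omega⟩,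
    ⟨by unfold rswX; dsimp only; omega, by unfold rswX; dsimp only; omega⟩, rsw_R_sh t h5⟩

/-- a crossing and a mirror, general region -/
theorem rsw_cr_mi_aux (μ : ℤ) {R : Set (ℤ × ℤ)} {c d i j w : ℤ} {Y : Set (ℤ × ℤ)} (h : RswCr R c d i j w Y) :
    RswCr (rswMi μ R) c d (2 * μ - i) (2 * μ - j) w (rswMi μ Y) := by
  obtain ⟨p, q, hp, h1, h2, h3, h4, h5⟩ := h
  have hm : (μ - p.1 - p.2, p.2) ∈ rswMi μ (Y ∩ R) := by
    show (μ - (μ - p.1 - p.2) - p.2, p.2) ∈ Y ∩ R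
    have : μ - (μ - p.1 - p.2) - p.2 = p.1 := by ring
    rw [this]; exact hp
  unfold rswX at h3 h4
  exact ⟨(μ - p.1 - p.2, p.2), (μ - q.1 - q.2, q.2), hm, h1, h2, ⟨by unfold rswX; dsimp only; omega, by unfold rswX; dsimp only; omega⟩,
    ⟨by unfold rswX; dsimp only; omega, by unfold rswX; dsimp only; omega⟩, rsw_R_mi μ h5⟩

/-- general region, iff -/
theorem rsw_cr_sh_iff (t : ℤ) (R : Set (ℤ × ℤ)) (c d i j w : ℤ) (Y : Set (ℤ × ℤ)) :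
    RswCr (rswSh t R) c d (i + 2 * t) (j + 2 * t) w (rswSh t Y) ↔ RswCr R c d i j w Y := by
  refine ⟨fun h => ?_, rsw_cr_sh_aux t⟩
  have := rsw_cr_sh_aux (-t) h
  rw [rsw_sh_sh, rsw_sh_sh] at this
  have e1 : i + 2 * t + 2 * -t = i := by ring
  have e2 : j + 2 * t + 2 * -t = j := by ring
  rwa [e1, e2] at this

/-- general region, iff -/
theorem rsw_cr_mi_iff (μ : ℤ) (R : Set (ℤ × ℤ)) (c d i j w : ℤ) (Y : Set (ℤ × ℤ)) :
    RswCr (rswMi μ R) c d (2 * μ - i) (2 * μ - j) w (rswMi μ Y) ↔ RswCr R c d i j w Y := by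
  refine ⟨fun h => ?_, rsw_cr_mi_aux μ⟩
  have := rsw_cr_mi_aux μ h
  rw [rsw_mi_mi, rsw_mi_mi] at this
  have e1 : 2 * μ - (2 * μ - i) = i := by ring
  have e2 : 2 * μ - (2 * μ - j) = j := by ring
  rwa [e1, e2] at this

theorem rsw_cr_sh (t A B c d i j w : ℤ) (Y : Set (ℤ × ℤ)) :
    RswCr (rswRect (A + 2 * t) (B + 2 * t) c d) c d (i + 2 * t) (j + 2 * t) w (rswSh t Y) ↔ RswCr (rswRect A B c d) c d i j w Y := by
  rw [← rsw_sh_rect]; exact rsw_cr_sh_iff t _ c d i j w Y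

theorem rsw_cr_mi (μ A B c d i j w : ℤ) (Y : Set (ℤ × ℤ)) :
    RswCr (rswRect (2 * μ - B) (2 * μ - A) c d) c d (2 * μ - i) (2 * μ - j) w (rswMi μ Y) ↔ RswCr (rswRect A B c d) c d i j w Y := by
  rw [← rsw_mi_rect]; exact rsw_cr_mi_iff μ _ c d i j w Y

theorem rsw_crb_sh (t c d i j w : ℤ) (Y : Set (ℤ × ℤ)) :
    RswCr (plsBand c d) c d (i + 2 * t) (j + 2 * t) w (rswSh t Y) ↔ RswCr (plsBand c d) c d i j w Y :=
  rsw_cr_sh_iff t (plsBand c d) c d i j w Y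

theorem rsw_crb_mi (μ c d i j w : ℤ) (Y : Set (ℤ × ℤ)) :
    RswCr (plsBand c d) c d (2 * μ - i) (2 * μ - j) w (rswMi μ Y) ↔ RswCr (plsBand c d) c d i j w Y :=
  rsw_cr_mi_iff μ (plsBand c d) c d i j w Y

theorem rsw_F_sh_aux (t : ℤ) {c d w σ m : ℤ} {Y : Set (ℤ × ℤ)} (h : RswF c d w σ m Y) : RswF c d w σ (m + 2 * t) (rswSh t Y) := by
  obtain ⟨p, q, p', q', hp, h1, h2, h3, h4, h5, h6, h7, h8, h9, h10, h11⟩ := h
  have hm : (p.1 + t, p.2) ∈ rswSh t (Y ∩ plsBand c d) := by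
    show (p.1 + t - t, p.2) ∈ Y ∩ plsBand c d
    rw [add_sub_cancel_right]; exact hp
  unfold rswX at h5 h6 h7 h8
  exact ⟨(p.1 + t, p.2), (q.1 + t, q.2), (p'.1 + t, p'.2), (q'.1 + t, q'.2), hm, h1, h2, h3, h4,
    ⟨by unfold rswX; dsimp only; omega, by unfold rswX; dsimp only; omega⟩, ⟨by unfold rswX; dsimp only; omega, by unfold rswX; dsimp only; omega⟩,
    ⟨by unfold rswX; dsimp only; omega, by unfold rswX; dsimp only; omega⟩, ⟨by unfold rswX; dsimp only; omega, by unfold rswX; dsimp only; omega⟩,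
    rsw_R_sh t h9, rsw_R_sh t h10, rsw_R_sh t h11⟩

theorem rsw_F_sh (t c d w σ m : ℤ) (Y : Set (ℤ × ℤ)) : RswF c d w σ (m + 2 * t) (rswSh t Y) ↔ RswF c d w σ m Y := by
  refine ⟨fun h => ?_, rsw_F_sh_aux t⟩
  have := rsw_F_sh_aux (-t) h
  rw [rsw_sh_sh] at this
  have e1 : m + 2 * t + 2 * -t = m := by ring
  rwa [e1] at this

namespace RswLaw

variable (𝔏 : RswLaw)

theorem rsw_P_E_sh (t c d w m l ρ : ℤ) : 𝔏.P (RswE c d w (m + 2 * t) l ρ) = 𝔏.P (RswE c d w m l ρ) := by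
  rw [← 𝔏.shift t (RswE c d w (m + 2 * t) l ρ)]
  refine 𝔏.rsw_congr (fun Y => ?_)
  unfold RswE
  have e1 : m + 2 * t - l = m - l + 2 * t := by ring
  have e2 : m + 2 * t + ρ = m + ρ + 2 * t := by ring
  rw [e1, e2]
  exact rsw_cr_sh t _ _ c d m m w Y

theorem rsw_P_E_mi (c d w m l ρ : ℤ) : 𝔏.P (RswE c d w m ρ l) = 𝔏.P (RswE c d w m l ρ) := by
  rw [← 𝔏.mirror m (RswE c d w m ρ l)]
  refine 𝔏.rsw_congr (fun Y => ?_)
  unfold RswE
  have h := rsw_cr_mi m (m - l) (m + ρ) c d m m w Y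
  have e1 : 2 * m - (m + ρ) = m - ρ := by ring
  have e2 : 2 * m - (m - l) = m + l := by ring
  have e3 : 2 * m - m = m := by ring
  rw [e1, e2, e3] at h
  exact h

theorem rsw_P_crb_sh (t c d i j w : ℤ) : 𝔏.P (RswCr (plsBand c d) c d (i + 2 * t) (j + 2 * t) w) = 𝔏.P (RswCr (plsBand c d) c d i j w) := by
  rw [← 𝔏.shift t (RswCr (plsBand c d) c d (i + 2 * t) (j + 2 * t) w)]
  exact 𝔏.rsw_congr (fun Y => rsw_crb_sh t c d i j w Y)

theorem rsw_P_crb_mi (μ c d i j w : ℤ) : 𝔏.P (RswCr (plsBand c d) c d (2 * μ - i) (2 * μ - j) w) = 𝔏.P (RswCr (plsBand c d) c d i j w) := by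
  rw [← 𝔏.mirror μ (RswCr (plsBand c d) c d (2 * μ - i) (2 * μ - j) w)]
  exact 𝔏.rsw_congr (fun Y => rsw_crb_mi μ c d i j w Y)

theorem rsw_P_F_sh (t c d w σ m : ℤ) : 𝔏.P (RswF c d w σ (m + 2 * t)) = 𝔏.P (RswF c d w σ m) := by
  rw [← 𝔏.shift t (RswF c d w σ (m + 2 * t))]
  exact 𝔏.rsw_congr (fun Y => rsw_F_sh t c d w σ m Y)

end RswLaw

/-! ## §3 planar lemmas -/

/-- on one row the order of `X` is the order of the first coordinate -/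
theorem rsw_X_lt {p q : ℤ × ℤ} (h : p.2 = q.2) : rswX p < rswX q ↔ p.1 < q.1 := by
  unfold rswX; constructor <;> intro h' <;> omega

/-- **FOOT**: a path of the band between two sites of the bottom row meets every bottom-top path of the band whose foot lies strictly between them.
PROOF: `pls_cross_h` with `S ∪ {(p.1, c - 1), (p'.1, c - 1)}` and `T ∪ {(u.1, c - 1)}`. -/
theorem rsw_foot_cross {S T : Set (ℤ × ℤ)} {c d : ℤ} {p p' u v : ℤ × ℤ} (hS : S ⊆ plsBand c d) (hT : T ⊆ plsBand c d) (hp : p ∈ S) (hpp : TscR tscG S p p')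
    (hu : u ∈ T) (huv : TscR tscG T u v) (hpc : p.2 = c) (hpc' : p'.2 = c) (huc : u.2 = c) (hvd : v.2 = d) (h1 : p.1 < u.1) (h2 : u.1 < p'.1) : (S ∩ T).Nonempty := by
  have hp' : p' ∈ S := tsc_R_mem hpp hp
  set S' : Set (ℤ × ℤ) := S ∪ {(p.1, c - 1), (p'.1, c - 1)} with hS'
  set T' : Set (ℤ × ℤ) := T ∪ {(u.1, c - 1)} with hT'
  have a1 : TscR tscG S' (p.1, c - 1) p :=
    tsc_R_step ((tsc_G_adj _ _).2 ((tsc_adj_iff _ _).2 (by dsimp only; omega))) (Or.inr (Or.inl rfl)) (Or.inl hp)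
  have a2 : TscR tscG S' p' (p'.1, c - 1) :=
    tsc_R_step ((tsc_G_adj _ _).2 ((tsc_adj_iff _ _).2 (by dsimp only; omega))) (Or.inl hp') (Or.inr (Or.inr rfl))
  have a3 : TscR tscG S' (p.1, c - 1) (p'.1, c - 1) := tsc_R_trans a1 (tsc_R_trans (tsc_R_mono Set.subset_union_left hpp) a2)
  have b1 : TscR tscG T' (u.1, c - 1) u :=
    tsc_R_step ((tsc_G_adj _ _).2 ((tsc_adj_iff _ _).2 (by dsimp only; omega))) (Or.inr rfl) (Or.inl hu)
  have b2 : TscR tscG T' (u.1, c - 1) v := tsc_R_trans b1 (tsc_R_mono Set.subset_union_left huv)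
  have rowS : ∀ z ∈ S', c - 1 ≤ z.2 ∧ z.2 ≤ d := by
    have hcd : c ≤ d := (hS hp).1.trans (hS hp).2
    rintro z (hz | hz | hz)
    · have := hS hz; exact ⟨by have := this.1; omega, this.2⟩
    · rw [hz]; exact ⟨le_refl _, by dsimp only; omega⟩
    · rw [Set.mem_singleton_iff] at hz; rw [hz]; exact ⟨le_refl _, by dsimp only; omega⟩
  have rowT : ∀ z ∈ T', z.2 = c - 1 → z.1 = u.1 := by
    rintro z (hz | hz) hz2
    · have := (hT hz).1; omega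
    · rw [Set.mem_singleton_iff] at hz; rw [hz]
  obtain ⟨z, hz1, hz2⟩ := pls_cross_h (S := S') (T := T') (p := (p.1, c - 1)) (q := (p'.1, c - 1)) (u := (u.1, c - 1)) (v := v)
    (Or.inr (Or.inl rfl)) a3 (Or.inr rfl) b2 (fun z hz => (rowS z hz).1) (fun z hz => by rw [hvd]; exact (rowS z hz).2)
    (fun z hz hh => by have := rowT z hz hh.1; have := hh.2; dsimp only at *; omega)
    (fun z hz hh => by have := rowT z hz hh.1; have := hh.2; dsimp only at *; omega)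
  rcases hz2 with hz2 | hz2
  · rcases hz1 with hz1 | hz1 | hz1
    · exact ⟨z, hz1, hz2⟩
    · exfalso; have := (hT hz2).1; rw [hz1] at this; dsimp only at this; omega
    · exfalso; rw [Set.mem_singleton_iff] at hz1; have := (hT hz2).1; rw [hz1] at this; dsimp only at this; omega
  · exfalso
    rw [Set.mem_singleton_iff] at hz2
    rcases hz1 with hz1 | hz1 | hz1
    · have := (hS hz1).1; rw [hz2] at this; dsimp only at this; omega
    · rw [hz2] at hz1; have := congrArg Prod.fst hz1; dsimp only at this; omega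
    · rw [Set.mem_singleton_iff, hz2] at hz1; have := congrArg Prod.fst hz1; dsimp only at this; omega

/-- **TIP CROSS**: a path of the band from a site of the bottom row to a site `z` on the right of `T` meets the bottom-top path `T` if its foot is on the left of the foot of `T`.
PROOF: `pls_cross_h` with `S ∪ {(p.1, c - 1)}` and `T ∪ {(u.1, c - 1)}`. -/
theorem rsw_tip_cross {S T : Set (ℤ × ℤ)} {c d : ℤ} {p z u v : ℤ × ℤ} (hS : S ⊆ plsBand c d) (hT : T ⊆ plsBand c d) (hp : p ∈ S) (hpz : TscR tscG S p z)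
    (hu : u ∈ T) (huv : TscR tscG T u v) (hpc : p.2 = c) (huc : u.2 = c) (hvd : v.2 = d) (h1 : p.1 < u.1) (h2 : ∀ y ∈ T, rswX y < rswX z) : (S ∩ T).Nonempty :=
  rsd_reach (M := rswX z - 1) hp hpz hS hu huv hT (fun y hy => by have := h2 y hy; unfold rswX at this ⊢; omega) hpc huc hvd h1
    (by unfold rswX; omega)

/-- a path of the band from the left of the box to its right gives a horizontal crossing.      PROOF: `pls_box_iff` + `pls_rect`. -/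
theorem rsw_H_of_path {Y : Set (ℤ × ℤ)} {a b c d : ℤ} (hab : a ≤ b) (hcd : c ≤ d) {p q : ℤ × ℤ} (hp : p ∈ Y ∩ plsBand c d) (hpq : TscR tscG (Y ∩ plsBand c d) p q)
    (hpa : p.1 ≤ a) (hqb : b ≤ q.1) : RswH a b c d Y :=
  rsd_H hab hcd hp hpq hpa hqb

/-- a path inside `S` stays inside `S'` or visits `S \ S'` -/
theorem rsw_split {S S' : Set (ℤ × ℤ)} {p q : ℤ × ℤ} (hp : p ∈ S) (h : TscR tscG S p q) :
    (p ∈ S' ∧ TscR tscG (S ∩ S') p q) ∨ ∃ z, z ∈ S ∧ z ∉ S' ∧ TscR tscG S p z ∧ TscR tscG S z q := by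
  by_cases hp' : p ∈ S'
  · have key : (TscR tscG (S ∩ S') p q ∧ q ∈ S') ∨ ∃ z, z ∈ S ∧ z ∉ S' ∧ TscR tscG S p z ∧ TscR tscG S z q := by
      induction h with
      | refl => exact Or.inl ⟨ReflTransGen.refl, hp'⟩
      | @tail b c hab hbc ih =>
        rcases ih with ⟨h1, hb⟩ | ⟨z, hz1, hz2, hz3, hz4⟩
        · by_cases hc : c ∈ S'
          · exact Or.inl ⟨h1.tail ⟨hbc.1, ⟨hbc.2.1, hb⟩, ⟨hbc.2.2, hc⟩⟩, hc⟩
          · exact Or.inr ⟨c, hbc.2.2, hc, hab.tail hbc, ReflTransGen.refl⟩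
        · exact Or.inr ⟨z, hz1, hz2, hz3, hz4.tail hbc⟩
    rcases key with h1 | h2
    · exact Or.inl ⟨hp', h1.1⟩
    · exact Or.inr h2
  · exact Or.inr ⟨p, hp, hp', ReflTransGen.refl, h⟩

/-- two clusters which meet are joined.      (USE of the crossing lemmas: apply them to the CLUSTERS `tscComp tscG (Y ∩ R) p`, with `tsc_comp_R`, never to `Y ∩ R` itself.) -/
theorem rsw_join {S T U : Set (ℤ × ℤ)} (hS : S ⊆ U) (hT : T ⊆ U) {p u : ℤ × ℤ} (h : (tscComp tscG S p ∩ tscComp tscG T u).Nonempty) : TscR tscG U p u := by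
  obtain ⟨z, hz1, hz2⟩ := h
  exact tsc_R_trans (tsc_R_mono hS hz1.2) (tsc_R_symm (tsc_R_mono hT hz2.2))

/-! ## §4 pigeonhole -/

/-- the vertical crossing lands in two of the `N` intervals -/
theorem rsw_land {a b c d w : ℤ} (hw : 0 ≤ w) (N : ℕ) (hN : 2 * (b - a) + (d - c) + 1 ≤ N * (2 * w + 1)) {Y : Set (ℤ × ℤ)} (h : RswV a b c d Y) :
    ∃ n ∈ Finset.range N ×ˢ Finset.range N, RswCr (rswRect (2 * a + c) (2 * b + d) c d) c d (2 * a + c + w + (2 * w + 1) * (n.1 : ℤ)) (2 * a + c + w + (2 * w + 1) * (n.2 : ℤ)) w Y := by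
  have aux : ∀ x : ℤ, 0 ≤ x → x + 1 ≤ N * (2 * w + 1) → ∃ n : ℕ, n < N ∧ (2 * w + 1) * (n : ℤ) ≤ x ∧ x ≤ (2 * w + 1) * (n : ℤ) + 2 * w := by
    intro x hx hxN
    have hq : 0 ≤ x / (2 * w + 1) := Int.ediv_nonneg hx (by omega)
    have h1 := Int.mul_ediv_add_emod x (2 * w + 1)
    have h2 := Int.emod_nonneg x (show 2 * w + 1 ≠ 0 by omega)
    have h3 := Int.emod_lt_of_pos x (show 0 < 2 * w + 1 by omega)
    refine ⟨(x / (2 * w + 1)).toNat, ?_, ?_, ?_⟩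
    · by_contra hcon
      have h4 : (N : ℤ) ≤ x / (2 * w + 1) := by
        have : (N : ℤ) ≤ ((x / (2 * w + 1)).toNat : ℤ) := by exact_mod_cast not_lt.1 hcon
        rwa [Int.toNat_of_nonneg hq] at this
      nlinarith
    · rw [Int.toNat_of_nonneg hq]; omega
    · rw [Int.toNat_of_nonneg hq]; omega
  obtain ⟨u, v, hu, huc, hvd, huv⟩ := h
  have hv := tsc_R_mem huv hu
  have hub := hu.1
  have hvb := hv.1
  simp only [tscBox, Set.mem_ofPred_eq] at hub hvb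
  obtain ⟨n1, hn1, h11, h12⟩ := aux (rswX u - (2 * a + c)) (by unfold rswX; omega) (by unfold rswX; omega)
  obtain ⟨n2, hn2, h21, h22⟩ := aux (rswX v - (2 * a + c)) (by unfold rswX; omega) (by unfold rswX; omega)
  have hsub : tscBox a b c d ∩ Y ⊆ Y ∩ rswRect (2 * a + c) (2 * b + d) c d := by
    intro z hz
    have hzb := hz.1
    simp only [tscBox, Set.mem_ofPred_eq] at hzb
    exact ⟨hz.2, by unfold rswX; omega, by unfold rswX; omega, hzb.2.2.1, hzb.2.2.2⟩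
  exact ⟨(n1, n2), Finset.mem_product.2 ⟨Finset.mem_range.2 hn1, Finset.mem_range.2 hn2⟩, u, v, hsub hu, huc, hvd,
    ⟨by dsimp only; omega, by dsimp only; omega⟩, ⟨by dsimp only; omega, by dsimp only; omega⟩, tsc_R_mono hsub huv⟩

/-! ## §5 the tilted case -/

/-- the chain of the crossings `γ + n w` (from `i` to `j`) and of the mirror images `γ' + n w` (from `j + θ` to `i + θ`) lies in one cluster -/
theorem rsw_tilt_chain {c d i j w θ : ℤ} (hw : 0 ≤ w) (hθ : 0 ≤ θ ∧ θ ≤ 1) (ho : 4 * w + 2 ≤ j - i) (n : ℕ) {Y : Set (ℤ × ℤ)}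
    (h1 : ∀ k < n + 1, RswCr (plsBand c d) c d (i + 2 * (w * k)) (j + 2 * (w * k)) w Y)
    (h2 : ∀ k < n, RswCr (plsBand c d) c d (j + θ + 2 * (w * k)) (i + θ + 2 * (w * k)) w Y) :
    ∃ p q, p ∈ Y ∩ plsBand c d ∧ p.2 = c ∧ q.2 = c ∧ rswX p ≤ i + w ∧ i + 2 * (w * n) - w ≤ rswX q ∧ TscR tscG (Y ∩ plsBand c d) p q := by
  have hQ : Y ∩ plsBand c d ⊆ plsBand c d := Set.inter_subset_right
  have key : ∀ m : ℕ, m ≤ n → ∃ p q t, p ∈ Y ∩ plsBand c d ∧ p.2 = c ∧ rswX p ≤ i + w ∧ q ∈ Y ∩ plsBand c d ∧ q.2 = c ∧ t.2 = d ∧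
      (i + 2 * (w * m) - w ≤ rswX q ∧ rswX q ≤ i + 2 * (w * m) + w) ∧ (j + 2 * (w * m) - w ≤ rswX t ∧ rswX t ≤ j + 2 * (w * m) + w) ∧
      TscR tscG (Y ∩ plsBand c d) p q ∧ TscR tscG (Y ∩ plsBand c d) q t := by
    intro m
    induction m with
    | zero =>
      intro _
      obtain ⟨p, q, hp, hpc, hqd, hpX, hqX, hpq⟩ := h1 0 (by omega)
      exact ⟨p, p, q, hp, hpc, by simpa using hpX.2, hp, hpc, hqd, hpX, hqX, tsc_R_refl _, hpq⟩
    | succ m ih =>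
      intro hm
      obtain ⟨p, q, t, hp, hpc, hpX, hq, hqc, htd, hqX, htX, hpq, hqt⟩ := ih (by omega)
      obtain ⟨u, v, hu, huc, hvd, huX, hvX, huv⟩ := h2 m (by omega)
      obtain ⟨q', t', hq', hqc', htd', hqX', htX', hqt'⟩ := h1 (m + 1) (by omega)
      have e0 : w * ((m + 1 : ℕ) : ℤ) = w * m + w := by push_cast; ring
      have e1 : TscR tscG (Y ∩ plsBand c d) q u := rsd_meet hQ hq hqt hu huv hqc htd huc hvd
        (Or.inl ⟨(rsw_X_lt (hqc.trans huc.symm)).1 (by omega), (rsw_X_lt (hvd.trans htd.symm)).1 (by omega)⟩)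
      have e2 : TscR tscG (Y ∩ plsBand c d) u q' := rsd_meet hQ hu huv hq' hqt' huc hvd hqc' htd'
        (Or.inr ⟨(rsw_X_lt (hqc'.trans huc.symm)).1 (by rw [e0] at hqX'; omega), (rsw_X_lt (hvd.trans htd'.symm)).1 (by rw [e0] at htX'; omega)⟩)
      exact ⟨p, q', t', hp, hpc, hpX, hq', hqc', htd', hqX', htX', tsc_R_trans hpq (tsc_R_trans e1 e2), hqt'⟩
  obtain ⟨p, q, t, hp, hpc, hpX, hq, hqc, htd, hqX, htX, hpq, hqt⟩ := key n le_rfl
  exact ⟨p, q, hp, hpc, hqc, hpX, hqX.1, hpq⟩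

/-- **the tilted case** -/
theorem rsw_tilt (𝔏 : RswLaw) {c d i j w : ℤ} (hcd : c ≤ d) (hw : 1 ≤ w) (ho : 4 * w + 2 ≤ j - i) {t : ℝ} (ht : 0 ≤ t) (h : t ≤ 𝔏.P (RswCr (plsBand c d) c d i j w))
    (n : ℕ) (a b : ℤ) (hab : a ≤ b) (hn : 2 * (b - a) + 4 * w + 4 ≤ 2 * (w * n)) : t ^ (2 * n + 1) ≤ 𝔏.P (RswH a b c d) := by
  set s : ℤ := (2 * a + c - w - i) / 2 with hs
  set θ : ℤ := (i + j) % 2 with hθ
  set μ : ℤ := (i + 2 * s + (j + 2 * s) + θ) / 2 with hμ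
  have hμ2 : 2 * μ = i + 2 * s + (j + 2 * s) + θ := by omega
  have hP1 : ∀ k : ℕ, 𝔏.P (RswCr (plsBand c d) c d (i + 2 * s + 2 * (w * k)) (j + 2 * s + 2 * (w * k)) w) = 𝔏.P (RswCr (plsBand c d) c d i j w) := by
    intro k
    have := 𝔏.rsw_P_crb_sh (s + w * k) c d i j w
    rwa [show i + 2 * (s + w * k) = i + 2 * s + 2 * (w * k) by ring, show j + 2 * (s + w * k) = j + 2 * s + 2 * (w * k) by ring] at this
  have hP2 : ∀ k : ℕ, 𝔏.P (RswCr (plsBand c d) c d (j + 2 * s + θ + 2 * (w * k)) (i + 2 * s + θ + 2 * (w * k)) w) = 𝔏.P (RswCr (plsBand c d) c d i j w) := by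
    intro k
    have e1 := 𝔏.rsw_P_crb_sh (w * k) c d (j + 2 * s + θ) (i + 2 * s + θ) w
    have e2 := 𝔏.rsw_P_crb_mi μ c d (i + 2 * s) (j + 2 * s) w
    have e3 := 𝔏.rsw_P_crb_sh s c d i j w
    rw [show 2 * μ - (i + 2 * s) = j + 2 * s + θ by omega, show 2 * μ - (j + 2 * s) = i + 2 * s + θ by omega] at e2
    rw [e1, e2, e3]
  have h1 := 𝔏.rsw_fkg_fin (n + 1) (fun k => RswCr (plsBand c d) c d (i + 2 * s + 2 * (w * k)) (j + 2 * s + 2 * (w * k)) w) (fun k _ => rsw_inc_cr _ _ _ _ _ _) ht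
    (fun k _ => by rw [hP1]; exact h)
  have h2 := 𝔏.rsw_fkg_fin n (fun k => RswCr (plsBand c d) c d (j + 2 * s + θ + 2 * (w * k)) (i + 2 * s + θ + 2 * (w * k)) w) (fun k _ => rsw_inc_cr _ _ _ _ _ _) ht
    (fun k _ => by rw [hP2]; exact h)
  have h3 := 𝔏.fkg _ _ (rsw_inc_all (n + 1) (fun k => RswCr (plsBand c d) c d (i + 2 * s + 2 * (w * k)) (j + 2 * s + 2 * (w * k)) w) (fun k _ => rsw_inc_cr _ _ _ _ _ _))
    (rsw_inc_all n (fun k => RswCr (plsBand c d) c d (j + 2 * s + θ + 2 * (w * k)) (i + 2 * s + θ + 2 * (w * k)) w) (fun k _ => rsw_inc_cr _ _ _ _ _ _))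
  have h4 : t ^ (2 * n + 1) ≤ 𝔏.P (fun Y => ∀ k < n + 1, RswCr (plsBand c d) c d (i + 2 * s + 2 * (w * k)) (j + 2 * s + 2 * (w * k)) w Y) *
      𝔏.P (fun Y => ∀ k < n, RswCr (plsBand c d) c d (j + 2 * s + θ + 2 * (w * k)) (i + 2 * s + θ + 2 * (w * k)) w Y) := by
    rw [show 2 * n + 1 = (n + 1) + n by ring, pow_add]
    exact mul_le_mul h1 h2 (by positivity) (𝔏.rsw_nonneg _)
  refine h4.trans (h3.trans (𝔏.mono _ _ fun Y hY => ?_))
  obtain ⟨p, q, hp, hpc, hqc, hpX, hqX, hpq⟩ := rsw_tilt_chain (i := i + 2 * s) (j := j + 2 * s) (θ := θ) (by omega) (by omega) (by omega) n hY.1 hY.2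
  unfold rswX at hpX hqX
  generalize w * (n : ℤ) = N at *
  exact rsw_H_of_path hab hcd hp hpq (by omega) (by omega)

/-! ## §6 the aligned case -/

/-- a crossing inside `[m - e, m + e2]` stays inside `[m - e1, m + e1]` or is asymmetric -/
theorem rsw_E_sub {c d w m e e1 e2 : ℤ} (h21 : e2 ≤ e1) {Y : Set (ℤ × ℤ)} (h : RswE c d w m e e2 Y) : RswE c d w m e1 e1 Y ∨ RswAsym c d w m e e1 e2 Y := by
  obtain ⟨p, q, hp, hpc, hqd, hpX, hqX, hpq⟩ := h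
  rcases rsw_split (S' := rswRect (m - e1) (m + e1) c d) hp hpq with ⟨hp', h1⟩ | ⟨z, hz, hz', hpz, hzq⟩
  · left
    have hs : Y ∩ rswRect (m - e) (m + e2) c d ∩ rswRect (m - e1) (m + e1) c d ⊆ Y ∩ rswRect (m - e1) (m + e1) c d := fun z hz => ⟨hz.1.1, hz.2⟩
    exact ⟨p, q, ⟨hp.1, hp'⟩, hpc, hqd, hpX, hqX, tsc_R_mono hs h1⟩
  · right
    refine ⟨p, q, z, hp, hpc, hqd, hpX, hqX, hpz, hzq, ?_⟩
    by_contra hcon
    apply hz'
    have h2 := hz.2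
    exact ⟨by omega, by have := h2.2.1; omega, h2.2.2.1, h2.2.2.2⟩

/-- (ii): an asymmetric crossing at `m` meets the mirror image, placed at `m - σ`, of another one -/
theorem rsw_asym_F {c d w σ m μ e e1 e2 : ℤ} (hσ : 2 * w < σ) (hμ : 2 * μ = 2 * m - σ) (h12 : σ < e1 - e2) {Y : Set (ℤ × ℤ)}
    (h : RswAsym c d w m e e1 e2 Y) (h' : RswAsym c d w m e e1 e2 (rswMi μ Y)) : RswF c d w σ (m - σ) Y := by
  obtain ⟨p, q, z, hp, hpc, hqd, hpX, hqX, hpz, hzq, hz⟩ := h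
  obtain ⟨p', q', z', hp', hpc', hqd', hpX', hqX', hpz', hzq', hz'⟩ := h'
  set R := rswRect (m - e) (m + e2) c d with hR
  set S' := rswMi μ (rswMi μ Y ∩ R) with hS'
  have hmem : ∀ x : ℤ × ℤ, x ∈ rswMi μ Y ∩ R → (μ - x.1 - x.2, x.2) ∈ S' := by
    intro x hx
    show (μ - (μ - x.1 - x.2) - x.2, x.2) ∈ rswMi μ Y ∩ R
    have : μ - (μ - x.1 - x.2) - x.2 = x.1 := by ring
    rw [this]
    exact hx
  have hS'sub : ∀ x ∈ S', x ∈ Y ∧ (c ≤ x.2 ∧ x.2 ≤ d) ∧ m - σ - e2 ≤ rswX x ∧ rswX x ≤ m - σ + e := by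
    intro x hx
    have h1 : (μ - x.1 - x.2, x.2) ∈ rswMi μ Y ∩ R := hx
    obtain ⟨h2, h3⟩ := h1
    have h2' : (μ - (μ - x.1 - x.2) - x.2, x.2) ∈ Y := h2
    have e0 : μ - (μ - x.1 - x.2) - x.2 = x.1 := by ring
    rw [e0] at h2'
    obtain ⟨r1, r2, r3, r4⟩ := h3
    unfold rswX at r1 r2 ⊢
    dsimp only at r1 r2 r3 r4
    exact ⟨h2', ⟨r3, r4⟩, by omega, by omega⟩
  have hRsub : ∀ x ∈ Y ∩ R, x ∈ Y ∧ (c ≤ x.2 ∧ x.2 ≤ d) ∧ rswX x ≤ m + e2 := fun x hx => ⟨hx.1, ⟨hx.2.2.2.1, hx.2.2.2.2⟩, hx.2.2.1⟩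
  have sS : S' ⊆ Y ∩ plsBand c d := fun x hx => ⟨(hS'sub x hx).1, (hS'sub x hx).2.1⟩
  have sR : Y ∩ R ⊆ Y ∩ plsBand c d := fun x hx => ⟨(hRsub x hx).1, (hRsub x hx).2.1⟩
  -- the mirror images
  have hP : (μ - p'.1 - p'.2, p'.2) ∈ S' := hmem p' hp'
  have hPZ : TscR tscG S' (μ - p'.1 - p'.2, p'.2) (μ - z'.1 - z'.2, z'.2) := rsw_R_mi μ hpz'
  have hZQ : TscR tscG S' (μ - z'.1 - z'.2, z'.2) (μ - q'.1 - q'.2, q'.2) := rsw_R_mi μ hzq'
  unfold rswX at hpX hqX hz hpX' hqX' hz'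
  -- the two clusters meet
  have hcross : (tscComp tscG S' (μ - p'.1 - p'.2, p'.2) ∩ tscComp tscG (Y ∩ R) p).Nonempty := by
    refine rsw_tip_cross (c := c) (d := d) (z := (μ - z'.1 - z'.2, z'.2)) (v := q) ((tsc_comp_sub _).trans (sS.trans Set.inter_subset_right))
      ((tsc_comp_sub _).trans (sR.trans Set.inter_subset_right)) (tsc_comp_self hP) (tsc_comp_R (tsc_comp_self hP) hPZ)
      (tsc_comp_self hp) (tsc_comp_R (tsc_comp_self hp) (tsc_R_trans hpz hzq)) hpc' hpc hqd ?_ ?_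
    · show μ - p'.1 - p'.2 < p.1
      omega
    · intro y hy
      have := (hRsub y (tsc_comp_sub _ hy)).2.2
      unfold rswX at this ⊢
      dsimp only
      omega
  have hjoin : TscR tscG (Y ∩ plsBand c d) (μ - p'.1 - p'.2, p'.2) p := rsw_join sS sR hcross
  refine ⟨(μ - p'.1 - p'.2, p'.2), (μ - q'.1 - q'.2, q'.2), p, q, sS hP, hpc', hqd', hpc, hqd, ?_, ?_, ?_, ?_,
    tsc_R_mono sS (tsc_R_trans hPZ hZQ), hjoin, tsc_R_mono sR (tsc_R_trans hpz hzq)⟩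
  · unfold rswX
    dsimp only
    constructor <;> omega
  · unfold rswX
    dsimp only
    constructor <;> omega
  · unfold rswX
    constructor <;> omega
  · unfold rswX
    constructor <;> omega

/-- lower bound after `n` descents -/
noncomputable def rswPhi (cg : ℝ) : ℕ → ℝ → ℝ
  | 0, t => cg * t ^ 2 / 2
  | n + 1, t => min (rswPhi cg n (t ^ 2 / 32)) (min ((t ^ 2 / 32) ^ 2) (cg * t ^ 2 / 2))

theorem rsw_phi_pos {cg : ℝ} (hcg : 0 < cg) (n : ℕ) : ∀ t : ℝ, 0 < t → 0 < rswPhi cg n t := by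
  induction n with
  | zero => intro t ht; simp only [rswPhi]; positivity
  | succ n ih =>
    intro t ht
    simp only [rswPhi]
    refine lt_min (ih _ (by positivity)) (lt_min (by positivity) (by positivity))

theorem rsw_phi_le {cg : ℝ} (n : ℕ) (t : ℝ) : rswPhi cg n t ≤ cg * t ^ 2 / 2 := by
  cases n with
  | zero => simp only [rswPhi]; exact le_rfl
  | succ n => simp only [rswPhi]; exact (min_le_right _ _).trans (min_le_right _ _)

/-- two aligned crossings at `m`, `m + σ` -/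
theorem rsw_two (𝔏 : RswLaw) {c d w σ e m : ℤ} (hσ : σ = 4 * (w + 1)) {t : ℝ} (ht : 0 ≤ t) (h : t ≤ 𝔏.P (RswE c d w m e e)) :
    t ^ 2 ≤ 𝔏.P (fun Y => RswE c d w m e e Y ∧ RswE c d w (m + σ) e e Y) := by
  have h1 : 𝔏.P (RswE c d w (m + σ) e e) = 𝔏.P (RswE c d w m e e) := by
    have := 𝔏.rsw_P_E_sh (2 * (w + 1)) c d w m e e
    rwa [show m + 2 * (2 * (w + 1)) = m + σ by rw [hσ]; ring] at this
  have h2 := 𝔏.fkg _ _ (rsw_inc_E c d w m e e) (rsw_inc_E c d w (m + σ) e e)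
  rw [h1] at h2
  nlinarith [𝔏.rsw_nonneg (RswE c d w m e e)]

/-- the terminal step -/
theorem rsw_term (𝔏 : RswLaw) {cg : ℝ} (hcg : 0 ≤ cg) {c d w σ e m : ℤ} (hσ : σ = 4 * (w + 1)) (hT : RswTube 𝔏 cg c d w σ e) {t : ℝ} (ht : 0 ≤ t) (h : t ≤ 𝔏.P (RswE c d w m e e)) :
    cg * t ^ 2 / 2 ≤ 𝔏.P (RswF c d w σ m) := by
  have h1 := rsw_two 𝔏 hσ ht h
  have h2 := hT m
  have h3 : cg * t ^ 2 ≤ cg * 𝔏.P (fun Y => RswE c d w m e e Y ∧ RswE c d w (m + σ) e e Y) := mul_le_mul_of_nonneg_left h1 hcg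
  have h4 : 0 ≤ cg * t ^ 2 := by positivity
  linarith

/-- one step of the descent: (i), (ii) or (iii) -/
theorem rsw_step (𝔏 : RswLaw) {cg : ℝ} (hcg : 0 ≤ cg) {c d w σ e e1 e2 m : ℤ} (hw : 0 ≤ w) (hσ : σ = 4 * (w + 1)) (h21 : e2 ≤ e1) (h12 : σ < e1 - e2)
    (hT : RswTip 𝔏 cg c d w σ e e2) {t : ℝ} (ht : 0 < t) (h : t ≤ 𝔏.P (RswE c d w m e e)) :
    t ^ 2 / 32 ≤ 𝔏.P (RswE c d w m e1 e1) ∨ (t ^ 2 / 32) ^ 2 ≤ 𝔏.P (RswF c d w σ m) ∨ cg * t ^ 2 / 2 ≤ 𝔏.P (RswF c d w σ m) := by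
  by_cases hi : t ^ 2 / 32 ≤ 𝔏.P (RswE c d w m e1 e1)
  · exact Or.inl hi
  right
  push Not at hi
  by_cases hii : t ^ 2 / 32 ≤ 𝔏.P (RswAsym c d w m e e1 e2)
  · left
    -- the mirror
    have hμ : 2 * (m - 2 * (w + 1)) = 2 * m - σ := by rw [hσ]; ring
    have h1 := 𝔏.fkg _ _ (rsw_inc_asym c d w m e e1 e2) (rsw_inc_mi (rsw_inc_asym c d w m e e1 e2) (m - 2 * (w + 1)))
    rw [𝔏.mirror] at h1
    have h2 : 𝔏.P (fun Y => RswAsym c d w m e e1 e2 Y ∧ RswAsym c d w m e e1 e2 (rswMi (m - 2 * (w + 1)) Y)) ≤ 𝔏.P (RswF c d w σ (m - σ)) :=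
      𝔏.mono _ _ fun Y hY => rsw_asym_F (by rw [hσ]; omega) hμ h12 hY.1 hY.2
    have h3 : 𝔏.P (RswF c d w σ m) = 𝔏.P (RswF c d w σ (m - σ)) := by
      have := 𝔏.rsw_P_F_sh (2 * (w + 1)) c d w σ (m - σ)
      rwa [show m - σ + 2 * (2 * (w + 1)) = m by rw [hσ]; ring] at this
    rw [h3]
    have h4 : 0 ≤ t ^ 2 / 32 := by positivity
    nlinarith
  · right
    push Not at hii
    set t' := t ^ 2 / 32 with ht'
    -- the four bad events
    have hb1 : 𝔏.P (RswE c d w m e e2) < 2 * t' := by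
      have := 𝔏.mono (RswE c d w m e e2) (fun Y => RswE c d w m e1 e1 Y ∨ RswAsym c d w m e e1 e2 Y) fun Y hY => rsw_E_sub h21 hY
      have h' := 𝔏.union (RswE c d w m e1 e1) (RswAsym c d w m e e1 e2)
      linarith
    have hb2 : 𝔏.P (RswE c d w m e2 e) < 2 * t' := by rw [𝔏.rsw_P_E_mi]; exact hb1
    have hsh : ∀ l ρ, 𝔏.P (RswE c d w (m + σ) l ρ) = 𝔏.P (RswE c d w m l ρ) := by
      intro l ρ
      have := 𝔏.rsw_P_E_sh (2 * (w + 1)) c d w m l ρ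
      rwa [show m + 2 * (2 * (w + 1)) = m + σ by rw [hσ]; ring] at this
    have hb3 : 𝔏.P (RswE c d w (m + σ) e e2) < 2 * t' := by rw [hsh]; exact hb1
    have hb4 : 𝔏.P (RswE c d w (m + σ) e2 e) < 2 * t' := by rw [hsh]; exact hb2
    have h0 := rsw_two 𝔏 hσ ht.le h
    have hB : 𝔏.P (fun Y => (RswE c d w m e e2 Y ∨ RswE c d w m e2 e Y) ∨ (RswE c d w (m + σ) e e2 Y ∨ RswE c d w (m + σ) e2 e Y)) < 8 * t' := by
      have u1 := 𝔏.union (fun Y => RswE c d w m e e2 Y ∨ RswE c d w m e2 e Y) (fun Y => RswE c d w (m + σ) e e2 Y ∨ RswE c d w (m + σ) e2 e Y)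
      have u2 := 𝔏.union (RswE c d w m e e2) (RswE c d w m e2 e)
      have u3 := 𝔏.union (RswE c d w (m + σ) e e2) (RswE c d w (m + σ) e2 e)
      linarith
    have hD := 𝔏.rsw_diff (fun Y => RswE c d w m e e Y ∧ RswE c d w (m + σ) e e Y)
      (fun Y => (RswE c d w m e e2 Y ∨ RswE c d w m e2 e Y) ∨ (RswE c d w (m + σ) e e2 Y ∨ RswE c d w (m + σ) e2 e Y))
    have hG : 𝔏.P (fun Y => (RswE c d w m e e Y ∧ RswE c d w (m + σ) e e Y) ∧
        ¬ ((RswE c d w m e e2 Y ∨ RswE c d w m e2 e Y) ∨ (RswE c d w (m + σ) e e2 Y ∨ RswE c d w (m + σ) e2 e Y))) ≤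
        𝔏.P (fun Y => RswE c d w m e e Y ∧ RswE c d w (m + σ) e e Y ∧ ¬ RswE c d w m e e2 Y ∧ ¬ RswE c d w m e2 e Y ∧
          ¬ RswE c d w (m + σ) e e2 Y ∧ ¬ RswE c d w (m + σ) e2 e Y) := 𝔏.mono _ _ fun Y hY => by
      obtain ⟨⟨a1, a2⟩, a3⟩ := hY
      push Not at a3
      exact ⟨a1, a2, a3.1.1, a3.1.2, a3.2.1, a3.2.2⟩
    have hT' := hT m
    have h5 : t ^ 2 / 2 ≤ 𝔏.P (fun Y => RswE c d w m e e Y ∧ RswE c d w (m + σ) e e Y ∧ ¬ RswE c d w m e e2 Y ∧ ¬ RswE c d w m e2 e Y ∧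
          ¬ RswE c d w (m + σ) e e2 Y ∧ ¬ RswE c d w (m + σ) e2 e Y) := by
      have : 8 * t' = t ^ 2 / 4 := by rw [ht']; ring
      have h6 : 0 ≤ t ^ 2 := by positivity
      linarith
    have h7 := mul_le_mul_of_nonneg_left h5 hcg
    linarith

/-- **scale descent** -/
theorem rsw_descent (𝔏 : RswLaw) {cg : ℝ} (hcg : 0 ≤ cg) {c d w σ eM : ℤ} (hw : 0 ≤ w) (hσ : σ = 4 * (w + 1))
    (hTip : ∀ e e2 : ℤ, e2 ≤ e → e + 3 * σ + w + 8 ≤ 2 * e2 → e ≤ eM → RswTip 𝔏 cg c d w σ e e2)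
    (hTube : ∀ e : ℤ, e ≤ 20 * σ → RswTube 𝔏 cg c d w σ e) (n : ℕ) :
    ∀ e : ℤ, e ≤ eM → (e : ℝ) ≤ 20 * σ * (12 / 11 : ℝ) ^ n → ∀ (m : ℤ) (t : ℝ), 0 < t → t ≤ 𝔏.P (RswE c d w m e e) → rswPhi cg n t ≤ 𝔏.P (RswF c d w σ m) := by
  induction n with
  | zero =>
    intro e _ he m t ht h
    have he' : e ≤ 20 * σ := by
      have : (e : ℝ) ≤ ((20 * σ : ℤ) : ℝ) := by push_cast; simpa using he
      exact_mod_cast this
    exact (rsw_phi_le 0 t).trans (rsw_term 𝔏 hcg hσ (hTube e he') ht.le h)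
  | succ n ih =>
    intro e heM he m t ht h
    by_cases he' : e ≤ 20 * σ
    · exact (rsw_phi_le (n + 1) t).trans (rsw_term 𝔏 hcg hσ (hTube e he') ht.le h)
    push Not at he'
    have h1 : e - e / 10 - (e - e / 10) / 10 ≤ e := by omega
    have h2 : e + 3 * σ + w + 8 ≤ 2 * (e - e / 10 - (e - e / 10) / 10) := by omega
    have h3 : e - e / 10 - (e - e / 10) / 10 ≤ e - e / 10 := by omega
    have h4 : σ < (e - e / 10) - (e - e / 10 - (e - e / 10) / 10) := by omega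
    rcases rsw_step 𝔏 hcg hw hσ h3 h4 (hTip e _ h1 h2 heM) ht h with hh | hh | hh
    · refine le_trans ?_ (ih (e - e / 10) (by omega) ?_ m (t ^ 2 / 32) (by positivity) hh)
      · simp only [rswPhi]; exact min_le_left _ _
      · have h5 : 12 * (e - e / 10) ≤ 11 * e := by omega
        have h6 : (12 : ℝ) * ((e - e / 10 : ℤ) : ℝ) ≤ 11 * (e : ℝ) := by exact_mod_cast h5
        rw [pow_succ] at he
        linarith
    · refine le_trans ?_ hh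
      simp only [rswPhi]; exact (min_le_right _ _).trans (min_le_left _ _)
    · exact (rsw_phi_le (n + 1) t).trans hh

/-- the events `F (m + j σ / 2)`, `j < n + 1`, lie in one cluster -/
theorem rsw_F_chain {c d w σ m : ℤ} (hw : 0 ≤ w) (hσ : σ = 4 * (w + 1)) (n : ℕ) {Y : Set (ℤ × ℤ)} (h : ∀ j < n + 1, RswF c d w σ (m + 2 * ((w + 1) * j)) Y) :
    ∃ p q, p ∈ Y ∩ plsBand c d ∧ p.2 = c ∧ q.2 = c ∧ rswX p ≤ m + w ∧ m + 2 * ((w + 1) * n) + σ - w ≤ rswX q ∧ TscR tscG (Y ∩ plsBand c d) p q := by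
  have hQ : Y ∩ plsBand c d ⊆ plsBand c d := Set.inter_subset_right
  have key : ∀ k : ℕ, k ≤ n → ∃ p a a', p ∈ Y ∩ plsBand c d ∧ p.2 = c ∧ rswX p ≤ m + w ∧ a ∈ Y ∩ plsBand c d ∧ a.2 = c ∧ a'.2 = c ∧
      rswX a ≤ m + 2 * ((w + 1) * k) + w ∧ m + 2 * ((w + 1) * k) + σ - w ≤ rswX a' ∧
      TscR tscG (Y ∩ plsBand c d) p a ∧ TscR tscG (Y ∩ plsBand c d) a a' := by
    intro k
    induction k with
    | zero =>
      intro _
      obtain ⟨p, q, p', q', hp, hpc, hqd, hpc', hqd', hpX, hqX, hpX', hqX', hpq, hpp', hpq'⟩ := h 0 (by omega)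
      exact ⟨p, p, p', hp, hpc, by simpa using hpX.2, hp, hpc, hpc', hpX.2, hpX'.1, tsc_R_refl _, hpp'⟩
    | succ k ih =>
      intro hk
      obtain ⟨p0, a, a', hp0, hp0c, hp0X, ha, hac, hac', haX, haX', hp0a, haa'⟩ := ih (by omega)
      obtain ⟨p, q, p', q', hp, hpc, hqd, hpc', hqd', hpX, hqX, hpX', hqX', hpq, hpp', hpq'⟩ := h (k + 1) (by omega)
      have e0 : (w + 1) * ((k + 1 : ℕ) : ℤ) = (w + 1) * k + (w + 1) := by push_cast; ring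
      have hx := rsw_foot_cross (S := tscComp tscG (Y ∩ plsBand c d) a) (T := tscComp tscG (Y ∩ plsBand c d) p) (c := c) (d := d)
        ((tsc_comp_sub a).trans hQ) ((tsc_comp_sub p).trans hQ) (tsc_comp_self ha) (tsc_comp_R (tsc_comp_self ha) haa')
        (tsc_comp_self hp) (tsc_comp_R (tsc_comp_self hp) hpq) hac hac' hpc hqd
        ((rsw_X_lt (hac.trans hpc.symm)).1 (by rw [e0] at hpX; omega)) ((rsw_X_lt (hpc.trans hac'.symm)).1 (by rw [e0] at hpX; omega))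
      have e1 : TscR tscG (Y ∩ plsBand c d) a p := rsw_join subset_rfl subset_rfl hx
      exact ⟨p0, p, p', hp0, hp0c, hp0X, hp, hpc, hpc', hpX.2, hpX'.1, tsc_R_trans hp0a e1, hpp'⟩
  obtain ⟨p0, a, a', hp0, hp0c, hp0X, ha, hac, hac', haX, haX', hp0a, haa'⟩ := key n le_rfl
  exact ⟨p0, a', hp0, hp0c, hac', hp0X, haX', tsc_R_trans hp0a haa'⟩

/-- **the aligned case, conclusion** -/
theorem rsw_align (𝔏 : RswLaw) {c d w σ m : ℤ} (hcd : c ≤ d) (hw : 0 ≤ w) (hσ : σ = 4 * (w + 1)) {t : ℝ} (ht : 0 ≤ t) (h : t ≤ 𝔏.P (RswF c d w σ m))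
    (n : ℕ) (a b : ℤ) (hab : a ≤ b) (hn : 2 * (b - a) + 4 * w + 4 ≤ 2 * ((w + 1) * n)) : t ^ (n + 1) ≤ 𝔏.P (RswH a b c d) := by
  set s : ℤ := (2 * a + c - w - m) / 2 with hs
  have hP : ∀ j : ℕ, 𝔏.P (RswF c d w σ (m + 2 * s + 2 * ((w + 1) * j))) = 𝔏.P (RswF c d w σ m) := by
    intro j
    have := 𝔏.rsw_P_F_sh (s + (w + 1) * j) c d w σ m
    rwa [show m + 2 * (s + (w + 1) * j) = m + 2 * s + 2 * ((w + 1) * j) by ring] at this
  have h1 := 𝔏.rsw_fkg_fin (n + 1) (fun j => RswF c d w σ (m + 2 * s + 2 * ((w + 1) * j))) (fun j _ => rsw_inc_F _ _ _ _ _) ht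
    (fun j _ => by rw [hP]; exact h)
  refine h1.trans (𝔏.mono _ _ fun Y hY => ?_)
  obtain ⟨p, q, hp, hpc, hqc, hpX, hqX, hpq⟩ := rsw_F_chain hw hσ n hY
  unfold rswX at hpX hqX
  generalize (w + 1) * (n : ℤ) = N at *
  exact rsw_H_of_path hab hcd hp hpq (by omega) (by omega)

/-! ## §7 the theorem -/

/-- TEX[annulus:RSW] **(56), abstract form, flexible widths** `A ≤ 6 r + 6`, `B ≤ 4 r + 4` (a band of `r + 1` index rows).   `w` = pigeonhole half width, `12500 w ≤ r ≤ 25000 w` (take `w = r / 12500`, `r ≥ 125000`). -/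
theorem rsw_main_gen (cg δ : ℝ) (hcg : 0 < cg) (hδ : 0 < δ) : ∃ ψ : ℝ, 0 < ψ ∧ ∀ (𝔏 : RswLaw) (c r w : ℤ), 10 ≤ w → 12500 * w ≤ r → r ≤ 25000 * w → RswGlue 𝔏 cg c r w →
    ∀ a a' A B : ℤ, 0 ≤ A → A ≤ 6 * r + 6 → 0 ≤ B → B ≤ 4 * r + 4 → δ ≤ 𝔏.P (RswV a (a + A) c (c + r)) → ψ ≤ 𝔏.P (RswH a' (a' + B) c (c + r)) := by
  obtain ⟨nd, hnd⟩ := pow_unbounded_of_one_lt (875 : ℝ) (show (1 : ℝ) < 12 / 11 by norm_num)
  obtain ⟨N, hN⟩ : ∃ N : ℕ, N = 325001 := ⟨_, rfl⟩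
  obtain ⟨p0, hp0d⟩ : ∃ p0 : ℝ, p0 = δ / ((Finset.range N ×ˢ Finset.range N).card : ℝ) := ⟨_, rfl⟩
  have hp0 : 0 < p0 := by
    rw [hp0d]
    apply div_pos hδ
    rw [Finset.card_product, Finset.card_range, hN]
    norm_num
  refine ⟨min (p0 ^ (2 * 100010 + 1)) ((rswPhi cg nd p0) ^ (20010 + 1)), lt_min (pow_pos hp0 _) (pow_pos (rsw_phi_pos hcg nd p0 hp0) _), ?_⟩
  intro 𝔏 c r w hw hr1 hr2 hG a a' A B hA0 hA hB0 hB hV
  obtain ⟨n, -, hPn⟩ := 𝔏.rsw_pigeon (Finset.range N ×ˢ Finset.range N)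
    (fun n => RswCr (rswRect (2 * a + c) (2 * (a + A) + (c + r)) c (c + r)) c (c + r) (2 * a + c + w + (2 * w + 1) * (n.1 : ℤ)) (2 * a + c + w + (2 * w + 1) * (n.2 : ℤ)) w)
    (fun Y hY => rsw_land (by omega) N (by rw [hN]; push_cast; nlinarith) hY) hδ hV
  rw [← hp0d] at hPn
  generalize 2 * a + c + w + (2 * w + 1) * (n.1 : ℤ) = i at hPn
  generalize 2 * a + c + w + (2 * w + 1) * (n.2 : ℤ) = j at hPn
  have hsub : rswRect (2 * a + c) (2 * (a + A) + (c + r)) c (c + r) ⊆ plsBand c (c + r) := fun z hz => ⟨hz.2.2.1, hz.2.2.2⟩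
  have hband : p0 ≤ 𝔏.P (RswCr (plsBand c (c + r)) c (c + r) i j w) := hPn.trans (𝔏.mono _ _ fun Y hY => rsw_cr_mono hsub hY)
  by_cases h1 : 4 * w + 2 ≤ j - i
  · exact (min_le_left _ _).trans (rsw_tilt 𝔏 (by omega) (by omega) h1 hp0.le hband 100010 a' (a' + B) (by omega) (by push_cast; omega))
  by_cases h2 : 4 * w + 2 ≤ i - j
  · have hm := 𝔏.rsw_P_crb_mi 0 c (c + r) i j w
    rw [← hm] at hband
    exact (min_le_left _ _).trans (rsw_tilt 𝔏 (by omega) (by omega) (by omega) hp0.le hband 100010 a' (a' + B) (by omega) (by push_cast; omega))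
  · -- aligned
    have hE : p0 ≤ 𝔏.P (RswE c (c + r) (5 * w + 1) i (14 * r) (14 * r)) := by
      refine hPn.trans (𝔏.mono _ _ fun Y hY => ?_)
      have hi : 2 * a + c - w ≤ i ∧ i ≤ 2 * (a + A) + (c + r) + w := by
        obtain ⟨p, q, hp, -, -, hpi, -, -⟩ := hY
        have h3 := hp.2.1
        have h4 := hp.2.2.1
        omega
      have hsub2 : rswRect (2 * a + c) (2 * (a + A) + (c + r)) c (c + r) ⊆ rswRect (i - 14 * r) (i + 14 * r) c (c + r) := by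
        intro z hz
        obtain ⟨z1, z2, z3, z4⟩ := hz
        exact ⟨by omega, by omega, z3, z4⟩
      exact rsw_cr_wide (by omega) (by omega) (rsw_cr_mono hsub2 hY)
    have hF := rsw_descent 𝔏 hcg.le (c := c) (d := c + r) (w := 5 * w + 1) (σ := 20 * w + 8) (eM := 14 * r) (by omega) (by ring)
      (fun e e2 a1 a2 a3 => hG.tip e e2 a1 a2 a3) (fun e a1 => hG.tube e a1) nd (14 * r) le_rfl (by
        have e1 : ((14 * r : ℤ) : ℝ) ≤ ((350000 * w : ℤ) : ℝ) := by exact_mod_cast (by omega : 14 * r ≤ 350000 * w)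
        have e2 : (0 : ℝ) < (w : ℝ) := by exact_mod_cast (by omega : 0 < w)
        push_cast at e1 ⊢
        nlinarith) i p0 hp0 hE
    exact (min_le_right _ _).trans (rsw_align 𝔏 (by omega) (by omega) (by ring) (rsw_phi_pos hcg nd p0 hp0).le hF 20010 a' (a' + B) (by omega) (by push_cast; omega))

/-- TEX[annulus:RSW] **(56), abstract form.** -/
theorem rsw_main (cg δ : ℝ) (hcg : 0 < cg) (hδ : 0 < δ) : ∃ ψ : ℝ, 0 < ψ ∧ ∀ (𝔏 : RswLaw) (c r w : ℤ), 10 ≤ w → 12500 * w ≤ r → r ≤ 25000 * w → RswGlue 𝔏 cg c r w →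
    ∀ a a' : ℤ, δ ≤ 𝔏.P (RswV a (a + 6 * r) c (c + r)) → ψ ≤ 𝔏.P (RswH a' (a' + 4 * r) c (c + r)) := by
  obtain ⟨ψ, hψ, M⟩ := rsw_main_gen cg δ hcg hδ
  exact ⟨ψ, hψ, fun 𝔏 c r w h1 h2 h3 hG a a' hV => M 𝔏 c r w h1 h2 h3 hG a a' (6 * r) (4 * r) (by omega) (by omega) (by omega) (by omega) hV⟩

end Claimed.Agent.R291
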