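/-
# Row 291 (S0539), unit ANN, block A2 = HORIZONTAL LENGTHENING      (owner: helper193; prefix `len_` / `len`)

Paper: 09-annulus.tex l.233-242 ("horizontal lengthening", cited from GL2025 App. A);  OUR proof: origin/helper193:notes/R291/A2_lengthening_193.md.
Idea: explore ONLY inside the overlap box `O = R1 ∩ R2`; keep `H⁺(R1)`, `H⁺(R2)` as increasing events; FKG under the history.

* Part 1 (model free, DUAL form of T23_CHAIN L3): `len_glue` :  `H⁺(R1)`, `H⁺(R2)`, (E3) ⟹ `H⁺(R1 ∪ R2)`.   No Jordan, no Hex: closure operators + the intermediate value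
  property of the first coordinate.   Carrier: ANY type `V` of cells with a symmetric adjacency, a coordinate `X : V → ℤ` which moves by at most one along an edge,
  a predicate `np` ("non-plus"), a band, its top and bottom rows.
* Part 1b: `LenGeo.Vp`, `LenGeo.D` (the two explored clusters), `LenGeo.Q` (the cells looked at), stopping property `len_D_congr`, `len_E3_of_Vp`.
* Part 2 (on Defs/Cell + Dis/Base, ANY cell system): `lenNp`, `lenObs`, `lenQ`, `lenRec` = the FULL record; `len_rec_iff` (stopping property), `len_fibre` (fibre sum).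
* Part 3: `LenSE` = (SE) the strip estimate = the ONLY model input;   **`len_step`** : `c · P[H⁺(R1)] · P[H⁺(R2)] ≤ P[H⁺(R1 ∪ R2)]`;   **`len_iter`** : `δ (c δ)^j ≤ P[H⁺(L + j s)]`.
  Hypotheses: `ClOk S`, `LenFkg S K` (FKG under `K` and under the records; `len_fkg_of_disk`: from `dis_assoc` when `ClDisk S`), `LenSE`.   STATUS: 0 sorry in this file.
-/
import Claimed.Agent.R291.Dis.Base

set_option autoImplicit false
set_option linter.unusedSectionVars false
set_option linter.unusedVariables false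

namespace Claimed.Agent.R291

open Finset

/-! ## Part 1: the deterministic lemma -/

section Det

variable {V : Type}

/-- the geometry which the lemma sees -/
structure LenGeo (V : Type) where
  adj : V → V → Prop
  X : V → ℤ
  band : V → Prop
  top : V → Prop
  bot : V → Prop
  symm : ∀ u v, adj u v → adj v u
  ivt : ∀ u v, adj u v → X v ≤ X u + 1

variable (G : LenGeo V) (np : V → Prop)

/-- the box of the band with first coordinate in `[a, b]` -/
def LenGeo.box (a b : ℤ) (v : V) : Prop := G.band v ∧ a ≤ G.X v ∧ G.X v ≤ b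

/-- one step of a walk of `np` cells inside the box -/
def LenGeo.st (a b : ℤ) (u v : V) : Prop := G.adj u v ∧ np u ∧ np v ∧ G.box a b u ∧ G.box a b v

/-- `v` is an `np` cell of the box joined inside the box by `np` cells to the set `S` -/
def LenGeo.cl (a b : ℤ) (S : V → Prop) (v : V) : Prop :=
  np v ∧ G.box a b v ∧ ∃ u, S u ∧ Relation.ReflTransGen (G.st np a b) u v

/-- `H⁺(box)` in the dual form: no top-bottom walk of `np` cells inside the box -/
def LenGeo.Hp (a b : ℤ) : Prop := ∀ v, G.cl np a b G.top v → ¬ G.bot v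

/-- (E3): a cluster of `np` cells of the box which touches its two short sides touches its top or its bottom row -/
def LenGeo.E3 (a b : ℤ) : Prop :=
  ∀ v, G.cl np a b (fun u => G.X u = a) v → G.cl np a b (fun u => G.X u = b) v → G.cl np a b G.top v ∨ G.cl np a b G.bot v

theorem len_eqns_cite : True := by
  have := @LenGeo.box.eq_1
  have := @LenGeo.st.eq_1
  have := @LenGeo.cl.eq_1
  have := @LenGeo.Hp.eq_1
  have := @LenGeo.E3.eq_1
  trivial

variable {G np}

theorem len_box_mono {a b a' b' : ℤ} (ha : a' ≤ a) (hb : b ≤ b') {v : V} (h : G.box a b v) : G.box a' b' v :=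
  ⟨h.1, ha.trans h.2.1, h.2.2.trans hb⟩

theorem len_st_mono {a b a' b' : ℤ} (ha : a' ≤ a) (hb : b ≤ b') {u v : V} (h : G.st np a b u v) : G.st np a' b' u v :=
  ⟨h.1, h.2.1, h.2.2.1, len_box_mono ha hb h.2.2.2.1, len_box_mono ha hb h.2.2.2.2⟩

theorem len_st_symm {a b : ℤ} {u v : V} (h : G.st np a b u v) : G.st np a b v u :=
  ⟨G.symm _ _ h.1, h.2.2.1, h.2.1, h.2.2.2.2, h.2.2.2.1⟩

theorem len_rtg_mono {a b a' b' : ℤ} (ha : a' ≤ a) (hb : b ≤ b') {u v : V} (h : Relation.ReflTransGen (G.st np a b) u v) :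
    Relation.ReflTransGen (G.st np a' b') u v := by
  induction h with
  | refl => exact Relation.ReflTransGen.refl
  | tail _ h2 ih => exact ih.tail (len_st_mono ha hb h2)

theorem len_rtg_symm {a b : ℤ} {u v : V} (h : Relation.ReflTransGen (G.st np a b) u v) :
    Relation.ReflTransGen (G.st np a b) v u := by
  induction h with
  | refl => exact Relation.ReflTransGen.refl
  | tail _ h2 ih => exact Relation.ReflTransGen.head (len_st_symm h2) ih

theorem len_cl_mono {a b a' b' : ℤ} (ha : a' ≤ a) (hb : b ≤ b') {S : V → Prop} {v : V} (h : G.cl np a b S v) : G.cl np a' b' S v := by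
  obtain ⟨h1, h2, u, hu, h3⟩ := h
  exact ⟨h1, len_box_mono ha hb h2, u, hu, len_rtg_mono ha hb h3⟩

theorem len_cl_self {a b : ℤ} {S : V → Prop} {v : V} (h1 : np v) (h2 : G.box a b v) (h3 : S v) : G.cl np a b S v :=
  ⟨h1, h2, v, h3, Relation.ReflTransGen.refl⟩

theorem len_cl_step {a b : ℤ} {S : V → Prop} {v w : V} (h : G.cl np a b S v) (hs : G.st np a b v w) : G.cl np a b S w := by
  obtain ⟨_, _, u, hu, h3⟩ := h
  exact ⟨hs.2.2.1, hs.2.2.2.2, u, hu, h3.tail hs⟩

/-- two closures which meet give a walk from one set to the other -/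
theorem len_cl_join {a b : ℤ} {S S' : V → Prop} {v : V} (h : G.cl np a b S v) (h' : G.cl np a b S' v) :
    ∃ u, S' u ∧ G.cl np a b S u := by
  obtain ⟨_, _, u', hu', h3'⟩ := h'
  refine ⟨u', hu', ?_⟩
  have key : ∀ w, Relation.ReflTransGen (G.st np a b) v w → G.cl np a b S w := by
    intro w hw
    induction hw with
    | refl => exact h
    | tail _ h5 ih => exact len_cl_step ih h5
  exact key u' (len_rtg_symm h3')

/-- (D): a cell of the overlap box which is joined to the top inside the LEFT box is joined inside the overlap box to its top row or to its left column -/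
theorem len_D_left {a1 a2 b1 : ℤ} (h12 : a1 ≤ a2) {v : V} (h : G.cl np a1 b1 G.top v) (hv : G.box a2 b1 v) :
    G.cl np a2 b1 G.top v ∨ G.cl np a2 b1 (fun u => G.X u = a2) v := by
  obtain ⟨h1, _, u, hu, h3⟩ := h
  have key : ∀ w, Relation.ReflTransGen (G.st np a1 b1) u w → np w → G.box a2 b1 w →
      G.cl np a2 b1 G.top w ∨ G.cl np a2 b1 (fun u => G.X u = a2) w := by
    intro w hw
    induction hw with
    | refl => exact fun h1 hv => Or.inl (len_cl_self h1 hv hu)
    | @tail w w' _ hs ih =>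
      intro h1 hv
      by_cases hw : G.box a2 b1 w
      · have hs' : G.st np a2 b1 w w' := ⟨hs.1, hs.2.1, hs.2.2.1, hw, hv⟩
        rcases ih hs.2.1 hw with h | h
        · exact Or.inl (len_cl_step h hs')
        · exact Or.inr (len_cl_step h hs')
      · refine Or.inr (len_cl_self h1 hv ?_)
        have hwb := hs.2.2.2.1
        have hlt : G.X w < a2 := by
          by_contra hc
          exact hw ⟨hwb.1, not_lt.mp hc, hwb.2.2⟩
        have := G.ivt _ _ hs.1
        have := hv.2.1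
        omega
  exact key v h3 h1 hv

/-- (D'): the mirror statement -/
theorem len_D_right {a2 b1 b2 : ℤ} (h12 : b1 ≤ b2) {v : V} (h : G.cl np a2 b2 G.top v) (hv : G.box a2 b1 v) :
    G.cl np a2 b1 G.top v ∨ G.cl np a2 b1 (fun u => G.X u = b1) v := by
  obtain ⟨h1, _, u, hu, h3⟩ := h
  have key : ∀ w, Relation.ReflTransGen (G.st np a2 b2) u w → np w → G.box a2 b1 w →
      G.cl np a2 b1 G.top w ∨ G.cl np a2 b1 (fun u => G.X u = b1) w := by
    intro w hw
    induction hw with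
    | refl => exact fun h1 hv => Or.inl (len_cl_self h1 hv hu)
    | @tail w w' _ hs ih =>
      intro h1 hv
      by_cases hw : G.box a2 b1 w
      · have hs' : G.st np a2 b1 w w' := ⟨hs.1, hs.2.1, hs.2.2.1, hw, hv⟩
        rcases ih hs.2.1 hw with h | h
        · exact Or.inl (len_cl_step h hs')
        · exact Or.inr (len_cl_step h hs')
      · refine Or.inr (len_cl_self h1 hv ?_)
        have hwb := hs.2.2.2.1
        have hlt : b1 < G.X w := by
          by_contra hc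
          exact hw ⟨hwb.1, hwb.2.1, not_lt.mp hc⟩
        have := G.ivt _ _ (G.symm _ _ hs.1)
        have := hv.2.2
        omega
  exact key v h3 h1 hv

/-- a cell of the overlap box, in its right column, joined to the top inside the left box, is joined to the top inside the overlap box -/
theorem len_key_left {a1 a2 b1 : ℤ} (h12 : a1 ≤ a2) (hA : G.Hp np a1 b1) (hE : G.E3 np a2 b1) {v : V}
    (h : G.cl np a1 b1 G.top v) (hv : G.box a2 b1 v) (hX : G.X v = b1) : G.cl np a2 b1 G.top v := by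
  rcases len_D_left h12 h hv with h1 | h1
  · exact h1
  · rcases hE v h1 (len_cl_self h.1 hv hX) with h2 | h2
    · exact h2
    · exfalso
      obtain ⟨u, hu, hcl⟩ := len_cl_join h (len_cl_mono h12 le_rfl h2)
      exact hA u hcl hu

theorem len_key_right {a2 b1 b2 : ℤ} (h12 : b1 ≤ b2) (hB : G.Hp np a2 b2) (hE : G.E3 np a2 b1) {v : V}
    (h : G.cl np a2 b2 G.top v) (hv : G.box a2 b1 v) (hX : G.X v = a2) : G.cl np a2 b1 G.top v := by
  rcases len_D_right h12 h hv with h1 | h1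
  · exact h1
  · rcases hE v (len_cl_self h.1 hv hX) h1 with h2 | h2
    · exact h2
    · exfalso
      obtain ⟨u, hu, hcl⟩ := len_cl_join h (len_cl_mono le_rfl h12 h2)
      exact hB u hcl hu

/-- the invariant of the proof of `len_glue` -/
theorem len_inv {a1 a2 b1 b2 : ℤ} (ha : a1 ≤ a2) (hab : a2 ≤ b1) (hb : b1 ≤ b2) (hA : G.Hp np a1 b1) (hB : G.Hp np a2 b2)
    (hE : G.E3 np a2 b1) {v : V} (h : G.cl np a1 b2 G.top v) :
    (G.X v ≤ b1 ∧ G.cl np a1 b1 G.top v) ∨ (a2 ≤ G.X v ∧ G.cl np a2 b2 G.top v) := by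
  obtain ⟨h1, h2, u, hu, h3⟩ := h
  have key : ∀ w, Relation.ReflTransGen (G.st np a1 b2) u w → np w → G.box a1 b2 w →
      (G.X w ≤ b1 ∧ G.cl np a1 b1 G.top w) ∨ (a2 ≤ G.X w ∧ G.cl np a2 b2 G.top w) := by
    intro w hw
    induction hw with
    | refl =>
      intro h1 h2
      by_cases hc : G.X u ≤ b1
      · exact Or.inl ⟨hc, len_cl_self h1 ⟨h2.1, h2.2.1, hc⟩ hu⟩
      · exact Or.inr ⟨by omega, len_cl_self h1 ⟨h2.1, by omega, h2.2.2⟩ hu⟩
    | @tail w w' _ hs ih =>
      intro h1 h2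
      have hwb := hs.2.2.2.1
      have i1 := G.ivt _ _ hs.1
      have i2 := G.ivt _ _ (G.symm _ _ hs.1)
      rcases ih hs.2.1 hwb with ⟨hx, hcl⟩ | ⟨hx, hcl⟩
      · by_cases hc : G.X w' ≤ b1
        · exact Or.inl ⟨hc, len_cl_step hcl ⟨hs.1, hs.2.1, hs.2.2.1, hcl.2.1, ⟨h2.1, h2.2.1, hc⟩⟩⟩
        · have hX : G.X w = b1 := by omega
          have hwO : G.box a2 b1 w := ⟨hwb.1, by omega, hx⟩
          have h4 := len_cl_mono (le_refl a2) hb (len_key_left ha hA hE hcl hwO hX)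
          exact Or.inr ⟨by omega, len_cl_step h4 ⟨hs.1, hs.2.1, hs.2.2.1, h4.2.1, ⟨h2.1, by omega, h2.2.2⟩⟩⟩
      · by_cases hc : a2 ≤ G.X w'
        · exact Or.inr ⟨hc, len_cl_step hcl ⟨hs.1, hs.2.1, hs.2.2.1, hcl.2.1, ⟨h2.1, hc, h2.2.2⟩⟩⟩
        · have hX : G.X w = a2 := by omega
          have hwO : G.box a2 b1 w := ⟨hwb.1, hx, by omega⟩
          have h4 := len_cl_mono ha (le_refl b1) (len_key_right hb hB hE hcl hwO hX)
          exact Or.inl ⟨by omega, len_cl_step h4 ⟨hs.1, hs.2.1, hs.2.2.1, h4.2.1, ⟨h2.1, h2.2.1, by omega⟩⟩⟩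
  exact key v h3 h1 h2

/-- **the deterministic lemma of the lengthening**: `R1 = [a1, b1]`, `R2 = [a2, b2]`, overlap `O = [a2, b1]`. -/
theorem len_glue {a1 a2 b1 b2 : ℤ} (ha : a1 ≤ a2) (hab : a2 ≤ b1) (hb : b1 ≤ b2) (hA : G.Hp np a1 b1) (hB : G.Hp np a2 b2)
    (hE : G.E3 np a2 b1) : G.Hp np a1 b2 := by
  intro v hv hbot
  rcases len_inv ha hab hb hA hB hE hv with ⟨_, h⟩ | ⟨_, h⟩
  · exact hA v h hbot
  · exact hB v h hbot

/-- `H⁺` of a box implies `H⁺` of a shorter box -/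
theorem len_Hp_mono {a b a' b' : ℤ} (ha : a' ≤ a) (hb : b ≤ b') (h : G.Hp np a' b') : G.Hp np a b :=
  fun v hv => h v (len_cl_mono ha hb hv)

/-! ### Part 1b: the explored clusters, the cells looked at, the stopping property -/

variable (G np)

/-- `V⁺(box)` in the dual form: no left-right walk of `np` cells inside the box -/
def LenGeo.Vp (a b : ℤ) : Prop := ∀ v, G.cl np a b (fun u => G.X u = a) v → G.X v ≠ b

/-- the two explored clusters -/
def LenGeo.D (a b : ℤ) (y : V) : Prop := G.cl np a b G.top y ∨ G.cl np a b G.bot y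

/-- the cells looked at by the two explorations -/
def LenGeo.Q (a b : ℤ) (y : V) : Prop := G.box a b y ∧ (G.top y ∨ G.bot y ∨ ∃ z, G.D np a b z ∧ G.adj z y)

theorem len_eqns_cite2 : True := by
  have := @LenGeo.Vp.eq_1
  have := @LenGeo.D.eq_1
  have := @LenGeo.Q.eq_1
  trivial

variable {G np}

/-- one half of the stopping property -/
theorem len_cl_sub {np' : V → Prop} {a b : ℤ} {S T : V → Prop} (hT0 : ∀ y, G.box a b y → S y → T y)
    (hT1 : ∀ z y, G.cl np a b S z → G.adj z y → G.box a b y → T y) (hag : ∀ y, T y → np' y → np y) {v : V}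
    (h : G.cl np' a b S v) : G.cl np a b S v := by
  obtain ⟨h1, h2, u, hu, h3⟩ := h
  have key : ∀ w, Relation.ReflTransGen (G.st np' a b) u w → np' w → G.box a b w → G.cl np a b S w := by
    intro w hw
    induction hw with
    | refl => exact fun h1 h2 => len_cl_self (hag _ (hT0 _ h2 hu) h1) h2 hu
    | @tail w w' _ hs ih =>
      intro h1 h2
      have hw := ih hs.2.1 hs.2.2.2.1
      exact len_cl_step hw ⟨hs.1, hw.1, hag _ (hT1 _ _ hw hs.1 h2) h1, hw.2.1, h2⟩
  exact key v h3 h1 h2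

/-- the other half -/
theorem len_cl_sup {np' : V → Prop} {a b : ℤ} {S T : V → Prop} (hT0 : ∀ y, G.box a b y → S y → T y)
    (hT1 : ∀ z y, G.cl np a b S z → G.adj z y → G.box a b y → T y) (hag : ∀ y, T y → np y → np' y) {v : V}
    (h : G.cl np a b S v) : G.cl np' a b S v := by
  obtain ⟨h1, h2, u, hu, h3⟩ := h
  have key : ∀ w, Relation.ReflTransGen (G.st np a b) u w → np w → G.box a b w →
      G.cl np a b S w ∧ G.cl np' a b S w := by
    intro w hw
    induction hw with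
    | refl => exact fun h1 h2 => ⟨len_cl_self h1 h2 hu, len_cl_self (hag _ (hT0 _ h2 hu) h1) h2 hu⟩
    | @tail w w' _ hs ih =>
      intro h1 h2
      obtain ⟨hw, hw'⟩ := ih hs.2.1 hs.2.2.2.1
      exact ⟨len_cl_step hw hs, len_cl_step hw' ⟨hs.1, hw'.1, hag _ (hT1 _ _ hw hs.1 h2) h1, hw.2.1, h2⟩⟩
  exact (key v h3 h1 h2).2

/-- **stopping property**: the two clusters depend only on the cells looked at -/
theorem len_D_congr {np' : V → Prop} {a b : ℤ} (hag : ∀ y, G.Q np a b y → (np y ↔ np' y)) (v : V) :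
    (G.cl np a b G.top v ↔ G.cl np' a b G.top v) ∧ (G.cl np a b G.bot v ↔ G.cl np' a b G.bot v) := by
  have t0 : ∀ y, G.box a b y → G.top y → G.Q np a b y := fun y h1 h2 => ⟨h1, Or.inl h2⟩
  have b0 : ∀ y, G.box a b y → G.bot y → G.Q np a b y := fun y h1 h2 => ⟨h1, Or.inr (Or.inl h2)⟩
  have t1 : ∀ z y, G.cl np a b G.top z → G.adj z y → G.box a b y → G.Q np a b y :=
    fun z y h1 h2 h3 => ⟨h3, Or.inr (Or.inr ⟨z, Or.inl h1, h2⟩)⟩
  have b1 : ∀ z y, G.cl np a b G.bot z → G.adj z y → G.box a b y → G.Q np a b y :=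
    fun z y h1 h2 h3 => ⟨h3, Or.inr (Or.inr ⟨z, Or.inr h1, h2⟩)⟩
  exact ⟨⟨len_cl_sup t0 t1 fun y h => (hag y h).1, len_cl_sub t0 t1 fun y h => (hag y h).2⟩,
    ⟨len_cl_sup b0 b1 fun y h => (hag y h).1, len_cl_sub b0 b1 fun y h => (hag y h).2⟩⟩

theorem len_D_iff {np' : V → Prop} {a b : ℤ} (hag : ∀ y, G.Q np a b y → (np y ↔ np' y)) (v : V) :
    G.D np a b v ↔ G.D np' a b v :=
  or_congr (len_D_congr hag v).1 (len_D_congr hag v).2

theorem len_Q_iff {np' : V → Prop} {a b : ℤ} (hag : ∀ y, G.Q np a b y → (np y ↔ np' y)) (v : V) :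
    G.Q np a b v ↔ G.Q np' a b v := by
  unfold LenGeo.Q
  refine and_congr_right fun _ => or_congr Iff.rfl (or_congr Iff.rfl ?_)
  exact exists_congr fun z => and_congr_left fun _ => len_D_iff hag z

theorem len_Hp_congr {np' : V → Prop} {a b : ℤ} (hag : ∀ y, G.Q np a b y → (np y ↔ np' y)) :
    G.Hp np a b ↔ G.Hp np' a b := by
  unfold LenGeo.Hp
  exact forall_congr' fun v => imp_congr (len_D_congr hag v).1 Iff.rfl

/-- a cell joined by `np` cells to a cell of an explored cluster is in that cluster -/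
theorem len_cl_sat {a b : ℤ} {S : V → Prop} {u v : V} (h : G.cl np a b S u) (hw : Relation.ReflTransGen (G.st np a b) u v) :
    G.cl np a b S v := by
  induction hw with
  | refl => exact h
  | tail _ h5 ih => exact len_cl_step ih h5

/-- a walk which starts off the explored clusters avoids them -/
theorem len_walk_off {a b : ℤ} {u v : V} (hu : ¬ G.D np a b u) (hw : Relation.ReflTransGen (G.st np a b) u v) :
    Relation.ReflTransGen (G.st (fun y => np y ∧ ¬ G.D np a b y) a b) u v := by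
  have hoff : ∀ w, Relation.ReflTransGen (G.st np a b) u w → ¬ G.D np a b w := by
    intro w hw hD
    apply hu
    rcases hD with h | h
    · exact Or.inl (len_cl_sat h (len_rtg_symm hw))
    · exact Or.inr (len_cl_sat h (len_rtg_symm hw))
  induction hw with
  | refl => exact Relation.ReflTransGen.refl
  | @tail w w' h1 hs ih =>
    exact ih.tail ⟨hs.1, ⟨hs.2.1, hoff _ h1⟩, ⟨hs.2.2.1, hoff _ (h1.tail hs)⟩, hs.2.2.2.1, hs.2.2.2.2⟩

/-- (E3) from its increasing form: no left-right walk of `np` cells avoids the two explored clusters -/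
theorem len_E3_of_Vp {a b : ℤ} (h : G.Vp (fun y => np y ∧ ¬ G.D np a b y) a b) : G.E3 np a b := by
  intro v hl hr
  by_contra hD
  have hD' : ¬ G.D np a b v := hD
  obtain ⟨hv1, hv2, ul, hul, wl⟩ := hl
  obtain ⟨_, _, ur, hur, wr⟩ := hr
  have w1 := len_walk_off hD' (len_rtg_symm wl)
  have w2 := len_walk_off hD' (len_rtg_symm wr)
  have w3 : Relation.ReflTransGen (G.st (fun y => np y ∧ ¬ G.D np a b y) a b) ul ur := (len_rtg_symm w1).trans w2
  -- the right end point is an `np` cell of the box off the clusters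
  have hoff : ¬ G.D np a b ur := by
    intro hDw
    apply hD'
    rcases hDw with h | h
    · exact Or.inl (len_cl_sat h wr)
    · exact Or.inr (len_cl_sat h wr)
  have hur' : np ur ∧ G.box a b ur := by
    rcases Relation.ReflTransGen.cases_head wr with h | ⟨c, hs, _⟩
    · subst h; exact ⟨hv1, hv2⟩
    · exact ⟨hs.2.1, hs.2.2.2.1⟩
  exact h ur ⟨⟨hur'.1, hoff⟩, hur'.2, ul, hul, w3⟩ hur

/-- monotonicity of the closures in the predicate -/
theorem len_cl_anti {np' : V → Prop} (hnp : ∀ y, G.band y → np y → np' y) {a b : ℤ} {S : V → Prop} {v : V}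
    (h : G.cl np a b S v) : G.cl np' a b S v := by
  obtain ⟨h1, h2, u, hu, h3⟩ := h
  refine ⟨hnp _ h2.1 h1, h2, u, hu, ?_⟩
  exact Relation.ReflTransGen.mono
    (fun x y hs => ⟨hs.1, hnp _ hs.2.2.2.1.1 hs.2.1, hnp _ hs.2.2.2.2.1 hs.2.2.1, hs.2.2.2.1, hs.2.2.2.2⟩) _ _ h3

theorem len_Hp_anti {np' : V → Prop} (hnp : ∀ y, G.band y → np y → np' y) {a b : ℤ} (h : G.Hp np' a b) : G.Hp np a b :=
  fun v hv => h v (len_cl_anti hnp hv)

theorem len_Vp_anti {np' : V → Prop} (hnp : ∀ y, G.band y → np y → np' y) {a b : ℤ} (h : G.Vp np' a b) : G.Vp np a b :=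
  fun v hv => h v (len_cl_anti hnp hv)

end Det

/-! ## Part 2: records of the exploration, the fibre sum -/

section Model

variable {V Y : Type} [DecidableEq V] [DecidableEq Y]

/-- non-plus cell -/
def lenNp (S : ClSys V Y) (ω : ClCfg V Y) (y : Y) : Prop := clTau S ω y ≠ 1

/-- `K` together with the observation of `ω₀` on the cells of `Q` (statuses and all first spins) -/
def lenObs (S : ClSys V Y) (K : ClCon V Y) (Q : Finset Y) (ω₀ : ClCfg V Y) : ClCon V Y where
  Bp := K.Bp ∪ (Q.biUnion S.sv).filter (fun v => v ∈ ω₀.B)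
  Bm := K.Bm ∪ (Q.biUnion S.sv).filter (fun v => v ∉ ω₀.B)
  Eq := K.Eq
  Op := K.Op ∪ Q.filter (fun y => clTau S ω₀ y = 1)
  Om := K.Om ∪ Q.filter (fun y => clTau S ω₀ y = -1)
  Cl := K.Cl ∪ Q.filter (fun y => clTau S ω₀ y = 0)
  Wp := K.Wp
  Wm := K.Wm

/-- the two configurations agree on the cells of `Q` -/
def LenAgr (S : ClSys V Y) (Q : Finset Y) (ω₀ ω : ClCfg V Y) : Prop :=
  (∀ y ∈ Q, ∀ v ∈ S.sv y, (v ∈ ω.B ↔ v ∈ ω₀.B)) ∧ ∀ y ∈ Q, clTau S ω y = clTau S ω₀ y

theorem len_obs_holds (S : ClSys V Y) (K : ClCon V Y) (Q : Finset Y) (ω₀ ω : ClCfg V Y) :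
    (lenObs S K Q ω₀).Holds S ω ↔ K.Holds S ω ∧ LenAgr S Q ω₀ ω := by
  constructor
  · rintro ⟨h1, h2, h3, h4, h5, h6, h7, h8⟩
    refine ⟨⟨fun v hv => h1 (Finset.mem_union_left _ hv), fun v hv => h2 v (Finset.mem_union_left _ hv), h3,
      fun y hy => h4 y (Finset.mem_union_left _ hy), fun y hy => h5 y (Finset.mem_union_left _ hy),
      fun y hy => h6 y (Finset.mem_union_left _ hy), h7, h8⟩, ?_, ?_⟩
    · intro y hy v hv
      have hm : v ∈ Q.biUnion S.sv := Finset.mem_biUnion.2 ⟨y, hy, hv⟩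
      constructor
      · intro hB
        by_contra hn
        exact h2 v (Finset.mem_union_right _ (Finset.mem_filter.2 ⟨hm, hn⟩)) hB
      · intro h0
        exact h1 (Finset.mem_union_right _ (Finset.mem_filter.2 ⟨hm, h0⟩))
    · intro y hy
      rcases dis_tau_cases S ω₀ y with h | h | h
      · rw [h]; exact h4 y (Finset.mem_union_right _ (Finset.mem_filter.2 ⟨hy, h⟩))
      · rw [h]; exact h5 y (Finset.mem_union_right _ (Finset.mem_filter.2 ⟨hy, h⟩))
      · rw [h]; exact (dis_tau_zero S ω y).2 (h6 y (Finset.mem_union_right _ (Finset.mem_filter.2 ⟨hy, h⟩)))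
  · rintro ⟨⟨h1, h2, h3, h4, h5, h6, h7, h8⟩, g1, g2⟩
    refine ⟨?_, ?_, h3, ?_, ?_, ?_, h7, h8⟩
    · intro v hv
      rcases Finset.mem_union.1 hv with h | h
      · exact h1 h
      · obtain ⟨hm, h0⟩ := Finset.mem_filter.1 h
        obtain ⟨y, hy, hvy⟩ := Finset.mem_biUnion.1 hm
        exact (g1 y hy v hvy).2 h0
    · intro v hv
      rcases Finset.mem_union.1 hv with h | h
      · exact h2 v h
      · obtain ⟨hm, h0⟩ := Finset.mem_filter.1 h
        obtain ⟨y, hy, hvy⟩ := Finset.mem_biUnion.1 hm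
        exact fun hB => h0 ((g1 y hy v hvy).1 hB)
    · intro y hy
      rcases Finset.mem_union.1 hy with h | h
      · exact h4 y h
      · obtain ⟨hm, h0⟩ := Finset.mem_filter.1 h
        rw [g2 y hm, h0]
    · intro y hy
      rcases Finset.mem_union.1 hy with h | h
      · exact h5 y h
      · obtain ⟨hm, h0⟩ := Finset.mem_filter.1 h
        rw [g2 y hm, h0]
    · intro y hy
      rcases Finset.mem_union.1 hy with h | h
      · exact h6 y h
      · obtain ⟨hm, h0⟩ := Finset.mem_filter.1 h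
        exact (dis_tau_zero S ω y).1 (by rw [g2 y hm, h0])

theorem len_agr_refl (S : ClSys V Y) (Q : Finset Y) (ω : ClCfg V Y) : LenAgr S Q ω ω :=
  ⟨fun _ _ _ _ => Iff.rfl, fun _ _ => rfl⟩

theorem len_obs_legal (S : ClSys V Y) (K : ClCon V Y) (hK : ClLegal S K) (Q : Finset Y) (ω₀ : ClCfg V Y) :
    ClLegal S (lenObs S K Q ω₀) := by
  refine ⟨hK.wp, hK.wm, ?_, hK.eq⟩
  intro y hy hm v hv
  have hcase : y ∈ K.Op ∪ K.Om ∪ K.Cl ∨ y ∈ Q := by
    simp only [lenObs, Finset.mem_union, Finset.mem_filter] at hm ⊢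
    tauto
  rcases hcase with h | h
  · rcases Finset.mem_union.1 (hK.full y hy h hv) with h1 | h1
    · exact Finset.mem_union_left _ (Finset.mem_union_left _ h1)
    · exact Finset.mem_union_right _ (Finset.mem_union_left _ h1)
  · have hmv : v ∈ Q.biUnion S.sv := Finset.mem_biUnion.2 ⟨y, h, hv⟩
    by_cases h0 : v ∈ ω₀.B
    · exact Finset.mem_union_left _ (Finset.mem_union_right _ (Finset.mem_filter.2 ⟨hmv, h0⟩))
    · exact Finset.mem_union_right _ (Finset.mem_union_right _ (Finset.mem_filter.2 ⟨hmv, h0⟩))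

theorem len_obs_congr (S : ClSys V Y) (K : ClCon V Y) (Q : Finset Y) (ω₀ ω : ClCfg V Y) (h : LenAgr S Q ω₀ ω) :
    lenObs S K Q ω = lenObs S K Q ω₀ := by
  obtain ⟨g1, g2⟩ := h
  have e1 : (Q.biUnion S.sv).filter (fun v => v ∈ ω.B) = (Q.biUnion S.sv).filter (fun v => v ∈ ω₀.B) := by
    refine Finset.filter_congr fun v hv => ?_
    obtain ⟨y, hy, hvy⟩ := Finset.mem_biUnion.1 hv
    exact g1 y hy v hvy
  have e2 : (Q.biUnion S.sv).filter (fun v => v ∉ ω.B) = (Q.biUnion S.sv).filter (fun v => v ∉ ω₀.B) := by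
    refine Finset.filter_congr fun v hv => ?_
    obtain ⟨y, hy, hvy⟩ := Finset.mem_biUnion.1 hv
    exact not_congr (g1 y hy v hvy)
  have e3 : ∀ t : ℤ, Q.filter (fun y => clTau S ω y = t) = Q.filter (fun y => clTau S ω₀ y = t) := by
    intro t
    refine Finset.filter_congr fun y hy => ?_
    rw [g2 y hy]
  unfold lenObs
  rw [e1, e2, e3, e3, e3]

open Classical in
/-- the cells looked at by the two explorations inside the box `[a, b]` -/
noncomputable def lenQ (S : ClSys V Y) (G : LenGeo Y) (a b : ℤ) (ω : ClCfg V Y) : Finset Y :=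
  S.C.filter (fun y => G.Q (lenNp S ω) a b y)

/-- the record of the two explorations -/
noncomputable def lenRec (S : ClSys V Y) (K : ClCon V Y) (G : LenGeo Y) (a b : ℤ) (ω : ClCfg V Y) : ClCon V Y :=
  lenObs S K (lenQ S G a b ω) ω

theorem len_Q_sub (S : ClSys V Y) (G : LenGeo Y) (a b : ℤ) (ω : ClCfg V Y) : lenQ S G a b ω ⊆ S.C := by
  classical
  exact Finset.filter_subset _ _

theorem len_eqns_cite3 : True := by
  have := @lenNp.eq_1
  have := @lenObs.eq_1
  have := @LenAgr.eq_1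
  have := @lenQ.eq_1
  have := @lenRec.eq_1
  trivial

theorem len_agr_np (S : ClSys V Y) (G : LenGeo Y) (hb : ∀ y, G.band y → y ∈ S.C) (a b : ℤ) (ω₀ ω : ClCfg V Y)
    (h : LenAgr S (lenQ S G a b ω₀) ω₀ ω) (y : Y) (hy : G.Q (lenNp S ω₀) a b y) : lenNp S ω₀ y ↔ lenNp S ω y := by
  classical
  have hm : y ∈ lenQ S G a b ω₀ := Finset.mem_filter.2 ⟨hb y hy.1.1, hy⟩
  unfold lenNp
  rw [h.2 y hm]

theorem len_Q_stop (S : ClSys V Y) (G : LenGeo Y) (hb : ∀ y, G.band y → y ∈ S.C) (a b : ℤ) (ω₀ ω : ClCfg V Y)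
    (h : LenAgr S (lenQ S G a b ω₀) ω₀ ω) : lenQ S G a b ω = lenQ S G a b ω₀ := by
  classical
  unfold lenQ
  refine Finset.filter_congr fun y _ => ?_
  exact (len_Q_iff (len_agr_np S G hb a b ω₀ ω h) y).symm

/-- **the stopping property of the record** -/
theorem len_rec_iff (S : ClSys V Y) (K : ClCon V Y) (G : LenGeo Y) (hb : ∀ y, G.band y → y ∈ S.C) (a b : ℤ)
    (ω₀ ω : ClCfg V Y) :
    (lenRec S K G a b ω₀).Holds S ω ↔ K.Holds S ω ∧ lenRec S K G a b ω = lenRec S K G a b ω₀ := by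
  unfold lenRec
  rw [len_obs_holds]
  constructor
  · rintro ⟨h1, h2⟩
    refine ⟨h1, ?_⟩
    rw [len_Q_stop S G hb a b ω₀ ω h2]
    exact len_obs_congr S K _ ω₀ ω h2
  · rintro ⟨h1, h2⟩
    refine ⟨h1, ?_⟩
    have h3 : (lenObs S K (lenQ S G a b ω) ω).Holds S ω := (len_obs_holds S K _ ω ω).2 ⟨h1, len_agr_refl S _ ω⟩
    rw [h2] at h3
    exact ((len_obs_holds S K _ ω₀ ω).1 h3).2

theorem len_N_mono (S : ClSys V Y) (hS : ClOk S) (K : ClCfg V Y → Prop) (F F' : ClCfg V Y → ℝ)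
    (h : ∀ ω, K ω → F ω ≤ F' ω) : S.N K F ≤ S.N K F' := by
  classical
  unfold ClSys.N
  refine Finset.sum_le_sum fun ω _ => ?_
  by_cases hK : K ω
  · rw [if_pos hK, if_pos hK]
    exact mul_le_mul_of_nonneg_left (h ω hK) (dis_wt_nonneg S hS ω)
  · rw [if_neg hK, if_neg hK]

theorem len_N_nonneg (S : ClSys V Y) (hS : ClOk S) (K : ClCfg V Y → Prop) (F : ClCfg V Y → ℝ)
    (h : ∀ ω, K ω → 0 ≤ F ω) : 0 ≤ S.N K F := by
  classical
  unfold ClSys.N
  refine Finset.sum_nonneg fun ω _ => ?_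
  by_cases hK : K ω
  · rw [if_pos hK]
    exact mul_nonneg (dis_wt_nonneg S hS ω) (h ω hK)
  · rw [if_neg hK]

/-- **the fibre sum**: an inequality which holds under every record holds under `K` -/
theorem len_fibre {κ : Type} (S : ClSys V Y) (K : ClCfg V Y → Prop) (key : ClCfg V Y → κ) (R : κ → ClCfg V Y → Prop)
    (hR : ∀ ω₀ ω, R (key ω₀) ω ↔ K ω ∧ key ω = key ω₀) (F F' : ClCfg V Y → ℝ) (c : ℝ)
    (h : ∀ ω₀ ∈ S.cfgs, K ω₀ → c * S.N (R (key ω₀)) F ≤ S.N (R (key ω₀)) F') : c * S.N K F ≤ S.N K F' := by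
  classical
  have e : ∀ F : ClCfg V Y → ℝ, S.N K F = ∑ k ∈ (S.cfgs.filter K).image key, S.N (R k) F := by
    intro F
    unfold ClSys.N
    rw [← Finset.sum_filter, ← Finset.sum_fiberwise_of_maps_to (g := key) (t := (S.cfgs.filter K).image key)
      (fun ω hω => Finset.mem_image_of_mem _ hω)]
    refine Finset.sum_congr rfl fun k hk => ?_
    obtain ⟨ω₀, _, rfl⟩ := Finset.mem_image.1 hk
    rw [← Finset.sum_filter, Finset.filter_filter]
    refine Finset.sum_congr ?_ fun _ _ => rfl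
    refine Finset.filter_congr fun ω _ => ?_
    exact (hR ω₀ ω).symm
  rw [e F, e F', Finset.mul_sum]
  refine Finset.sum_le_sum fun k hk => ?_
  obtain ⟨ω₀, hω₀, rfl⟩ := Finset.mem_image.1 hk
  exact h ω₀ (Finset.mem_filter.1 hω₀).1 (Finset.mem_filter.1 hω₀).2

/-! ## Part 3: the step and the iteration -/

open Classical in
/-- indicator of an event -/
noncomputable def lenInd (L : ClCfg V Y → Prop) (ω : ClCfg V Y) : ℝ := if L ω then 1 else 0

/-- **(SE), the strip estimate** (the only model input of the lengthening): given the record of the two explorations inside the box `[a, b]`,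
with conditional probability at least `c` no left-right walk of non-plus cells of the box avoids the two explored clusters.
The event is increasing, the record is a legal history. -/
def LenSE (S : ClSys V Y) (K : ClCon V Y) (G : LenGeo Y) (c : ℝ) (a b : ℤ) : Prop :=
  ∀ ω₀ ∈ S.cfgs, K.Holds S ω₀ → G.Hp (lenNp S ω₀) a b →
    c * S.Z ((lenRec S K G a b ω₀).Holds S) ≤
      S.N ((lenRec S K G a b ω₀).Holds S)
        (lenInd fun ω => G.Vp (fun y => lenNp S ω y ∧ ¬ G.D (lenNp S ω₀) a b y) a b)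

/-- **(FKG)** association under `K` and under every record `K` + (full observation of a set of cells).
For a system with `ClDisk` it is `dis_assoc` (`len_fkg_of_disk`); for the mixed cylinder (NOT a disk) it is supplied by the model adapter. -/
structure LenFkg (S : ClSys V Y) (K : ClCon V Y) : Prop where
  base : ∀ F G : ClCfg V Y → ℝ, ClMono S F → ClMono S G →
    S.N (K.Holds S) F * S.N (K.Holds S) G ≤ S.Z (K.Holds S) * S.N (K.Holds S) (fun ω => F ω * G ω)
  obs : ∀ (Q : Finset Y) (ω₀ : ClCfg V Y) (F G : ClCfg V Y → ℝ), Q ⊆ S.C → ω₀ ∈ S.cfgs → K.Holds S ω₀ → ClMono S F → ClMono S G →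
    S.N ((lenObs S K Q ω₀).Holds S) F * S.N ((lenObs S K Q ω₀).Holds S) G ≤
      S.Z ((lenObs S K Q ω₀).Holds S) * S.N ((lenObs S K Q ω₀).Holds S) (fun ω => F ω * G ω)

theorem len_fkg_of_disk (S : ClSys V Y) (hS : ClDisk S) (K : ClCon V Y) (hK : ClLegal S K) : LenFkg S K :=
  ⟨fun F G hF hG => dis_assoc S hS K hK F G hF hG,
    fun Q ω₀ F G _ _ _ hF hG => dis_assoc S hS _ (len_obs_legal S K hK Q ω₀) F G hF hG⟩

/-- the record is an extension of `K` in the sense of `Dis/Base` -/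
theorem len_obs_ext (S : ClSys V Y) (K : ClCon V Y) (Q : Finset Y) (ω₀ : ClCfg V Y) :
    ClExt K (lenObs S K Q ω₀) (Q.biUnion S.sv) Q := by
  refine ⟨⟨Finset.subset_union_left, ?_⟩, ⟨Finset.subset_union_left, ?_⟩, ⟨Finset.subset_union_left, ?_⟩,
    ⟨Finset.subset_union_left, ?_⟩, ⟨Finset.subset_union_left, ?_⟩, ?_, ?_, rfl, rfl, rfl⟩
  · exact Finset.union_subset_union_right (Finset.filter_subset _ _)
  · exact Finset.union_subset_union_right (Finset.filter_subset _ _)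
  · exact Finset.union_subset_union_right (Finset.filter_subset _ _)
  · exact Finset.union_subset_union_right (Finset.filter_subset _ _)
  · exact Finset.union_subset_union_right (Finset.filter_subset _ _)
  · intro v hv
    by_cases h0 : v ∈ ω₀.B
    · exact Finset.mem_union_left _ (Finset.mem_union_right _ (Finset.mem_filter.2 ⟨hv, h0⟩))
    · exact Finset.mem_union_right _ (Finset.mem_union_right _ (Finset.mem_filter.2 ⟨hv, h0⟩))
  · intro y hy
    rcases dis_tau_cases S ω₀ y with h | h | h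
    · exact Finset.mem_union_left _ (Finset.mem_union_left _ (Finset.mem_union_right _ (Finset.mem_filter.2 ⟨hy, h⟩)))
    · exact Finset.mem_union_left _ (Finset.mem_union_right _ (Finset.mem_union_right _ (Finset.mem_filter.2 ⟨hy, h⟩)))
    · exact Finset.mem_union_right _ (Finset.mem_union_right _ (Finset.mem_filter.2 ⟨hy, h⟩))

theorem len_eqns_cite4 : True := by
  have := @lenInd.eq_1
  have := @LenSE.eq_1
  trivial

theorem len_ind_nonneg (L : ClCfg V Y → Prop) (ω : ClCfg V Y) : 0 ≤ lenInd L ω := by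
  unfold lenInd; split_ifs <;> norm_num

theorem len_ind_le_one (L : ClCfg V Y → Prop) (ω : ClCfg V Y) : lenInd L ω ≤ 1 := by
  unfold lenInd; split_ifs <;> norm_num

theorem len_ind_pos {L : ClCfg V Y → Prop} {ω : ClCfg V Y} (h : L ω) : lenInd L ω = 1 := by
  unfold lenInd; rw [if_pos h]

theorem len_ind_neg {L : ClCfg V Y → Prop} {ω : ClCfg V Y} (h : ¬ L ω) : lenInd L ω = 0 := by
  unfold lenInd; rw [if_neg h]

theorem len_ind_mono (S : ClSys V Y) {L : ClCfg V Y → Prop} (h : ClMonoP S L) : ClMono S (lenInd L) := by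
  intro ω ω' h1 h2
  by_cases hL : L ω
  · rw [len_ind_pos hL, len_ind_pos (h ω ω' h1 h2 hL)]
  · rw [len_ind_neg hL]; exact len_ind_nonneg _ _

theorem len_ind_mul_mono (S : ClSys V Y) {L L' : ClCfg V Y → Prop} (h : ClMonoP S L) (h' : ClMonoP S L') :
    ClMono S (fun ω => lenInd L ω * lenInd L' ω) := by
  intro ω ω' h1 h2
  exact mul_le_mul (len_ind_mono S h ω ω' h1 h2) (len_ind_mono S h' ω ω' h1 h2) (len_ind_nonneg _ _) (len_ind_nonneg _ _)

theorem len_np_anti (S : ClSys V Y) {ω ω' : ClCfg V Y} (h : ∀ y ∈ S.C, clTau S ω y ≤ clTau S ω' y) {y : Y} (hy : y ∈ S.C)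
    (hn : lenNp S ω' y) : lenNp S ω y := by
  unfold lenNp at hn ⊢
  have h1 := h y hy
  rcases dis_tau_cases S ω' y with h3 | h3 | h3
  · exact absurd h3 hn
  · omega
  · omega

theorem len_Hp_monoP (S : ClSys V Y) (G : LenGeo Y) (hb : ∀ y, G.band y → y ∈ S.C) (a b : ℤ) :
    ClMonoP S (fun ω => G.Hp (lenNp S ω) a b) := by
  intro ω ω' _ h2 h
  exact len_Hp_anti (fun y hy hn => len_np_anti S h2 (hb y hy) hn) h

theorem len_Vp_monoP (S : ClSys V Y) (G : LenGeo Y) (hb : ∀ y, G.band y → y ∈ S.C) (a b : ℤ) (D : Y → Prop) :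
    ClMonoP S (fun ω => G.Vp (fun y => lenNp S ω y ∧ ¬ D y) a b) := by
  intro ω ω' _ h2 h
  exact len_Vp_anti (fun y hy hn => ⟨len_np_anti S h2 (hb y hy) hn.1, hn.2⟩) h

theorem len_N_eq_zero (S : ClSys V Y) (K : ClCfg V Y → Prop) (F : ClCfg V Y → ℝ) (h : ∀ ω, K ω → F ω = 0) :
    S.N K F = 0 := by
  classical
  unfold ClSys.N
  refine Finset.sum_eq_zero fun ω _ => ?_
  by_cases hK : K ω
  · rw [if_pos hK, h ω hK, mul_zero]
  · rw [if_neg hK]

theorem len_Z_nonneg (S : ClSys V Y) (hS : ClOk S) (K : ClCfg V Y → Prop) : 0 ≤ S.Z K := by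
  rw [dis_Z_eq]
  exact len_N_nonneg S hS K _ fun _ _ => zero_le_one

/-- the inequality under one record -/
theorem len_step_rec (S : ClSys V Y) (hOk : ClOk S) (K : ClCon V Y) (hK : LenFkg S K) (G : LenGeo Y)
    (hb : ∀ y, G.band y → y ∈ S.C) {c : ℝ} {a1 a2 b1 b2 : ℤ} (ha : a1 ≤ a2) (hab : a2 ≤ b1)
    (hb12 : b1 ≤ b2) (hSE : LenSE S K G c a2 b1) (ω₀ : ClCfg V Y) (hω₀ : ω₀ ∈ S.cfgs) (hK₀ : K.Holds S ω₀) :
    c * S.N ((lenRec S K G a2 b1 ω₀).Holds S)
        (fun ω => lenInd (fun ω => G.Hp (lenNp S ω) a1 b1) ω * lenInd (fun ω => G.Hp (lenNp S ω) a2 b2) ω) ≤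
      S.N ((lenRec S K G a2 b1 ω₀).Holds S) (lenInd fun ω => G.Hp (lenNp S ω) a1 b2) := by
  set h := lenRec S K G a2 b1 ω₀ with hh
  have hagr : ∀ ω, h.Holds S ω → ∀ y, G.Q (lenNp S ω₀) a2 b1 y → (lenNp S ω₀ y ↔ lenNp S ω y) := by
    intro ω hω
    exact len_agr_np S G hb a2 b1 ω₀ ω ((len_obs_holds S K _ ω₀ ω).1 hω).2
  by_cases hO : G.Hp (lenNp S ω₀) a2 b1
  · have se := hSE ω₀ hω₀ hK₀ hO
    rw [← hh] at se
    have fk := hK.obs (lenQ S G a2 b1 ω₀) ω₀
      (fun ω => lenInd (fun ω => G.Hp (lenNp S ω) a1 b1) ω * lenInd (fun ω => G.Hp (lenNp S ω) a2 b2) ω)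
      (lenInd fun ω => G.Vp (fun y => lenNp S ω y ∧ ¬ G.D (lenNp S ω₀) a2 b1 y) a2 b1)
      (len_Q_sub S G a2 b1 ω₀) hω₀ hK₀
      (len_ind_mul_mono S (len_Hp_monoP S G hb a1 b1) (len_Hp_monoP S G hb a2 b2))
      (len_ind_mono S (len_Vp_monoP S G hb a2 b1 _))
    have pt : S.N (h.Holds S) (fun ω =>
        (lenInd (fun ω => G.Hp (lenNp S ω) a1 b1) ω * lenInd (fun ω => G.Hp (lenNp S ω) a2 b2) ω) *
          lenInd (fun ω => G.Vp (fun y => lenNp S ω y ∧ ¬ G.D (lenNp S ω₀) a2 b1 y) a2 b1) ω) ≤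
        S.N (h.Holds S) (lenInd fun ω => G.Hp (lenNp S ω) a1 b2) := by
      refine len_N_mono S hOk _ _ _ fun ω hω => ?_
      by_cases hA : G.Hp (lenNp S ω) a1 b1
      · by_cases hB : G.Hp (lenNp S ω) a2 b2
        · by_cases hE : G.Vp (fun y => lenNp S ω y ∧ ¬ G.D (lenNp S ω₀) a2 b1 y) a2 b1
          · have hE' : G.Vp (fun y => lenNp S ω y ∧ ¬ G.D (lenNp S ω) a2 b1 y) a2 b1 :=
              len_Vp_anti (fun y _ hy => ⟨hy.1, fun hD => hy.2 ((len_D_iff (hagr ω hω) y).1 hD)⟩) hE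
            have hR : G.Hp (lenNp S ω) a1 b2 := len_glue ha hab hb12 hA hB (len_E3_of_Vp hE')
            rw [len_ind_pos (L := fun ω => G.Hp (lenNp S ω) a1 b2) hR]
            exact mul_le_one₀ (mul_le_one₀ (len_ind_le_one _ _) (len_ind_nonneg _ _) (len_ind_le_one _ _))
              (len_ind_nonneg _ _) (len_ind_le_one _ _)
          · rw [len_ind_neg (L := fun ω => G.Vp (fun y => lenNp S ω y ∧ ¬ G.D (lenNp S ω₀) a2 b1 y) a2 b1) hE, mul_zero]
            exact len_ind_nonneg _ _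
        · rw [len_ind_neg (L := fun ω => G.Hp (lenNp S ω) a2 b2) hB, mul_zero, zero_mul]
          exact len_ind_nonneg _ _
      · rw [len_ind_neg (L := fun ω => G.Hp (lenNp S ω) a1 b1) hA, zero_mul, zero_mul]
        exact len_ind_nonneg _ _
    by_cases hZ : S.Z (h.Holds S) = 0
    · rw [dde_N_zero S hOk _ hZ, dde_N_zero S hOk _ hZ, mul_zero]
    · have hZp : 0 < S.Z (h.Holds S) := lt_of_le_of_ne (len_Z_nonneg S hOk _) (Ne.symm hZ)
      have hAB : 0 ≤ S.N (h.Holds S)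
          (fun ω => lenInd (fun ω => G.Hp (lenNp S ω) a1 b1) ω * lenInd (fun ω => G.Hp (lenNp S ω) a2 b2) ω) :=
        len_N_nonneg S hOk _ _ fun ω _ => mul_nonneg (len_ind_nonneg _ _) (len_ind_nonneg _ _)
      refine le_of_mul_le_mul_left ?_ hZp
      calc S.Z (h.Holds S) * (c * S.N (h.Holds S)
            (fun ω => lenInd (fun ω => G.Hp (lenNp S ω) a1 b1) ω * lenInd (fun ω => G.Hp (lenNp S ω) a2 b2) ω))
          = S.N (h.Holds S)
            (fun ω => lenInd (fun ω => G.Hp (lenNp S ω) a1 b1) ω * lenInd (fun ω => G.Hp (lenNp S ω) a2 b2) ω)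
              * (c * S.Z (h.Holds S)) := by ring
        _ ≤ _ := mul_le_mul_of_nonneg_left se hAB
        _ ≤ _ := fk
        _ ≤ _ := mul_le_mul_of_nonneg_left pt hZp.le
  · rw [len_N_eq_zero S _ _ (fun ω hω => ?_), mul_zero]
    · exact len_N_nonneg S hOk _ _ fun ω _ => len_ind_nonneg _ _
    · have hA : ¬ G.Hp (lenNp S ω) a1 b1 := by
        intro hA
        exact hO ((len_Hp_congr (hagr ω hω)).2 (len_Hp_mono ha le_rfl hA))
      rw [len_ind_neg (L := fun ω => G.Hp (lenNp S ω) a1 b1) hA, zero_mul]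

/-- **EXIT 1 of A2, unnormalised form** -/
theorem len_step_N (S : ClSys V Y) (hOk : ClOk S) (K : ClCon V Y) (hK : LenFkg S K) (G : LenGeo Y)
    (hb : ∀ y, G.band y → y ∈ S.C) {c : ℝ} (hc : 0 ≤ c) {a1 a2 b1 b2 : ℤ} (ha : a1 ≤ a2) (hab : a2 ≤ b1)
    (hb12 : b1 ≤ b2) (hSE : LenSE S K G c a2 b1) :
    c * (S.N (K.Holds S) (lenInd fun ω => G.Hp (lenNp S ω) a1 b1) * S.N (K.Holds S) (lenInd fun ω => G.Hp (lenNp S ω) a2 b2)) ≤
      S.Z (K.Holds S) * S.N (K.Holds S) (lenInd fun ω => G.Hp (lenNp S ω) a1 b2) := by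
  have h1 := hK.base (lenInd fun ω => G.Hp (lenNp S ω) a1 b1) (lenInd fun ω => G.Hp (lenNp S ω) a2 b2)
    (len_ind_mono S (len_Hp_monoP S G hb a1 b1)) (len_ind_mono S (len_Hp_monoP S G hb a2 b2))
  have h2 := len_fibre S (K.Holds S) (lenRec S K G a2 b1) (fun k => k.Holds S) (len_rec_iff S K G hb a2 b1)
    (fun ω => lenInd (fun ω => G.Hp (lenNp S ω) a1 b1) ω * lenInd (fun ω => G.Hp (lenNp S ω) a2 b2) ω)
    (lenInd fun ω => G.Hp (lenNp S ω) a1 b2) c
    (fun ω₀ hω₀ hK₀ => len_step_rec S hOk K hK G hb ha hab hb12 hSE ω₀ hω₀ hK₀)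
  calc _ ≤ c * (S.Z (K.Holds S) * S.N (K.Holds S)
        (fun ω => lenInd (fun ω => G.Hp (lenNp S ω) a1 b1) ω * lenInd (fun ω => G.Hp (lenNp S ω) a2 b2) ω)) :=
        mul_le_mul_of_nonneg_left h1 hc
    _ = S.Z (K.Holds S) * (c * S.N (K.Holds S)
        (fun ω => lenInd (fun ω => G.Hp (lenNp S ω) a1 b1) ω * lenInd (fun ω => G.Hp (lenNp S ω) a2 b2) ω)) := by ring
    _ ≤ _ := mul_le_mul_of_nonneg_left h2 (len_Z_nonneg S hOk _)

theorem len_P_eq (S : ClSys V Y) (K L : ClCfg V Y → Prop) : S.P K L = S.N K (lenInd L) / S.Z K := rfl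

/-- **EXIT 1 of A2**: `c · P[H⁺(R1)] · P[H⁺(R2)] ≤ P[H⁺(R1 ∪ R2)]` -/
theorem len_step (S : ClSys V Y) (hOk : ClOk S) (K : ClCon V Y) (hK : LenFkg S K) (G : LenGeo Y)
    (hb : ∀ y, G.band y → y ∈ S.C) {c : ℝ} (hc : 0 ≤ c) {a1 a2 b1 b2 : ℤ} (ha : a1 ≤ a2) (hab : a2 ≤ b1)
    (hb12 : b1 ≤ b2) (hSE : LenSE S K G c a2 b1) :
    c * S.P (K.Holds S) (fun ω => G.Hp (lenNp S ω) a1 b1) * S.P (K.Holds S) (fun ω => G.Hp (lenNp S ω) a2 b2) ≤
      S.P (K.Holds S) (fun ω => G.Hp (lenNp S ω) a1 b2) := by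
  have h := len_step_N S hOk K hK G hb hc ha hab hb12 hSE
  rw [len_P_eq, len_P_eq, len_P_eq]
  by_cases hZ : S.Z (K.Holds S) = 0
  · rw [hZ]; simp
  · have hZp : 0 < S.Z (K.Holds S) := lt_of_le_of_ne (len_Z_nonneg S hOk _) (Ne.symm hZ)
    rw [le_div_iff₀ hZp]
    have e : c * (S.N (K.Holds S) (lenInd fun ω => G.Hp (lenNp S ω) a1 b1) / S.Z (K.Holds S)) *
        (S.N (K.Holds S) (lenInd fun ω => G.Hp (lenNp S ω) a2 b2) / S.Z (K.Holds S)) * S.Z (K.Holds S) =
        c * (S.N (K.Holds S) (lenInd fun ω => G.Hp (lenNp S ω) a1 b1) *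
          S.N (K.Holds S) (lenInd fun ω => G.Hp (lenNp S ω) a2 b2)) / S.Z (K.Holds S) := by
      field_simp
    rw [e, div_le_iff₀ hZp]
    linarith

/-- **EXIT 2 of A2**: the iteration.  Boxes of length `L`, shift `s`, origin `a0`. -/
theorem len_iter (S : ClSys V Y) (hOk : ClOk S) (K : ClCon V Y) (hK : LenFkg S K) (G : LenGeo Y)
    (hb : ∀ y, G.band y → y ∈ S.C) {c δ : ℝ} (hc : 0 ≤ c) (hδ0 : 0 ≤ δ) (a0 L s : ℤ) (hs : 0 ≤ s) (hsL : s ≤ L) (n : ℕ)
    (hδ : ∀ j : ℕ, j ≤ n → δ ≤ S.P (K.Holds S) (fun ω => G.Hp (lenNp S ω) (a0 + j * s) (a0 + j * s + L)))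
    (hSE : ∀ j : ℕ, j < n → LenSE S K G c (a0 + (j + 1) * s) (a0 + j * s + L)) :
    ∀ j : ℕ, j ≤ n → δ * (c * δ) ^ j ≤ S.P (K.Holds S) (fun ω => G.Hp (lenNp S ω) a0 (a0 + j * s + L)) := by
  intro j
  induction j with
  | zero =>
    intro hj
    have := hδ 0 hj
    simpa using this
  | succ j ih =>
    intro hj
    have h1 := ih (by omega)
    have h2 := hδ (j + 1) hj
    have hjs : 0 ≤ (j : ℤ) * s := mul_nonneg (by positivity) hs
    have h3 := len_step S hOk K hK G hb hc (a1 := a0) (a2 := a0 + (j + 1) * s) (b1 := a0 + j * s + L)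
      (b2 := a0 + (j + 1) * s + L) (by nlinarith) (by nlinarith) (by nlinarith) (hSE j (by omega))
    push_cast at h2 ⊢
    have h4 : 0 ≤ δ * (c * δ) ^ j := mul_nonneg hδ0 (pow_nonneg (mul_nonneg hc hδ0) _)
    calc δ * (c * δ) ^ (j + 1) = c * (δ * (c * δ) ^ j) * δ := by ring
      _ ≤ c * S.P (K.Holds S) (fun ω => G.Hp (lenNp S ω) a0 (a0 + j * s + L)) * δ :=
          mul_le_mul_of_nonneg_right (mul_le_mul_of_nonneg_left h1 hc) hδ0
      _ ≤ c * S.P (K.Holds S) (fun ω => G.Hp (lenNp S ω) a0 (a0 + j * s + L)) *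
            S.P (K.Holds S) (fun ω => G.Hp (lenNp S ω) (a0 + (j + 1) * s) (a0 + (j + 1) * s + L)) :=
          mul_le_mul_of_nonneg_left h2 (mul_nonneg hc (h4.trans h1))
      _ ≤ _ := h3

end Model

end Claimed.Agent.R291
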