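import Claimed.Agent.R291.Ann.Rsw
import Claimed.Agent.R291.Ann.Len
import Claimed.Agent.R291.Defs.Seed
import Claimed.Agent.R291.Pl.ExtrArc

/-!
# Row 291 (S0539), Ann/RswRec : BLOCK A3 = RSW (56), PART II (a) = RECORDS AND TOTAL PROBABILITY      (owner helper269; prefix `rsr_`, `Rsr`, `rsr`)

Ruling of 187 (head A3) 06:20Z.   PART I = `Ann/Rsw` (187, 259): `rsw_main` from the contract `RswGlue` (`RswTip`, `RswTube`).   PART II proves the contract for `𝔏.P = sdP x L H T true`: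
 (a) THIS FILE: exploration, record, stopping property, total probability;  `RsrSE` = THE STRIP ESTIMATE UNDER ONE RECORD;  **`rsr_tip`, `rsr_tube`, `rsr_glue`** : `RsrSE` ⟹ `RswTip`, `RswTube`, `RswGlue`.
     v2 (07:10Z): ABSTRACT in the realisation `(S, K, ι)` of the mixed cylinder (so that (c) can work in an ambient DISC, where `dis_order` / `dis_assoc` hold: `rscAmb` of 255 or `cyS` of 5); §5 = the realisation `sdSys` + pins.
 (b) 105 (+ 1, 112): record ⟹ (`a` touches `c`) or STRIP + places;      (c) 36: `RsrSE` itself (`Ann/RswGlue`): sea history + `exit_enter` + `exit_three` of 55 + (b).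

§1 ABSTRACT (any `ClSys`): a STOPPING RULE `Q : ClCfg → Finset Y` (`RsrStop`: the set of the cells looked at is determined by what is seen on it), the record `rsrRec S K Q ω = lenObs S K (Q ω) ω` (193: statuses and first
   spins of the cells of `Q ω`), `rsr_rec_iff`, `rsr_rec_legal`, `RsrMeas` (event read off the record), `RsrSE`, **`rsr_sum`** : `cg · P[G] ≤ P[F]`.
§2 EXPLORATION IN THE LIFT, for ANY system `S : ClSys V Y` with a map `ι : TV → Y` (lifted index ↦ cell): `P = rsrY S ι ω` (lifted set of the open-plus cells; `= sdSet S L 1 ω` for `ι = sdRed L`), region `R`, seeds `σ`: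
   `pleI tscG (R \ P) σ` = the non-plus cluster of the seeds inside `R` (112),  `rsrLook R σ P` = cells looked at,  `rsrQ` = their images under `ι`;  `rsr_stop`, `rsr_I_meas`.      NO hypothesis on wrapping here.
§3 GEOMETRY OF (iii) of G1: ONE box `R = rswRect (m - e) (m + σ + e) c d` for both explorations.   `a` = layer of `I` = cluster of the LEFT arc `rsrSgL` at the centre `m`;   `c` = layer of `J` = cluster of the RIGHT arc `rsrSgR` at `m + σ`.
   `RsrG0` (both crossings exist), `RsrG1` (`a` reaches `X > m + e2`, `c` reaches `X < m + σ - e2`): PROPERTIES OF `(I, J)` ONLY.   `rsr_good0`, `rsr_good1` : the events of `RswTube` / `RswTip` imply them.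
   Planar input: `rsr_quad_L`, `rsr_quad_R` = `pla_quad_rect_L/R` of 112 (`PleQuad` for a Euclidean rectangle with landing intervals).      STATUS: 0 sorry in this file.
-/

set_option autoImplicit false
set_option linter.unusedSectionVars false
set_option linter.unusedVariables false

namespace Claimed.Agent.R291

open Claims Claims.C0467 Relation

/-! ## §1 stopping rules, records, total probability -/

section abs

variable {V Y : Type} [DecidableEq V] [DecidableEq Y]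

/-- a stopping rule: the set of the cells looked at is determined by what is seen on it -/
def RsrStop (S : ClSys V Y) (Q : ClCfg V Y → Finset Y) : Prop := ∀ ω₀ ω : ClCfg V Y, LenAgr S (Q ω₀) ω₀ ω → Q ω = Q ω₀

/-- the record: `K` + statuses and first spins of the cells looked at -/
def rsrRec (S : ClSys V Y) (K : ClCon V Y) (Q : ClCfg V Y → Finset Y) (ω : ClCfg V Y) : ClCon V Y := lenObs S K (Q ω) ω

/-- the event is read off the record -/
def RsrMeas (S : ClSys V Y) (Q : ClCfg V Y → Finset Y) (G : ClCfg V Y → Prop) : Prop :=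
  ∀ ω₀ ω : ClCfg V Y, LenAgr S (Q ω₀) ω₀ ω → (G ω₀ ↔ G ω)

/-- **(SE) the estimate under ONE record**: for every record in `G`, the conditional probability of `F` is at least `cg` -/
def RsrSE (S : ClSys V Y) (K : ClCon V Y) (Q : ClCfg V Y → Finset Y) (cg : ℝ) (G F : ClCfg V Y → Prop) : Prop :=
  ∀ ω₀ ∈ S.cfgs, K.Holds S ω₀ → G ω₀ → cg * S.Z ((rsrRec S K Q ω₀).Holds S) ≤ S.N ((rsrRec S K Q ω₀).Holds S) (lenInd F)

theorem rsr_eqns_cite : True := by
  have := @RsrStop.eq_1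
  have := @rsrRec.eq_1
  have := @RsrMeas.eq_1
  have := @RsrSE.eq_1
  trivial

/-- the record is a legal history -/
theorem rsr_rec_legal (S : ClSys V Y) (K : ClCon V Y) (hK : ClLegal S K) (Q : ClCfg V Y → Finset Y) (ω₀ : ClCfg V Y) :
    ClLegal S (rsrRec S K Q ω₀) := len_obs_legal S K hK _ ω₀

/-- what the record says -/
theorem rsr_rec_holds (S : ClSys V Y) (K : ClCon V Y) (Q : ClCfg V Y → Finset Y) (ω₀ ω : ClCfg V Y) :
    (rsrRec S K Q ω₀).Holds S ω ↔ K.Holds S ω ∧ LenAgr S (Q ω₀) ω₀ ω := len_obs_holds S K _ ω₀ ω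

/-- **the stopping property of the record** -/
theorem rsr_rec_iff (S : ClSys V Y) (K : ClCon V Y) (Q : ClCfg V Y → Finset Y) (hQ : RsrStop S Q) (ω₀ ω : ClCfg V Y) :
    (rsrRec S K Q ω₀).Holds S ω ↔ K.Holds S ω ∧ rsrRec S K Q ω = rsrRec S K Q ω₀ := by
  unfold rsrRec
  rw [len_obs_holds]
  constructor
  · rintro ⟨h1, h2⟩
    refine ⟨h1, ?_⟩
    rw [hQ ω₀ ω h2]
    exact len_obs_congr S K _ ω₀ ω h2
  · rintro ⟨h1, h2⟩
    refine ⟨h1, ?_⟩
    have h3 : (lenObs S K (Q ω) ω).Holds S ω := (len_obs_holds S K _ ω ω).2 ⟨h1, len_agr_refl S _ ω⟩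
    rw [h2] at h3
    exact ((len_obs_holds S K _ ω₀ ω).1 h3).2

/-- total probability, unnormalised -/
theorem rsr_sum_N (S : ClSys V Y) (hS : ClOk S) (K : ClCon V Y) (Q : ClCfg V Y → Finset Y) (hQ : RsrStop S Q) {cg : ℝ}
    {G F : ClCfg V Y → Prop} (hG : RsrMeas S Q G) (h : RsrSE S K Q cg G F) :
    cg * S.N (K.Holds S) (lenInd G) ≤ S.N (K.Holds S) (lenInd F) := by
  refine len_fibre S (K.Holds S) (rsrRec S K Q) (fun k => k.Holds S) (rsr_rec_iff S K Q hQ) _ _ cg fun ω₀ hω₀ hK₀ => ?_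
  by_cases hG₀ : G ω₀
  · have e : S.N ((rsrRec S K Q ω₀).Holds S) (lenInd G) = S.Z ((rsrRec S K Q ω₀).Holds S) := by
      classical
      rw [dis_Z_eq]
      unfold ClSys.N
      refine Finset.sum_congr rfl fun ω _ => ?_
      by_cases hω : (rsrRec S K Q ω₀).Holds S ω
      · rw [if_pos hω, if_pos hω, len_ind_pos ((hG ω₀ ω ((rsr_rec_holds S K Q ω₀ ω).1 hω).2).1 hG₀)]
      · rw [if_neg hω, if_neg hω]
    rw [e]
    exact h ω₀ hω₀ hK₀ hG₀
  · have e : S.N ((rsrRec S K Q ω₀).Holds S) (lenInd G) = 0 := by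
      refine len_N_eq_zero S _ _ fun ω hω => ?_
      exact len_ind_neg fun hGω => hG₀ ((hG ω₀ ω ((rsr_rec_holds S K Q ω₀ ω).1 hω).2).2 hGω)
    rw [e, mul_zero]
    exact len_N_nonneg S hS _ _ fun ω _ => len_ind_nonneg _ _

/-- **total probability**: the estimate under every record of `G` gives `cg · P[G] ≤ P[F]` -/
theorem rsr_sum (S : ClSys V Y) (hS : ClOk S) (K : ClCon V Y) (Q : ClCfg V Y → Finset Y) (hQ : RsrStop S Q) {cg : ℝ}
    {G F : ClCfg V Y → Prop} (hG : RsrMeas S Q G) (h : RsrSE S K Q cg G F) :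
    cg * S.P (K.Holds S) G ≤ S.P (K.Holds S) F := by
  rw [len_P_eq, len_P_eq, ← mul_div_assoc]
  exact div_le_div_of_nonneg_right (rsr_sum_N S hS K Q hQ hG h) (len_Z_nonneg S hS _)

/-- monotonicity of the probability in the event -/
theorem rsr_P_mono (S : ClSys V Y) (hS : ClOk S) (K : ClCfg V Y → Prop) {G G' : ClCfg V Y → Prop} (h : ∀ ω, K ω → G ω → G' ω) :
    S.P K G ≤ S.P K G' := by
  rw [len_P_eq, len_P_eq]
  refine div_le_div_of_nonneg_right (len_N_mono S hS K _ _ fun ω hω => ?_) (len_Z_nonneg S hS _)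
  by_cases hG : G ω
  · rw [len_ind_pos hG, len_ind_pos (h ω hω hG)]
  · rw [len_ind_neg hG]
    exact len_ind_nonneg _ _

end abs

/-! ## §2 exploration in the lift -/

section lift

variable {V Y : Type} [DecidableEq V] [DecidableEq Y]

/-- the LIFTED set of the open-plus cells: `ι z` = the cell of the system with the (lifted) index `z`.      (`sdSet S L 1 ω = rsrY S (sdRed L) ω` by `rfl`.) -/
def rsrY (S : ClSys V Y) (ι : TV → Y) (ω : ClCfg V Y) : Set TV := {z | ι z ∈ S.C ∧ clTau S ω (ι z) = 1}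

/-- the cells looked at (in the lift) by the exploration of the non-`P` cluster of the seeds `σ` inside `R` -/
def rsrLook (R σ P : Set TV) : Set TV :=
  {z | z ∈ R ∧ (z ∈ σ ∨ z ∈ pleI tscG (R \ P) σ ∨ ∃ i ∈ pleI tscG (R \ P) σ, tscG.Adj i z)}

open Classical in
/-- the cells of the system looked at -/
noncomputable def rsrQ (S : ClSys V Y) (ι : TV → Y) (R σ : Set TV) (ω : ClCfg V Y) : Finset Y :=
  S.C.filter (fun y => ∃ z ∈ rsrLook R σ (rsrY S ι ω), ι z = y)

theorem rsr_eqns_cite2 : True := by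
  have := @rsrY.eq_1
  have := @rsrLook.eq_1
  have := @rsrQ.eq_1
  trivial

/-- agreement on the cells looked at: the plus sets agree on the look set -/
theorem rsr_agr_P (S : ClSys V Y) (ι : TV → Y) (R σ : Set TV) (ω₀ ω : ClCfg V Y) (h : LenAgr S (rsrQ S ι R σ ω₀) ω₀ ω) (z : TV)
    (hz : z ∈ rsrLook R σ (rsrY S ι ω₀)) : z ∈ rsrY S ι ω₀ ↔ z ∈ rsrY S ι ω := by
  classical
  unfold rsrY
  simp only [Set.mem_ofPred_eq]
  refine and_congr_right fun hC => ?_
  have hm : ι z ∈ rsrQ S ι R σ ω₀ := Finset.mem_filter.2 ⟨hC, z, hz, rfl⟩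
  rw [h.2 _ hm]

/-- **one-sided measurability**: the cluster of a part `σ₁` of the seeds is read off the record -/
theorem rsr_I_meas (S : ClSys V Y) (ι : TV → Y) (R σ σ₁ : Set TV) (hσ : σ₁ ⊆ σ) (ω₀ ω : ClCfg V Y) (h : LenAgr S (rsrQ S ι R σ ω₀) ω₀ ω) :
    pleI tscG (R \ rsrY S ι ω) σ₁ = pleI tscG (R \ rsrY S ι ω₀) σ₁ := by
  have hsub : pleI tscG (R \ rsrY S ι ω₀) σ₁ ⊆ pleI tscG (R \ rsrY S ι ω₀) σ := by
    rintro z ⟨t, ht, hts, htz⟩
    exact ⟨t, ht, hσ hts, htz⟩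
  refine ple_I_local_P fun z hzR hz => rsr_agr_P S ι R σ ω₀ ω h z ⟨hzR, ?_⟩
  rcases hz with hz | hz | ⟨i, hi, hiz⟩
  · exact Or.inl (hσ hz)
  · exact Or.inr (Or.inl (hsub hz))
  · exact Or.inr (Or.inr ⟨i, hsub hi, hiz⟩)

/-- the exploration is a stopping rule -/
theorem rsr_stop (S : ClSys V Y) (ι : TV → Y) (R σ : Set TV) : RsrStop S (rsrQ S ι R σ) := by
  classical
  intro ω₀ ω h
  have e := rsr_I_meas S ι R σ σ subset_rfl ω₀ ω h
  unfold rsrQ rsrLook
  rw [e]

/-- an event which is a function of the clusters of two parts of the seeds is read off the record -/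
theorem rsr_meas (S : ClSys V Y) (ι : TV → Y) (R σ σ₁ σ₂ : Set TV) (h₁ : σ₁ ⊆ σ) (h₂ : σ₂ ⊆ σ) (G : Set TV → Set TV → Prop) :
    RsrMeas S (rsrQ S ι R σ) (fun ω => G (pleI tscG (R \ rsrY S ι ω) σ₁) (pleI tscG (R \ rsrY S ι ω) σ₂)) := by
  intro ω₀ ω h
  beta_reduce
  rw [rsr_I_meas S ι R σ σ₁ h₁ ω₀ ω h, rsr_I_meas S ι R σ σ₂ h₂ ω₀ ω h]

end lift

/-! ## §3 the two extremal crossings of G1 (iii) -/

/-- landing interval on the row `j` -/
def rsrLam (j i w : ℤ) : Set TV := {p | p.2 = j ∧ i - w ≤ rswX p ∧ rswX p ≤ i + w}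

/-- the LEFT arc of the rectangle `rswRect A B c d` at the centre `i`: the left side and the parts of the extreme rows on the left of the landing intervals (ONE common cell with each of them) -/
def rsrSgL (A c d i w : ℤ) : Set TV := {p | rswX p ≤ A + 1 ∨ ((p.2 = c ∨ p.2 = d) ∧ rswX p ≤ i - w + 1)}

/-- the RIGHT arc at the centre `i` -/
def rsrSgR (B c d i w : ℤ) : Set TV := {p | B - 1 ≤ rswX p ∨ ((p.2 = c ∨ p.2 = d) ∧ i + w - 1 ≤ rswX p)}

/-- the layer `a` of the cluster `I` of the left arc at `m` (= the leftmost crossing, as a set) -/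
def rsrGa (A B c d w m : ℤ) (I : Set TV) : Set TV := pleGam tscG (rswRect A B c d) (rsrSgL A c d m w) (rsrSgR B c d m w) I

/-- the layer `c` of the cluster `J` of the right arc at `m'` (= the rightmost crossing, as a set) -/
def rsrGc (A B c d w m' : ℤ) (J : Set TV) : Set TV := pleGam tscG (rswRect A B c d) (rsrSgR B c d m' w) (rsrSgL A c d m' w) J

/-- both crossings exist: the cluster of the left arc at `m` does not reach the right arc at `m`, the cluster of the right arc at `m'` does not reach the left arc at `m'` -/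
def RsrG0 (A B c d w m m' : ℤ) (I J : Set TV) : Prop :=
  (∀ z ∈ rswRect A B c d ∩ rsrSgR B c d m w, z ∉ I) ∧ (∀ z ∈ rswRect A B c d ∩ rsrSgL A c d m' w, z ∉ J)

/-- the tips: `a` reaches `X > ta`, `c` reaches `X < tc` -/
def RsrG1 (A B c d w m m' ta tc : ℤ) (I J : Set TV) : Prop :=
  RsrG0 A B c d w m m' I J ∧ (∃ z ∈ rsrGa A B c d w m I, ta < rswX z) ∧ (∃ z ∈ rsrGc A B c d w m' J, rswX z < tc)

theorem rsr_eqns_cite3 : True := by
  have := @rsrLam.eq_1
  have := @rsrSgL.eq_1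
  have := @rsrSgR.eq_1
  have := @rsrGa.eq_1
  have := @rsrGc.eq_1
  have := @RsrG0.eq_1
  have := @RsrG1.eq_1
  trivial

/-- The Euclidean rectangle with landing intervals is a quadrilateral, explored from the left.      (= `pla_quad_rect_L` of 112, `Pl/ExtrArc`.) -/
theorem rsr_quad_L {A B c d i w : ℤ} (hcd : c < d) (hw : 1 ≤ w) (hA : A + 4 ≤ i - w) (hB : i + w + 4 ≤ B) :
    PleQuad tscG (rswRect A B c d) (rsrSgL A c d i w) (rsrSgR B c d i w) (rsrLam c i w) (rsrLam d i w) := by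
  have h := pla_quad_rect_L (A := A) (B := B) (c := c) (d := d) (i1 := i - w) (i2 := i + w) (j1 := i - w) (j2 := i + w) hcd.le
    (by omega) (by omega) (by omega) (by omega) (by omega) (by omega)
  refine ple_quad_congr h (fun z _ => ?_) (fun z _ => ?_) (fun z _ => Iff.rfl) (fun z _ => Iff.rfl)
  · simp only [plaXArcL, rsrSgL, rswX, Set.mem_ofPred_eq]; tauto
  · simp only [plaXArcR, rsrSgR, rswX, Set.mem_ofPred_eq]; tauto

/-- The same, explored from the right.      (= `pla_quad_rect_R` of 112.) -/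
theorem rsr_quad_R {A B c d i w : ℤ} (hcd : c < d) (hw : 1 ≤ w) (hA : A + 4 ≤ i - w) (hB : i + w + 4 ≤ B) :
    PleQuad tscG (rswRect A B c d) (rsrSgR B c d i w) (rsrSgL A c d i w) (rsrLam c i w) (rsrLam d i w) := by
  have h := pla_quad_rect_R (A := A) (B := B) (c := c) (d := d) (i1 := i - w) (i2 := i + w) (j1 := i - w) (j2 := i + w) hcd.le
    (by omega) (by omega) (by omega) (by omega) (by omega) (by omega)
  refine ple_quad_congr h (fun z _ => ?_) (fun z _ => ?_) (fun z _ => Iff.rfl) (fun z _ => Iff.rfl)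
  · simp only [plaXArcR, rsrSgR, rswX, Set.mem_ofPred_eq]; tauto
  · simp only [plaXArcL, rsrSgL, rswX, Set.mem_ofPred_eq]; tauto

/-- a crossing between the landing intervals blocks the cluster of the arc `σ` -/
theorem rsr_block {R R₀ σ σ' P : Set TV} {c d i w : ℤ} (hq : PleQuad tscG R σ σ' (rsrLam c i w) (rsrLam d i w)) (hR : R₀ ⊆ R)
    (hE : RswCr R₀ c d i i w P) : ∀ z ∈ R ∩ σ', z ∉ pleI tscG (R \ P) σ := by
  obtain ⟨p, q, hp, hpc, hqd, hpi, hqi, hpq⟩ := hE
  refine ple_hyp ?_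
  rintro ⟨u, v, hu, huσ, hvσ, huv⟩
  obtain ⟨z, hz1, hz2⟩ := hq.jordan (P ∩ R₀) (R \ P) (fun z hz => hR hz.2) Set.sdiff_subset p q u v hp ⟨hpc, hpi⟩ ⟨hqd, hqi⟩ hpq hu huσ hvσ huv
  exact hz2.2 hz1.1

/-- the layer contains a crossing between the landing intervals: if it stays inside `R₁` there is a crossing inside `R₁` -/
theorem rsr_layer_cr {R R₁ σ σ' P : Set TV} {c d i w : ℤ} (hq : PleQuad tscG R σ σ' (rsrLam c i w) (rsrLam d i w))
    (hI : ∀ z ∈ R ∩ σ', z ∉ pleI tscG (R \ P) σ) (h : pleGam tscG R σ σ' (pleI tscG (R \ P) σ) ⊆ R₁) : RswCr R₁ c d i i w P := by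
  obtain ⟨l, r, hl, hll, hrr, hlr⟩ := ple_gam_cross hq hI
  have hsub : pleGam tscG R σ σ' (pleI tscG (R \ P) σ) ⊆ P ∩ R₁ := fun z hz => ⟨(ple_gam_sub hz).2, h hz⟩
  exact ⟨l, r, hsub hl, hll.1, hrr.1, hll.2, hrr.2, tsc_R_mono hsub hlr⟩

/-- the event of `RswTube` implies `RsrG0` -/
theorem rsr_good0 {c d w σ m e : ℤ} (hcd : c < d) (hw : 1 ≤ w) (hσ : 0 ≤ σ) (he : w + 4 ≤ e) {P : Set TV}
    (h1 : RswE c d w m e e P) (h2 : RswE c d w (m + σ) e e P) :
    RsrG0 (m - e) (m + σ + e) c d w m (m + σ) (pleI tscG (rswRect (m - e) (m + σ + e) c d \ P) (rsrSgL (m - e) c d m w))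
      (pleI tscG (rswRect (m - e) (m + σ + e) c d \ P) (rsrSgR (m + σ + e) c d (m + σ) w)) := by
  constructor
  · refine rsr_block (rsr_quad_L hcd hw (by omega) (by omega)) ?_ h1
    rintro z ⟨h1, h2, h3, h4⟩
    exact ⟨h1, by omega, h3, h4⟩
  · refine rsr_block (rsr_quad_R hcd hw (by omega) (by omega)) ?_ h2
    rintro z ⟨h1, h2, h3, h4⟩
    exact ⟨by omega, h2, h3, h4⟩

/-- the event of `RswTip` implies `RsrG1` -/
theorem rsr_good1 {c d w σ m e e2 : ℤ} (hcd : c < d) (hw : 1 ≤ w) (hσ : 0 ≤ σ) (he : w + 4 ≤ e) {P : Set TV}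
    (h1 : RswE c d w m e e P) (h2 : RswE c d w (m + σ) e e P) (h3 : ¬ RswE c d w m e e2 P) (h4 : ¬ RswE c d w (m + σ) e2 e P) :
    RsrG1 (m - e) (m + σ + e) c d w m (m + σ) (m + e2) (m + σ - e2) (pleI tscG (rswRect (m - e) (m + σ + e) c d \ P) (rsrSgL (m - e) c d m w))
      (pleI tscG (rswRect (m - e) (m + σ + e) c d \ P) (rsrSgR (m + σ + e) c d (m + σ) w)) := by
  have h0 := rsr_good0 hcd hw hσ he h1 h2
  refine ⟨h0, ?_, ?_⟩
  · by_contra hn
    push Not at hn
    refine h3 (rsr_layer_cr (rsr_quad_L hcd hw (by omega) (by omega)) h0.1 fun z hz => ?_)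
    have hzR := (ple_gam_sub hz).1
    exact ⟨hzR.1, hn z hz, hzR.2.2.1, hzR.2.2.2⟩
  · by_contra hn
    push Not at hn
    refine h4 (rsr_layer_cr (rsr_quad_R hcd hw (by omega) (by omega)) h0.2 fun z hz => ?_)
    have hzR := (ple_gam_sub hz).1
    exact ⟨hn z hz, by have := hzR.2.1; omega, hzR.2.2.1, hzR.2.2.2⟩

/-! ## §4 the contract of PART II from the strip estimate -/

section contract

variable {V Y : Type} [DecidableEq V] [DecidableEq Y]

/-- the seeds of the two explorations -/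
def rsrSeed (c d w σ m e : ℤ) : Set TV := rsrSgL (m - e) c d m w ∪ rsrSgR (m + σ + e) c d (m + σ) w

/-- the cluster `I` of the left arc -/
def rsrI (S : ClSys V Y) (ι : TV → Y) (c d w σ m e : ℤ) (ω : ClCfg V Y) : Set TV :=
  pleI tscG (rswRect (m - e) (m + σ + e) c d \ rsrY S ι ω) (rsrSgL (m - e) c d m w)

/-- the cluster `J` of the right arc -/
def rsrJ (S : ClSys V Y) (ι : TV → Y) (c d w σ m e : ℤ) (ω : ClCfg V Y) : Set TV :=
  pleI tscG (rswRect (m - e) (m + σ + e) c d \ rsrY S ι ω) (rsrSgR (m + σ + e) c d (m + σ) w)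

/-- the stopping rule of the two explorations -/
noncomputable def rsrQ2 (S : ClSys V Y) (ι : TV → Y) (c d w σ m e : ℤ) : ClCfg V Y → Finset Y :=
  rsrQ S ι (rswRect (m - e) (m + σ + e) c d) (rsrSeed c d w σ m e)

/-- **(SE-TIP)** = what PART II (b) + (c) prove: under every record whose two extremal crossings exist and have long tips, `F` has conditional probability at least `cg` -/
def RsrSETip (S : ClSys V Y) (K : ClCon V Y) (ι : TV → Y) (cg : ℝ) (c d w σ m e e2 : ℤ) : Prop :=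
  RsrSE S K (rsrQ2 S ι c d w σ m e) cg
    (fun ω => RsrG1 (m - e) (m + σ + e) c d w m (m + σ) (m + e2) (m + σ - e2) (rsrI S ι c d w σ m e ω) (rsrJ S ι c d w σ m e ω))
    (fun ω => RswF c d w σ m (rsrY S ι ω))

/-- **(SE-TUBE)** -/
def RsrSETube (S : ClSys V Y) (K : ClCon V Y) (ι : TV → Y) (cg : ℝ) (c d w σ m e : ℤ) : Prop :=
  RsrSE S K (rsrQ2 S ι c d w σ m e) cg
    (fun ω => RsrG0 (m - e) (m + σ + e) c d w m (m + σ) (rsrI S ι c d w σ m e ω) (rsrJ S ι c d w σ m e ω))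
    (fun ω => RswF c d w σ m (rsrY S ι ω))

theorem rsr_eqns_cite4 : True := by
  have := @rsrSeed.eq_1
  have := @rsrI.eq_1
  have := @rsrJ.eq_1
  have := @rsrQ2.eq_1
  have := @RsrSETip.eq_1
  have := @RsrSETube.eq_1
  trivial

/-- **TIP** from (SE-TIP) -/
theorem rsr_tip (S : ClSys V Y) (hS : ClOk S) (K : ClCon V Y) (ι : TV → Y) {cg : ℝ} (hcg : 0 ≤ cg) {c d w σ m e e2 : ℤ} (hcd : c < d) (hw : 1 ≤ w)
    (hσ : 0 ≤ σ) (he : w + 4 ≤ e) (h : RsrSETip S K ι cg c d w σ m e e2) :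
    cg * S.P (K.Holds S) (fun ω => RswE c d w m e e (rsrY S ι ω) ∧ RswE c d w (m + σ) e e (rsrY S ι ω) ∧ ¬ RswE c d w m e e2 (rsrY S ι ω) ∧
      ¬ RswE c d w m e2 e (rsrY S ι ω) ∧ ¬ RswE c d w (m + σ) e e2 (rsrY S ι ω) ∧ ¬ RswE c d w (m + σ) e2 e (rsrY S ι ω)) ≤
    S.P (K.Holds S) (fun ω => RswF c d w σ m (rsrY S ι ω)) := by
  refine le_trans (mul_le_mul_of_nonneg_left (rsr_P_mono _ hS _ fun ω _ hω => ?_) hcg)
    (rsr_sum _ hS K _ (rsr_stop _ ι _ _) (rsr_meas _ ι _ _ _ _ Set.subset_union_left Set.subset_union_right _) h)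
  exact rsr_good1 hcd hw hσ he hω.1 hω.2.1 hω.2.2.1 hω.2.2.2.2.2

/-- **TUBE** from (SE-TUBE) -/
theorem rsr_tube (S : ClSys V Y) (hS : ClOk S) (K : ClCon V Y) (ι : TV → Y) {cg : ℝ} (hcg : 0 ≤ cg) {c d w σ m e : ℤ} (hcd : c < d) (hw : 1 ≤ w)
    (hσ : 0 ≤ σ) (he : w + 4 ≤ e) (h : RsrSETube S K ι cg c d w σ m e) :
    cg * S.P (K.Holds S) (fun ω => RswE c d w m e e (rsrY S ι ω) ∧ RswE c d w (m + σ) e e (rsrY S ι ω)) ≤
    S.P (K.Holds S) (fun ω => RswF c d w σ m (rsrY S ι ω)) := by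
  refine le_trans (mul_le_mul_of_nonneg_left (rsr_P_mono _ hS _ fun ω _ hω => ?_) hcg)
    (rsr_sum _ hS K _ (rsr_stop _ ι _ _) (rsr_meas _ ι _ _ _ _ Set.subset_union_left Set.subset_union_right _) h)
  exact rsr_good0 hcd hw hσ he hω.1 hω.2

/-- **THE CONTRACT OF PART II** (`RswGlue` of `Ann/Rsw`) for any `RswLaw` whose probability is the law of the lifted plus set of `(S, K, ι)`, from (SE-TIP) and (SE-TUBE).
`(S, K)` = ANY realisation of the mixed cylinder as a history of a cell system: `sdSys x L T 0 H` with `rsrK L H` (`rsr_sdP`), or an ambient DISC (`rscAmb` of 255, `cyS` of 5) where `dis_order`, `dis_assoc` are available.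
A narrow box (`e < ws + 4`) is enlarged (`rsw_cr_mono`). -/
theorem rsr_glue (S : ClSys V Y) (hS : ClOk S) (K : ClCon V Y) (ι : TV → Y) (𝔏 : RswLaw) (h𝔏 : ∀ E, 𝔏.P E = S.P (K.Holds S) (fun ω => E (rsrY S ι ω)))
    {cg : ℝ} (hcg : 0 ≤ cg) {c r w : ℤ} (hr : 0 < r) (hw : 0 ≤ w)
    (htip : ∀ m e e2 : ℤ, e2 ≤ e → e + 3 * (20 * w + 8) + (5 * w + 1) + 8 ≤ 2 * e2 → e ≤ 14 * r →
      RsrSETip S K ι cg c (c + r) (5 * w + 1) (20 * w + 8) m e e2)
    (htube : ∀ m e : ℤ, 5 * w + 1 + 4 ≤ e → e ≤ 20 * (20 * w + 8) → RsrSETube S K ι cg c (c + r) (5 * w + 1) (20 * w + 8) m e) :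
    RswGlue 𝔏 cg c r w where
  tip := by
    intro e e2 h1 h2 h3 m
    rw [h𝔏, h𝔏]
    exact rsr_tip S hS K ι hcg (by omega) (by omega) (by omega) (by omega) (htip m e e2 h1 h2 h3)
  tube := by
    intro e h1 m
    have key := rsr_tube S hS K ι hcg (c := c) (d := c + r) (w := 5 * w + 1) (σ := 20 * w + 8) (m := m) (e := max e (5 * w + 1 + 4))
      (by omega) (by omega) (by omega) (le_max_right _ _) (htube m _ (le_max_right _ _) (max_le h1 (by omega)))
    rw [← h𝔏 (fun Y => RswE c (c + r) (5 * w + 1) m (max e (5 * w + 1 + 4)) (max e (5 * w + 1 + 4)) Y ∧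
      RswE c (c + r) (5 * w + 1) (m + (20 * w + 8)) (max e (5 * w + 1 + 4)) (max e (5 * w + 1 + 4)) Y), ← h𝔏 (RswF c (c + r) (5 * w + 1) (20 * w + 8) m)] at key
    refine le_trans (mul_le_mul_of_nonneg_left (𝔏.mono _ _ fun Y hY => ?_) hcg) key
    have hsub : ∀ m' : ℤ, rswRect (m' - e) (m' + e) c (c + r) ⊆ rswRect (m' - max e (5 * w + 1 + 4)) (m' + max e (5 * w + 1 + 4)) c (c + r) := by
      rintro m' z ⟨g1, g2, g3, g4⟩
      have := le_max_left e (5 * w + 1 + 4)
      exact ⟨by omega, by omega, g3, g4⟩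
    exact ⟨rsw_cr_mono (hsub m) hY.1, rsw_cr_mono (hsub _) hY.2⟩

end contract

/-! ## §5 the realisation `sdSys` + pins -/

/-- the mixed boundary condition as a history of `sdSys x L T 0 H` -/
noncomputable def rsrK (L H : ℕ) : ClCon TV TV := ⟨sdRow L H, sdRow L 0, ∅, ∅, ∅, ∅, ∅, ∅⟩

theorem rsr_eqns_cite5 : True := by
  have := @rsrK.eq_1
  trivial

theorem rsr_K_holds (S : ClSys TV TV) (L H : ℕ) (ω : ClCfg TV TV) : (rsrK L H).Holds S ω ↔ SdMix L 0 H ω := by
  unfold ClCon.Holds rsrK SdMix CuPin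
  simp only [Finset.notMem_empty, false_imp_iff, implies_true, Finset.empty_subset, and_true]
  constructor
  · rintro ⟨h1, h2⟩
    exact ⟨fun v hv => by simpa using h2 v hv, fun v hv => by simpa using h1 hv⟩
  · rintro ⟨h1, h2⟩
    exact ⟨fun v hv => by simpa using h2 v hv, fun v hv => by simpa using h1 v hv⟩

theorem rsr_K_legal (S : ClSys TV TV) (L H : ℕ) : ClLegal S (rsrK L H) :=
  ⟨rfl, rfl, fun y _ hy => by simp [rsrK] at hy, fun e he => by simp [rsrK] at he⟩

/-- `sdP` in the language of histories -/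
theorem rsr_sdP (x : ℝ) (L H : ℕ) (T : Bool) (E : Set TV → Prop) :
    sdP x L H T true E = (sdSys x L T 0 H).P ((rsrK L H).Holds (sdSys x L T 0 H)) (fun ω => E (rsrY (sdSys x L T 0 H) (sdRed L) ω)) := by
  have e : (rsrK L H).Holds (sdSys x L T 0 H) = SdMix L 0 H := funext fun ω => propext (rsr_K_holds _ L H ω)
  rw [e]
  rfl

end Claimed.Agent.R291
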