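-- KEEP
import Claimed.Agent.R291.Ann.Rsw
import Claimed.Agent.R291.Ann.Model
import Claimed.Agent.R291.Defs.Seed
import Claimed.Agent.R291.Ann.Seed
import Claimed.Agent.R291.Ann.RswRec

/-!
# Row 291 (S0539), Ann/RswCyl : BLOCK A3, THE ADAPTER = the mixed cylinder law `sdP` is an `RswLaw`; `exit_rsw` from `rsw_main` + PART II      (owner helper255; prefix `rsc_`, `rsc`, `Rsc`)

    rscLaw x L H T .. : RswLaw          P E = sdP x L H T true E = P_T[E(lifted set of the open-plus cells)]      (Defs/Seed, 83; ruling of 24: THE carrier of the mixed cylinder)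
    rsc_exit : RscGlue x  ⟹  (56) on `SdV` / `SdH` (dual forms)                                              (`RscGlue x` = the closed contract of PART II, architect helper36, `Ann/RswGlue.lean`)

§1 THE CIRCLE: `rscNx L i` = successor mod `L`; the sites of the cells of both classes in the fundamental domain.
§2 THE AMBIENT DISC `rscAmb x L T a b` = the cylinder (rows `a..b`, cells of class `T`) + ONE cone point `(0, a - 1)` below the row `a`, cone cells `{cone, (i, a), (i + 1, a)}` of index `(i, a - 1)`: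
   `rsc_amb_disk : ClDisk` (`am_disk`; `SC` by an explicit potential: cone, then row by row);      the cylinder = the cut set `sdSites L a b` of sign MINUS (layer = row `a`), the plus pins of the row `b` are a legal history:
   **every tool of A0 (`am_fkg`, `am_order`, `am_search` ..) applies to the mixed cylinder through this ambient** (users: A4 = 5, 147, 22).
§3 calculus of `S.P K`: monotone, union bound, `P True = 1` (`rsc_Z_pos`: explicit configuration).
§4 FKG (`rsc_cut_eq`: the mixed cylinder = MINUS cut law of the ambient + legal history `rscHist`).      §4b `rscK` = the mixed b.c. as a LEGAL HISTORY OF THE AMBIENT DISC; `rsc_K_E`, **`rsc_real`** : `sdP` = law of the ambient under `rscK`.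
§4c ABSTRACT: order and association INSIDE A CUT OF A DISC (`rsc_cut_order`, `rsc_cut_assoc`: legal histories of `S.inn I` containing the pins of the layer; transfer `rsc_up_N`);  **`rsc_order`, `rsc_assoc`** on the cylinder `sdSys x L T a b`.
§5 horizontal shifts and mirrors in vertical axes (`am_iso`).      §6 the instance.      §7 the exit.      §8 NO SEAM: (SE-TIP), (SE-TUBE) are needed at the two centres `m = L + c`, `L + c + 1` only (`rsc_tip_of_two`, `rsc_tube_of_two`, `rsc_glue_of_two`, `rsc_window`).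
-/

set_option autoImplicit false
set_option linter.unusedSectionVars false
set_option linter.unusedVariables false

namespace Claimed.Agent.R291

open Claims Claims.C0467 Relation

/-! ## §1 the circle -/

/-- successor on the circle `0 ≤ i < L` -/
def rscNx (L : ℕ) (i : ℤ) : ℤ := if i + 1 = (L : ℤ) then 0 else i + 1

theorem rsc_nx_mem {L : ℕ} {i : ℤ} (h0 : 0 ≤ i) (h1 : i < L) : 0 ≤ rscNx L i ∧ rscNx L i < L := by
  unfold rscNx; split_ifs <;> omega

theorem rsc_red_id {L : ℕ} {u : TV} (h0 : 0 ≤ u.1) (h1 : u.1 < L) : sdRed L u = u := by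
  unfold sdRed; rw [Int.emod_eq_of_lt h0 h1]

theorem rsc_red_nx {L : ℕ} {i : ℤ} (h0 : 0 ≤ i) (h1 : i < L) (j : ℤ) : sdRed L (i + 1, j) = (rscNx L i, j) := by
  unfold sdRed rscNx
  split_ifs with h
  · simp only [h, Int.emod_self]
  · simp only; rw [Int.emod_eq_of_lt (by omega) (by omega)]

theorem rsc_mem_sites {L : ℕ} {a b : ℤ} {u : TV} : u ∈ sdSites L a b ↔ (0 ≤ u.1 ∧ u.1 < L) ∧ (a ≤ u.2 ∧ u.2 ≤ b) := by
  unfold sdSites; rw [Finset.mem_product, Finset.mem_Ico, Finset.mem_Icc]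

theorem rsc_mem_cells {L : ℕ} {a b : ℤ} {u : TV} : u ∈ sdCells L a b ↔ (0 ≤ u.1 ∧ u.1 < L) ∧ (a ≤ u.2 ∧ u.2 < b) := by
  unfold sdCells; rw [Finset.mem_product, Finset.mem_Ico, Finset.mem_Ico]

theorem rsc_mem_row {L : ℕ} {j : ℤ} {u : TV} : u ∈ sdRow L j ↔ (0 ≤ u.1 ∧ u.1 < L) ∧ u.2 = j := by
  unfold sdRow; rw [Finset.mem_product, Finset.mem_Ico, Finset.mem_singleton]

/-- the sites of a cell of the fundamental domain -/
theorem rsc_cell_up {L : ℕ} {y : TV} (h0 : 0 ≤ y.1) (h1 : y.1 < L) : sdCell L true y = {y, (rscNx L y.1, y.2), (y.1, y.2 + 1)} := by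
  obtain ⟨i, j⟩ := y
  simp only at h0 h1
  unfold sdCell cellV
  simp only [if_true, Finset.image_insert, Finset.image_singleton, Prod.mk_add_mk, add_zero]
  rw [rsc_red_nx h0 h1, rsc_red_id (u := (i, j)) h0 h1, rsc_red_id (u := (i, j + 1)) h0 h1]

theorem rsc_cell_dn {L : ℕ} {y : TV} (h0 : 0 ≤ y.1) (h1 : y.1 < L) : sdCell L false y = {(rscNx L y.1, y.2), (y.1, y.2 + 1), (rscNx L y.1, y.2 + 1)} := by
  obtain ⟨i, j⟩ := y
  simp only at h0 h1
  unfold sdCell cellD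
  simp only [Bool.false_eq_true, if_false, Finset.image_insert, Finset.image_singleton, Prod.mk_add_mk, add_zero]
  rw [rsc_red_nx h0 h1, rsc_red_nx h0 h1, rsc_red_id (u := (i, j + 1)) h0 h1]

theorem rsc_cell_sub {L : ℕ} {T : Bool} {a b : ℤ} {y : TV} (hy : y ∈ sdCells L a b) : sdCell L T y ⊆ sdSites L a b := by
  obtain ⟨⟨h0, h1⟩, h2, h3⟩ := rsc_mem_cells.1 hy
  have hn := rsc_nx_mem h0 h1
  intro u hu
  cases T
  · rw [rsc_cell_dn h0 h1] at hu
    simp only [Finset.mem_insert, Finset.mem_singleton] at hu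
    rw [rsc_mem_sites]
    rcases hu with rfl | rfl | rfl <;> (try simp only) <;> omega
  · rw [rsc_cell_up h0 h1] at hu
    simp only [Finset.mem_insert, Finset.mem_singleton] at hu
    rw [rsc_mem_sites]
    rcases hu with rfl | rfl | rfl <;> (try simp only) <;> omega

theorem rsc_cell_ne (L : ℕ) (T : Bool) (y : TV) : (sdCell L T y).Nonempty := by
  unfold sdCell
  refine Finset.Nonempty.image ?_ _
  cases T
  · exact ⟨y + (1, 0), by simp [cellD]⟩
  · exact ⟨y, by simp [cellV]⟩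

theorem rsc_sys_ok (x : ℝ) (hx0 : 0 < x) (hx1 : x ≤ 1) (L : ℕ) (T : Bool) (a b : ℤ) : ClOk (sdSys x L T a b) where
  sub := fun y hy => rsc_cell_sub hy
  ne := fun y _ => rsc_cell_ne L T y
  q0 := fun _ _ => by show 0 < x ^ 2; positivity
  q1 := fun _ _ => by show x ^ 2 ≤ 1; exact pow_le_one₀ hx0.le hx1

/-- predecessor on the circle -/
def rscPv (L : ℕ) (i : ℤ) : ℤ := if i = 0 then (L : ℤ) - 1 else i - 1

theorem rsc_pv_mem {L : ℕ} {i : ℤ} (h0 : 0 ≤ i) (h1 : i < L) : 0 ≤ rscPv L i ∧ rscPv L i < L := by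
  unfold rscPv; split_ifs <;> omega

theorem rsc_nx_pv {L : ℕ} {i : ℤ} (h0 : 0 ≤ i) (h1 : i < L) : rscNx L (rscPv L i) = i := by
  unfold rscPv rscNx; split_ifs <;> omega

theorem rsc_nx_ne {L : ℕ} (hL : 2 ≤ L) {i : ℤ} (h0 : 0 ≤ i) (h1 : i < L) : rscNx L i ≠ i := by
  unfold rscNx; split_ifs <;> omega

/-! ## §2 the ambient disc -/

/-- the cylinder of class `T` on the rows `a..b` with a cone over the row `a` -/
noncomputable def rscAmb (x : ℝ) (L : ℕ) (T : Bool) (a b : ℤ) : ClSys TV TV where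
  A := insert (0, a - 1) (sdSites L a b)
  C := sdCells L (a - 1) b
  sv := fun y => if y.2 = a - 1 then {(0, a - 1), (y.1, a), (rscNx L y.1, a)} else sdCell L T y
  q := fun _ => x ^ 2

theorem rsc_eqns_cite : True := by
  have := @rscNx.eq_1
  have := @rscAmb.eq_1
  have := @rscPv.eq_1
  trivial

/-- the four kinds of oriented edges of the coned cylinder; horizontal edges in the rows `a..top` -/
inductive RscEdge (L : ℕ) (a b top : ℤ) : TV → TV → Prop
  | cone (i : ℤ) : 0 ≤ i → i < L → RscEdge L a b top (0, a - 1) (i, a)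
  | hor (i j : ℤ) : 0 ≤ i → i < L → a ≤ j → j ≤ top → RscEdge L a b top (i, j) (rscNx L i, j)
  | ver (i j : ℤ) : 0 ≤ i → i < L → a ≤ j → j < b → RscEdge L a b top (i, j) (i, j + 1)
  | dia (i j : ℤ) : 0 ≤ i → i < L → a ≤ j → j < b → RscEdge L a b top (rscNx L i, j) (i, j + 1)

/-- the sites of the coned cylinder -/
noncomputable def rscCone (L : ℕ) (a b : ℤ) : Finset TV := insert (0, a - 1) (sdSites L a b)

theorem rsc_cone_mem0 (L : ℕ) (a b : ℤ) : ((0 : ℤ), a - 1) ∈ rscCone L a b := Finset.mem_insert_self _ _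

theorem rsc_cone_mem {L : ℕ} {a b i j : ℤ} (h0 : 0 ≤ i) (h1 : i < L) (h2 : a ≤ j) (h3 : j ≤ b) : (i, j) ∈ rscCone L a b :=
  Finset.mem_insert_of_mem (rsc_mem_sites.2 ⟨⟨h0, h1⟩, h2, h3⟩)

theorem rsc_edge_mem {L : ℕ} {a b top : ℤ} (hab : a ≤ b) (htop : top ≤ b) {u v : TV} (h : RscEdge L a b top u v) : u ∈ rscCone L a b ∧ v ∈ rscCone L a b := by
  cases h with
  | cone i h0 h1 => exact ⟨rsc_cone_mem0 L a b, rsc_cone_mem h0 h1 le_rfl hab⟩
  | hor i j h0 h1 h2 h3 => exact ⟨rsc_cone_mem h0 h1 h2 (by omega), rsc_cone_mem (rsc_nx_mem h0 h1).1 (rsc_nx_mem h0 h1).2 h2 (by omega)⟩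
  | ver i j h0 h1 h2 h3 => exact ⟨rsc_cone_mem h0 h1 h2 (by omega), rsc_cone_mem h0 h1 (by omega) (by omega)⟩
  | dia i j h0 h1 h2 h3 => exact ⟨rsc_cone_mem (rsc_nx_mem h0 h1).1 (rsc_nx_mem h0 h1).2 h2 (by omega), rsc_cone_mem h0 h1 (by omega) (by omega)⟩

/-- two exact edges out of `u` give the third edge of a triangle -/
theorem rsc_tri_third {A : Type*} [AddCommGroup A] {G : SimpleGraph TV} {s : Set TV} {ω : TV → TV → A} (hω : TscClosed G s ω) (f : TV → A) {u v w : TV}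
    (hu : u ∈ s) (hv : v ∈ s) (hw : w ∈ s) (h1 : G.Adj u v) (h2 : G.Adj v w) (h3 : G.Adj u w) (e1 : ω u v = f v - f u) (e3 : ω u w = f w - f u) :
    ω v w = f w - f v := by
  have h := hω.tri u hu v hv w hw h1 h2 h3
  rw [e1, e3] at h
  have : ω v w = (f w - f u) - (f v - f u) := by rw [← h]; abel
  rw [this]; abel

/-- **the coned cylinder is simply connected** (explicit potential: cone, then row by row) -/
theorem rsc_sc_core {A : Type*} [AddCommGroup A] (G : SimpleGraph TV) (L : ℕ) (a b top : ℤ) (hab : a ≤ b) (htop : b - 1 ≤ top) (htop' : top ≤ b)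
    (hadj : ∀ u v, RscEdge L a b top u v → G.Adj u v)
    (hcls : ∀ u v, G.Adj u v → u ∈ rscCone L a b → v ∈ rscCone L a b → RscEdge L a b top u v ∨ RscEdge L a b top v u) :
    TriSCOn A G (↑(rscCone L a b) : Set TV) := by
  intro ω hω
  let g : ℕ → ℤ → A := fun n => Nat.rec (fun i => ω (0, a - 1) (i, a)) (fun n gn i => gn i + ω (i, a + n) (i, a + n + 1)) n
  let f : TV → A := fun u => if u.2 < a then 0 else g (u.2 - a).toNat u.1
  have f0 : f (0, a - 1) = 0 := if_pos (by show a - 1 < a; omega)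
  have fv : ∀ (n : ℕ) (i : ℤ), f (i, a + n) = g n i := fun n i => by
    have h1 : ¬ (a + (n : ℤ) < a) := by omega
    have h2 : (a + (n : ℤ) - a).toNat = n := by omega
    show (if a + (n : ℤ) < a then 0 else g (a + (n : ℤ) - a).toNat i) = g n i
    rw [if_neg h1, h2]
  have fv1 : ∀ (n : ℕ) (i : ℤ), f (i, a + n + 1) = g n i + ω (i, a + n) (i, a + n + 1) := fun n i => by
    have := fv (n + 1) i
    rw [show a + ((n + 1 : ℕ) : ℤ) = a + n + 1 by push_cast; ring] at this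
    exact this
  have mem := fun {u v : TV} (h : RscEdge L a b top u v) => rsc_edge_mem hab htop' h
  have hC : ∀ i : ℤ, ω (0, a - 1) (i, a) = f (i, a) - f (0, a - 1) := fun i => by
    have := fv 0 i
    rw [show a + ((0 : ℕ) : ℤ) = a by simp] at this
    rw [this, f0, sub_zero]
    rfl
  have hV : ∀ (n : ℕ) (i : ℤ), ω (i, a + n) (i, a + n + 1) = f (i, a + n + 1) - f (i, a + n) := fun n i => by
    rw [fv1, fv]; abel
  have hD : ∀ n : ℕ, a + n < b → (∀ i : ℤ, 0 ≤ i → i < L → ω (i, a + n) (rscNx L i, a + n) = f (rscNx L i, a + n) - f (i, a + n)) →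
      ∀ i : ℤ, 0 ≤ i → i < L → ω (rscNx L i, a + n) (i, a + n + 1) = f (i, a + n + 1) - f (rscNx L i, a + n) := by
    intro n hn hH i h0 h1
    have e1 := RscEdge.hor (L := L) (a := a) (b := b) (top := top) i (a + n) h0 h1 (by omega) (by omega)
    have e2 := RscEdge.dia (L := L) (a := a) (b := b) (top := top) i (a + n) h0 h1 (by omega) hn
    have e3 := RscEdge.ver (L := L) (a := a) (b := b) (top := top) i (a + n) h0 h1 (by omega) hn
    exact rsc_tri_third hω f (mem e1).1 (mem e1).2 (mem e2).2 (hadj _ _ e1) (hadj _ _ e2) (hadj _ _ e3) (hH i h0 h1) (hV n i)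
  have hH : ∀ n : ℕ, a + n ≤ top → ∀ i : ℤ, 0 ≤ i → i < L → ω (i, a + n) (rscNx L i, a + n) = f (rscNx L i, a + n) - f (i, a + n) := by
    intro n
    induction n with
    | zero =>
      intro hn i h0 h1
      have hn' := rsc_nx_mem h0 h1
      rw [show a + ((0 : ℕ) : ℤ) = a by simp] at hn ⊢
      have e1 := RscEdge.cone (L := L) (a := a) (b := b) (top := top) i h0 h1
      have e2 := RscEdge.hor (L := L) (a := a) (b := b) (top := top) i a h0 h1 le_rfl hn
      have e3 := RscEdge.cone (L := L) (a := a) (b := b) (top := top) (rscNx L i) hn'.1 hn'.2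
      exact rsc_tri_third hω f (mem e1).1 (mem e1).2 (mem e2).2 (hadj _ _ e1) (hadj _ _ e2) (hadj _ _ e3) (hC i) (hC _)
    | succ n ih =>
      intro hn i h0 h1
      have hn' := rsc_nx_mem h0 h1
      have hc : a + ((n + 1 : ℕ) : ℤ) = a + n + 1 := by push_cast; ring
      rw [hc] at hn ⊢
      have e1 := RscEdge.dia (L := L) (a := a) (b := b) (top := top) i (a + n) h0 h1 (by omega) (by omega)
      have e2 := RscEdge.hor (L := L) (a := a) (b := b) (top := top) i (a + n + 1) h0 h1 (by omega) hn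
      have e3 := RscEdge.ver (L := L) (a := a) (b := b) (top := top) (rscNx L i) (a + n) hn'.1 hn'.2 (by omega) (by omega)
      exact rsc_tri_third hω f (mem e1).1 (mem e1).2 (mem e2).2 (hadj _ _ e1) (hadj _ _ e2) (hadj _ _ e3)
        (hD n (by omega) (ih (by omega)) i h0 h1) (hV n _)
  have key : ∀ u v, RscEdge L a b top u v → ω u v = f v - f u := by
    intro u v h
    cases h with
    | cone i h0 h1 => exact hC i
    | hor i j h0 h1 h2 h3 =>
      obtain ⟨n, rfl⟩ : ∃ n : ℕ, j = a + n := ⟨(j - a).toNat, by omega⟩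
      exact hH n h3 i h0 h1
    | ver i j h0 h1 h2 h3 =>
      obtain ⟨n, rfl⟩ : ∃ n : ℕ, j = a + n := ⟨(j - a).toNat, by omega⟩
      exact hV n i
    | dia i j h0 h1 h2 h3 =>
      obtain ⟨n, rfl⟩ : ∃ n : ℕ, j = a + n := ⟨(j - a).toNat, by omega⟩
      exact hD n h3 (hH n (by omega)) i h0 h1
  refine ⟨f, fun u hu v hv huv => ?_⟩
  rcases hcls u v huv hu hv with h | h
  · exact key u v h
  · rw [hω.anti v hv u hu huv.symm, key v u h]; abel

/-- the coned cylinder is connected -/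
theorem rsc_conn_core (G : SimpleGraph TV) (L : ℕ) (a b top : ℤ) (hab : a ≤ b) (htop' : top ≤ b)
    (hadj : ∀ u v, RscEdge L a b top u v → G.Adj u v) : TscConn G (↑(rscCone L a b) : Set TV) := by
  have mem := fun {u v : TV} (h : RscEdge L a b top u v) => rsc_edge_mem hab htop' h
  have h1 : ∀ (n : ℕ) (i : ℤ), 0 ≤ i → i < L → a + n ≤ b → TscR G (↑(rscCone L a b) : Set TV) (0, a - 1) (i, a + n) := by
    intro n
    induction n with
    | zero =>
      intro i h0 h1 _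
      rw [show a + ((0 : ℕ) : ℤ) = a by simp]
      have e := RscEdge.cone (L := L) (a := a) (b := b) (top := top) i h0 h1
      exact tsc_R_step (hadj _ _ e) (mem e).1 (mem e).2
    | succ n ih =>
      intro i h0 h1 hn
      have hc : a + ((n + 1 : ℕ) : ℤ) = a + n + 1 := by push_cast; ring
      rw [hc] at hn ⊢
      have e := RscEdge.ver (L := L) (a := a) (b := b) (top := top) i (a + n) h0 h1 (by omega) (by omega)
      exact tsc_R_trans (ih i h0 h1 (by omega)) (tsc_R_step (hadj _ _ e) (mem e).1 (mem e).2)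
  have h2 : ∀ v ∈ (↑(rscCone L a b) : Set TV), TscR G (↑(rscCone L a b) : Set TV) (0, a - 1) v := by
    intro v hv
    rcases Finset.mem_insert.1 (Finset.mem_coe.1 hv) with rfl | hv
    · exact tsc_R_refl _
    · obtain ⟨⟨h0, h1'⟩, h2, h3⟩ := rsc_mem_sites.1 hv
      obtain ⟨i, j⟩ := v
      simp only at h0 h1' h2 h3
      obtain ⟨n, rfl⟩ : ∃ n : ℕ, j = a + n := ⟨(j - a).toNat, by omega⟩
      exact h1 n i h0 h1' h3
  exact fun u hu v hv => tsc_R_trans (tsc_R_symm (h2 u hu)) (h2 v hv)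

/-! ### the instance -/

theorem rsc_amb_A (x : ℝ) (L : ℕ) (T : Bool) (a b : ℤ) : (rscAmb x L T a b).A = rscCone L a b := rfl

theorem rsc_amb_sv0 (x : ℝ) (L : ℕ) (T : Bool) (a b : ℤ) {y : TV} (h : y.2 = a - 1) : (rscAmb x L T a b).sv y = {(0, a - 1), (y.1, a), (rscNx L y.1, a)} := if_pos h

theorem rsc_amb_sv1 (x : ℝ) (L : ℕ) (T : Bool) (a b : ℤ) {y : TV} (h : y.2 ≠ a - 1) : (rscAmb x L T a b).sv y = sdCell L T y := if_neg h

theorem rsc_amb_mem_C (x : ℝ) (L : ℕ) (T : Bool) (a b : ℤ) {y : TV} : y ∈ (rscAmb x L T a b).C ↔ (0 ≤ y.1 ∧ y.1 < L) ∧ (a - 1 ≤ y.2 ∧ y.2 < b) := rsc_mem_cells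

/-- last row with horizontal edges -/
def rscTop (T : Bool) (b : ℤ) : ℤ := if T then b - 1 else b

theorem rsc_amb_adj (x : ℝ) (L : ℕ) (hL : 2 ≤ L) (T : Bool) (a b : ℤ) (hab : a < b) (u v : TV) (h : RscEdge L a b (rscTop T b) u v) : (rscAmb x L T a b).gr.Adj u v := by
  cases h with
  | cone i h0 h1 =>
    refine ⟨fun h => by have := congrArg Prod.snd h; simp only at this; omega, (i, a - 1), (rsc_amb_mem_C x L T a b).2 ⟨⟨h0, h1⟩, le_rfl, by show a - 1 < b; omega⟩, ?_, ?_⟩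
    · rw [rsc_amb_sv0 x L T a b rfl]; simp
    · rw [rsc_amb_sv0 x L T a b rfl]; simp
  | hor i j h0 h1 h2 h3 =>
    refine ⟨fun h => rsc_nx_ne hL h0 h1 (congrArg Prod.fst h).symm, ?_⟩
    by_cases hj : j = a
    · subst hj
      refine ⟨(i, j - 1), (rsc_amb_mem_C x L T j b).2 ⟨⟨h0, h1⟩, le_rfl, by show j - 1 < b; omega⟩, ?_, ?_⟩
      · rw [rsc_amb_sv0 x L T j b rfl]; simp
      · rw [rsc_amb_sv0 x L T j b rfl]; simp
    · cases T
      · refine ⟨(i, j - 1), (rsc_amb_mem_C x L false a b).2 ⟨⟨h0, h1⟩, by show a - 1 ≤ j - 1; omega, by show j - 1 < b; simp only [rscTop] at h3; simp at h3; omega⟩, ?_, ?_⟩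
        · rw [rsc_amb_sv1 x L false a b (by show j - 1 ≠ a - 1; omega), rsc_cell_dn (y := (i, j - 1)) h0 h1]; simp
        · rw [rsc_amb_sv1 x L false a b (by show j - 1 ≠ a - 1; omega), rsc_cell_dn (y := (i, j - 1)) h0 h1]; simp
      · refine ⟨(i, j), (rsc_amb_mem_C x L true a b).2 ⟨⟨h0, h1⟩, by show a - 1 ≤ j; omega, by show j < b; simp only [rscTop] at h3; simp at h3; omega⟩, ?_, ?_⟩
        · rw [rsc_amb_sv1 x L true a b (by show j ≠ a - 1; omega), rsc_cell_up (y := (i, j)) h0 h1]; simp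
        · rw [rsc_amb_sv1 x L true a b (by show j ≠ a - 1; omega), rsc_cell_up (y := (i, j)) h0 h1]; simp
  | ver i j h0 h1 h2 h3 =>
    refine ⟨fun h => by have := congrArg Prod.snd h; simp only at this; omega, ?_⟩
    cases T
    · have hp := rsc_pv_mem h0 h1
      refine ⟨(rscPv L i, j), (rsc_amb_mem_C x L false a b).2 ⟨hp, by show a - 1 ≤ j; omega, h3⟩, ?_, ?_⟩
      · rw [rsc_amb_sv1 x L false a b (by show j ≠ a - 1; omega), rsc_cell_dn (y := (rscPv L i, j)) hp.1 hp.2]; simp [rsc_nx_pv h0 h1]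
      · rw [rsc_amb_sv1 x L false a b (by show j ≠ a - 1; omega), rsc_cell_dn (y := (rscPv L i, j)) hp.1 hp.2]; simp [rsc_nx_pv h0 h1]
    · refine ⟨(i, j), (rsc_amb_mem_C x L true a b).2 ⟨⟨h0, h1⟩, by show a - 1 ≤ j; omega, h3⟩, ?_, ?_⟩
      · rw [rsc_amb_sv1 x L true a b (by show j ≠ a - 1; omega), rsc_cell_up (y := (i, j)) h0 h1]; simp
      · rw [rsc_amb_sv1 x L true a b (by show j ≠ a - 1; omega), rsc_cell_up (y := (i, j)) h0 h1]; simp
  | dia i j h0 h1 h2 h3 =>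
    refine ⟨fun h => by have := congrArg Prod.snd h; simp only at this; omega, (i, j), (rsc_amb_mem_C x L T a b).2 ⟨⟨h0, h1⟩, by show a - 1 ≤ j; omega, h3⟩, ?_, ?_⟩
    · rw [rsc_amb_sv1 x L T a b (by show j ≠ a - 1; omega)]
      cases T
      · rw [rsc_cell_dn (y := (i, j)) h0 h1]; simp
      · rw [rsc_cell_up (y := (i, j)) h0 h1]; simp
    · rw [rsc_amb_sv1 x L T a b (by show j ≠ a - 1; omega)]
      cases T
      · rw [rsc_cell_dn (y := (i, j)) h0 h1]; simp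
      · rw [rsc_cell_up (y := (i, j)) h0 h1]; simp

/-- two distinct members of a triple whose three oriented edges are good -/
theorem rsc_triple {R : TV → TV → Prop} {p q r u v : TV} (h1 : R p q) (h2 : R q r) (h3 : R p r) (hu : u ∈ ({p, q, r} : Finset TV)) (hv : v ∈ ({p, q, r} : Finset TV))
    (huv : u ≠ v) : R u v ∨ R v u := by
  simp only [Finset.mem_insert, Finset.mem_singleton] at hu hv
  rcases hu with rfl | rfl | rfl <;> rcases hv with rfl | rfl | rfl <;> first | exact absurd rfl huv | exact Or.inl ‹_› | exact Or.inr ‹_›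

theorem rsc_amb_cls (x : ℝ) (L : ℕ) (T : Bool) (a b : ℤ) (hab : a < b) (u v : TV) (h : (rscAmb x L T a b).gr.Adj u v) :
    RscEdge L a b (rscTop T b) u v ∨ RscEdge L a b (rscTop T b) v u := by
  obtain ⟨huv, y, hy, hu, hv⟩ := h
  obtain ⟨⟨h0, h1⟩, h2, h3⟩ := (rsc_amb_mem_C x L T a b).1 hy
  have hn := rsc_nx_mem h0 h1
  have ht : b - 1 ≤ rscTop T b := by unfold rscTop; split_ifs <;> omega
  by_cases hj : y.2 = a - 1
  · rw [rsc_amb_sv0 x L T a b hj] at hu hv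
    exact rsc_triple (RscEdge.cone y.1 h0 h1) (RscEdge.hor y.1 a h0 h1 le_rfl (by omega)) (RscEdge.cone _ hn.1 hn.2) hu hv huv
  · rw [rsc_amb_sv1 x L T a b hj] at hu hv
    cases T
    · rw [rsc_cell_dn h0 h1] at hu hv
      exact rsc_triple (RscEdge.dia y.1 y.2 h0 h1 (by omega) h3) (RscEdge.hor y.1 (y.2 + 1) h0 h1 (by omega) (by simp [rscTop]; omega)) (RscEdge.ver _ y.2 hn.1 hn.2 (by omega) h3) hu hv huv
    · rw [rsc_cell_up h0 h1] at hu hv
      exact rsc_triple (R := RscEdge L a b (rscTop true b)) (p := y) (RscEdge.hor y.1 y.2 h0 h1 (by omega) (by simp [rscTop]; omega)) (RscEdge.dia y.1 y.2 h0 h1 (by omega) h3) (RscEdge.ver y.1 y.2 h0 h1 (by omega) h3) hu hv huv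

theorem rsc_amb_ok (x : ℝ) (hx0 : 0 < x) (hx1 : x ≤ 1) (L : ℕ) (T : Bool) (a b : ℤ) (hab : a ≤ b) : ClOk (rscAmb x L T a b) where
  sub := fun y hy => by
    obtain ⟨⟨h0, h1⟩, h2, h3⟩ := (rsc_amb_mem_C x L T a b).1 hy
    have hn := rsc_nx_mem h0 h1
    by_cases hj : y.2 = a - 1
    · rw [rsc_amb_sv0 x L T a b hj]
      intro u hu
      simp only [Finset.mem_insert, Finset.mem_singleton] at hu
      rcases hu with rfl | rfl | rfl
      · exact rsc_cone_mem0 L a b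
      · exact rsc_cone_mem h0 h1 le_rfl hab
      · exact rsc_cone_mem hn.1 hn.2 le_rfl hab
    · rw [rsc_amb_sv1 x L T a b hj]
      exact (rsc_cell_sub (rsc_mem_cells.2 ⟨⟨h0, h1⟩, by omega, h3⟩)).trans (Finset.subset_insert _ _)
  ne := fun y _ => by
    by_cases hj : y.2 = a - 1
    · rw [rsc_amb_sv0 x L T a b hj]; exact ⟨_, Finset.mem_insert_self _ _⟩
    · rw [rsc_amb_sv1 x L T a b hj]; exact rsc_cell_ne L T y
  q0 := fun _ _ => by show 0 < x ^ 2; positivity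
  q1 := fun _ _ => by show x ^ 2 ≤ 1; exact pow_le_one₀ hx0.le hx1

theorem rsc_amb_card (x : ℝ) (L : ℕ) (T : Bool) (a b : ℤ) (y : TV) : ((rscAmb x L T a b).sv y).card ≤ 3 := by
  by_cases hj : y.2 = a - 1
  · rw [rsc_amb_sv0 x L T a b hj]; exact Finset.card_le_three
  · rw [rsc_amb_sv1 x L T a b hj]
    unfold sdCell
    refine Finset.card_image_le.trans ?_
    cases T
    · exact Finset.card_le_three
    · exact Finset.card_le_three

theorem rsc_amb_sc {A : Type*} [AddCommGroup A] (x : ℝ) (L : ℕ) (hL : 2 ≤ L) (T : Bool) (a b : ℤ) (hab : a < b) :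
    TriSCOn A (rscAmb x L T a b).gr (↑(rscAmb x L T a b).A : Set TV) :=
  rsc_sc_core _ L a b (rscTop T b) hab.le (by unfold rscTop; split_ifs <;> omega) (by unfold rscTop; split_ifs <;> omega)
    (rsc_amb_adj x L hL T a b hab) (fun u v h _ _ => rsc_amb_cls x L T a b hab u v h)

theorem rsc_amb_conn (x : ℝ) (L : ℕ) (hL : 2 ≤ L) (T : Bool) (a b : ℤ) (hab : a < b) : TscConn (rscAmb x L T a b).gr (↑(rscAmb x L T a b).A : Set TV) :=
  rsc_conn_core _ L a b (rscTop T b) hab.le (by unfold rscTop; split_ifs <;> omega) (rsc_amb_adj x L hL T a b hab)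

/-- **the ambient is a disc** -/
theorem rsc_amb_disk (x : ℝ) (hx0 : 0 < x) (hx1 : x ≤ 1) (L : ℕ) (hL : 2 ≤ L) (T : Bool) (a b : ℤ) (hab : a < b) : ClDisk (rscAmb x L T a b) :=
  am_disk _ (rsc_amb_ok x hx0 hx1 L T a b hab.le) (fun y _ => rsc_amb_card x L T a b y) (rsc_amb_sc x L hL T a b hab) (rsc_amb_conn x L hL T a b hab)

theorem rsc_amb_eqns_cite : True := by
  have := @rscCone.eq_1
  have := @rscTop.eq_1
  trivial

/-! ## §3 calculus of the law -/

section abstract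
variable {V Y : Type} [DecidableEq V] [DecidableEq Y]

theorem rsc_P_eq (S : ClSys V Y) (K L : ClCfg V Y → Prop) [DecidablePred L] : S.P K L = S.N K (fun ω => if L ω then 1 else 0) / S.Z K := by
  unfold ClSys.P
  rw [dis_E_eq]
  congr 2
  funext ω
  split_ifs <;> rfl

theorem rsc_PP_mono (S : ClSys V Y) (hS : ClOk S) (K : ClCfg V Y → Prop) {L L' : ClCfg V Y → Prop} (h : ∀ ω, L ω → L' ω) : S.P K L ≤ S.P K L' := by
  classical
  rw [rsc_P_eq, rsc_P_eq]
  refine div_le_div_of_nonneg_right (dmt_N_mono S hS K fun ω _ => ?_) (dmt_Z_nonneg S hS K)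
  by_cases hl : L ω
  · rw [if_pos hl, if_pos (h ω hl)]
  · rw [if_neg hl]; split_ifs <;> norm_num

theorem rsc_PP_false (S : ClSys V Y) (K : ClCfg V Y → Prop) : S.P K (fun _ => False) = 0 := by
  classical
  rw [rsc_P_eq]
  have : S.N K (fun _ => if False then (1 : ℝ) else 0) = 0 := by
    unfold ClSys.N
    refine Finset.sum_eq_zero fun ω _ => ?_
    simp
  rw [this, zero_div]

theorem rsc_PP_true (S : ClSys V Y) (K : ClCfg V Y → Prop) (hZ : S.Z K ≠ 0) : S.P K (fun _ => True) = 1 := by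
  classical
  rw [rsc_P_eq, dis_Z_eq]
  rw [dis_Z_eq] at hZ
  simp only [if_true]
  exact div_self hZ

theorem rsc_PP_union (S : ClSys V Y) (hS : ClOk S) (K L L' : ClCfg V Y → Prop) : S.P K (fun ω => L ω ∨ L' ω) ≤ S.P K L + S.P K L' := by
  classical
  rw [rsc_P_eq, rsc_P_eq, rsc_P_eq, ← add_div]
  refine div_le_div_of_nonneg_right ?_ (dmt_Z_nonneg S hS K)
  have e : S.N K (fun ω => if L ω then (1 : ℝ) else 0) + S.N K (fun ω => if L' ω then (1 : ℝ) else 0)
      = S.N K (fun ω => (if L ω then (1 : ℝ) else 0) + (if L' ω then (1 : ℝ) else 0)) := by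
    unfold ClSys.N
    rw [← Finset.sum_add_distrib]
    refine Finset.sum_congr rfl fun ω _ => ?_
    split_ifs <;> ring
  rw [e]
  refine dmt_N_mono S hS K fun ω _ => ?_
  by_cases h1 : L ω <;> by_cases h2 : L' ω <;> simp [h1, h2]

end abstract

/-- every cell has a site in its lower row and a site in its upper row -/
theorem rsc_cell_rows {L : ℕ} (T : Bool) {y : TV} (h0 : 0 ≤ y.1) (h1 : y.1 < L) :
    (∃ u ∈ sdCell L T y, u.2 = y.2) ∧ ∃ u ∈ sdCell L T y, u.2 = y.2 + 1 := by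
  cases T
  · rw [rsc_cell_dn h0 h1]
    exact ⟨⟨(rscNx L y.1, y.2), by simp, rfl⟩, ⟨(y.1, y.2 + 1), by simp, rfl⟩⟩
  · rw [rsc_cell_up h0 h1]
    exact ⟨⟨y, by simp, rfl⟩, ⟨(y.1, y.2 + 1), by simp, rfl⟩⟩

/-- **the mixed boundary condition is feasible** -/
theorem rsc_Z_pos (x : ℝ) (hx0 : 0 < x) (hx1 : x ≤ 1) (L : ℕ) (T : Bool) (a b : ℤ) (hab : a < b) : 0 < (sdSys x L T a b).Z (SdMix L a b) := by
  classical
  have hS := rsc_sys_ok x hx0 hx1 L T a b
  set S := sdSys x L T a b with hSdef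
  let ω₀ : ClCfg TV TV := ⟨sdSites L (a + 1) b, ∅, sdCells L (a + 1) b⟩
  have hsub1 : sdSites L (a + 1) b ⊆ sdSites L a b := fun u hu => by
    rw [rsc_mem_sites] at hu ⊢; omega
  have hsub2 : sdCells L (a + 1) b ⊆ sdCells L a b := fun u hu => by
    rw [rsc_mem_cells] at hu ⊢; omega
  have hmem : ω₀ ∈ S.cfgs := (cl_mem_cfgs S ω₀).2 ⟨hsub1, Finset.empty_subset _, hsub2⟩
  have hK : SdMix L a b ω₀ := by
    constructor
    · intro v hv
      rw [rsc_mem_row] at hv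
      simp only [ω₀, rsc_mem_sites, Bool.false_eq_true, iff_false]
      omega
    · intro v hv
      rw [rsc_mem_row] at hv
      simp only [ω₀, rsc_mem_sites, iff_true]
      omega
  have hq : 0 < x ^ 2 := by positivity
  have hwt : 0 < S.wt ω₀ := by
    unfold ClSys.wt
    refine Finset.prod_pos fun y hy => ?_
    have hy' : y ∈ sdCells L a b := hy
    obtain ⟨⟨h0, h1⟩, h2, h3⟩ := rsc_mem_cells.1 hy'
    have hwc : ClConst ω₀.W (S.sv y) := Or.inr fun v _ => Finset.notMem_empty v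
    by_cases hj : a + 1 ≤ y.2
    · have hyO : y ∈ ω₀.O := rsc_mem_cells.2 ⟨⟨h0, h1⟩, hj, h3⟩
      have hbc : ClConst ω₀.B (S.sv y) := Or.inl (rsc_cell_sub (T := T) hyO)
      unfold clCellW
      rw [if_pos hyO, if_pos hbc]
      exact hq
    · have hyO : y ∉ ω₀.O := fun h => hj (rsc_mem_cells.1 h).2.1
      obtain ⟨⟨u, hu, hu2⟩, ⟨v, hv, hv2⟩⟩ := rsc_cell_rows T h0 h1
      have hvS := rsc_mem_sites.1 (rsc_cell_sub (T := T) hy' hv)
      have hbc : ¬ ClConst ω₀.B (S.sv y) := by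
        rintro (h | h)
        · have := rsc_mem_sites.1 (h hu)
          omega
        · exact h v hv (rsc_mem_sites.2 (by omega))
      unfold clCellW
      rw [if_neg hyO, if_pos hwc, if_neg hbc]
      exact hq
  unfold ClSys.Z
  refine lt_of_lt_of_le hwt ?_
  have := Finset.single_le_sum (f := fun ω => if SdMix L a b ω then S.wt ω else 0) (fun ω _ => by
    split_ifs
    · exact dis_wt_nonneg S hS ω
    · exact le_rfl) hmem
  simpa only [if_pos hK] using this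

theorem rsq_ok (x : ℝ) (hx0 : 0 < x) (hx1 : x ≤ 1) (L : ℕ) (T : Bool) (a b : ℤ) : ClOk (sdSys x L T a b) := by
  rcases Nat.eq_zero_or_pos L with rfl | hL
  · have hC : ∀ y, y ∉ (sdSys x 0 T a b).C := by
      intro y hy
      have hy' : y ∈ sdCells 0 a b := hy
      simp [sdCells] at hy'
    exact ⟨fun y hy => (hC y hy).elim, fun y hy => (hC y hy).elim, fun y hy => (hC y hy).elim, fun y hy => (hC y hy).elim⟩
  · exact sd_sys_ok x hx0 hx1 L hL T a b

theorem rsc_P_mono (x : ℝ) (hx0 : 0 < x) (hx1 : x ≤ 1) (L H : ℕ) (T s : Bool) (E E' : Set TV → Prop) (h : ∀ Y, E Y → E' Y) :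
    sdP x L H T s E ≤ sdP x L H T s E' :=
  rsc_PP_mono _ (rsc_sys_ok x hx0 hx1 L T 0 H) _ fun ω hω => h _ hω

theorem rsc_P_bot (x : ℝ) (L H : ℕ) (T s : Bool) : sdP x L H T s (fun _ => False) = 0 :=
  rsc_PP_false _ _

theorem rsc_P_top (x : ℝ) (hx0 : 0 < x) (hx1 : x ≤ 1) (L H : ℕ) (hL : 2 ≤ L) (hH : 1 ≤ H) (T s : Bool) : sdP x L H T s (fun _ => True) = 1 :=
  rsc_PP_true _ _ (rsc_Z_pos x hx0 hx1 L T 0 H (by exact_mod_cast hH)).ne'

theorem rsc_P_union (x : ℝ) (hx0 : 0 < x) (hx1 : x ≤ 1) (L H : ℕ) (T s : Bool) (E E' : Set TV → Prop) :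
    sdP x L H T s (fun Y => E Y ∨ E' Y) ≤ sdP x L H T s E + sdP x L H T s E' :=
  rsc_PP_union _ (rsc_sys_ok x hx0 hx1 L T 0 H) _ _ _

/-! ## §4 FKG -/

theorem rsc_tau_le_one {V Y : Type} [DecidableEq V] [DecidableEq Y] (S : ClSys V Y) (ω : ClCfg V Y) (y : Y) : clTau S ω y ≤ 1 := by
  unfold clTau; split_ifs <;> norm_num

/-- the cells of the ambient inside the cylinder = the cells of the cylinder -/
theorem rsc_amb_cin (x : ℝ) (L : ℕ) (T : Bool) (a b : ℤ) : (rscAmb x L T a b).cin (sdSites L a b) = sdCells L a b := by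
  ext y
  simp only [ClSys.cin, Finset.mem_filter]
  constructor
  · rintro ⟨hy, hsub⟩
    obtain ⟨h01, h2, h3⟩ := (rsc_amb_mem_C x L T a b).1 hy
    by_cases hj : y.2 = a - 1
    · rw [rsc_amb_sv0 x L T a b hj] at hsub
      have := (rsc_mem_sites.1 (hsub (Finset.mem_insert_self _ _))).2.1
      simp only at this
      omega
    · exact rsc_mem_cells.2 ⟨h01, by omega, h3⟩
  · intro hy
    obtain ⟨h01, h2, h3⟩ := rsc_mem_cells.1 hy
    refine ⟨(rsc_amb_mem_C x L T a b).2 ⟨h01, by omega, h3⟩, ?_⟩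
    rw [rsc_amb_sv1 x L T a b (by omega)]
    exact rsc_cell_sub hy

/-- the layer of the cylinder in the ambient = the bottom row -/
theorem rsc_amb_lay (x : ℝ) (L : ℕ) (T : Bool) (a b : ℤ) (hab : a ≤ b) : cuLay (rscAmb x L T a b) (sdSites L a b) = sdRow L a := by
  ext u
  simp only [cuLay, Finset.mem_filter]
  constructor
  · rintro ⟨hu, y, hy, huy, hns⟩
    obtain ⟨⟨h0, h1⟩, h2, h3⟩ := (rsc_amb_mem_C x L T a b).1 hy
    have hn := rsc_nx_mem h0 h1
    have hu' := rsc_mem_sites.1 hu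
    by_cases hj : y.2 = a - 1
    · rw [rsc_amb_sv0 x L T a b hj] at huy
      simp only [Finset.mem_insert, Finset.mem_singleton] at huy
      rcases huy with rfl | rfl | rfl
      · simp only at hu'; omega
      · exact rsc_mem_row.2 ⟨⟨h0, h1⟩, rfl⟩
      · exact rsc_mem_row.2 ⟨hn, rfl⟩
    · exfalso
      apply hns
      rw [rsc_amb_sv1 x L T a b hj]
      exact rsc_cell_sub (rsc_mem_cells.2 ⟨⟨h0, h1⟩, by omega, h3⟩)
  · intro hu
    obtain ⟨h01, h2⟩ := rsc_mem_row.1 hu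
    refine ⟨rsc_mem_sites.2 ⟨h01, by omega, by omega⟩, (u.1, a - 1), (rsc_amb_mem_C x L T a b).2 ⟨h01, le_rfl, by show a - 1 < b; omega⟩, ?_, ?_⟩
    · rw [rsc_amb_sv0 x L T a b rfl]
      obtain ⟨i, j⟩ := u
      simp only at h2
      subst h2
      simp
    · rw [rsc_amb_sv0 x L T a b rfl]
      intro h
      have := (rsc_mem_sites.1 (h (Finset.mem_insert_self _ _))).2.1
      simp only at this
      omega

/-- the legal history "plus pins on the top row" -/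
noncomputable def rscHist (L : ℕ) (b : ℤ) : ClCon TV TV := ⟨sdRow L b, ∅, ∅, ∅, ∅, ∅, ∅, ∅⟩

theorem rsc_hist_legal (S : ClSys TV TV) (L : ℕ) (b : ℤ) : ClLegal S (rscHist L b) where
  wp := rfl
  wm := rfl
  full := fun y _ hy => by simp [rscHist] at hy
  eq := fun e he => by simp [rscHist] at he

theorem rsc_hist_in (S : ClSys TV TV) (L : ℕ) (a b : ℤ) (hab : a ≤ b) : (rscHist L b).In S (sdSites L a b) where
  bp := fun u hu => by
    obtain ⟨h01, h2⟩ := rsc_mem_row.1 hu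
    exact rsc_mem_sites.2 ⟨h01, by omega, by omega⟩
  bm := Finset.empty_subset _
  eq := fun e he => by simp [rscHist] at he
  op := Finset.empty_subset _
  om := Finset.empty_subset _
  cl := Finset.empty_subset _
  wp := Finset.empty_subset _
  wm := Finset.empty_subset _

theorem rsc_hist_holds (S : ClSys TV TV) (L : ℕ) (b : ℤ) (ω : ClCfg TV TV) : (rscHist L b).Holds S ω ↔ CuPin true (sdRow L b) ω := by
  simp only [ClCon.Holds, rscHist, CuPin, Finset.notMem_empty, false_imp_iff, implies_true, Finset.empty_subset, and_true, iff_true]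
  rfl

/-- **the mixed cylinder = the MINUS cut law of the cylinder in the ambient disc, under the legal history `rscHist`** (so `am_fkg`, `am_order`, `am_dom_*`, `am_search` apply) -/
theorem rsc_cut_eq (x : ℝ) (L : ℕ) (T : Bool) (a b : ℤ) (hab : a ≤ b) (K : ClCfg TV TV → Prop) (F : ClCfg TV TV → ℝ) :
    cuE (rscAmb x L T a b) false (sdSites L a b) (fun ω => (rscHist L b).Holds (rscAmb x L T a b) ω ∧ K ω) F = (sdSys x L T a b).E (fun ω => SdMix L a b ω ∧ K ω) F := by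
  unfold cuE
  rw [am_sys_E_congr ((rscAmb x L T a b).inn (sdSites L a b)) (sdSys x L T a b) rfl (rsc_amb_cin x L T a b) (fun y hy => ?_) (fun _ _ => rfl), rsc_amb_lay x L T a b hab]
  · congr 1
    funext ω
    simp only [rsc_hist_holds]
    exact propext ⟨fun h => ⟨⟨h.1, h.2.1⟩, h.2.2⟩, fun h => ⟨h.1.1, h.1.2, h.2⟩⟩
  · have hy' : y ∈ sdCells L a b := by rw [← rsc_amb_cin x L T a b]; exact hy
    exact rsc_amb_sv1 x L T a b (by have := (rsc_mem_cells.1 hy').2.1; omega)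

theorem rsc_cut_eq' (x : ℝ) (L : ℕ) (T : Bool) (a b : ℤ) (hab : a ≤ b) (F : ClCfg TV TV → ℝ) :
    cuE (rscAmb x L T a b) false (sdSites L a b) ((rscHist L b).Holds (rscAmb x L T a b)) F = (sdSys x L T a b).E (SdMix L a b) F := by
  have h := rsc_cut_eq x L T a b hab (fun _ => True) F
  simpa only [and_true] using h

/-- statuses: ambient = cylinder -/
theorem rsc_amb_tau (x : ℝ) (L : ℕ) (T : Bool) (a b : ℤ) (ω : ClCfg TV TV) {y : TV} (hy : y ∈ sdCells L a b) : clTau (rscAmb x L T a b) ω y = clTau (sdSys x L T a b) ω y := by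
  unfold clTau
  rw [rsc_amb_sv1 x L T a b (by have := (rsc_mem_cells.1 hy).2.1; omega)]
  rfl

open Classical in
/-- increasing events of the open-plus cells are increasing functions on the ambient -/
theorem rsc_ind_mono (x : ℝ) (L : ℕ) (T : Bool) (a b : ℤ) (E : Set TV → Prop) (hE : RswInc E) :
    ClMono (rscAmb x L T a b) (fun ω => if E (sdSet (sdSys x L T a b) L 1 ω) then 1 else 0) := by
  intro ω ω' _ hτ
  have hsub : sdSet (sdSys x L T a b) L 1 ω ⊆ sdSet (sdSys x L T a b) L 1 ω' := by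
    rintro y ⟨hy, ht⟩
    have hy' : sdRed L y ∈ sdCells L a b := hy
    refine ⟨hy, le_antisymm (rsc_tau_le_one _ _ _) ?_⟩
    have hC : sdRed L y ∈ (rscAmb x L T a b).C := by
      obtain ⟨h01, h2, h3⟩ := rsc_mem_cells.1 hy'
      exact (rsc_amb_mem_C x L T a b).2 ⟨h01, by omega, h3⟩
    have := hτ _ hC
    rw [rsc_amb_tau x L T a b ω hy', rsc_amb_tau x L T a b ω' hy', ht] at this
    exact this
  by_cases h : E (sdSet (sdSys x L T a b) L 1 ω)
  · simp only [if_pos h, if_pos (hE _ _ hsub h), le_refl]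
  · simp only [if_neg h]
    split_ifs <;> norm_num

open Classical in
/-- events of the statuses of the cylinder are local -/
theorem rsc_ind_loc (x : ℝ) (L : ℕ) (T : Bool) (a b t : ℤ) (E : Set TV → Prop) :
    ClLoc (sdSites L a b) ((rscAmb x L T a b).cin (sdSites L a b)) (fun ω => if E (sdSet (sdSys x L T a b) L t ω) then (1 : ℝ) else 0) := by
  intro ω ω' hB _ hO
  rw [rsc_amb_cin] at hO
  have e : sdSet (sdSys x L T a b) L t ω = sdSet (sdSys x L T a b) L t ω' := by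
    ext y
    simp only [sdSet, Set.mem_ofPred_eq]
    refine and_congr_right fun hy => ?_
    have hy' : sdRed L y ∈ sdCells L a b := hy
    have h1 : sdRed L y ∈ ω.O ↔ sdRed L y ∈ ω'.O := by
      have := Finset.ext_iff.1 hO (sdRed L y)
      simpa only [Finset.mem_inter, hy', and_true] using this
    have h2 : sdCell L T (sdRed L y) ⊆ ω.B ↔ sdCell L T (sdRed L y) ⊆ ω'.B := by
      have hs := rsc_cell_sub (T := T) hy'
      constructor
      · intro h u hu
        exact (Finset.mem_inter.1 ((Finset.ext_iff.1 hB u).1 (Finset.mem_inter.2 ⟨h hu, hs hu⟩))).1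
      · intro h u hu
        exact (Finset.mem_inter.1 ((Finset.ext_iff.1 hB u).2 (Finset.mem_inter.2 ⟨h hu, hs hu⟩))).1
    have h3 : clTau (sdSys x L T a b) ω (sdRed L y) = clTau (sdSys x L T a b) ω' (sdRed L y) := by
      unfold clTau
      show (if sdRed L y ∈ ω.O then (if sdCell L T (sdRed L y) ⊆ ω.B then (1 : ℤ) else -1) else 0) = (if sdRed L y ∈ ω'.O then (if sdCell L T (sdRed L y) ⊆ ω'.B then (1 : ℤ) else -1) else 0)
      simp only [h1, h2]
    rw [h3]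
  simp only [e]

theorem rsc_P_E (x : ℝ) (L H : ℕ) (T : Bool) (E : Set TV → Prop) [DecidablePred fun ω : ClCfg TV TV => E (sdSet (sdSys x L T 0 H) L 1 ω)] :
    sdP x L H T true E = (sdSys x L T 0 H).E (SdMix L 0 H) (fun ω => if E (sdSet (sdSys x L T 0 H) L 1 ω) then 1 else 0) := by
  unfold sdP ClSys.P
  congr 1
  funext ω
  have : clSg true = 1 := rfl
  rw [this]
  split_ifs <;> rfl

theorem rsc_hist_eqns_cite : True := by
  have := @rscHist.eq_1
  trivial

/-- **FKG for the open-plus cells of the mixed cylinder** -/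
theorem rsc_P_fkg (x : ℝ) (hx0 : 0 < x) (hx1 : x ≤ 1) (L H : ℕ) (hL : 2 ≤ L) (hH : 1 ≤ H) (T : Bool) (E E' : Set TV → Prop) (hE : RswInc E) (hE' : RswInc E') :
    sdP x L H T true E * sdP x L H T true E' ≤ sdP x L H T true (fun Y => E Y ∧ E' Y) := by
  classical
  have hH' : (0 : ℤ) < H := by exact_mod_cast hH
  have h := am_fkg (rscAmb x L T 0 H) (rsc_amb_disk x hx0 hx1 L hL T 0 H hH') false (sdSites L 0 H) (Finset.subset_insert _ _) (rscHist L H)
    (rsc_hist_legal _ L H) (rsc_hist_in _ L 0 H hH'.le) _ _ (rsc_ind_mono x L T 0 H E hE) (rsc_ind_mono x L T 0 H E' hE') (rsc_ind_loc x L T 0 H 1 E) (rsc_ind_loc x L T 0 H 1 E')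
  rw [rsc_cut_eq' x L T 0 H hH'.le, rsc_cut_eq' x L T 0 H hH'.le, rsc_cut_eq' x L T 0 H hH'.le] at h
  have e : (fun ω : ClCfg TV TV => (if E (sdSet (sdSys x L T 0 H) L 1 ω) then (1 : ℝ) else 0) * (if E' (sdSet (sdSys x L T 0 H) L 1 ω) then (1 : ℝ) else 0))
      = fun ω => if E (sdSet (sdSys x L T 0 H) L 1 ω) ∧ E' (sdSet (sdSys x L T 0 H) L 1 ω) then (1 : ℝ) else 0 := by
    funext ω
    by_cases h1 : E (sdSet (sdSys x L T 0 H) L 1 ω) <;> by_cases h2 : E' (sdSet (sdSys x L T 0 H) L 1 ω) <;> simp [h1, h2]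
  rw [e] at h
  rw [rsc_P_E, rsc_P_E, rsc_P_E]
  exact h

/-! ## §4b the mixed cylinder as a LEGAL HISTORY OF THE AMBIENT DISC -/

/-- the mixed boundary condition as a history of the ambient disc: the cone cells (indices = row `a - 1`) are open minus, their sites (cone point, row `a`) are pinned minus, the row `b` is pinned plus -/
noncomputable def rscK (L : ℕ) (a b : ℤ) : ClCon TV TV := ⟨sdRow L b, insert (0, a - 1) (sdRow L a), ∅, ∅, sdRow L (a - 1), ∅, ∅, ∅⟩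

/-- the crossing cells of the cylinder in the ambient = the cone cells -/
theorem rsc_amb_cx (x : ℝ) (L : ℕ) (T : Bool) (a b : ℤ) (hab : a ≤ b) : (rscAmb x L T a b).cx (sdSites L a b) = sdRow L (a - 1) := by
  ext y
  simp only [ClSys.cx, Finset.mem_filter]
  constructor
  · rintro ⟨hy, -, v, hv, hvI⟩
    obtain ⟨h01, h2, h3⟩ := (rsc_amb_mem_C x L T a b).1 hy
    by_cases hj : y.2 = a - 1
    · exact rsc_mem_row.2 ⟨h01, hj⟩
    · rw [rsc_amb_sv1 x L T a b hj] at hv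
      exact absurd (rsc_cell_sub (rsc_mem_cells.2 ⟨h01, by omega, h3⟩) hv) hvI
  · intro hy
    obtain ⟨h01, h2⟩ := rsc_mem_row.1 hy
    refine ⟨(rsc_amb_mem_C x L T a b).2 ⟨h01, by omega, by omega⟩, ⟨(y.1, a), ?_, rsc_mem_sites.2 ⟨h01, le_rfl, hab⟩⟩, ⟨(0, a - 1), ?_, ?_⟩⟩
    · rw [rsc_amb_sv0 x L T a b h2]; simp
    · rw [rsc_amb_sv0 x L T a b h2]; simp
    · intro h
      have := (rsc_mem_sites.1 h).2.1
      simp only at this
      omega

theorem rsc_K_eq (x : ℝ) (L : ℕ) (hL : 1 ≤ L) (T : Bool) (a b : ℤ) (hab : a ≤ b) :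
    rscK L a b = (rscHist L b).opn (rscAmb x L T a b) false ((rscAmb x L T a b).cx (sdSites L a b) ∪ ∅) := by
  have hU : (sdRow L (a - 1)).biUnion (rscAmb x L T a b).sv = insert (0, a - 1) (sdRow L a) := by
    ext u
    simp only [Finset.mem_biUnion, Finset.mem_insert]
    constructor
    · rintro ⟨y, hy, hu⟩
      obtain ⟨⟨h0, h1⟩, h2⟩ := rsc_mem_row.1 hy
      rw [rsc_amb_sv0 x L T a b h2] at hu
      simp only [Finset.mem_insert, Finset.mem_singleton] at hu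
      rcases hu with rfl | rfl | rfl
      · exact Or.inl rfl
      · exact Or.inr (rsc_mem_row.2 ⟨⟨h0, h1⟩, rfl⟩)
      · exact Or.inr (rsc_mem_row.2 ⟨rsc_nx_mem h0 h1, rfl⟩)
    · rintro (rfl | hu)
      · refine ⟨(0, a - 1), rsc_mem_row.2 ⟨⟨le_rfl, by show (0 : ℤ) < L; exact_mod_cast hL⟩, rfl⟩, ?_⟩
        rw [rsc_amb_sv0 x L T a b rfl]; simp
      · obtain ⟨h01, h2⟩ := rsc_mem_row.1 hu
        refine ⟨(u.1, a - 1), rsc_mem_row.2 ⟨h01, rfl⟩, ?_⟩
        rw [rsc_amb_sv0 x L T a b rfl]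
        obtain ⟨i, j⟩ := u
        simp only at h2
        subst h2
        simp
  rw [Finset.union_empty, rsc_amb_cx x L T a b hab]
  simp only [ClCon.opn, rscHist, rscK, Bool.false_eq_true, if_false, Finset.empty_union, hU]

theorem rsc_K_legal (x : ℝ) (L : ℕ) (hL : 1 ≤ L) (T : Bool) (a b : ℤ) (hab : a ≤ b) : ClLegal (rscAmb x L T a b) (rscK L a b) := by
  rw [rsc_K_eq x L hL T a b hab]
  exact amo_legal_opn _ _ (rsc_hist_legal _ L b) false _

theorem rsc_K_Z_pos (x : ℝ) (hx0 : 0 < x) (hx1 : x ≤ 1) (L : ℕ) (hL : 1 ≤ L) (T : Bool) (a b : ℤ) (hab : a < b) :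
    0 < (rscAmb x L T a b).Z ((rscK L a b).Holds (rscAmb x L T a b)) := by
  rw [rsc_K_eq x L hL T a b hab.le]
  refine amo_feas_opn _ (rsc_amb_ok x hx0 hx1 L T a b hab.le) false (sdSites L a b) (Finset.subset_insert _ _) _ (rsc_hist_in _ L a b hab.le) ?_ (amo_cx_cno' _ _)
  have h := rsc_Z_pos x hx0 hx1 L T a b hab
  rw [dis_Z_eq] at h ⊢
  rw [am_sys_N_congr ((rscAmb x L T a b).inn (sdSites L a b)) (sdSys x L T a b) rfl (rsc_amb_cin x L T a b) (fun y hy => ?_) (fun _ _ => rfl), rsc_amb_lay x L T a b hab.le]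
  · have e : (fun ω : ClCfg TV TV => CuPin false (sdRow L a) ω ∧ (rscHist L b).Holds (rscAmb x L T a b) ω) = SdMix L a b := by
      funext ω
      rw [rsc_hist_holds]
      rfl
    rw [e]
    exact h
  · have hy' : y ∈ sdCells L a b := by rw [← rsc_amb_cin x L T a b]; exact hy
    exact rsc_amb_sv1 x L T a b (by have := (rsc_mem_cells.1 hy').2.1; omega)

/-- **the law of the cylinder = the law of the ambient disc under the legal history `rscK`** (functions of the cylinder) -/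
theorem rsc_K_E (x : ℝ) (hx0 : 0 < x) (hx1 : x ≤ 1) (L : ℕ) (hL : 1 ≤ L) (T : Bool) (a b : ℤ) (hab : a < b) (F : ClCfg TV TV → ℝ)
    (hF : ClLoc (sdSites L a b) ((rscAmb x L T a b).cin (sdSites L a b)) F) :
    (rscAmb x L T a b).E ((rscK L a b).Holds (rscAmb x L T a b)) F = (sdSys x L T a b).E (SdMix L a b) F := by
  have hZ := rsc_K_Z_pos x hx0 hx1 L hL T a b hab
  have h := amo_cut (rscAmb x L T a b) (rsc_amb_ok x hx0 hx1 L T a b hab.le) false (sdSites L a b) (Finset.subset_insert _ _) (rscHist L b) (rsc_hist_in _ L a b hab.le)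
    ∅ (Finset.empty_subset _) F hF
  rw [← rsc_K_eq x L hL T a b hab.le, rsc_cut_eq' x L T a b hab.le] at h
  rw [dis_E_eq, h, mul_div_cancel_left₀ _ hZ.ne']

/-- under the history the open-plus cells of the ambient are those of the cylinder -/
theorem rsc_K_set (x : ℝ) (L : ℕ) (T : Bool) (a b : ℤ) (ω : ClCfg TV TV) (hω : (rscK L a b).Holds (rscAmb x L T a b) ω) :
    sdSet (rscAmb x L T a b) L 1 ω = sdSet (sdSys x L T a b) L 1 ω := by
  ext y
  simp only [sdSet, Set.mem_ofPred_eq]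
  constructor
  · rintro ⟨hy, ht⟩
    obtain ⟨h01, h2, h3⟩ := (rsc_amb_mem_C x L T a b).1 hy
    by_cases hj : (sdRed L y).2 = a - 1
    · have := hω.2.2.2.2.1 (sdRed L y) (rsc_mem_row.2 ⟨h01, hj⟩)
      rw [ht] at this
      norm_num at this
    · have hy' : sdRed L y ∈ sdCells L a b := rsc_mem_cells.2 ⟨h01, by omega, h3⟩
      exact ⟨hy', by rw [← rsc_amb_tau x L T a b ω hy']; exact ht⟩
  · rintro ⟨hy, ht⟩
    have hy' : sdRed L y ∈ sdCells L a b := hy
    obtain ⟨h01, h2, h3⟩ := rsc_mem_cells.1 hy'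
    exact ⟨(rsc_amb_mem_C x L T a b).2 ⟨h01, by omega, h3⟩, by rw [rsc_amb_tau x L T a b ω hy']; exact ht⟩

/-- **THE REALISATION OF `sdP` IN THE AMBIENT DISC** (for `rsr_glue` of 269: `S = rscAmb x L T 0 H`, `K = rscK L 0 H`, `ι = sdRed L`; `sdSet S L 1 ω = rsrY S (sdRed L) ω` by `rfl`) -/
theorem rsc_real (x : ℝ) (hx0 : 0 < x) (hx1 : x ≤ 1) (L H : ℕ) (hL : 1 ≤ L) (hH : 1 ≤ H) (T : Bool) (E : Set TV → Prop) :
    sdP x L H T true E = (rscAmb x L T 0 H).P ((rscK L 0 H).Holds (rscAmb x L T 0 H)) (fun ω => E (sdSet (rscAmb x L T 0 H) L 1 ω)) := by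
  classical
  have hH' : (0 : ℤ) < H := by exact_mod_cast hH
  rw [rsc_P_E, ← rsc_K_E x hx0 hx1 L hL T 0 H hH' _ (rsc_ind_loc x L T 0 H 1 E)]
  unfold ClSys.P
  rw [dis_E_eq, dis_E_eq]
  congr 1
  refine dmt_N_congr' _ _ fun ω hω => ?_
  simp only [rsc_K_set x L T 0 H ω hω]

theorem rsc_K_eqns_cite : True := by
  have := @rscK.eq_1
  trivial

/-! ## §4c ORDER AND ASSOCIATION INSIDE A CUT (abstract), hence on the cylinder -/

section cutord
variable {V Y : Type} [DecidableEq V] [DecidableEq Y]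

/-- congruence of the sums on the configurations of the system -/
theorem rsc_N_congr (S : ClSys V Y) {K K' : ClCfg V Y → Prop} {F F' : ClCfg V Y → ℝ} (hK : ∀ ω ∈ S.cfgs, (K ω ↔ K' ω)) (hF : ∀ ω ∈ S.cfgs, K ω → F ω = F' ω) :
    S.N K F = S.N K' F' := by
  classical
  unfold ClSys.N
  refine Finset.sum_congr rfl fun ω hω => ?_
  by_cases h : K ω
  · rw [if_pos h, if_pos ((hK ω hω).1 h), hF ω hω h]
  · rw [if_neg h, if_neg fun h' => h ((hK ω hω).2 h')]

/-- a feasible constraint is satisfied by a configuration of the system -/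
theorem rsc_feas_ex (S : ClSys V Y) (K : ClCfg V Y → Prop) (h : S.Z K ≠ 0) : ∃ ω ∈ S.cfgs, K ω := by
  classical
  by_contra hn
  push Not at hn
  apply h
  unfold ClSys.Z
  exact Finset.sum_eq_zero fun ω hω => if_neg (hn ω hω)

/-- the restriction of a configuration of `S.inn I` is the configuration -/
theorem rsc_res_id (S : ClSys V Y) (I : Finset V) {ω : ClCfg V Y} (hω : ω ∈ (S.inn I).cfgs) : damRes I (S.cin I) ω = ω := by
  obtain ⟨h1, h2, h3⟩ := (cl_mem_cfgs _ ω).1 hω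
  have h1' : ω.B ⊆ I := h1
  have h2' : ω.W ⊆ I := h2
  have h3' : ω.O ⊆ S.cin I := h3
  unfold damRes
  rw [Finset.inter_eq_left.2 h1', Finset.inter_eq_left.2 h2', Finset.inter_eq_left.2 h3']

theorem rsc_res_loc (I : Finset V) (T' : Finset Y) (F : ClCfg V Y → ℝ) : ClLoc I T' (fun ω => F (damRes I T' ω)) := by
  intro ω ω' hB hW hO
  show F (damRes I T' ω) = F (damRes I T' ω')
  unfold damRes
  rw [hB, hW, hO]

theorem rsc_res_tau (S : ClSys V Y) (I : Finset V) (ω : ClCfg V Y) {y : Y} (hy : y ∈ S.cin I) : clTau S (damRes I (S.cin I) ω) y = clTau S ω y :=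
  amo_tau_loc S (I := I) (T' := S.cin I) (by simp [damRes]) (by simp [damRes]) hy (Finset.mem_filter.1 hy).2

theorem rsc_res_mono (S : ClSys V Y) (I : Finset V) (F : ClCfg V Y → ℝ) (hF : ClMono (S.inn I) F) : ClMono S (fun ω => F (damRes I (S.cin I) ω)) := by
  intro ω ω' hB hτ
  refine hF _ _ (Finset.inter_subset_inter_right hB) fun y hy => ?_
  have hy' : y ∈ S.cin I := hy
  show clTau S (damRes I (S.cin I) ω) y ≤ clTau S (damRes I (S.cin I) ω') y
  rw [rsc_res_tau S I ω hy', rsc_res_tau S I ω' hy']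
  exact hτ y (Finset.mem_filter.1 hy').1

theorem rsc_con_res_in (S : ClSys V Y) (K : ClCon V Y) (I : Finset V) : (K.res S I).In S I where
  bp := Finset.inter_subset_right
  bm := Finset.inter_subset_right
  eq := fun e he => (Finset.mem_filter.1 he).2
  op := Finset.inter_subset_right
  om := Finset.inter_subset_right
  cl := Finset.inter_subset_right
  wp := Finset.inter_subset_right
  wm := Finset.inter_subset_right

theorem rsc_con_res_legal (S : ClSys V Y) (K : ClCon V Y) (I : Finset V) (hK : ClLegal (S.inn I) K) : ClLegal S (K.res S I) where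
  wp := by show K.Wp ∩ I = ∅; rw [hK.wp, Finset.empty_inter]
  wm := by show K.Wm ∩ I = ∅; rw [hK.wm, Finset.empty_inter]
  full := fun y _ hy => by
    have hy' : y ∈ S.cin I ∧ y ∈ K.Op ∪ K.Om ∪ K.Cl := by
      simp only [ClCon.res, Finset.mem_union, Finset.mem_inter] at hy ⊢
      tauto
    have h1 : S.sv y ⊆ K.Bp ∪ K.Bm := hK.full y hy'.1 hy'.2
    have h2 : S.sv y ⊆ I := (Finset.mem_filter.1 hy'.1).2
    intro v hv
    have := h1 hv
    simp only [ClCon.res, Finset.mem_union, Finset.mem_inter] at this ⊢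
    have := h2 hv
    tauto
  eq := fun e he => by
    obtain ⟨y, hy, h1, h2⟩ := hK.eq e (Finset.mem_filter.1 he).1
    have hy' : y ∈ S.cin I := hy
    exact ⟨y, (Finset.mem_filter.1 hy').1, h1, h2⟩

theorem rsc_con_res_le (S : ClSys V Y) {K₁ K₂ : ClCon V Y} (I : Finset V) (h : ClLe K₁ K₂) : ClLe (K₁.res S I) (K₂.res S I) where
  bp := Finset.inter_subset_inter_right h.bp
  bm := Finset.inter_subset_inter_right h.bm
  op := Finset.inter_subset_inter_right h.op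
  om := Finset.inter_subset_inter_right h.om
  cl1 := fun y hy => by
    have := h.cl1 (Finset.mem_inter.1 hy).1
    have h2 := (Finset.mem_inter.1 hy).2
    simp only [ClCon.res, Finset.mem_union, Finset.mem_inter] at this ⊢
    tauto
  cl2 := fun y hy => by
    have := h.cl2 (Finset.mem_inter.1 hy).1
    have h2 := (Finset.mem_inter.1 hy).2
    simp only [ClCon.res, Finset.mem_union, Finset.mem_inter] at this ⊢
    tauto
  eq := by show K₁.Eq.filter _ = K₂.Eq.filter _; rw [h.eq]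

/-- the pins of the layer -/
def RscLayPin (S : ClSys V Y) (s : Bool) (I : Finset V) (K : ClCon V Y) : Prop := cuLay S I ⊆ if s then K.Bp else K.Bm

/-- on the configurations of `S.inn I`, a FEASIBLE legal history with the pins of the layer = the pins and its restriction -/
theorem rsc_con_res_holds (S : ClSys V Y) (s : Bool) (I : Finset V) (K : ClCon V Y) (hK : ClLegal (S.inn I) K) (hp : RscLayPin S s I K)
    (hf : (S.inn I).Z (K.Holds (S.inn I)) ≠ 0) (ω : ClCfg V Y) (hω : ω ∈ (S.inn I).cfgs) :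
    (CuPin s (cuLay S I) ω ∧ (K.res S I).Holds S ω) ↔ K.Holds (S.inn I) ω := by
  obtain ⟨ω₀, hω₀, g1, g2, g3, g4, g5, g6, g7, g8⟩ := rsc_feas_ex _ _ hf
  obtain ⟨a1, a2, a3⟩ := (cl_mem_cfgs _ ω₀).1 hω₀
  obtain ⟨b1, b2, b3⟩ := (cl_mem_cfgs _ ω).1 hω
  have a1' : ω₀.B ⊆ I := a1
  have a3' : ω₀.O ⊆ S.cin I := a3
  have b1' : ω.B ⊆ I := b1
  have b3' : ω.O ⊆ S.cin I := b3
  have hBp : K.Bp ⊆ I := g1.trans a1'
  have hOp : K.Op ⊆ S.cin I := fun y hy => a3' ((amo_tau_pos _ ω₀ y).1 (g4 y hy)).1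
  have hOm : K.Om ⊆ S.cin I := fun y hy => a3' ((amo_tau_neg _ ω₀ y).1 (g5 y hy)).1
  constructor
  · rintro ⟨-, h1, h2, h3, h4, h5, h6, h7, h8⟩
    refine ⟨fun v hv => h1 (Finset.mem_inter.2 ⟨hv, hBp hv⟩), fun v hv hvB => h2 v (Finset.mem_inter.2 ⟨hv, b1' hvB⟩) hvB, fun e he => ?_,
      fun y hy => h4 y (Finset.mem_inter.2 ⟨hy, hOp hy⟩), fun y hy => h5 y (Finset.mem_inter.2 ⟨hy, hOm hy⟩),
      fun y hy hyO => h6 y (Finset.mem_inter.2 ⟨hy, b3' hyO⟩) hyO, by rw [hK.wp]; exact Finset.empty_subset _, by rw [hK.wm]; intro v hv; simp at hv⟩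
    obtain ⟨y, hy, e1, e2⟩ := hK.eq e he
    have hy' : y ∈ S.cin I := hy
    have hs := (Finset.mem_filter.1 hy').2
    exact h3 e (Finset.mem_filter.2 ⟨he, hs e1, hs e2⟩)
  · rintro ⟨h1, h2, h3, h4, h5, h6, h7, h8⟩
    refine ⟨fun v hv => ?_, fun v hv => h1 (Finset.mem_inter.1 hv).1, fun v hv => h2 v (Finset.mem_inter.1 hv).1, fun e he => h3 e (Finset.mem_filter.1 he).1,
      fun y hy => h4 y (Finset.mem_inter.1 hy).1, fun y hy => h5 y (Finset.mem_inter.1 hy).1, fun y hy => h6 y (Finset.mem_inter.1 hy).1,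
      fun v hv => h7 (Finset.mem_inter.1 hv).1, fun v hv => h8 v (Finset.mem_inter.1 hv).1⟩
    have := hp hv
    cases s
    · simp only [Bool.false_eq_true, if_false] at this
      simp only [Bool.false_eq_true, iff_false]
      exact h2 v this
    · simp only [if_true] at this
      simp only [iff_true]
      exact h1 this

/-- the history of the ambient system attached to a history inside the cut -/
def rscUp (S : ClSys V Y) (s : Bool) (I : Finset V) (K : ClCon V Y) : ClCon V Y := (K.res S I).opn S s (S.cx I ∪ ∅)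

/-- **TRANSFER**: the sums of the ambient system under `rscUp` in terms of the sums inside the cut -/
theorem rsc_up_N (S : ClSys V Y) (hS : ClOk S) (s : Bool) (I : Finset V) (hI : I ⊆ S.A) (K : ClCon V Y) (hK : ClLegal (S.inn I) K) (hp : RscLayPin S s I K)
    (hf : (S.inn I).Z (K.Holds (S.inn I)) ≠ 0) (F : ClCfg V Y → ℝ) :
    0 < S.Z ((rscUp S s I K).Holds S) ∧
    S.N ((rscUp S s I K).Holds S) (fun ω => F (damRes I (S.cin I) ω)) =
      S.Z ((rscUp S s I K).Holds S) * ((S.inn I).N (K.Holds (S.inn I)) F / (S.inn I).Z (K.Holds (S.inn I))) := by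
  have hin := rsc_con_res_in S K I
  have hiff := rsc_con_res_holds S s I K hK hp hf
  have eZ : (S.inn I).Z (fun ω => CuPin s (cuLay S I) ω ∧ (K.res S I).Holds S ω) = (S.inn I).Z (K.Holds (S.inn I)) := by
    rw [dis_Z_eq, dis_Z_eq]
    exact rsc_N_congr _ hiff fun _ _ _ => rfl
  have eN : (S.inn I).N (fun ω => CuPin s (cuLay S I) ω ∧ (K.res S I).Holds S ω) (fun ω => F (damRes I (S.cin I) ω)) = (S.inn I).N (K.Holds (S.inn I)) F :=
    rsc_N_congr _ hiff fun ω hω _ => by rw [rsc_res_id S I hω]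
  have hpos : 0 < (S.inn I).Z (fun ω => CuPin s (cuLay S I) ω ∧ (K.res S I).Holds S ω) := by
    rw [eZ]
    exact lt_of_le_of_ne (amo_Z_nonneg _ (am_inn_ok S hS I) _) (Ne.symm hf)
  refine ⟨amo_feas_opn S hS s I hI _ hin hpos (amo_cx_cno' S I), ?_⟩
  have h := amo_cut S hS s I hI (K.res S I) hin ∅ (Finset.empty_subset _) _ (rsc_res_loc I (S.cin I) F)
  unfold rscUp
  rw [h]
  unfold cuE
  rw [dis_E_eq, eZ, eN]

/-- **ORDER INSIDE A CUT OF A DISC**: conditional order between the legal histories of `S.inn I` which contain the pins of the layer -/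
theorem rsc_cut_order (S : ClSys V Y) (hS : ClDisk S) (s : Bool) (I : Finset V) (hI : I ⊆ S.A) (K₁ K₂ : ClCon V Y) (h₁ : ClLegal (S.inn I) K₁) (h₂ : ClLegal (S.inn I) K₂)
    (p₁ : RscLayPin S s I K₁) (p₂ : RscLayPin S s I K₂) (hle : ClLe K₁ K₂) (F : ClCfg V Y → ℝ) (hF : ClMono (S.inn I) F) :
    (S.inn I).N (K₁.Holds (S.inn I)) F * (S.inn I).Z (K₂.Holds (S.inn I)) ≤ (S.inn I).Z (K₁.Holds (S.inn I)) * (S.inn I).N (K₂.Holds (S.inn I)) F := by
  have hO := hS.toClOk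
  have hO' := am_inn_ok S hO I
  by_cases f₁ : (S.inn I).Z (K₁.Holds (S.inn I)) = 0
  · rw [am_N_zero _ hO' _ f₁, f₁, zero_mul, zero_mul]
  by_cases f₂ : (S.inn I).Z (K₂.Holds (S.inn I)) = 0
  · rw [am_N_zero _ hO' _ f₂, f₂, mul_zero, mul_zero]
  obtain ⟨z₁, e₁⟩ := rsc_up_N S hO s I hI K₁ h₁ p₁ f₁ F
  obtain ⟨z₂, e₂⟩ := rsc_up_N S hO s I hI K₂ h₂ p₂ f₂ F
  have h := dis_order S hS (rscUp S s I K₁) (rscUp S s I K₂) (amo_legal_opn S _ (rsc_con_res_legal S K₁ I h₁) s _) (amo_legal_opn S _ (rsc_con_res_legal S K₂ I h₂) s _)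
    (amo_le_opn S (rsc_con_res_le S I hle) s s _ _ (fun h => ⟨h, Finset.Subset.refl _⟩) (fun h => ⟨h, Finset.Subset.refl _⟩)) _ (rsc_res_mono S I F hF)
  rw [e₁, e₂] at h
  have q₁ : 0 < (S.inn I).Z (K₁.Holds (S.inn I)) := lt_of_le_of_ne (amo_Z_nonneg _ hO' _) (Ne.symm f₁)
  have q₂ : 0 < (S.inn I).Z (K₂.Holds (S.inn I)) := lt_of_le_of_ne (amo_Z_nonneg _ hO' _) (Ne.symm f₂)
  have h' : (S.inn I).N (K₁.Holds (S.inn I)) F / (S.inn I).Z (K₁.Holds (S.inn I)) ≤ (S.inn I).N (K₂.Holds (S.inn I)) F / (S.inn I).Z (K₂.Holds (S.inn I)) := by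
    have hz : 0 < S.Z ((rscUp S s I K₁).Holds S) * S.Z ((rscUp S s I K₂).Holds S) := mul_pos z₁ z₂
    refine le_of_mul_le_mul_left ?_ hz
    nlinarith [h]
  rw [div_le_div_iff₀ q₁ q₂] at h'
  linarith [h']

/-- **ASSOCIATION INSIDE A CUT OF A DISC** under a legal history of `S.inn I` which contains the pins of the layer -/
theorem rsc_cut_assoc (S : ClSys V Y) (hS : ClDisk S) (s : Bool) (I : Finset V) (hI : I ⊆ S.A) (K : ClCon V Y) (hK : ClLegal (S.inn I) K)
    (hp : RscLayPin S s I K) (F G : ClCfg V Y → ℝ) (hF : ClMono (S.inn I) F) (hG : ClMono (S.inn I) G) :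
    (S.inn I).N (K.Holds (S.inn I)) F * (S.inn I).N (K.Holds (S.inn I)) G ≤ (S.inn I).Z (K.Holds (S.inn I)) * (S.inn I).N (K.Holds (S.inn I)) (fun ω => F ω * G ω) := by
  have hO := hS.toClOk
  have hO' := am_inn_ok S hO I
  by_cases f : (S.inn I).Z (K.Holds (S.inn I)) = 0
  · rw [am_N_zero _ hO' _ f, f, zero_mul, zero_mul]
  obtain ⟨z, e₁⟩ := rsc_up_N S hO s I hI K hK hp f F
  obtain ⟨-, e₂⟩ := rsc_up_N S hO s I hI K hK hp f G
  obtain ⟨-, e₃⟩ := rsc_up_N S hO s I hI K hK hp f (fun ω => F ω * G ω)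
  have h := dis_assoc S hS (rscUp S s I K) (amo_legal_opn S _ (rsc_con_res_legal S K I hK) s _) _ _ (rsc_res_mono S I F hF) (rsc_res_mono S I G hG)
  rw [e₁, e₂, e₃] at h
  have q : 0 < (S.inn I).Z (K.Holds (S.inn I)) := lt_of_le_of_ne (amo_Z_nonneg _ hO' _) (Ne.symm f)
  set Z' := S.Z ((rscUp S s I K).Holds S)
  set Z := (S.inn I).Z (K.Holds (S.inn I))
  set NF := (S.inn I).N (K.Holds (S.inn I)) F
  set NG := (S.inn I).N (K.Holds (S.inn I)) G
  set NFG := (S.inn I).N (K.Holds (S.inn I)) (fun ω => F ω * G ω)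
  have h1 : (Z' * Z') * ((NF / Z) * (NG / Z)) ≤ (Z' * Z') * (NFG / Z) := by nlinarith [h]
  have h2 : (NF / Z) * (NG / Z) ≤ NFG / Z := le_of_mul_le_mul_left h1 (mul_pos z z)
  have h3 : (NF / Z) * (NG / Z) * (Z * Z) ≤ NFG / Z * (Z * Z) := mul_le_mul_of_nonneg_right h2 (mul_pos q q).le
  have e4 : (NF / Z) * (NG / Z) * (Z * Z) = NF * NG := by field_simp
  have e5 : NFG / Z * (Z * Z) = Z * NFG := by field_simp
  rw [e4, e5] at h3
  exact h3

/-! ### two systems with the same sites, cells, cell sites and parameters -/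

theorem rsc_sys_tau (S S' : ClSys V Y) (hC : S.C = S'.C) (hsv : ∀ y ∈ S.C, S.sv y = S'.sv y) (ω : ClCfg V Y) (hω : ω.O ⊆ S.C) (y : Y) : clTau S ω y = clTau S' ω y := by
  unfold clTau
  by_cases hy : y ∈ ω.O
  · rw [hsv y (hω hy)]
  · rw [if_neg hy, if_neg hy]

theorem rsc_sys_holds (S S' : ClSys V Y) (K : ClCon V Y) (ω : ClCfg V Y) (h : ∀ y, clTau S ω y = clTau S' ω y) : K.Holds S ω ↔ K.Holds S' ω := by
  unfold ClCon.Holds
  simp only [h]

theorem rsc_sys_N (S S' : ClSys V Y) (hA : S.A = S'.A) (hC : S.C = S'.C) (hsv : ∀ y ∈ S.C, S.sv y = S'.sv y) (hq : ∀ y ∈ S.C, S.q y = S'.q y) (K : ClCon V Y)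
    (F : ClCfg V Y → ℝ) : S.N (K.Holds S) F = S'.N (K.Holds S') F := by
  rw [← am_sys_N_congr S S' hA hC hsv hq]
  exact rsc_N_congr S (fun ω hω => rsc_sys_holds S S' K ω (rsc_sys_tau S S' hC hsv ω ((cl_mem_cfgs S ω).1 hω).2.2)) fun _ _ _ => rfl

theorem rsc_sys_Z (S S' : ClSys V Y) (hA : S.A = S'.A) (hC : S.C = S'.C) (hsv : ∀ y ∈ S.C, S.sv y = S'.sv y) (hq : ∀ y ∈ S.C, S.q y = S'.q y) (K : ClCon V Y) :
    S.Z (K.Holds S) = S'.Z (K.Holds S') := by
  rw [dis_Z_eq, dis_Z_eq, rsc_sys_N S S' hA hC hsv hq]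

theorem rsc_sys_mono (S S' : ClSys V Y) (hC : S.C = S'.C) (hsv : ∀ y ∈ S.C, S.sv y = S'.sv y) (F : ClCfg V Y → ℝ) (hF : ClMono S F) : ClMono S' F := by
  intro ω ω' hB hτ
  refine hF ω ω' hB fun y hy => ?_
  have := hτ y (hC ▸ hy)
  unfold clTau at this ⊢
  rw [hsv y hy]
  exact this

theorem rsc_sys_legal (S S' : ClSys V Y) (hC : S.C = S'.C) (hsv : ∀ y ∈ S.C, S.sv y = S'.sv y) (K : ClCon V Y) (hK : ClLegal S K) : ClLegal S' K where
  wp := hK.wp
  wm := hK.wm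
  full := fun y hy h => by
    have hy' : y ∈ S.C := hC ▸ hy
    rw [← hsv y hy']
    exact hK.full y hy' h
  eq := fun e he => by
    obtain ⟨y, hy, h1, h2⟩ := hK.eq e he
    exact ⟨y, hC ▸ hy, by rw [← hsv y hy]; exact h1, by rw [← hsv y hy]; exact h2⟩

end cutord

/-! ### the cylinder -/

theorem rsc_cyl_sv (x : ℝ) (L : ℕ) (T : Bool) (a b : ℤ) : ∀ y ∈ (sdSys x L T a b).C, (sdSys x L T a b).sv y = ((rscAmb x L T a b).inn (sdSites L a b)).sv y := by
  intro y hy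
  have hy' : y ∈ sdCells L a b := hy
  exact (rsc_amb_sv1 x L T a b (by have := (rsc_mem_cells.1 hy').2.1; omega)).symm

/-- **ORDER ON THE CYLINDER** (NOT a disc): conditional order between the legal histories which pin the bottom row minus.   (`LseOrd (sdSys x L T 0 H) (lcyK L H)` in one line.) -/
theorem rsc_order (x : ℝ) (hx0 : 0 < x) (hx1 : x ≤ 1) (L : ℕ) (hL : 2 ≤ L) (T : Bool) (a b : ℤ) (hab : a < b) (K₁ K₂ : ClCon TV TV)
    (h₁ : ClLegal (sdSys x L T a b) K₁) (h₂ : ClLegal (sdSys x L T a b) K₂) (p₁ : sdRow L a ⊆ K₁.Bm) (p₂ : sdRow L a ⊆ K₂.Bm) (hle : ClLe K₁ K₂)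
    (F : ClCfg TV TV → ℝ) (hF : ClMono (sdSys x L T a b) F) :
    (sdSys x L T a b).N (K₁.Holds (sdSys x L T a b)) F * (sdSys x L T a b).Z (K₂.Holds (sdSys x L T a b)) ≤
      (sdSys x L T a b).Z (K₁.Holds (sdSys x L T a b)) * (sdSys x L T a b).N (K₂.Holds (sdSys x L T a b)) F := by
  have hC : (sdSys x L T a b).C = ((rscAmb x L T a b).inn (sdSites L a b)).C := (rsc_amb_cin x L T a b).symm
  have hsv := rsc_cyl_sv x L T a b
  have hA : (sdSys x L T a b).A = ((rscAmb x L T a b).inn (sdSites L a b)).A := rfl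
  have hq : ∀ y ∈ (sdSys x L T a b).C, (sdSys x L T a b).q y = ((rscAmb x L T a b).inn (sdSites L a b)).q y := fun _ _ => rfl
  have hl : cuLay (rscAmb x L T a b) (sdSites L a b) = sdRow L a := rsc_amb_lay x L T a b hab.le
  rw [rsc_sys_N (sdSys x L T a b) ((rscAmb x L T a b).inn (sdSites L a b)) hA hC hsv hq K₁, rsc_sys_N (sdSys x L T a b) ((rscAmb x L T a b).inn (sdSites L a b)) hA hC hsv hq K₂,
    rsc_sys_Z (sdSys x L T a b) ((rscAmb x L T a b).inn (sdSites L a b)) hA hC hsv hq K₁, rsc_sys_Z (sdSys x L T a b) ((rscAmb x L T a b).inn (sdSites L a b)) hA hC hsv hq K₂]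
  exact rsc_cut_order _ (rsc_amb_disk x hx0 hx1 L hL T a b hab) false _ (Finset.subset_insert _ _) K₁ K₂ (rsc_sys_legal _ _ hC hsv K₁ h₁) (rsc_sys_legal _ _ hC hsv K₂ h₂)
    (by unfold RscLayPin; rw [hl]; exact p₁) (by unfold RscLayPin; rw [hl]; exact p₂) hle F (rsc_sys_mono _ _ hC hsv F hF)

/-- **ASSOCIATION ON THE CYLINDER** under a legal history which pins the bottom row minus.   (`LenFkg (sdSys x L T 0 H) (lcyK L H)`: `base` and, with `len_obs_legal`, `obs`.) -/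
theorem rsc_assoc (x : ℝ) (hx0 : 0 < x) (hx1 : x ≤ 1) (L : ℕ) (hL : 2 ≤ L) (T : Bool) (a b : ℤ) (hab : a < b) (K : ClCon TV TV)
    (hK : ClLegal (sdSys x L T a b) K) (hp : sdRow L a ⊆ K.Bm) (F G : ClCfg TV TV → ℝ) (hF : ClMono (sdSys x L T a b) F) (hG : ClMono (sdSys x L T a b) G) :
    (sdSys x L T a b).N (K.Holds (sdSys x L T a b)) F * (sdSys x L T a b).N (K.Holds (sdSys x L T a b)) G ≤
      (sdSys x L T a b).Z (K.Holds (sdSys x L T a b)) * (sdSys x L T a b).N (K.Holds (sdSys x L T a b)) (fun ω => F ω * G ω) := by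
  have hC : (sdSys x L T a b).C = ((rscAmb x L T a b).inn (sdSites L a b)).C := (rsc_amb_cin x L T a b).symm
  have hsv := rsc_cyl_sv x L T a b
  have hA : (sdSys x L T a b).A = ((rscAmb x L T a b).inn (sdSites L a b)).A := rfl
  have hq : ∀ y ∈ (sdSys x L T a b).C, (sdSys x L T a b).q y = ((rscAmb x L T a b).inn (sdSites L a b)).q y := fun _ _ => rfl
  have hl : cuLay (rscAmb x L T a b) (sdSites L a b) = sdRow L a := rsc_amb_lay x L T a b hab.le
  rw [rsc_sys_N (sdSys x L T a b) ((rscAmb x L T a b).inn (sdSites L a b)) hA hC hsv hq K F, rsc_sys_N (sdSys x L T a b) ((rscAmb x L T a b).inn (sdSites L a b)) hA hC hsv hq K G,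
    rsc_sys_N (sdSys x L T a b) ((rscAmb x L T a b).inn (sdSites L a b)) hA hC hsv hq K (fun ω => F ω * G ω), rsc_sys_Z (sdSys x L T a b) ((rscAmb x L T a b).inn (sdSites L a b)) hA hC hsv hq K]
  exact rsc_cut_assoc _ (rsc_amb_disk x hx0 hx1 L hL T a b hab) false _ (Finset.subset_insert _ _) K (rsc_sys_legal _ _ hC hsv K hK)
    (by unfold RscLayPin; rw [hl]; exact hp) F G (rsc_sys_mono _ _ hC hsv F hF) (rsc_sys_mono _ _ hC hsv G hG)

theorem rsc_cutord_eqns_cite : True := by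
  have := @RscLayPin.eq_1
  have := @rscUp.eq_1
  trivial

/-! ## §5 symmetries -/

theorem rsq_N_congr {V Y : Type} [DecidableEq V] [DecidableEq Y] (S : ClSys V Y) {K K' : ClCfg V Y → Prop} {F F' : ClCfg V Y → ℝ}
    (hK : ∀ ω ∈ S.cfgs, (K ω ↔ K' ω)) (hF : ∀ ω ∈ S.cfgs, F ω = F' ω) : S.N K F = S.N K' F' := by
  classical
  unfold ClSys.N
  refine Finset.sum_congr rfl fun ω hω => ?_
  rw [hF ω hω]
  by_cases h : K ω
  · rw [if_pos h, if_pos ((hK ω hω).1 h)]
  · rw [if_neg h, if_neg (fun h' => h ((hK ω hω).2 h'))]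

theorem rsq_pin_map {V Y : Type} [DecidableEq V] [DecidableEq Y] (S : ClSys V Y) (φ : V → V) (ψ : Y → Y) (hi : Set.InjOn φ ↑S.A)
    (s : Bool) (R : Finset V) (hR : R ⊆ S.A) (hRi : R.image φ = R) (ω : ClCfg V Y) (hω : ω ∈ S.cfgs) :
    CuPin s R (ω.map φ ψ) ↔ CuPin s R ω := by
  obtain ⟨hB, -, -⟩ := (cl_mem_cfgs S ω).1 hω
  constructor
  · intro h v hv
    have h1 : φ v ∈ R := hRi ▸ Finset.mem_image_of_mem φ hv
    rw [← h (φ v) h1]
    exact (am_t5_mem hi hB (hR hv)).symm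
  · intro h v hv
    rw [← hRi] at hv
    obtain ⟨u, hu, rfl⟩ := Finset.mem_image.1 hv
    rw [← h u hu]
    exact am_t5_mem hi hB (hR hu)

/-- an automorphism of the cylinder which preserves the two boundary rows preserves the law -/
theorem rsq_aut (x : ℝ) (L H : ℕ) (T s : Bool) (φ ψ : TV → TV) (h : CuIso (sdSys x L T 0 H) (sdSys x L T 0 H) φ ψ)
    (hsub : ∀ y ∈ (sdSys x L T 0 H).C, (sdSys x L T 0 H).sv y ⊆ (sdSys x L T 0 H).A)
    (h0 : (sdRow L 0).image φ = sdRow L 0) (hH : (sdRow L H).image φ = sdRow L H)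
    (h0s : sdRow L 0 ⊆ (sdSys x L T 0 H).A) (hHs : sdRow L H ⊆ (sdSys x L T 0 H).A) (g : Set TV → Set TV)
    (hg : ∀ ω ∈ (sdSys x L T 0 H).cfgs, sdSet (sdSys x L T 0 H) L (clSg s) (ω.map φ ψ) = g (sdSet (sdSys x L T 0 H) L (clSg s) ω))
    (E : Set TV → Prop) : sdP x L H T s (fun Y => E (g Y)) = sdP x L H T s E := by
  classical
  obtain ⟨S, hS⟩ : ∃ S, S = sdSys x L T 0 H := ⟨_, rfl⟩
  unfold sdP
  rw [← hS] at h hsub h0s hHs hg ⊢
  have hK : ∀ ω ∈ S.cfgs, (SdMix L 0 H (ω.map φ ψ) ↔ SdMix L 0 H ω) := by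
    intro ω hω
    unfold SdMix
    rw [rsq_pin_map S φ ψ h.injV false _ h0s h0 ω hω, rsq_pin_map S φ ψ h.injV true _ hHs hH ω hω]
  unfold ClSys.P
  rw [dis_E_eq, dis_E_eq]
  congr 1
  rw [am_iso S S φ ψ h hsub (SdMix L 0 H) (fun ω => if E (sdSet S L (clSg s) ω) then 1 else 0)]
  refine (rsq_N_congr S hK fun ω hω => ?_).symm
  rw [hg ω hω]

theorem rsq_image_eq {α : Type} [DecidableEq α] (R : Finset α) (φ : α → α) (hm : ∀ u ∈ R, φ u ∈ R) (hi : Set.InjOn φ ↑R) :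
    R.image φ = R := by
  refine Finset.eq_of_subset_of_card_le ?_ ?_
  · intro v hv
    obtain ⟨u, hu, rfl⟩ := Finset.mem_image.1 hv
    exact hm u hu
  · rw [Finset.card_image_of_injOn hi]

theorem rsq_injOn {α : Type} (R : Set α) (φ φ' : α → α) (h : ∀ u ∈ R, φ' (φ u) = u) : Set.InjOn φ R := by
  intro u hu v hv e
  rw [← h u hu, ← h v hv, e]

theorem rsq_red_add (L : ℕ) (u w : TV) : sdRed L (sdRed L u + w) = sdRed L (u + w) := by
  unfold sdRed
  refine Prod.ext ?_ rfl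
  show (u.1 % (L : ℤ) + w.1) % (L : ℤ) = (u.1 + w.1) % (L : ℤ)
  exact Int.emod_add_emod _ _ _

theorem rsq_red_red (L : ℕ) (u : TV) : sdRed L (sdRed L u) = sdRed L u := by
  unfold sdRed
  refine Prod.ext ?_ rfl
  show (u.1 % (L : ℤ)) % (L : ℤ) = u.1 % (L : ℤ)
  exact Int.emod_emod_of_dvd _ (dvd_refl _)

theorem rsq_red_of_mem (L : ℕ) (u : TV) (h0 : 0 ≤ u.1) (h1 : u.1 < L) : sdRed L u = u := by
  unfold sdRed
  exact Prod.ext (Int.emod_eq_of_lt h0 h1) rfl

theorem rsq_red_rng (L : ℕ) (hL : 1 ≤ L) (u : TV) : 0 ≤ (sdRed L u).1 ∧ (sdRed L u).1 < L ∧ (sdRed L u).2 = u.2 := by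
  have hL0 : (0 : ℤ) < L := by exact_mod_cast hL
  exact ⟨Int.emod_nonneg _ hL0.ne', Int.emod_lt_of_pos _ hL0, rfl⟩

theorem rsq_mem_sites (L : ℕ) (a b : ℤ) (u : TV) : u ∈ sdSites L a b ↔ (0 ≤ u.1 ∧ u.1 < L) ∧ a ≤ u.2 ∧ u.2 ≤ b := by
  simp only [sdSites, Finset.mem_product, Finset.mem_Ico, Finset.mem_Icc]

theorem rsq_mem_cells (L : ℕ) (a b : ℤ) (u : TV) : u ∈ sdCells L a b ↔ (0 ≤ u.1 ∧ u.1 < L) ∧ a ≤ u.2 ∧ u.2 < b := by
  simp only [sdCells, Finset.mem_product, Finset.mem_Ico]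

theorem rsq_mem_row (L : ℕ) (j : ℤ) (u : TV) : u ∈ sdRow L j ↔ (0 ≤ u.1 ∧ u.1 < L) ∧ u.2 = j := by
  simp only [sdRow, Finset.mem_product, Finset.mem_Ico, Finset.mem_singleton]

/-- a row-preserving pair of maps with left inverses is an automorphism of the cylinder, and the law is invariant -/
theorem rsq_aut' (x : ℝ) (L H : ℕ) (hL : 1 ≤ L) (T s : Bool) (φ₀ φ₁ ψ₀ ψ₁ : TV → TV)
    (hφ2 : ∀ u, (φ₀ u).2 = u.2) (hψ2 : ∀ u, (ψ₀ u).2 = u.2) (hψ2' : ∀ u, (ψ₁ u).2 = u.2)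
    (hφ : ∀ u, sdRed L (φ₁ (sdRed L (φ₀ u))) = sdRed L u) (hψ : ∀ u, sdRed L (ψ₁ (sdRed L (ψ₀ u))) = sdRed L u)
    (hψ' : ∀ u, sdRed L (ψ₀ (sdRed L (ψ₁ u))) = sdRed L u)
    (hsv : ∀ y, sdCell L T (sdRed L (ψ₀ y)) = (sdCell L T y).image (fun u => sdRed L (φ₀ u)))
    (E : Set TV → Prop) : sdP x L H T s (fun Y => E {p | ψ₁ p ∈ Y}) = sdP x L H T s E := by
  have hA : ∀ u ∈ sdSites L 0 H, sdRed L (φ₀ u) ∈ sdSites L 0 H := by
    intro u hu
    rw [rsq_mem_sites] at hu ⊢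
    obtain ⟨h1, h2, h3⟩ := rsq_red_rng L hL (φ₀ u)
    rw [h3, hφ2]
    exact ⟨⟨h1, h2⟩, hu.2⟩
  have hC : ∀ u ∈ sdCells L 0 H, sdRed L (ψ₀ u) ∈ sdCells L 0 H := by
    intro u hu
    rw [rsq_mem_cells] at hu ⊢
    obtain ⟨h1, h2, h3⟩ := rsq_red_rng L hL (ψ₀ u)
    rw [h3, hψ2]
    exact ⟨⟨h1, h2⟩, hu.2⟩
  have hiA : Set.InjOn (fun u => sdRed L (φ₀ u)) ↑(sdSites L 0 H) := by
    refine rsq_injOn _ _ (fun u => sdRed L (φ₁ u)) fun u hu => ?_
    have hu' := (rsq_mem_sites L 0 H u).1 (Finset.mem_coe.1 hu)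
    show sdRed L (φ₁ (sdRed L (φ₀ u))) = u
    rw [hφ, rsq_red_of_mem L u hu'.1.1 hu'.1.2]
  have hiC : Set.InjOn (fun u => sdRed L (ψ₀ u)) ↑(sdCells L 0 H) := by
    refine rsq_injOn _ _ (fun u => sdRed L (ψ₁ u)) fun u hu => ?_
    have hu' := (rsq_mem_cells L 0 H u).1 (Finset.mem_coe.1 hu)
    show sdRed L (ψ₁ (sdRed L (ψ₀ u))) = u
    rw [hψ, rsq_red_of_mem L u hu'.1.1 hu'.1.2]
  have hrs : ∀ j : ℤ, 0 ≤ j → j ≤ H → sdRow L j ⊆ sdSites L 0 H := by
    intro j h0 h1 u hu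
    rw [rsq_mem_row] at hu
    rw [rsq_mem_sites]
    exact ⟨hu.1, by omega, by omega⟩
  have hrow : ∀ j : ℤ, 0 ≤ j → j ≤ H → (sdRow L j).image (fun u => sdRed L (φ₀ u)) = sdRow L j := by
    intro j h0 h1
    refine rsq_image_eq _ _ (fun u hu => ?_) (hiA.mono (Finset.coe_subset.2 (hrs j h0 h1)))
    rw [rsq_mem_row] at hu ⊢
    obtain ⟨h1, h2, h3⟩ := rsq_red_rng L hL (φ₀ u)
    rw [h3, hφ2]
    exact ⟨⟨h1, h2⟩, hu.2⟩
  have hiso : CuIso (sdSys x L T 0 H) (sdSys x L T 0 H) (fun u => sdRed L (φ₀ u)) (fun u => sdRed L (ψ₀ u)) :=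
    { injV := hiA
      injY := hiC
      A := rsq_image_eq _ _ hA hiA
      C := rsq_image_eq _ _ hC hiC
      sv := fun y _ => hsv y
      q := fun _ _ => rfl }
  have hsub : ∀ y ∈ (sdSys x L T 0 H).C, (sdSys x L T 0 H).sv y ⊆ (sdSys x L T 0 H).A := by
    intro y hy v hv
    have hy' := (rsq_mem_cells L 0 H y).1 hy
    have hv' : v ∈ sdCell L T y := hv
    show v ∈ sdSites L 0 H
    simp only [sdCell, Finset.mem_image] at hv'
    obtain ⟨u, hu, rfl⟩ := hv'
    obtain ⟨h1, h2, h3⟩ := rsq_red_rng L hL u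
    rw [rsq_mem_sites, h3]
    refine ⟨⟨h1, h2⟩, ?_⟩
    cases T
    · simp only [Bool.false_eq_true, if_false, cellD, Finset.mem_insert, Finset.mem_singleton] at hu
      rcases hu with rfl | rfl | rfl <;> (try simp) <;> omega
    · simp only [if_true, cellV, Finset.mem_insert, Finset.mem_singleton] at hu
      rcases hu with rfl | rfl | rfl <;> (try simp) <;> omega
  refine rsq_aut x L H T s _ _ hiso hsub (hrow 0 le_rfl (by positivity)) (hrow H (by positivity) le_rfl)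
    (hrs 0 le_rfl (by positivity)) (hrs H (by positivity) le_rfl) (fun Y => {p | ψ₁ p ∈ Y}) (fun ω hω => ?_) E
  ext p
  have e1 : sdRed L (ψ₀ (sdRed L (ψ₁ p))) = sdRed L p := hψ' p
  have e2 : sdRed L (ψ₁ p) ∈ (sdSys x L T 0 H).C ↔ sdRed L p ∈ (sdSys x L T 0 H).C := by
    show sdRed L (ψ₁ p) ∈ sdCells L 0 H ↔ sdRed L p ∈ sdCells L 0 H
    rw [rsq_mem_cells, rsq_mem_cells]
    obtain ⟨h1, h2, h3⟩ := rsq_red_rng L hL (ψ₁ p)
    obtain ⟨h1', h2', h3'⟩ := rsq_red_rng L hL p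
    rw [h3, h3', hψ2']
    exact ⟨fun h => ⟨⟨h1', h2'⟩, h.2⟩, fun h => ⟨⟨h1, h2⟩, h.2⟩⟩
  simp only [sdSet, Set.mem_ofPred_eq]
  rw [e2]
  refine and_congr_right fun hp => ?_
  have h3 := am_iso_tau _ _ _ _ hiso hsub ω hω (sdRed L (ψ₁ p)) (e2.2 hp)
  simp only [e1] at h3
  rw [h3]

theorem rsq_red_ext (L : ℕ) (u v : TV) (h1 : ((u.1 : ℤ) : ZMod L) = ((v.1 : ℤ) : ZMod L)) (h2 : u.2 = v.2) : sdRed L u = sdRed L v := by
  unfold sdRed
  exact Prod.ext ((ZMod.intCast_eq_intCast_iff' _ _ L).1 h1) h2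

theorem rsq_red_cast (L : ℕ) (u : TV) : (((sdRed L u).1 : ℤ) : ZMod L) = ((u.1 : ℤ) : ZMod L) := by
  unfold sdRed
  exact ZMod.intCast_mod _ _

theorem rsq_red_snd (L : ℕ) (u : TV) : (sdRed L u).2 = u.2 := rfl

theorem rsc_P_shift (x : ℝ) (L H : ℕ) (hL : 2 ≤ L) (T s : Bool) (t : ℤ) (E : Set TV → Prop) :
    sdP x L H T s (fun Y => E (rswSh t Y)) = sdP x L H T s E := by
  refine rsq_aut' x L H (by omega) T s (fun u => (u.1 + t, u.2)) (fun u => (u.1 - t, u.2)) (fun u => (u.1 + t, u.2)) (fun u => (u.1 - t, u.2))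
    (fun _ => rfl) (fun _ => rfl) (fun _ => rfl) (fun u => ?_) (fun u => ?_) (fun u => ?_) (fun y => ?_) E
  · refine rsq_red_ext L _ _ ?_ rfl
    push_cast [rsq_red_cast]
    ring
  · refine rsq_red_ext L _ _ ?_ rfl
    push_cast [rsq_red_cast]
    ring
  · refine rsq_red_ext L _ _ ?_ rfl
    push_cast [rsq_red_cast]
    ring
  · have e : ∀ d : TV, sdRed L (sdRed L (y.1 + t, y.2) + d) = sdRed L ((sdRed L (y + d)).1 + t, (sdRed L (y + d)).2) := by
      intro d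
      refine rsq_red_ext L _ _ ?_ rfl
      simp only [Prod.fst_add]
      push_cast [rsq_red_cast]
      simp only [Prod.fst_add]
      push_cast
      ring
    have e0 : sdRed L (sdRed L (y.1 + t, y.2)) = sdRed L ((sdRed L y).1 + t, (sdRed L y).2) := by
      have := e 0
      simpa using this
    cases T
    · simp only [sdCell, cellD, Bool.false_eq_true, if_false, Finset.image_insert, Finset.image_singleton, e]
    · simp only [sdCell, cellV, if_true, Finset.image_insert, Finset.image_singleton, e, e0]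

theorem rsc_P_mirror (x : ℝ) (L H : ℕ) (hL : 2 ≤ L) (T s : Bool) (μ : ℤ) (E : Set TV → Prop) :
    sdP x L H T s (fun Y => E (rswMi μ Y)) = sdP x L H T s E := by
  obtain ⟨c, hc⟩ : ∃ c : ℤ, c = if T then μ + 1 else μ + 2 := ⟨_, rfl⟩
  refine rsq_aut' x L H (by omega) T s (fun u => (c - u.1 - u.2, u.2)) (fun u => (c - u.1 - u.2, u.2)) (fun u => (μ - u.1 - u.2, u.2))
    (fun u => (μ - u.1 - u.2, u.2)) (fun _ => rfl) (fun _ => rfl) (fun _ => rfl) (fun u => ?_) (fun u => ?_) (fun u => ?_) (fun y => ?_) E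
  · refine rsq_red_ext L _ _ ?_ rfl
    push_cast [rsq_red_cast, rsq_red_snd]
    ring
  · refine rsq_red_ext L _ _ ?_ rfl
    push_cast [rsq_red_cast, rsq_red_snd]
    ring
  · refine rsq_red_ext L _ _ ?_ rfl
    push_cast [rsq_red_cast, rsq_red_snd]
    ring
  · have e : ∀ d d' : TV, d.1 + d'.1 + d.2 = c - μ → d.2 = d'.2 →
        sdRed L (sdRed L (μ - y.1 - y.2, y.2) + d) = sdRed L (c - (sdRed L (y + d')).1 - (sdRed L (y + d')).2, (sdRed L (y + d')).2) := by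
      intro d d' h1 h2
      have hcc : c = μ + (d.1 + d'.1 + d.2) := by omega
      refine rsq_red_ext L _ _ ?_ ?_
      · simp only [Prod.fst_add, rsq_red_snd, Prod.snd_add]
        push_cast [rsq_red_cast]
        simp only [Prod.fst_add]
        rw [hcc, ← h2]
        push_cast
        ring
      · simp only [Prod.snd_add, rsq_red_snd, h2]
    cases T
    · simp only [Bool.false_eq_true, if_false] at hc
      have e1 := e (1, 0) (1, 0) (by simp only; omega) rfl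
      have e2 := e (0, 1) (1, 1) (by simp only; omega) rfl
      have e3 := e (1, 1) (0, 1) (by simp only; omega) rfl
      simp only [sdCell, cellD, Bool.false_eq_true, if_false, Finset.image_insert, Finset.image_singleton, e1, e2, e3]
      rw [Finset.pair_comm]
    · simp only [if_true] at hc
      have e1 := e 0 (1, 0) (by simp only [Prod.fst_zero, Prod.snd_zero]; omega) rfl
      have e2 := e (1, 0) 0 (by simp only [Prod.fst_zero, Prod.snd_zero]; omega) rfl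
      have e3 := e (0, 1) (0, 1) (by simp only; omega) rfl
      rw [add_zero] at e1 e2
      simp only [sdCell, cellV, if_true, Finset.image_insert, Finset.image_singleton, e1, e2, e3]
      rw [Finset.insert_comm]

/-! ## §6 the instance -/

/-- **the mixed cylinder law of the open-plus cells is an `RswLaw`** -/
noncomputable def rscLaw (x : ℝ) (hx0 : 0 < x) (hx1 : x ≤ 1) (L H : ℕ) (hL : 2 ≤ L) (hH : 1 ≤ H) (T : Bool) : RswLaw where
  P := sdP x L H T true
  mono := rsc_P_mono x hx0 hx1 L H T true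
  bot := rsc_P_bot x L H T true
  top := rsc_P_top x hx0 hx1 L H hL hH T true
  union := rsc_P_union x hx0 hx1 L H T true
  fkg := rsc_P_fkg x hx0 hx1 L H hL hH T
  shift := rsc_P_shift x L H hL T true
  mirror := rsc_P_mirror x L H hL T true

theorem rsc_law_eqns_cite : True := by
  have := @rscLaw.eq_1
  trivial

theorem rsc_law_P (x : ℝ) (hx0 : 0 < x) (hx1 : x ≤ 1) (L H : ℕ) (hL : 2 ≤ L) (hH : 1 ≤ H) (T : Bool) (E : Set TV → Prop) :
    (rscLaw x hx0 hx1 L H hL hH T).P E = sdP x L H T true E := rfl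

/-! ## §7 the exit -/

/-- **THE CLOSED CONTRACT OF PART II** (TIP + TUBE on the mixed cylinder; `Ann/RswGlue.lean`: 36, 269, 105): ONE constant `cg` for all circumferences `L ≥ 16 r` (ruling of 187, 06:20Z), heights, classes,
bands `[c, c + r]` of index rows with room `r` below and above (the room offered by the consumer `SdRsw` of `Defs/Seed`).
HOW: `rsr_glue (rscAmb x L T 0 H) (rsc_amb_ok ..) (rscK L 0 H) (sdRed L) (rscLaw ..) (rsc_law_real ..)` + (SE-TIP), (SE-TUBE) in the ambient DISC (`rsc_amb_disk`, `rsc_K_legal`). -/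
def RscGlue (x : ℝ) (hx0 : 0 < x) (hx1 : x ≤ 1) : Prop :=
  ∃ cg : ℝ, 0 < cg ∧ ∀ (L H : ℕ) (hL : 2 ≤ L) (hH : 1 ≤ H) (T : Bool) (c r w : ℤ), 10 ≤ w → 12500 * w ≤ r → r ≤ 25000 * w → 16 * r ≤ L → r ≤ c → c + 2 * r ≤ (H : ℤ) - 1 →
    RswGlue (rscLaw x hx0 hx1 L H hL hH T) cg c r w

/-- the hypothesis `h𝔏` of `rsr_glue` (269) for the realisation in the ambient disc (`sdSet S L 1 ω = rsrY S (sdRed L) ω` by `rfl`) -/
theorem rsc_law_real (x : ℝ) (hx0 : 0 < x) (hx1 : x ≤ 1) (L H : ℕ) (hL : 2 ≤ L) (hH : 1 ≤ H) (T : Bool) (E : Set TV → Prop) :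
    (rscLaw x hx0 hx1 L H hL hH T).P E = (rscAmb x L T 0 H).P ((rscK L 0 H).Holds (rscAmb x L T 0 H)) (fun ω => E (sdSet (rscAmb x L T 0 H) L 1 ω)) :=
  rsc_real x hx0 hx1 L H (by omega) hH T E

/-- dual form = path form -/
theorem rsc_H_iff {a b c d : ℤ} (hab : a ≤ b) (hcd : c ≤ d) (X : Set TV) : SdH a b c d X ↔ RswH a b c d X :=
  (pls_box_iff hab hcd X).symm

theorem rsc_V_iff {a b c d : ℤ} (hab : a ≤ b) (hcd : c ≤ d) (X : Set TV) : SdV a b c d X ↔ RswV a b c d X :=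
  (pls_box_iff' hab hcd X).symm

/-- TEX[annulus:RSW] **(56) on the mixed cylinder**, from PART I (`rsw_main`) and PART II (`RscGlue`) -/
theorem rsc_exit (x : ℝ) (hx0 : 0 < x) (hx1 : x ≤ 1) (hG : RscGlue x hx0 hx1) (δ : ℝ) (hδ : 0 < δ) :
    ∃ ψ : ℝ, 0 < ψ ∧ ∀ (L H : ℕ) (T : Bool) (c r a a' : ℤ), 125000 ≤ r → 16 * r ≤ L → r ≤ c → c + 2 * r ≤ (H : ℤ) - 1 →
      δ ≤ sdP x L H T true (SdV a (a + 6 * r) c (c + r)) → ψ ≤ sdP x L H T true (SdH a' (a' + 4 * r) c (c + r)) := by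
  obtain ⟨cg, hcg, G⟩ := hG
  obtain ⟨ψ, hψ, M⟩ := rsw_main cg δ hcg hδ
  refine ⟨ψ, hψ, fun L H T c r a a' hr hL hc hcH hV => ?_⟩
  have hL2 : 2 ≤ L := by omega
  have hH1 : 1 ≤ H := by omega
  have hw1 : 10 ≤ r / 12500 := by omega
  have hw2 : 12500 * (r / 12500) ≤ r := by omega
  have hw3 : r ≤ 25000 * (r / 12500) := by omega
  have eV : SdV a (a + 6 * r) c (c + r) = RswV a (a + 6 * r) c (c + r) :=
    funext fun X => propext (rsc_V_iff (by omega) (by omega) X)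
  have eH : SdH a' (a' + 4 * r) c (c + r) = RswH a' (a' + 4 * r) c (c + r) :=
    funext fun X => propext (rsc_H_iff (by omega) (by omega) X)
  rw [eH]
  rw [eV] at hV
  exact M (rscLaw x hx0 hx1 L H hL2 hH1 T) c r (r / 12500) hw1 hw2 hw3 (G L H hL2 hH1 T c r (r / 12500) hw1 hw2 hw3 hL hc hcH) a a' hV

/-- the exit in the shape of the contract `SdRsw` of `Defs/Seed` (with `16 r ≤ L`): LINK for `cyb_in_rsw` -/
theorem rsc_rsw (x : ℝ) (hx0 : 0 < x) (hx1 : x ≤ 1) (hG : RscGlue x hx0 hx1) :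
    ∀ δ : ℝ, 0 < δ → ∃ ψ : ℝ, 0 < ψ ∧ ∃ r₀ : ℕ, ∀ (L H : ℕ) (T : Bool) (c r : ℤ), (r₀ : ℤ) ≤ r → 16 * r ≤ L → r ≤ c → c + 2 * r ≤ (H : ℤ) - 1 →
      δ ≤ sdP x L H T true (SdV 0 (6 * r) c (c + r)) → ψ ≤ sdP x L H T true (SdH 0 (4 * r) c (c + r)) := by
  intro δ hδ
  obtain ⟨ψ, hψ, M⟩ := rsc_exit x hx0 hx1 hG δ hδ
  refine ⟨ψ, hψ, 125000, fun L H T c r hr hL hc hcH hV => ?_⟩
  have h := M L H T c r 0 0 (by exact_mod_cast hr) hL hc hcH (by rw [zero_add]; exact hV)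
  rwa [zero_add] at h

/-! ## §8 NO SEAM: the contract of PART II at two centres -/

theorem rsc_E_sh (t c d w m l ρ : ℤ) (Y : Set TV) : RswE c d w (m + 2 * t) l ρ (rswSh t Y) ↔ RswE c d w m l ρ Y := by
  unfold RswE
  have e1 : m + 2 * t - l = m - l + 2 * t := by ring
  have e2 : m + 2 * t + ρ = m + ρ + 2 * t := by ring
  rw [e1, e2]
  exact rsw_cr_sh t _ _ c d m m w Y

/-- every integer is `m₀` or `m₀ + 1` up to an even shift -/
theorem rsc_two (m₀ m : ℤ) : ∃ t m' : ℤ, (m' = m₀ ∨ m' = m₀ + 1) ∧ m = m' + 2 * t :=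
  ⟨(m - m₀) / 2, m - 2 * ((m - m₀) / 2), by omega, by ring⟩

/-- **NO SEAM (TIP)**: the inequality at the centres `m₀`, `m₀ + 1` gives it at all centres (shift of the law) -/
theorem rsc_tip_of_two (𝔏 : RswLaw) (cg : ℝ) (c d w σ e e2 m₀ : ℤ)
    (h : ∀ m : ℤ, (m = m₀ ∨ m = m₀ + 1) → cg * 𝔏.P (fun Y => RswE c d w m e e Y ∧ RswE c d w (m + σ) e e Y ∧ ¬ RswE c d w m e e2 Y ∧ ¬ RswE c d w m e2 e Y ∧
      ¬ RswE c d w (m + σ) e e2 Y ∧ ¬ RswE c d w (m + σ) e2 e Y) ≤ 𝔏.P (RswF c d w σ m)) : RswTip 𝔏 cg c d w σ e e2 := by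
  intro m
  obtain ⟨t, m', hm', rfl⟩ := rsc_two m₀ m
  have e0 : m' + 2 * t + σ = m' + σ + 2 * t := by ring
  rw [← 𝔏.shift t (RswF c d w σ (m' + 2 * t)), ← 𝔏.shift t (fun Y => RswE c d w (m' + 2 * t) e e Y ∧ RswE c d w (m' + 2 * t + σ) e e Y ∧ ¬ RswE c d w (m' + 2 * t) e e2 Y ∧
    ¬ RswE c d w (m' + 2 * t) e2 e Y ∧ ¬ RswE c d w (m' + 2 * t + σ) e e2 Y ∧ ¬ RswE c d w (m' + 2 * t + σ) e2 e Y)]
  simp only [e0, rsc_E_sh, rsw_F_sh]
  exact h m' hm'

/-- **NO SEAM (TUBE)** -/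
theorem rsc_tube_of_two (𝔏 : RswLaw) (cg : ℝ) (c d w σ e m₀ : ℤ)
    (h : ∀ m : ℤ, (m = m₀ ∨ m = m₀ + 1) → cg * 𝔏.P (fun Y => RswE c d w m e e Y ∧ RswE c d w (m + σ) e e Y) ≤ 𝔏.P (RswF c d w σ m)) : RswTube 𝔏 cg c d w σ e := by
  intro m
  obtain ⟨t, m', hm', rfl⟩ := rsc_two m₀ m
  have e0 : m' + 2 * t + σ = m' + σ + 2 * t := by ring
  rw [← 𝔏.shift t (RswF c d w σ (m' + 2 * t)), ← 𝔏.shift t (fun Y => RswE c d w (m' + 2 * t) e e Y ∧ RswE c d w (m' + 2 * t + σ) e e Y)]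
  simp only [e0, rsc_E_sh, rsw_F_sh]
  exact h m' hm'

/-- `rsr_glue` of 269 with (SE-TIP), (SE-TUBE) at the two centres `m₀`, `m₀ + 1` only -/
theorem rsc_glue_of_two {V Y : Type} [DecidableEq V] [DecidableEq Y] (S : ClSys V Y) (hS : ClOk S) (K : ClCon V Y) (ι : TV → Y) (𝔏 : RswLaw)
    (h𝔏 : ∀ E, 𝔏.P E = S.P (K.Holds S) (fun ω => E (rsrY S ι ω))) {cg : ℝ} (hcg : 0 ≤ cg) {c r w : ℤ} (hr : 0 < r) (hw : 0 ≤ w) (m₀ : ℤ)
    (htip : ∀ m e e2 : ℤ, (m = m₀ ∨ m = m₀ + 1) → e2 ≤ e → e + 3 * (20 * w + 8) + (5 * w + 1) + 8 ≤ 2 * e2 → e ≤ 14 * r →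
      RsrSETip S K ι cg c (c + r) (5 * w + 1) (20 * w + 8) m e e2)
    (htube : ∀ m e : ℤ, (m = m₀ ∨ m = m₀ + 1) → 5 * w + 1 + 4 ≤ e → e ≤ 20 * (20 * w + 8) → RsrSETube S K ι cg c (c + r) (5 * w + 1) (20 * w + 8) m e) :
    RswGlue 𝔏 cg c r w where
  tip := by
    intro e e2 h1 h2 h3
    refine rsc_tip_of_two 𝔏 cg _ _ _ _ e e2 m₀ fun m hm => ?_
    rw [h𝔏, h𝔏]
    exact rsr_tip S hS K ι hcg (by omega) (by omega) (by omega) (by omega) (htip m e e2 hm h1 h2 h3)
  tube := by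
    intro e h1
    refine rsc_tube_of_two 𝔏 cg _ _ _ _ e m₀ fun m hm => ?_
    have key := rsr_tube S hS K ι hcg (c := c) (d := c + r) (w := 5 * w + 1) (σ := 20 * w + 8) (m := m) (e := max e (5 * w + 1 + 4))
      (by omega) (by omega) (by omega) (le_max_right _ _) (htube m _ hm (le_max_right _ _) (max_le h1 (by omega)))
    rw [← h𝔏 (fun Y => RswE c (c + r) (5 * w + 1) m (max e (5 * w + 1 + 4)) (max e (5 * w + 1 + 4)) Y ∧
      RswE c (c + r) (5 * w + 1) (m + (20 * w + 8)) (max e (5 * w + 1 + 4)) (max e (5 * w + 1 + 4)) Y), ← h𝔏 (RswF c (c + r) (5 * w + 1) (20 * w + 8) m)] at key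
    refine le_trans (mul_le_mul_of_nonneg_left (𝔏.mono _ _ fun Y hY => ?_) hcg) key
    have hsub : ∀ m' : ℤ, rswRect (m' - e) (m' + e) c (c + r) ⊆ rswRect (m' - max e (5 * w + 1 + 4)) (m' + max e (5 * w + 1 + 4)) c (c + r) := by
      rintro m' z ⟨g1, g2, g3, g4⟩
      have := le_max_left e (5 * w + 1 + 4)
      exact ⟨by omega, by omega, g3, g4⟩
    exact ⟨rsw_cr_mono (hsub m) hY.1, rsw_cr_mono (hsub _) hY.2⟩

/-- the window of the two explorations at the centres `L + c`, `L + c + 1` (with a margin of 4 in `X`, 2 rows) lies strictly inside the fundamental domain: `sdRed L` is the identity on it and around it -/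
theorem rsc_window {L : ℕ} {c r σ e m : ℤ} (hm : m = L + c ∨ m = L + c + 1) (hL : 16 * r ≤ L) (he : e ≤ 14 * r) (hσ0 : 0 ≤ σ) (hσ : σ + 20 ≤ r) {p : TV}
    (hp : p ∈ rswRect (m - e - 4) (m + σ + e + 4) (c - 2) (c + r + 2)) : 2 ≤ p.1 ∧ p.1 ≤ (L : ℤ) - 3 := by
  obtain ⟨h1, h2, h3, h4⟩ := hp
  unfold rswX at h1 h2
  constructor <;> omega

end Claimed.Agent.R291
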