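import Claimed.Agent.R291.Ann.Seed
import Claimed.Agent.R291.Ann.Model

/-!
# Row 291 (S0539), Ann/SeedIso : A4 LAW SIDE, SYMMETRIES OF THE CYLINDER SYSTEMS `sdSys`      (owner helper18; prefix `sdi_` / `sdi`)

TEX 09-annulus l.10-21 (the laws `P_T`), T5 of `T23_CHAIN.md`.   SKEW MAPS of the cover `u ↦ (e u.1 + g u.2, h u.2)`, `e = ±1`, commute with the reduction mod `(L, 0)`; a pair (site map, index map) of invertible skew maps which carries the
cells of class `T` to the cells of class `T'` is a `CuIso` of the cylinder systems (`sdi_iso`).   Transport of the lifted sets `sdSet` (`sdi_set`), of the pins on rows (`sdi_pin`), of probabilities (`sdi_P`).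
INSTANCES: horizontal translations (`sdi_P_shift`, `sdi_shift : SdShift x`), mirrors in vertical axes (`sdi_P_mirror`), vertical translations (`sdi_dat_vert`), reflection in the middle line + flip of `B` (`sdi_sym`).
-/

set_option autoImplicit false
set_option linter.unusedSectionVars false
set_option linter.unusedVariables false
set_option linter.unusedSimpArgs false

namespace Claimed.Agent.R291

open Claims Claims.C0467 Relation

/-! ## 1. abstract: probabilities under isomorphisms, flips, congruence on the support -/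

section abstract

variable {V Y : Type} [DecidableEq V] [DecidableEq Y]

/-- congruence of the sums on the support -/
theorem sdi_N_congr (S : ClSys V Y) {K K' : ClCfg V Y → Prop} {F F' : ClCfg V Y → ℝ}
    (hK : ∀ ω ∈ S.cfgs, S.wt ω ≠ 0 → (K ω ↔ K' ω)) (hF : ∀ ω ∈ S.cfgs, S.wt ω ≠ 0 → K ω → F ω = F' ω) : S.N K F = S.N K' F' := by
  classical
  unfold ClSys.N
  refine Finset.sum_congr rfl fun ω hω => ?_
  by_cases hw : S.wt ω = 0
  · simp [hw]
  · by_cases h : K ω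
    · rw [if_pos h, if_pos ((hK ω hω hw).1 h), hF ω hω hw h]
    · rw [if_neg h, if_neg (fun h' => h ((hK ω hω hw).2 h'))]

/-- congruence of the probabilities on the support -/
theorem sdi_P_congr (S : ClSys V Y) {K K' L L' : ClCfg V Y → Prop}
    (hK : ∀ ω ∈ S.cfgs, S.wt ω ≠ 0 → (K ω ↔ K' ω)) (hL : ∀ ω ∈ S.cfgs, S.wt ω ≠ 0 → K ω → (L ω ↔ L' ω)) : S.P K L = S.P K' L' := by
  classical
  unfold ClSys.P
  rw [dis_E_eq, dis_E_eq, dis_Z_eq, dis_Z_eq, sdi_N_congr S hK (F' := fun _ => 1) (fun _ _ _ _ => rfl),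
    sdi_N_congr S hK (F' := fun ω => if L' ω then 1 else 0) (fun ω hω hw h => by simp only [hL ω hω hw h])]

/-- probabilities are transported by an isomorphism -/
theorem sdi_P_iso {V' Y' : Type} [DecidableEq V'] [DecidableEq Y'] (S : ClSys V Y) (S' : ClSys V' Y') (φ : V → V') (ψ : Y → Y')
    (h : CuIso S S' φ ψ) (hS : ∀ y ∈ S.C, S.sv y ⊆ S.A) (K' L' : ClCfg V' Y' → Prop) :
    S'.P K' L' = S.P (fun ω => K' (ω.map φ ψ)) (fun ω => L' (ω.map φ ψ)) := by
  classical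
  unfold ClSys.P
  rw [dis_E_eq, dis_E_eq, dis_Z_eq, dis_Z_eq, am_iso S S' φ ψ h hS, am_iso S S' φ ψ h hS]

/-- probabilities under the flip of the first spin -/
theorem sdi_P_flipB (S : ClSys V Y) (hS : ∀ y ∈ S.C, S.sv y ⊆ S.A) (K L : ClCfg V Y → Prop) :
    S.P K L = S.P (fun ω => K (ω.flipB S.A)) (fun ω => L (ω.flipB S.A)) := by
  classical
  unfold ClSys.P
  rw [dis_E_eq, dis_E_eq, dis_Z_eq, dis_Z_eq, am_flipB_N S hS K, am_flipB_N S hS K (fun _ => 1)]

/-- an isomorphism from two pairs of mutually inverse maps -/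
theorem sdi_iso_mk {V' Y' : Type} [DecidableEq V'] [DecidableEq Y'] (S : ClSys V Y) (S' : ClSys V' Y') (φ : V → V') (φ' : V' → V)
    (ψ : Y → Y') (ψ' : Y' → Y) (a1 : ∀ u ∈ S.A, φ u ∈ S'.A) (a2 : ∀ v ∈ S'.A, φ' v ∈ S.A) (a3 : ∀ u ∈ S.A, φ' (φ u) = u)
    (a4 : ∀ v ∈ S'.A, φ (φ' v) = v) (c1 : ∀ u ∈ S.C, ψ u ∈ S'.C) (c2 : ∀ v ∈ S'.C, ψ' v ∈ S.C) (c3 : ∀ u ∈ S.C, ψ' (ψ u) = u)
    (c4 : ∀ v ∈ S'.C, ψ (ψ' v) = v) (hsv : ∀ y ∈ S.C, S'.sv (ψ y) = (S.sv y).image φ) (hq : ∀ y ∈ S.C, S'.q (ψ y) = S.q y) :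
    CuIso S S' φ ψ where
  injV := fun u hu v hv e => by rw [← a3 u hu, ← a3 v hv, e]
  injY := fun u hu v hv e => by rw [← c3 u hu, ← c3 v hv, e]
  A := by
    ext v
    rw [Finset.mem_image]
    exact ⟨fun ⟨u, hu, e⟩ => e ▸ a1 u hu, fun hv => ⟨φ' v, a2 v hv, a4 v hv⟩⟩
  C := by
    ext v
    rw [Finset.mem_image]
    exact ⟨fun ⟨u, hu, e⟩ => e ▸ c1 u hu, fun hv => ⟨ψ' v, c2 v hv, c4 v hv⟩⟩
  sv := hsv
  q := hq

end abstract

/-! ## 2. reduction and skew maps -/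

/-- a skew map of the cover -/
def sdiSk (e : ℤ) (g h : ℤ → ℤ) (u : TV) : TV := (e * u.1 + g u.2, h u.2)

/-- the induced map of the cylinder -/
def sdiM (L : ℕ) (e : ℤ) (g h : ℤ → ℤ) (u : TV) : TV := sdRed L (sdiSk e g h u)

/-- the triangle of class `T` on the cover -/
def sdiTri (T : Bool) (y : TV) : Finset TV := if T then cellV y else cellD y

theorem sdi_eqns_cite : True := by
  have := @sdiSk.eq_1
  have := @sdiM.eq_1
  have := @sdiTri.eq_1
  trivial

theorem sdi_red_red (L : ℕ) (u : TV) : sdRed L (sdRed L u) = sdRed L u := by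
  simp [sdRed]

theorem sdi_red_add (L : ℕ) (u w : TV) : sdRed L (sdRed L u + w) = sdRed L (u + w) := by
  simp [sdRed, Int.emod_add_emod]

theorem sdi_red_sk (L : ℕ) (e : ℤ) (g h : ℤ → ℤ) (u : TV) : sdRed L (sdiSk e g h (sdRed L u)) = sdRed L (sdiSk e g h u) := by
  have h1 : (e * (u.1 % (L : ℤ)) + g u.2) % (L : ℤ) = (e * u.1 + g u.2) % (L : ℤ) :=
    ((Int.mod_modEq u.1 L).mul_left e).add_right (g u.2)
  simp only [sdRed, sdiSk, h1]

theorem sdi_M_red (L : ℕ) (e : ℤ) (g h : ℤ → ℤ) (u : TV) : sdiM L e g h (sdRed L u) = sdiM L e g h u := sdi_red_sk L e g h u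

theorem sdi_mem_sites {L : ℕ} {a b : ℤ} {u : TV} : u ∈ sdSites L a b ↔ (0 ≤ u.1 ∧ u.1 < L) ∧ a ≤ u.2 ∧ u.2 ≤ b := by
  simp [sdSites, Finset.mem_product]

theorem sdi_mem_cells {L : ℕ} {a b : ℤ} {u : TV} : u ∈ sdCells L a b ↔ (0 ≤ u.1 ∧ u.1 < L) ∧ a ≤ u.2 ∧ u.2 < b := by
  simp [sdCells, Finset.mem_product]

theorem sdi_mem_row {L : ℕ} {j : ℤ} {u : TV} : u ∈ sdRow L j ↔ (0 ≤ u.1 ∧ u.1 < L) ∧ u.2 = j := by
  unfold sdRow
  rw [Finset.mem_product, Finset.mem_Ico, Finset.mem_singleton]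

theorem sdi_red_range {L : ℕ} (hL : 1 ≤ L) (u : TV) : 0 ≤ (sdRed L u).1 ∧ (sdRed L u).1 < L := by
  have hL' : (0 : ℤ) < L := by exact_mod_cast hL
  exact ⟨Int.emod_nonneg _ hL'.ne', Int.emod_lt_of_pos _ hL'⟩

theorem sdi_red_snd (L : ℕ) (u : TV) : (sdRed L u).2 = u.2 := rfl

theorem sdi_red_eq {L : ℕ} {u : TV} (h : 0 ≤ u.1 ∧ u.1 < L) : sdRed L u = u := by
  unfold sdRed
  rw [Int.emod_eq_of_lt h.1 h.2]

theorem sdi_red_sites {L : ℕ} (hL : 1 ≤ L) {a b : ℤ} (u : TV) : sdRed L u ∈ sdSites L a b ↔ a ≤ u.2 ∧ u.2 ≤ b := by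
  rw [sdi_mem_sites, sdi_red_snd]
  exact and_iff_right (sdi_red_range hL u)

theorem sdi_red_cells {L : ℕ} (hL : 1 ≤ L) {a b : ℤ} (u : TV) : sdRed L u ∈ sdCells L a b ↔ a ≤ u.2 ∧ u.2 < b := by
  rw [sdi_mem_cells, sdi_red_snd]
  exact and_iff_right (sdi_red_range hL u)

/-- composition of two induced maps which are inverse to each other on a row -/
theorem sdi_M_inv (L : ℕ) {e : ℤ} (he : e * e = 1) {g h g' h' : ℤ → ℤ} {u : TV} (h1 : h' (h u.2) = u.2) (h2 : g' (h u.2) = - (e * g u.2)) :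
    sdiM L e g' h' (sdiM L e g h u) = sdRed L u := by
  unfold sdiM
  rw [sdi_red_sk]
  unfold sdiSk
  simp only [h1, h2]
  congr 1
  ext
  · show e * (e * u.1 + g u.2) + -(e * g u.2) = u.1
    linear_combination u.1 * he
  · rfl

/-- the cells commute with the reduction -/
theorem sdi_cell_red (L : ℕ) (T : Bool) (y : TV) : sdCell L T (sdRed L y) = sdCell L T y := by
  unfold sdCell
  cases T <;> simp [cellV, cellD, Finset.image_insert, sdi_red_add, sdi_red_red]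

theorem sdi_cell_eq (L : ℕ) (T : Bool) (y : TV) : sdCell L T y = (sdiTri T y).image (sdRed L) := rfl

/-! ## 3. the isomorphism of two cylinder systems -/

/-- the data of an isomorphism: site map `(g, h)`, index map `(gi, hi)` and their inverses -/
structure SdiDat (T T' : Bool) (a b a' b' : ℤ) (e : ℤ) (g h g' h' gi hi gi' hi' : ℤ → ℤ) : Prop where
  e2 : e * e = 1
  s1 : ∀ j, a ≤ j → j ≤ b → a' ≤ h j ∧ h j ≤ b' ∧ h' (h j) = j ∧ g' (h j) = - (e * g j)
  s2 : ∀ j, a' ≤ j → j ≤ b' → a ≤ h' j ∧ h' j ≤ b ∧ h (h' j) = j ∧ g (h' j) = - (e * g' j)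
  c0 : ∀ j, (a ≤ j ∧ j < b) ↔ (a' ≤ hi j ∧ hi j < b')
  c1 : ∀ j, a ≤ j → j < b → hi' (hi j) = j ∧ gi' (hi j) = - (e * gi j)
  c2 : ∀ j, a' ≤ j → j < b' → a ≤ hi' j ∧ hi' j < b ∧ hi (hi' j) = j ∧ gi (hi' j) = - (e * gi' j)
  tri : ∀ y : TV, (sdiTri T y).image (sdiSk e g h) = sdiTri T' (sdiSk e gi hi y)

variable {T T' : Bool} {a b a' b' e : ℤ} {g h g' h' gi hi gi' hi' : ℤ → ℤ}

theorem sdi_iso (x : ℝ) {L : ℕ} (hL : 1 ≤ L) (D : SdiDat T T' a b a' b' e g h g' h' gi hi gi' hi') :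
    CuIso (sdSys x L T a b) (sdSys x L T' a' b') (sdiM L e g h) (sdiM L e gi hi) := by
  refine sdi_iso_mk _ _ (sdiM L e g h) (sdiM L e g' h') (sdiM L e gi hi) (sdiM L e gi' hi') ?_ ?_ ?_ ?_ ?_ ?_ ?_ ?_ ?_ ?_
  · intro u hu
    obtain ⟨_, h1, h2⟩ := sdi_mem_sites.1 hu
    exact (sdi_red_sites hL _).2 ⟨(D.s1 _ h1 h2).1, (D.s1 _ h1 h2).2.1⟩
  · intro u hu
    obtain ⟨_, h1, h2⟩ := sdi_mem_sites.1 hu
    exact (sdi_red_sites hL _).2 ⟨(D.s2 _ h1 h2).1, (D.s2 _ h1 h2).2.1⟩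
  · intro u hu
    obtain ⟨h0, h1, h2⟩ := sdi_mem_sites.1 hu
    rw [sdi_M_inv L D.e2 (D.s1 _ h1 h2).2.2.1 (D.s1 _ h1 h2).2.2.2, sdi_red_eq h0]
  · intro u hu
    obtain ⟨h0, h1, h2⟩ := sdi_mem_sites.1 hu
    rw [sdi_M_inv L D.e2 (D.s2 _ h1 h2).2.2.1 (D.s2 _ h1 h2).2.2.2, sdi_red_eq h0]
  · intro u hu
    obtain ⟨_, h1, h2⟩ := sdi_mem_cells.1 hu
    exact (sdi_red_cells hL _).2 ((D.c0 _).1 ⟨h1, h2⟩)
  · intro u hu
    obtain ⟨_, h1, h2⟩ := sdi_mem_cells.1 hu
    exact (sdi_red_cells hL _).2 ⟨(D.c2 _ h1 h2).1, (D.c2 _ h1 h2).2.1⟩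
  · intro u hu
    obtain ⟨h0, h1, h2⟩ := sdi_mem_cells.1 hu
    rw [sdi_M_inv L D.e2 (D.c1 _ h1 h2).1 (D.c1 _ h1 h2).2, sdi_red_eq h0]
  · intro u hu
    obtain ⟨h0, h1, h2⟩ := sdi_mem_cells.1 hu
    rw [sdi_M_inv L D.e2 (D.c2 _ h1 h2).2.2.1 (D.c2 _ h1 h2).2.2.2, sdi_red_eq h0]
  · intro y _
    show sdCell L T' (sdiM L e gi hi y) = (sdCell L T y).image (sdiM L e g h)
    unfold sdiM
    rw [sdi_cell_red, sdi_cell_eq, sdi_cell_eq, ← D.tri, Finset.image_image, Finset.image_image]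
    refine Finset.image_congr fun u _ => ?_
    exact (sdi_red_sk L e g h u).symm
  · intro y _
    rfl

/-- cells lie inside the site set -/
theorem sdi_sub (x : ℝ) {L : ℕ} (hL : 1 ≤ L) (T : Bool) (a b : ℤ) : ∀ y ∈ (sdSys x L T a b).C, (sdSys x L T a b).sv y ⊆ (sdSys x L T a b).A := by
  intro y hy u hu
  obtain ⟨_, h1, h2⟩ := sdi_mem_cells.1 hy
  obtain ⟨v, hv, rfl⟩ := Finset.mem_image.1 hu
  refine (sdi_red_sites hL v).2 ?_
  cases T
  · simp only [Bool.false_eq_true, if_false, cellD, Finset.mem_insert, Finset.mem_singleton] at hv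
    rcases hv with rfl | rfl | rfl <;> simp only [Prod.snd_add] <;> omega
  · simp only [if_true, cellV, Finset.mem_insert, Finset.mem_singleton] at hv
    rcases hv with rfl | rfl | rfl
    · omega
    · simp only [Prod.snd_add]; omega
    · simp only [Prod.snd_add]; omega

/-- transport of the lifted sets -/
theorem sdi_set (x : ℝ) {L : ℕ} (hL : 1 ≤ L) (D : SdiDat T T' a b a' b' e g h g' h' gi hi gi' hi') (t : ℤ) (ω : ClCfg TV TV)
    (hω : ω ∈ (sdSys x L T a b).cfgs) :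
    {y | sdiSk e gi hi y ∈ sdSet (sdSys x L T' a' b') L t (ω.map (sdiM L e g h) (sdiM L e gi hi))} = sdSet (sdSys x L T a b) L t ω := by
  ext y
  simp only [sdSet, Set.mem_ofPred_eq]
  have e1 : sdRed L (sdiSk e gi hi y) = sdiM L e gi hi (sdRed L y) := (sdi_M_red L e gi hi y).symm
  have hC : sdRed L (sdiSk e gi hi y) ∈ (sdSys x L T' a' b').C ↔ sdRed L y ∈ (sdSys x L T a b).C := by
    show _ ∈ sdCells L a' b' ↔ _ ∈ sdCells L a b
    rw [sdi_red_cells hL, sdi_red_cells hL]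
    exact (D.c0 y.2).symm
  rw [hC]
  refine and_congr_right fun hy => ?_
  rw [e1, am_iso_tau _ _ _ _ (sdi_iso x hL D) (sdi_sub x hL T a b) ω hω _ hy]

/-- transport of a pin on a row -/
theorem sdi_pin (x : ℝ) {L : ℕ} (hL : 1 ≤ L) (D : SdiDat T T' a b a' b' e g h g' h' gi hi gi' hi') (s : Bool) (ω : ClCfg TV TV)
    (hω : ω ∈ (sdSys x L T a b).cfgs) {j : ℤ} (h1 : a ≤ j) (h2 : j ≤ b) :
    CuPin s (sdRow L (h j)) (ω.map (sdiM L e g h) (sdiM L e gi hi)) ↔ CuPin s (sdRow L j) ω := by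
  have I := sdi_iso x hL D
  have hB := ((cl_mem_cfgs _ ω).1 hω).1
  have hA : ∀ v ∈ sdRow L j, v ∈ (sdSys x L T a b).A := fun v hv => by
    obtain ⟨h0, e0⟩ := sdi_mem_row.1 hv
    exact sdi_mem_sites.2 ⟨h0, e0 ▸ h1, e0 ▸ h2⟩
  constructor
  · intro hp v hv
    have hv' : sdiM L e g h v ∈ sdRow L (h j) := by
      refine sdi_mem_row.2 ⟨sdi_red_range hL _, ?_⟩
      show h v.2 = h j
      rw [(sdi_mem_row.1 hv).2]
    rw [← hp _ hv']
    exact (am_t5_mem I.injV hB (hA v hv)).symm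
  · intro hp v hv
    obtain ⟨h0, e0⟩ := sdi_mem_row.1 hv
    obtain ⟨k1, k2, k3, k4⟩ := D.s1 j h1 h2
    have hu : sdiM L e g' h' v ∈ sdRow L j := by
      refine sdi_mem_row.2 ⟨sdi_red_range hL _, ?_⟩
      show h' v.2 = j
      rw [e0, k3]
    have hv2 : sdiM L e g h (sdiM L e g' h' v) = v := by
      obtain ⟨m1, m2, m3, m4⟩ := D.s2 v.2 (e0 ▸ k1) (e0 ▸ k2)
      rw [sdi_M_inv L D.e2 m3 m4, sdi_red_eq h0]
    rw [← hp _ hu, ← hv2]
    have := am_t5_mem I.injV hB (hA _ hu)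
    rw [hv2] at this ⊢
    exact this

/-- **transport of a probability of the lifted set** -/
theorem sdi_P (x : ℝ) {L : ℕ} (hL : 1 ≤ L) (D : SdiDat T T' a b a' b' e g h g' h' gi hi gi' hi') (t : ℤ) (K' : ClCfg TV TV → Prop)
    (E : Set TV → Prop) :
    (sdSys x L T' a' b').P K' (fun ω => E {y | sdiSk e gi hi y ∈ sdSet (sdSys x L T' a' b') L t ω}) =
      (sdSys x L T a b).P (fun ω => K' (ω.map (sdiM L e g h) (sdiM L e gi hi))) (fun ω => E (sdSet (sdSys x L T a b) L t ω)) := by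
  rw [sdi_P_iso _ _ _ _ (sdi_iso x hL D) (sdi_sub x hL T a b)]
  refine sdi_P_congr _ (fun _ _ _ => Iff.rfl) (fun ω hω _ _ => ?_)
  rw [sdi_set x hL D t ω hω]

/-! ## 4. instances -/

/-- horizontal translation by `c` -/
theorem sdi_dat_shift (T : Bool) (a b c : ℤ) :
    SdiDat T T a b a b 1 (fun _ => c) (fun j => j) (fun _ => -c) (fun j => j) (fun _ => c) (fun j => j) (fun _ => -c) (fun j => j) where
  e2 := by norm_num
  s1 := fun j h1 h2 => ⟨h1, h2, rfl, by simp⟩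
  s2 := fun j h1 h2 => ⟨h1, h2, rfl, by simp⟩
  c0 := fun j => Iff.rfl
  c1 := fun j _ _ => ⟨rfl, by simp⟩
  c2 := fun j h1 h2 => ⟨h1, h2, rfl, by simp⟩
  tri := fun y => by
    cases T <;> simp [sdiTri, sdiSk, cellV, cellD, Finset.image_insert, Prod.ext_iff] <;> ring_nf

/-- vertical translation by `t` -/
theorem sdi_dat_vert (T : Bool) (a b t : ℤ) :
    SdiDat T T a b (a + t) (b + t) 1 (fun _ => 0) (fun j => j + t) (fun _ => 0) (fun j => j - t) (fun _ => 0) (fun j => j + t) (fun _ => 0)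
      (fun j => j - t) where
  e2 := by norm_num
  s1 := fun j h1 h2 => ⟨by omega, by omega, by omega, by simp⟩
  s2 := fun j h1 h2 => ⟨by omega, by omega, by omega, by simp⟩
  c0 := fun j => by constructor <;> intro h <;> constructor <;> omega
  c1 := fun j _ _ => ⟨by omega, by simp⟩
  c2 := fun j h1 h2 => ⟨by omega, by omega, by omega, by simp⟩
  tri := fun y => by
    cases T <;> simp [sdiTri, sdiSk, cellV, cellD, Finset.image_insert, Prod.ext_iff] <;> ring_nf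

/-- mirror in a vertical axis: index map `p ↦ (μ - p.1 - p.2, p.2)` -/
theorem sdi_dat_mirror (T : Bool) (a b μ : ℤ) :
    SdiDat T T a b a b (-1) (fun j => μ + (if T then 1 else 2) - j) (fun j => j) (fun j => μ + (if T then 1 else 2) - j) (fun j => j)
      (fun j => μ - j) (fun j => j) (fun j => μ - j) (fun j => j) where
  e2 := by norm_num
  s1 := fun j h1 h2 => ⟨h1, h2, rfl, by simp⟩
  s2 := fun j h1 h2 => ⟨h1, h2, rfl, by simp⟩
  c0 := fun j => Iff.rfl
  c1 := fun j _ _ => ⟨rfl, by simp⟩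
  c2 := fun j h1 h2 => ⟨h1, h2, rfl, by simp⟩
  tri := fun y => by
    cases T
    · simp only [sdiTri, sdiSk, cellV, cellD, Finset.image_insert, Finset.image_singleton, Bool.false_eq_true, if_false, Prod.fst_add,
        Prod.snd_add]
      ext v
      simp only [Finset.mem_insert, Finset.mem_singleton, Prod.ext_iff, Prod.fst_add, Prod.snd_add]
      constructor <;> rintro (h | h | h) <;> omega
    · simp only [sdiTri, sdiSk, cellV, cellD, Finset.image_insert, Finset.image_singleton, if_true, Prod.fst_add, Prod.snd_add]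
      ext v
      simp only [Finset.mem_insert, Finset.mem_singleton, Prod.ext_iff, Prod.fst_add, Prod.snd_add]
      constructor <;> rintro (h | h | h) <;> omega

/-- reflection in the middle line of the rows `0..H`: exchanges the two classes; index map `p ↦ (p.1 + p.2, H - 1 - p.2)` -/
theorem sdi_dat_refl (T : Bool) (H : ℤ) :
    SdiDat T (!T) 0 H 0 H 1 (fun j => j - (if T then 0 else 1)) (fun j => H - j) (fun j => j + (if T then 0 else 1) - H) (fun j => H - j)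
      (fun j => j) (fun j => H - 1 - j) (fun j => j + 1 - H) (fun j => H - 1 - j) where
  e2 := by norm_num
  s1 := fun j h1 h2 => ⟨by omega, by omega, by omega, by ring⟩
  s2 := fun j h1 h2 => ⟨by omega, by omega, by omega, by ring⟩
  c0 := fun j => by constructor <;> intro h <;> constructor <;> omega
  c1 := fun j _ _ => ⟨by omega, by ring⟩
  c2 := fun j h1 h2 => ⟨by omega, by omega, by omega, by ring⟩
  tri := fun y => by
    cases T
    · simp only [sdiTri, sdiSk, cellV, cellD, Finset.image_insert, Finset.image_singleton, Bool.false_eq_true, if_false, Prod.fst_add,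
        Prod.snd_add, Bool.not_false, if_true]
      ext v
      simp only [Finset.mem_insert, Finset.mem_singleton, Prod.ext_iff, Prod.fst_add, Prod.snd_add]
      constructor <;> rintro (h | h | h) <;> omega
    · simp only [sdiTri, sdiSk, cellV, cellD, Finset.image_insert, Finset.image_singleton, if_true, Prod.fst_add, Prod.snd_add,
        Bool.not_true, Bool.false_eq_true, if_false]
      ext v
      simp only [Finset.mem_insert, Finset.mem_singleton, Prod.ext_iff, Prod.fst_add, Prod.snd_add]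
      constructor <;> rintro (h | h | h) <;> omega

/-! ## 5. the mixed cylinder law -/

/-- invariance of `sdP` under an automorphism which fixes the two end rows -/
theorem sdi_P_inv (x : ℝ) {L : ℕ} (hL : 1 ≤ L) (H : ℕ) {T : Bool} (D : SdiDat T T 0 H 0 H e g h g' h' gi hi gi' hi') (h0 : h 0 = 0)
    (hH : h H = H) (s : Bool) (E : Set TV → Prop) : sdP x L H T s (fun X => E {y | sdiSk e gi hi y ∈ X}) = sdP x L H T s E := by
  unfold sdP
  rw [sdi_P x hL D]
  refine sdi_P_congr _ (fun ω hω _ => ?_) (fun _ _ _ _ => Iff.rfl)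
  have p0 := sdi_pin x hL D false ω hω (j := 0) le_rfl (Int.natCast_nonneg H)
  have pH := sdi_pin x hL D true ω hω (j := H) (Int.natCast_nonneg H) le_rfl
  rw [h0] at p0
  rw [hH] at pH
  unfold SdMix
  rw [p0, pH]

/-- horizontal translations (form of `Ann/RswCyl`: `rswSh t Y = {p | (p.1 - t, p.2) ∈ Y}`) -/
theorem sdi_P_shift (x : ℝ) (L H : ℕ) (hL : 1 ≤ L) (T s : Bool) (t : ℤ) (E : Set TV → Prop) :
    sdP x L H T s (fun Y => E {p | (p.1 - t, p.2) ∈ Y}) = sdP x L H T s E := by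
  have := sdi_P_inv x hL H (sdi_dat_shift T 0 H (-t)) rfl rfl s E
  simp only [sdiSk, one_mul, ← sub_eq_add_neg] at this
  exact this

/-- mirrors in vertical axes (form of `Ann/RswCyl`: `rswMi μ Y = {p | (μ - p.1 - p.2, p.2) ∈ Y}`) -/
theorem sdi_P_mirror (x : ℝ) (L H : ℕ) (hL : 1 ≤ L) (T s : Bool) (μ : ℤ) (E : Set TV → Prop) :
    sdP x L H T s (fun Y => E {p | (μ - p.1 - p.2, p.2) ∈ Y}) = sdP x L H T s E := by
  have := sdi_P_inv x hL H (sdi_dat_mirror T 0 H μ) rfl rfl s E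
  have e1 : ∀ p : TV, sdiSk (-1) (fun j => μ - j) (fun j => j) p = (μ - p.1 - p.2, p.2) := by
    intro p
    unfold sdiSk
    ext
    · show -1 * p.1 + (μ - p.2) = μ - p.1 - p.2
      ring
    · rfl
  simp only [e1] at this
  exact this

/-- **(T5) horizontal translations** -/
theorem sdi_shift (x : ℝ) : SdShift x := by
  intro L H T s a E hL
  have := sdi_P_shift x L H (by omega) T s (-a) E
  rw [← this]
  unfold sdTr
  have e1 : ∀ y : TV, y + (a, 0) = (y.1 - -a, y.2) := by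
    intro y
    ext
    · show y.1 + a = y.1 - -a
      ring
    · show y.2 + 0 = y.2
      ring
  simp only [e1]

/-- a pin under the flip of the first spin -/
theorem sdi_pin_flip {A R : Finset TV} (hR : R ⊆ A) (s : Bool) (ω : ClCfg TV TV) : CuPin s R (ω.flipB A) ↔ CuPin (!s) R ω := by
  unfold CuPin ClCfg.flipB
  refine forall₂_congr fun v hv => ?_
  have hA := hR hv
  cases s <;> simp [hA]

/-- the lifted sets under the flip of the first spin -/
theorem sdi_set_flip (S : ClSys TV TV) (hS : ClOk S) (L : ℕ) (t : ℤ) (ω : ClCfg TV TV) (hω : S.wt ω ≠ 0) :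
    sdSet S L t (ω.flipB S.A) = sdSet S L (-t) ω := by
  ext y
  simp only [sdSet, Set.mem_ofPred_eq]
  refine and_congr_right fun hy => ?_
  rw [am_flipB_tau S hS ω hω _ hy]
  constructor <;> intro h <;> omega

theorem sdi_row_sub (L : ℕ) {a b j : ℤ} (h1 : a ≤ j) (h2 : j ≤ b) : sdRow L j ⊆ sdSites L a b := by
  intro v hv
  obtain ⟨h0, e0⟩ := sdi_mem_row.1 hv
  exact sdi_mem_sites.2 ⟨h0, e0 ▸ h1, e0 ▸ h2⟩

theorem sdi_ok (x : ℝ) (hx0 : 0 < x) (hx1 : x ≤ 1) {L : ℕ} (hL : 1 ≤ L) (T : Bool) (a b : ℤ) : ClOk (sdSys x L T a b) where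
  sub := sdi_sub x hL T a b
  ne := fun y _ => by
    show (sdCell L T y).Nonempty
    unfold sdCell
    cases T <;> simp [cellV, cellD]
  q0 := fun _ _ => by
    show 0 < x ^ 2
    positivity
  q1 := fun _ _ => pow_le_one₀ hx0.le hx1

/-- **(SYM1)** reflection in the middle line + flip of `B`: `P_T` and `P_T'` are exchanged, minus cells become plus cells.   Index map `(i, j) ↦ (i + j, H - 1 - j)`
(the site map is `(i, j) ↦ (i + j, H - j)` for the class `Y` and `(i, j) ↦ (i + j - 1, H - j)` for the class `Z`). -/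
theorem sdi_sym (x : ℝ) (hx0 : 0 < x) (hx1 : x ≤ 1) (L H : ℕ) (T : Bool) (E : Set TV → Prop) (hL : 1 ≤ L) :
    sdP x L H T false E = sdP x L H (!T) true (fun X => E {y | ((y.1 + y.2, (H : ℤ) - 1 - y.2) : TV) ∈ X}) := by
  have hL1 : 1 ≤ L := hL
  have hH0 : (0 : ℤ) ≤ H := Int.natCast_nonneg H
  have D := sdi_dat_refl T (H : ℤ)
  have e1 : ∀ y : TV, ((y.1 + y.2, (H : ℤ) - 1 - y.2) : TV) = sdiSk 1 (fun j => j) (fun j => (H : ℤ) - 1 - j) y := by
    intro y
    unfold sdiSk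
    rw [one_mul]
  simp only [e1]
  unfold sdP
  rw [sdi_P x hL1 D, sdi_P_flipB _ (sdi_sub x hL1 T 0 H)]
  refine sdi_P_congr _ (fun ω hω _ => ?_) (fun ω _ hw _ => ?_)
  · have p0 := sdi_pin x hL1 D true ω hω (j := 0) le_rfl hH0
    have pH := sdi_pin x hL1 D false ω hω (j := H) hH0 le_rfl
    simp only [sub_zero, sub_self] at p0 pH
    unfold SdMix
    rw [p0, pH]
    have q0 := sdi_pin_flip (A := (sdSys x L T 0 H).A) (sdi_row_sub L (j := 0) le_rfl hH0) false ω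
    have qH := sdi_pin_flip (A := (sdSys x L T 0 H).A) (sdi_row_sub L (j := H) hH0 le_rfl) true ω
    rw [q0, qH]
    exact and_comm
  · rw [sdi_set_flip _ (sdi_ok x hx0 hx1 hL1 T 0 H) L _ ω hw]
    rfl

end Claimed.Agent.R291
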