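import Claimed.Agent.R291.Ann.RswRec
import Claimed.Agent.R291.Ann.RswCyl
import Claimed.Agent.R291.Glue.Place

/-!
# Row 291 (S0539), Ann/RswF : BLOCK A3, PART II, CONTRACTS (T) AND (J) = "THE TWO LAYERS ARE LINKED ⟹ F"      (owner helper206; prefix `rsf_`, `Rsf`, `rsf`)      no sorry

Post of 24 (07:08Z).   DETERMINISTIC.   Abstract in the realisation `(S, K, ι)` like `Ann/RswRec` (269).   `a = rsfA .. ω₀`, `c = rsfC .. ω₀` = the two layers of the record of `ω₀` (by `rfl` the sets `rsrGa .. (rsrI .. ω₀)`, `rsrGc .. (rsrJ .. ω₀)`).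
§1 `rsf_link` (pure lift, any `P`): both layers exist (`RsrG0`), a site of `a` is joined to a site of `c` inside `P ∩ plsBand c d`  ⟹  `RswF c d w σ m P`.      (`ple_gam_cross`, `ple_gam_conn`, `ple_gam_sub` of 112.)
§2 under a record (`LenAgr S (rsrQ2 ..  ω₀) ω₀ ω`): `rsf_I_agr`, `rsf_J_agr`, `rsf_A_agr`, `rsf_C_agr` (clusters and layers are read off the record), `rsf_A_plus`, `rsf_C_plus` (the layers stay open-plus), `rsf_link_rec`,
   **(T) `rsf_touch`** (`RsfTouch a c` ⟹ F), `rsf_touch_SE` (the form of `RsrSE`, any `cg ≤ 1`), `rsf_sure`;   `rsf_one` = deterministic half of (C): ONE open-plus cell next to both layers ⟹ F.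
§3 **(J)**: `RsfChart S ι W` (on the window two cells which share a site have equal or adjacent indices), `rsf_lift`, `rsf_join_lift`, **`rsf_join`** : `GlJoinC S (Z ∩ glOn S 1 ω) La Lc` ⟹ F when `Z ⊆ ι '' W`,
   `La ⊆` sites of the cells of `a`, `Lc ⊆` sites of the cells of `c`;   `rsf_join_N` = the inequality consumed after `ent_join` (164).
§4 the charts: `rsf_chart_cyl`, `rsf_chart_amb` (`rscAmb` of 255), `rsf_chart_sd` (`sdSys`): a Euclidean rectangle with `(B - A) + (d - c) + 4 ≤ 2 L`.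
-/

set_option autoImplicit false
set_option linter.unusedSectionVars false
set_option linter.unusedVariables false

namespace Claimed.Agent.R291

open Claims Claims.C0467 Relation

/-! ## §1 the link lemma, in the lift -/

/-- the box of the two explorations lies in the band -/
theorem rsf_rect_band {A B c d : ℤ} : rswRect A B c d ⊆ plsBand c d := fun _ h => ⟨h.2.2.1, h.2.2.2⟩

/-- **LINK ⟹ F** (lift, deterministic): both layers exist, a site of the layer `a` is joined to a site of the layer `c` by plus cells of the band -/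
theorem rsf_link {c d w σ m e : ℤ} (hcd : c < d) (hw : 1 ≤ w) (hσ : 0 ≤ σ) (he : w + 4 ≤ e) {P : Set TV}
    (h0 : RsrG0 (m - e) (m + σ + e) c d w m (m + σ) (pleI tscG (rswRect (m - e) (m + σ + e) c d \ P) (rsrSgL (m - e) c d m w))
      (pleI tscG (rswRect (m - e) (m + σ + e) c d \ P) (rsrSgR (m + σ + e) c d (m + σ) w)))
    {z z' : TV} (hz : z ∈ rsrGa (m - e) (m + σ + e) c d w m (pleI tscG (rswRect (m - e) (m + σ + e) c d \ P) (rsrSgL (m - e) c d m w)))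
    (hz' : z' ∈ rsrGc (m - e) (m + σ + e) c d w (m + σ) (pleI tscG (rswRect (m - e) (m + σ + e) c d \ P) (rsrSgR (m + σ + e) c d (m + σ) w)))
    (hl : TscR tscG (P ∩ plsBand c d) z z') : RswF c d w σ m P := by
  have qL := rsr_quad_L (A := m - e) (B := m + σ + e) (c := c) (d := d) (i := m) (w := w) hcd hw (by omega) (by omega)
  have qR := rsr_quad_R (A := m - e) (B := m + σ + e) (c := c) (d := d) (i := m + σ) (w := w) hcd hw (by omega) (by omega)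
  obtain ⟨l, r, hl1, hl2, hr2, hlr⟩ := ple_gam_cross qL h0.1
  obtain ⟨l', r', hl1', hl2', hr2', hlr'⟩ := ple_gam_cross qR h0.2
  have sa : pleGam tscG (rswRect (m - e) (m + σ + e) c d) (rsrSgL (m - e) c d m w) (rsrSgR (m + σ + e) c d m w)
      (pleI tscG (rswRect (m - e) (m + σ + e) c d \ P) (rsrSgL (m - e) c d m w)) ⊆ P ∩ plsBand c d :=
    fun u hu => ⟨(ple_gam_sub hu).2, rsf_rect_band (ple_gam_sub hu).1⟩
  have sc : pleGam tscG (rswRect (m - e) (m + σ + e) c d) (rsrSgR (m + σ + e) c d (m + σ) w) (rsrSgL (m - e) c d (m + σ) w)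
      (pleI tscG (rswRect (m - e) (m + σ + e) c d \ P) (rsrSgR (m + σ + e) c d (m + σ) w)) ⊆ P ∩ plsBand c d :=
    fun u hu => ⟨(ple_gam_sub hu).2, rsf_rect_band (ple_gam_sub hu).1⟩
  have ca := ple_gam_conn qL.side qL.opp h0.1
  have cc := ple_gam_conn qR.side qR.opp h0.2
  refine ⟨l, r, l', r', sa hl1, hl2.1, hr2.1, hl2'.1, hr2'.1, hl2.2, hr2.2, hl2'.2, hr2'.2, tsc_R_mono sa hlr, ?_, tsc_R_mono sc hlr'⟩
  exact tsc_R_trans (tsc_R_mono sa (ca l hl1 z hz)) (tsc_R_trans hl (tsc_R_mono sc (cc z' hz' l' hl1')))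


/-- one step or none -/
theorem rsf_R_of_adj {X : Set TV} {z z' : TV} (hz : z ∈ X) (hz' : z' ∈ X) (h : z = z' ∨ tscG.Adj z z') : TscR tscG X z z' := by
  rcases h with rfl | h
  · exact tsc_R_refl _
  · exact tsc_R_step h hz hz'

/-! ## §2 the two layers of a record -/

section model

variable {V Y : Type} [DecidableEq V] [DecidableEq Y]

/-- the layer `a` (leftmost crossing at `m`) of the configuration `ω` -/
def rsfA (S : ClSys V Y) (ι : TV → Y) (c d w σ m e : ℤ) (ω : ClCfg V Y) : Set TV :=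
  rsrGa (m - e) (m + σ + e) c d w m (rsrI S ι c d w σ m e ω)

/-- the layer `c` (rightmost crossing at `m + σ`) of the configuration `ω` -/
def rsfC (S : ClSys V Y) (ι : TV → Y) (c d w σ m e : ℤ) (ω : ClCfg V Y) : Set TV :=
  rsrGc (m - e) (m + σ + e) c d w (m + σ) (rsrJ S ι c d w σ m e ω)

/-- the two layers touch: a common index or two adjacent indices -/
def RsfTouch (a c : Set TV) : Prop := ∃ z ∈ a, ∃ z' ∈ c, z = z' ∨ tscG.Adj z z'

/-- CHART: on the window `W` of the lift two cells which share a site have equal or adjacent indices -/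
def RsfChart (S : ClSys V Y) (ι : TV → Y) (W : Set TV) : Prop :=
  ∀ z ∈ W, ∀ z' ∈ W, (∃ v, v ∈ S.sv (ι z) ∧ v ∈ S.sv (ι z')) → z = z' ∨ tscG.Adj z z'

theorem rsf_eqns_cite : True := by
  have := @rsfA.eq_1
  have := @rsfC.eq_1
  have := @RsfTouch.eq_1
  have := @RsfChart.eq_1
  trivial

variable (S : ClSys V Y) (ι : TV → Y) {c d w σ m e : ℤ}

/-- the cluster `I` is read off the record -/
theorem rsf_I_agr {ω₀ ω : ClCfg V Y} (h : LenAgr S (rsrQ2 S ι c d w σ m e ω₀) ω₀ ω) :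
    rsrI S ι c d w σ m e ω = rsrI S ι c d w σ m e ω₀ :=
  rsr_I_meas S ι _ _ _ Set.subset_union_left ω₀ ω h

/-- the cluster `J` is read off the record -/
theorem rsf_J_agr {ω₀ ω : ClCfg V Y} (h : LenAgr S (rsrQ2 S ι c d w σ m e ω₀) ω₀ ω) :
    rsrJ S ι c d w σ m e ω = rsrJ S ι c d w σ m e ω₀ :=
  rsr_I_meas S ι _ _ _ Set.subset_union_right ω₀ ω h

theorem rsf_A_agr {ω₀ ω : ClCfg V Y} (h : LenAgr S (rsrQ2 S ι c d w σ m e ω₀) ω₀ ω) :
    rsfA S ι c d w σ m e ω = rsfA S ι c d w σ m e ω₀ := by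
  unfold rsfA; rw [rsf_I_agr S ι h]

theorem rsf_C_agr {ω₀ ω : ClCfg V Y} (h : LenAgr S (rsrQ2 S ι c d w σ m e ω₀) ω₀ ω) :
    rsfC S ι c d w σ m e ω = rsfC S ι c d w σ m e ω₀ := by
  unfold rsfC; rw [rsf_J_agr S ι h]

/-- the layer `a` consists of open-plus cells of the box -/
theorem rsf_A_sub (ω : ClCfg V Y) : rsfA S ι c d w σ m e ω ⊆ rswRect (m - e) (m + σ + e) c d ∩ rsrY S ι ω := ple_gam_sub

theorem rsf_C_sub (ω : ClCfg V Y) : rsfC S ι c d w σ m e ω ⊆ rswRect (m - e) (m + σ + e) c d ∩ rsrY S ι ω := ple_gam_sub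

/-- under the record of `ω₀` the layer `a` of `ω₀` is open-plus -/
theorem rsf_A_plus {ω₀ ω : ClCfg V Y} (h : LenAgr S (rsrQ2 S ι c d w σ m e ω₀) ω₀ ω) :
    rsfA S ι c d w σ m e ω₀ ⊆ rsrY S ι ω ∩ plsBand c d := by
  rw [← rsf_A_agr S ι h]
  exact fun z hz => ⟨(rsf_A_sub S ι ω hz).2, rsf_rect_band (rsf_A_sub S ι ω hz).1⟩

theorem rsf_C_plus {ω₀ ω : ClCfg V Y} (h : LenAgr S (rsrQ2 S ι c d w σ m e ω₀) ω₀ ω) :
    rsfC S ι c d w σ m e ω₀ ⊆ rsrY S ι ω ∩ plsBand c d := by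
  rw [← rsf_C_agr S ι h]
  exact fun z hz => ⟨(rsf_C_sub S ι ω hz).2, rsf_rect_band (rsf_C_sub S ι ω hz).1⟩

/-- **LINK ⟹ F under a record** -/
theorem rsf_link_rec (hcd : c < d) (hw : 1 ≤ w) (hσ : 0 ≤ σ) (he : w + 4 ≤ e) {ω₀ ω : ClCfg V Y}
    (h : LenAgr S (rsrQ2 S ι c d w σ m e ω₀) ω₀ ω)
    (h0 : RsrG0 (m - e) (m + σ + e) c d w m (m + σ) (rsrI S ι c d w σ m e ω₀) (rsrJ S ι c d w σ m e ω₀))
    {z z' : TV} (hz : z ∈ rsfA S ι c d w σ m e ω₀) (hz' : z' ∈ rsfC S ι c d w σ m e ω₀)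
    (hl : TscR tscG (rsrY S ι ω ∩ plsBand c d) z z') : RswF c d w σ m (rsrY S ι ω) := by
  rw [← rsf_I_agr S ι h, ← rsf_J_agr S ι h] at h0
  rw [← rsf_A_agr S ι h] at hz
  rw [← rsf_C_agr S ι h] at hz'
  exact rsf_link hcd hw hσ he h0 hz hz' hl

/-- **(T) TOUCH ⟹ F** -/
theorem rsf_touch (hcd : c < d) (hw : 1 ≤ w) (hσ : 0 ≤ σ) (he : w + 4 ≤ e) {ω₀ ω : ClCfg V Y}
    (h : LenAgr S (rsrQ2 S ι c d w σ m e ω₀) ω₀ ω)
    (h0 : RsrG0 (m - e) (m + σ + e) c d w m (m + σ) (rsrI S ι c d w σ m e ω₀) (rsrJ S ι c d w σ m e ω₀))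
    (ht : RsfTouch (rsfA S ι c d w σ m e ω₀) (rsfC S ι c d w σ m e ω₀)) : RswF c d w σ m (rsrY S ι ω) := by
  obtain ⟨z, hz, z', hz', hzz⟩ := ht
  exact rsf_link_rec S ι hcd hw hσ he h h0 hz hz' (rsf_R_of_adj (rsf_A_plus S ι h hz) (rsf_C_plus S ι h hz') hzz)

/-- **(C), deterministic half**: ONE open-plus cell of the band adjacent to both layers ⟹ F -/
theorem rsf_one (hcd : c < d) (hw : 1 ≤ w) (hσ : 0 ≤ σ) (he : w + 4 ≤ e) {ω₀ ω : ClCfg V Y}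
    (h : LenAgr S (rsrQ2 S ι c d w σ m e ω₀) ω₀ ω)
    (h0 : RsrG0 (m - e) (m + σ + e) c d w m (m + σ) (rsrI S ι c d w σ m e ω₀) (rsrJ S ι c d w σ m e ω₀))
    {y z z' : TV} (hy : y ∈ rsrY S ι ω ∩ plsBand c d) (hz : z ∈ rsfA S ι c d w σ m e ω₀) (hz' : z' ∈ rsfC S ι c d w σ m e ω₀)
    (h1 : z = y ∨ tscG.Adj z y) (h2 : y = z' ∨ tscG.Adj y z') : RswF c d w σ m (rsrY S ι ω) :=
  rsf_link_rec S ι hcd hw hσ he h h0 hz hz'
    (tsc_R_trans (rsf_R_of_adj (rsf_A_plus S ι h hz) hy h1) (rsf_R_of_adj hy (rsf_C_plus S ι h hz') h2))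

/-- an event which holds under the whole record has conditional probability one -/
theorem rsf_sure (hS : ClOk S) (K : ClCon V Y) (Q : ClCfg V Y → Finset Y) (ω₀ : ClCfg V Y) {F : ClCfg V Y → Prop}
    (hF : ∀ ω, LenAgr S (Q ω₀) ω₀ ω → F ω) {cg : ℝ} (hcg : cg ≤ 1) :
    cg * S.Z ((rsrRec S K Q ω₀).Holds S) ≤ S.N ((rsrRec S K Q ω₀).Holds S) (lenInd F) := by
  have e : S.N ((rsrRec S K Q ω₀).Holds S) (lenInd F) = S.Z ((rsrRec S K Q ω₀).Holds S) := by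
    classical
    rw [dis_Z_eq]
    unfold ClSys.N
    refine Finset.sum_congr rfl fun ω _ => ?_
    by_cases hω : (rsrRec S K Q ω₀).Holds S ω
    · rw [if_pos hω, if_pos hω, len_ind_pos (hF ω ((rsr_rec_holds S K Q ω₀ ω).1 hω).2)]
    · rw [if_neg hω, if_neg hω]
  rw [e]
  have := len_Z_nonneg S hS ((rsrRec S K Q ω₀).Holds S)
  nlinarith

/-- **(T) in the form of `RsrSE`** -/
theorem rsf_touch_SE (hS : ClOk S) (K : ClCon V Y) (hcd : c < d) (hw : 1 ≤ w) (hσ : 0 ≤ σ) (he : w + 4 ≤ e) (ω₀ : ClCfg V Y)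
    (h0 : RsrG0 (m - e) (m + σ + e) c d w m (m + σ) (rsrI S ι c d w σ m e ω₀) (rsrJ S ι c d w σ m e ω₀))
    (ht : RsfTouch (rsfA S ι c d w σ m e ω₀) (rsfC S ι c d w σ m e ω₀)) {cg : ℝ} (hcg : cg ≤ 1) :
    cg * S.Z ((rsrRec S K (rsrQ2 S ι c d w σ m e) ω₀).Holds S) ≤
      S.N ((rsrRec S K (rsrQ2 S ι c d w σ m e) ω₀).Holds S) (lenInd fun ω => RswF c d w σ m (rsrY S ι ω)) :=
  rsf_sure S hS K _ ω₀ (fun ω h => rsf_touch S ι hcd hw hσ he h h0 ht) hcg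

/-! ## §3 (J): a path of open-plus cells between the two sides ⟹ F -/

/-- a path of cells of status `1` inside the image of the window, read in the lift -/
theorem rsf_lift {W : Set TV} (hch : RsfChart S ι W) {Z : Set Y} (hZ : ∀ y ∈ Z, ∃ z ∈ W, ι z = y) (ω : ClCfg V Y) {y y' : Y}
    (hR : TscR (glCg S) (Z ∩ glOn S 1 ω) y y') {z : TV} (hz : z ∈ W) (hzy : ι z = y) (hy : y ∈ Z ∩ glOn S 1 ω) :
    ∃ z' ∈ W, ι z' = y' ∧ TscR tscG (rsrY S ι ω ∩ W) z z' := by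
  induction hR with
  | refl => exact ⟨z, hz, hzy, tsc_R_refl _⟩
  | tail _ hbc ih =>
    obtain ⟨z₁, hz₁, e₁, R₁⟩ := ih
    obtain ⟨⟨_, v, hv1, hv2⟩, hb, hc⟩ := hbc
    obtain ⟨z₂, hz₂, e₂⟩ := hZ _ hc.1
    refine ⟨z₂, hz₂, e₂, tsc_R_trans R₁ (rsf_R_of_adj ?_ ?_ (hch z₁ hz₁ z₂ hz₂ ⟨v, by rw [e₁]; exact hv1, by rw [e₂]; exact hv2⟩))⟩
    · exact ⟨by show ι z₁ ∈ S.C ∧ clTau S ω (ι z₁) = 1; rw [e₁]; exact hb.2, hz₁⟩
    · exact ⟨by show ι z₂ ∈ S.C ∧ clTau S ω (ι z₂) = 1; rw [e₂]; exact hc.2, hz₂⟩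

/-- **(J), pure form**: the path of cells gives a path of plus indices of the window from a neighbour of `a` to a neighbour of `c` -/
theorem rsf_join_lift {W a c' : Set TV} (hch : RsfChart S ι W) (ha : a ⊆ W) (hc : c' ⊆ W) {Z : Set Y} (hZ : ∀ y ∈ Z, ∃ z ∈ W, ι z = y)
    {La Lc : Finset V} (hLa : ∀ v ∈ La, ∃ z ∈ a, v ∈ S.sv (ι z)) (hLc : ∀ v ∈ Lc, ∃ z ∈ c', v ∈ S.sv (ι z)) (ω : ClCfg V Y)
    (hj : GlJoinC S (Z ∩ glOn S 1 ω) La Lc) :
    ∃ z ∈ a, ∃ z' ∈ c', ∃ u u', u ∈ rsrY S ι ω ∩ W ∧ u' ∈ rsrY S ι ω ∩ W ∧ (z = u ∨ tscG.Adj z u) ∧ (u' = z' ∨ tscG.Adj u' z') ∧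
      TscR tscG (rsrY S ι ω ∩ W) u u' := by
  obtain ⟨y, y', hy, hy', ⟨va, hva, hvay⟩, ⟨vc, hvc, hvcy⟩, hR⟩ := hj
  obtain ⟨u, hu, eu⟩ := hZ y hy.1
  obtain ⟨u', hu', eu', R⟩ := rsf_lift S ι hch hZ ω hR hu eu hy
  obtain ⟨z, hz, hzv⟩ := hLa va hva
  obtain ⟨z', hz', hzv'⟩ := hLc vc hvc
  refine ⟨z, hz, z', hz', u, u', ⟨?_, hu⟩, ⟨?_, hu'⟩, hch z (ha hz) u hu ⟨va, hzv, by rw [eu]; exact hvay⟩,
    hch u' hu' z' (hc hz') ⟨vc, by rw [eu']; exact hvcy, hzv'⟩, R⟩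
  · show ι u ∈ S.C ∧ clTau S ω (ι u) = 1
    rw [eu]; exact hy.2
  · show ι u' ∈ S.C ∧ clTau S ω (ι u') = 1
    rw [eu']; exact hy'.2

/-- **(J) JOIN ⟹ F** -/
theorem rsf_join (hcd : c < d) (hw : 1 ≤ w) (hσ : 0 ≤ σ) (he : w + 4 ≤ e) {ω₀ ω : ClCfg V Y}
    (h : LenAgr S (rsrQ2 S ι c d w σ m e ω₀) ω₀ ω)
    (h0 : RsrG0 (m - e) (m + σ + e) c d w m (m + σ) (rsrI S ι c d w σ m e ω₀) (rsrJ S ι c d w σ m e ω₀))
    {W : Set TV} (hch : RsfChart S ι W) (hWb : W ⊆ plsBand c d) (hRW : rswRect (m - e) (m + σ + e) c d ⊆ W)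
    {Z : Set Y} (hZ : ∀ y ∈ Z, ∃ z ∈ W, ι z = y) {La Lc : Finset V}
    (hLa : ∀ v ∈ La, ∃ z ∈ rsfA S ι c d w σ m e ω₀, v ∈ S.sv (ι z)) (hLc : ∀ v ∈ Lc, ∃ z ∈ rsfC S ι c d w σ m e ω₀, v ∈ S.sv (ι z))
    (hj : GlJoinC S (Z ∩ glOn S 1 ω) La Lc) : RswF c d w σ m (rsrY S ι ω) := by
  obtain ⟨z, hz, z', hz', u, u', hu, hu', h1, h2, R⟩ := rsf_join_lift S ι hch (fun z hz => hRW (rsf_A_sub S ι ω₀ hz).1)
    (fun z hz => hRW (rsf_C_sub S ι ω₀ hz).1) hZ hLa hLc ω hj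
  have hsub : rsrY S ι ω ∩ W ⊆ rsrY S ι ω ∩ plsBand c d := Set.inter_subset_inter_right _ hWb
  exact rsf_link_rec S ι hcd hw hσ he h h0 hz hz' (tsc_R_trans (rsf_R_of_adj (rsf_A_plus S ι h hz) (hsub hu) h1)
    (tsc_R_trans (tsc_R_mono hsub R) (rsf_R_of_adj (hsub hu') (rsf_C_plus S ι h hz') h2)))

/-- **(J) in the form consumed after `ent_join`** -/
theorem rsf_join_N (hS : ClOk S) (K : ClCon V Y) (hcd : c < d) (hw : 1 ≤ w) (hσ : 0 ≤ σ) (he : w + 4 ≤ e) (ω₀ : ClCfg V Y)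
    (h0 : RsrG0 (m - e) (m + σ + e) c d w m (m + σ) (rsrI S ι c d w σ m e ω₀) (rsrJ S ι c d w σ m e ω₀))
    {W : Set TV} (hch : RsfChart S ι W) (hWb : W ⊆ plsBand c d) (hRW : rswRect (m - e) (m + σ + e) c d ⊆ W)
    {Z : Set Y} (hZ : ∀ y ∈ Z, ∃ z ∈ W, ι z = y) {La Lc : Finset V}
    (hLa : ∀ v ∈ La, ∃ z ∈ rsfA S ι c d w σ m e ω₀, v ∈ S.sv (ι z)) (hLc : ∀ v ∈ Lc, ∃ z ∈ rsfC S ι c d w σ m e ω₀, v ∈ S.sv (ι z)) :
    S.N ((rsrRec S K (rsrQ2 S ι c d w σ m e) ω₀).Holds S) (glInd fun ω => GlJoinC S (Z ∩ glOn S 1 ω) La Lc) ≤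
      S.N ((rsrRec S K (rsrQ2 S ι c d w σ m e) ω₀).Holds S) (lenInd fun ω => RswF c d w σ m (rsrY S ι ω)) := by
  refine len_N_mono S hS _ _ _ fun ω hω => ?_
  by_cases hj : GlJoinC S (Z ∩ glOn S 1 ω) La Lc
  · rw [gl_ind_pos hj, len_ind_pos (L := fun ω => RswF c d w σ m (rsrY S ι ω))
      (rsf_join S ι hcd hw hσ he ((rsr_rec_holds S K _ ω₀ ω).1 hω).2 h0 hch hWb hRW hZ hLa hLc hj)]
  · rw [gl_ind_neg hj]
    exact len_ind_nonneg _ _

end model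

/-! ## §4 the chart of the ambient disc of the mixed cylinder -/

theorem rsf_emod {L : ℕ} {a b : ℤ} (h : a % (L : ℤ) = b % (L : ℤ)) (h1 : a - b < L) (h2 : b - a < L) : a = b := by
  have hd : (L : ℤ) ∣ b - a := Int.ModEq.dvd h
  have := Int.eq_zero_of_abs_lt_dvd hd (by rw [abs_lt]; constructor <;> omega)
  omega

/-- a site of the cell of the reduced index -/
theorem rsf_cell_mem {L : ℕ} {T : Bool} {z v : TV} (hv : v ∈ sdCell L T (sdRed L z)) :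
    ∃ δ : TV, (if T then δ = (0, 0) ∨ δ = (1, 0) ∨ δ = (0, 1) else δ = (1, 0) ∨ δ = (0, 1) ∨ δ = (1, 1)) ∧
      v.1 = (z.1 + δ.1) % (L : ℤ) ∧ v.2 = z.2 + δ.2 := by
  unfold sdCell at hv
  obtain ⟨u, hu, rfl⟩ := Finset.mem_image.1 hv
  cases T
  · simp only [Bool.false_eq_true, if_false, cellD, Finset.mem_insert, Finset.mem_singleton] at hu ⊢
    rcases hu with rfl | rfl | rfl
    · exact ⟨(1, 0), by simp, by simp [sdRed], by simp [sdRed]⟩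
    · exact ⟨(0, 1), by simp, by simp [sdRed], by simp [sdRed]⟩
    · exact ⟨(1, 1), by simp, by simp [sdRed], by simp [sdRed]⟩
  · simp only [if_true, cellV, Finset.mem_insert, Finset.mem_singleton] at hu ⊢
    rcases hu with rfl | rfl | rfl
    · exact ⟨(0, 0), by simp, by simp [sdRed], by simp [sdRed]⟩
    · exact ⟨(1, 0), by simp, by simp [sdRed], by simp [sdRed]⟩
    · exact ⟨(0, 1), by simp, by simp [sdRed], by simp [sdRed]⟩

/-- **the chart of the cylinder**: a Euclidean rectangle shorter than the circumference -/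
theorem rsf_chart_cyl (L : ℕ) (T : Bool) {A B c d : ℤ} (hL : (B - A) + (d - c) + 4 ≤ 2 * (L : ℤ)) {z z' : TV} (hz : z ∈ rswRect A B c d)
    (hz' : z' ∈ rswRect A B c d) {v : TV} (hv : v ∈ sdCell L T (sdRed L z)) (hv' : v ∈ sdCell L T (sdRed L z')) : z = z' ∨ tscG.Adj z z' := by
  obtain ⟨δ, hδ, e1, e2⟩ := rsf_cell_mem hv
  obtain ⟨δ', hδ', e1', e2'⟩ := rsf_cell_mem hv'
  obtain ⟨a1, a2, a3, a4⟩ := hz
  obtain ⟨b1, b2, b3, b4⟩ := hz'
  unfold rswX at a1 a2 b1 b2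
  have hd1 : -1 ≤ δ.1 - δ'.1 ∧ δ.1 - δ'.1 ≤ 1 := by
    cases T
    · simp only [Bool.false_eq_true, if_false] at hδ hδ'
      rcases hδ with rfl | rfl | rfl <;> rcases hδ' with rfl | rfl | rfl <;> simp
    · simp only [if_true] at hδ hδ'
      rcases hδ with rfl | rfl | rfl <;> rcases hδ' with rfl | rfl | rfl <;> simp
  have k1 : z.1 + δ.1 = z'.1 + δ'.1 := rsf_emod (L := L) (by rw [← e1, ← e1']) (by omega) (by omega)
  have k2 : z.2 + δ.2 = z'.2 + δ'.2 := by rw [← e2, ← e2']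
  rw [tsc_G_adj, tsc_adj_iff, Prod.ext_iff]
  cases T
  · simp only [Bool.false_eq_true, if_false] at hδ hδ'
    rcases hδ with rfl | rfl | rfl <;> rcases hδ' with rfl | rfl | rfl <;> simp only at k1 k2 <;> omega
  · simp only [if_true] at hδ hδ'
    rcases hδ with rfl | rfl | rfl <;> rcases hδ' with rfl | rfl | rfl <;> simp only at k1 k2 <;> omega

/-- **the chart of the ambient disc `rscAmb`** -/
theorem rsf_chart_amb (x : ℝ) (L : ℕ) (T : Bool) (a b : ℤ) {A B c d : ℤ} (hc : a ≤ c) (hL : (B - A) + (d - c) + 4 ≤ 2 * (L : ℤ)) :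
    RsfChart (rscAmb x L T a b) (sdRed L) (rswRect A B c d) := by
  rintro z hz z' hz' ⟨v, hv, hv'⟩
  have e : ∀ u ∈ rswRect A B c d, (rscAmb x L T a b).sv (sdRed L u) = sdCell L T (sdRed L u) := by
    intro u hu
    have : ¬ (sdRed L u).2 = a - 1 := by
      have := hu.2.2.1
      show ¬ u.2 = a - 1
      omega
    show (if (sdRed L u).2 = a - 1 then _ else _) = _
    rw [if_neg this]
  rw [e z hz] at hv
  rw [e z' hz'] at hv'
  exact rsf_chart_cyl L T hL hz hz' hv hv'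

/-- the chart of the cylinder itself -/
theorem rsf_chart_sd (x : ℝ) (L : ℕ) (T : Bool) (a b : ℤ) {A B c d : ℤ} (hL : (B - A) + (d - c) + 4 ≤ 2 * (L : ℤ)) :
    RsfChart (sdSys x L T a b) (sdRed L) (rswRect A B c d) := by
  rintro z hz z' hz' ⟨v, hv, hv'⟩
  exact rsf_chart_cyl L T hL hz hz' hv hv'

end Claimed.Agent.R291
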