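import Claimed.Agent.R291.Ann.PortsCl
import Claimed.Agent.R291.Ann.RswRec
import Claimed.Agent.R291.Ann.RswF

/-!
# Row 291 (S0539), Ann/RswClose : BLOCK A3 = RSW, PART II, contract (C) CLOSE = ONE CELL OPEN-PLUS UNDER A RECORD      (owner helper16; head of PART II helper269; prefix `rcl_`, `Rcl`, `rcl`)

TEX[annulus:patch] (09-annulus.tex l.285-328), used in TEX[annulus:rsw] when the two explored crossings come within index distance 2.
Native version on the carrier `ClSys` / `ClCon` of the patch lemma of helper116 (`prt_patch`, carrier `CellSys`), for the patch "one cell"; counting kit `prc_` of `Ann/PortsCl`.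

* sec. 1  `rcl_sum_comp_le` (maps with bounded fibres), `rcl_cnt` (new ties touching only `Tb` cost `2 ^ |Tb|`).
* sec. 2  THE PATCH MAP of a cell `y` under a history `K`: mutable sites `rclT` (sites of `y` not pinned plus), patch cells `rclYT` (`y` and the cells meeting a mutable site),
          `rclB`, `rclO`: first spin plus on the mutable sites, a patch cell is opened iff the new first spin is constant on it.   `rcl_KB`, `rcl_pt` (pointwise inequality), `rcl_fib` (fibres).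
* sec. 3  **(C0) `rcl_patch`** : `RclFree S K y` (`K` legal, `y ∈ S.C` not observed, no site of `y` pinned minus)   ⟹   `a ^ |YT| * Z(K) ≤ 2 ^ (|Tb| + |T| + |YT|) * N(K)(1{y open-plus})`;
          `rcl_patch_kap`, `rcl_patch_ev` with the constant `rclKap a nY = a ^ nY / 2 ^ (4 nY + 3)` (`a ≤ q ≤ 1`, cells of at most 3 sites, at most `nY` cells meet `y`; `rcl_nbr_card`: `nY = 3 k` if every site lies in at most `k` cells).
* sec. 4  **(C1) `rcl_close`** : the same under a record `rsrRec S K Q ω₀` (`rcl_free_rec`: not looked at, the sites shared with the cells looked at are plus in `ω₀`), for an event `F` implied by "the cell is open-plus".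
* sec. 5  **(C) `rcl_close_lift`, `rcl_close_SE`** (form of `RsrSE`, event `RswF`): `y` in the box, off the clusters `I`, `J`, equal or adjacent to a cell of `a = rsfA` and to a cell of `c = rsfC`, `RclFree S K (ι y)`, chart + injectivity of `ι` on the box.
          (`y` looked at ⟹ recorded open-plus ⟹ `F` surely, `rsf_sure`, `rsf_one` of 206;   `y` not looked at ⟹ every cell looked at which shares a site with it is open-plus ⟹ (C1).)
* sec. 6  INSTANCE: **`rcl_close_amb`** = (C) for `rscAmb x L T 0 H`, `rscK L 0 H`, `sdRed L`, constant `rclKap (x ^ 2) 9` (`rcl_amb_free`, `rcl_amb_nbr`, `rcl_red_inj`, `rcl_site_card`).      STATUS: no sorry.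
-/

set_option autoImplicit false
set_option linter.unusedSectionVars false
set_option linter.unusedVariables false

namespace Claimed.Agent.R291

open Finset

/-! ## 1. Two counting lemmas -/

/-- a self map of a finite set with fibres of at most `m` points -/
theorem rcl_sum_comp_le {Ω : Type*} [DecidableEq Ω] (s : Finset Ω) (Φ : Ω → Ω) (hΦ : ∀ p ∈ s, Φ p ∈ s) (m : ℕ)
    (hm : ∀ b ∈ s, (s.filter fun p => Φ p = b).card ≤ m) {g : Ω → ℝ} (hg : ∀ p ∈ s, 0 ≤ g p) :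
    ∑ p ∈ s, g (Φ p) ≤ m * ∑ p ∈ s, g p := by
  rw [← sum_fiberwise_of_maps_to hΦ fun p => g (Φ p), mul_sum]
  refine sum_le_sum fun b hb => ?_
  have : ∑ p ∈ s.filter (fun p => Φ p = b), g (Φ p) = ((s.filter fun p => Φ p = b).card : ℝ) * g b := by
    rw [sum_congr rfl fun p hp => by rw [(mem_filter.1 hp).2], sum_const, nsmul_eq_mul]
  rw [this]
  exact mul_le_mul_of_nonneg_right (by exact_mod_cast hm b hb) (hg b hb)

section Kit

variable {V : Type} [DecidableEq V]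

/-- fewer ties, more configurations -/
theorem rcl_cnt_anti (A : Finset V) {T T' : Finset (V × V)} (h : ∀ W, PrcResp T W → PrcResp T' W) : prcCnt A T ≤ prcCnt A T' := by
  unfold prcCnt
  refine card_le_card fun W hW => ?_
  rw [mem_filter] at hW ⊢
  exact ⟨hW.1, h W hW.2⟩

/-- new ties which touch only the sites of `Tb` cost at most `2 ^ |Tb|` -/
theorem rcl_cnt (A Tb : Finset V) (hTb : Tb ⊆ A) (T₁ T₂ T' : Finset (V × V)) (h₁ : ∀ e ∈ T₁, e.1 ∈ A ∧ e.2 ∈ A)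
    (h₂ : ∀ e ∈ T₂, e.1 ∈ Tb ∧ e.2 ∈ Tb) (h' : ∀ W, PrcResp (T₁ ∪ T₂) W → PrcResp T' W) :
    (prcCnt A T₁ : ℝ) ≤ 2 ^ Tb.card * prcCnt A T' := by
  have a1 : (prcCnt A T₁ : ℝ) * prcCnt A T₂ ≤ prcCnt A (T₁ ∪ T₂) * 2 ^ A.card := by
    exact_mod_cast prc_cnt_mul_le A T₁ T₂ h₁ fun e he => ⟨hTb (h₂ e he).1, hTb (h₂ e he).2⟩
  have a2 : (prcCnt A T₂ : ℝ) = 2 ^ (A \ Tb).card * prcCnt Tb T₂ := prc_cnt_res hTb T₂ h₂
  have a3 : (1 : ℝ) ≤ prcCnt Tb T₂ := by exact_mod_cast prc_cnt_pos Tb T₂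
  have a4 : (prcCnt A (T₁ ∪ T₂) : ℝ) ≤ prcCnt A T' := by exact_mod_cast rcl_cnt_anti A h'
  have a5 : (2 : ℝ) ^ A.card = 2 ^ (A \ Tb).card * 2 ^ Tb.card := by
    rw [← pow_add, card_sdiff_add_card_eq_card hTb]
  have hp : (0 : ℝ) < 2 ^ (A \ Tb).card := by positivity
  have c0 : (0 : ℝ) ≤ prcCnt A T₁ := Nat.cast_nonneg _
  have a6 : (2 : ℝ) ^ (A \ Tb).card * prcCnt A T₁ ≤ 2 ^ (A \ Tb).card * (2 ^ Tb.card * prcCnt A T') := by
    calc (2 : ℝ) ^ (A \ Tb).card * prcCnt A T₁ = prcCnt A T₁ * (2 ^ (A \ Tb).card * 1) := by ring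
      _ ≤ prcCnt A T₁ * (2 ^ (A \ Tb).card * prcCnt Tb T₂) :=
          mul_le_mul_of_nonneg_left (mul_le_mul_of_nonneg_left a3 hp.le) c0
      _ = prcCnt A T₁ * prcCnt A T₂ := by rw [a2]
      _ ≤ prcCnt A (T₁ ∪ T₂) * 2 ^ A.card := a1
      _ ≤ prcCnt A T' * 2 ^ A.card := mul_le_mul_of_nonneg_right a4 (by positivity)
      _ = _ := by rw [a5]; ring
  exact le_of_mul_le_mul_left a6 hp

end Kit

/-! ## 2. The patch map of one cell -/

section Patch

variable {V Y : Type} [DecidableEq V] [DecidableEq Y]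

/-- the mutable sites of the cell `y`: its sites which the history does not pin plus -/
def rclT (S : ClSys V Y) (K : ClCon V Y) (y : Y) : Finset V := S.sv y \ K.Bp

/-- the patch cells: `y` and the cells which meet a mutable site -/
def rclYT (S : ClSys V Y) (K : ClCon V Y) (y : Y) : Finset Y := insert y (S.C.filter fun y' => ¬ Disjoint (S.sv y') (rclT S K y))

/-- the sites of the patch cells -/
def rclTb (S : ClSys V Y) (K : ClCon V Y) (y : Y) : Finset V := (rclYT S K y).biUnion S.sv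

/-- the new first spin: plus on the mutable sites -/
def rclB (S : ClSys V Y) (K : ClCon V Y) (y : Y) (B : Finset V) : Finset V := B ∪ rclT S K y

/-- the new statuses: a patch cell is opened iff the new first spin is constant on it -/
def rclO (S : ClSys V Y) (K : ClCon V Y) (y : Y) (B : Finset V) (O : Finset Y) : Finset Y :=
  (O \ rclYT S K y) ∪ (rclYT S K y).filter fun y' => ClConst (rclB S K y B) (S.sv y')

/-- the cell `y` is free under the legal history `K`: not observed, no site pinned minus -/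
structure RclFree (S : ClSys V Y) (K : ClCon V Y) (y : Y) : Prop where
  ok : ClOk S
  leg : ClLegal S K
  mem : y ∈ S.C
  un : y ∉ K.Op ∪ K.Om ∪ K.Cl
  bm : ∀ v ∈ S.sv y, v ∉ K.Bm

theorem rcl_map_eqns_cite : True := by
  have := @rclT.eq_1
  have := @rclYT.eq_1
  have := @rclTb.eq_1
  have := @rclB.eq_1
  have := @rclO.eq_1
  trivial

variable {S : ClSys V Y} {K : ClCon V Y} {y : Y}

theorem rcl_self_mem : y ∈ rclYT S K y := mem_insert_self _ _

theorem rcl_YT_sub (h : RclFree S K y) : rclYT S K y ⊆ S.C := by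
  intro y' hy'
  rcases mem_insert.1 hy' with rfl | h1
  · exact h.mem
  · exact (mem_filter.1 h1).1

/-- a mutable site is not pinned -/
theorem rcl_T_unpin (h : RclFree S K y) {v : V} (hv : v ∈ rclT S K y) : v ∉ K.Bp ∪ K.Bm := by
  rw [rclT, mem_sdiff] at hv
  rw [mem_union]
  rintro (h1 | h1)
  · exact hv.2 h1
  · exact h.bm v hv.1 h1

/-- an observed cell has no mutable site -/
theorem rcl_obs_off (h : RclFree S K y) {y' : Y} (hC : y' ∈ S.C) (ho : y' ∈ K.Op ∪ K.Om ∪ K.Cl) : Disjoint (S.sv y') (rclT S K y) := by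
  rw [disjoint_left]
  intro v hv hT
  exact rcl_T_unpin h hT (h.leg.full y' hC ho hv)

/-- a patch cell is not observed -/
theorem rcl_YT_un (h : RclFree S K y) {y' : Y} (hy' : y' ∈ rclYT S K y) : y' ∉ K.Op ∪ K.Om ∪ K.Cl := by
  rcases mem_insert.1 hy' with rfl | h1
  · exact h.un
  · rw [mem_filter] at h1
    exact fun ho => h1.2 (rcl_obs_off h h1.1 ho)

/-- a cell off the patch has no mutable site -/
theorem rcl_off {y' : Y} (hC : y' ∈ S.C) (hy' : y' ∉ rclYT S K y) : Disjoint (S.sv y') (rclT S K y) := by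
  by_contra hd
  exact hy' (mem_insert_of_mem (mem_filter.2 ⟨hC, hd⟩))

theorem rcl_B_mem_off {s : Finset V} (hd : Disjoint s (rclT S K y)) (B : Finset V) : ∀ v ∈ s, (v ∈ B ↔ v ∈ rclB S K y B) := by
  intro v hv
  rw [rclB, mem_union]
  exact ⟨Or.inl, fun h1 => h1.elim id fun h2 => absurd h2 (disjoint_left.1 hd hv)⟩

theorem rcl_O_mem_off {y' : Y} (hy' : y' ∉ rclYT S K y) (B : Finset V) (O : Finset Y) : y' ∈ O ↔ y' ∈ rclO S K y B O := by
  rw [rclO, mem_union, mem_sdiff, mem_filter]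
  exact ⟨fun h1 => Or.inl ⟨h1, hy'⟩, fun h1 => h1.elim (fun h2 => h2.1) fun h2 => absurd h2.1 hy'⟩

theorem rcl_O_mem_on {y' : Y} (hy' : y' ∈ rclYT S K y) (B : Finset V) (O : Finset Y) :
    y' ∈ rclO S K y B O ↔ ClConst (rclB S K y B) (S.sv y') := by
  rw [rclO, mem_union, mem_sdiff, mem_filter]
  exact ⟨fun h1 => h1.elim (fun h2 => absurd hy' h2.2) fun h2 => h2.2, fun h1 => Or.inr ⟨hy', h1⟩⟩

theorem rcl_T_sub (h : RclFree S K y) : rclT S K y ⊆ S.A := fun v hv => h.ok.sub y h.mem (mem_sdiff.1 hv).1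

theorem rcl_Tb_sub (h : RclFree S K y) : rclTb S K y ⊆ S.A := by
  intro v hv
  rw [rclTb, mem_biUnion] at hv
  obtain ⟨y', h1, h2⟩ := hv
  exact h.ok.sub y' (rcl_YT_sub h h1) h2

theorem rcl_B_sub (h : RclFree S K y) {B : Finset V} (hB : B ⊆ S.A) : rclB S K y B ⊆ S.A := union_subset hB (rcl_T_sub h)

theorem rcl_O_sub (h : RclFree S K y) (B : Finset V) {O : Finset Y} (hO : O ⊆ S.C) : rclO S K y B O ⊆ S.C :=
  union_subset (sdiff_subset.trans hO) ((filter_subset _ _).trans (rcl_YT_sub h))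

/-- the cell is plus after the map -/
theorem rcl_sv_sub {B : Finset V} (hB : K.Bp ⊆ B) : S.sv y ⊆ rclB S K y B := by
  intro v hv
  rw [rclB, mem_union, rclT, mem_sdiff]
  by_cases h1 : v ∈ K.Bp
  · exact Or.inl (hB h1)
  · exact Or.inr ⟨hv, h1⟩

/-- the cell is open after the map -/
theorem rcl_y_mem {B : Finset V} (hB : K.Bp ⊆ B) (O : Finset Y) : y ∈ rclO S K y B O :=
  (rcl_O_mem_on rcl_self_mem B O).2 (Or.inl (rcl_sv_sub hB))

/-- **the map respects the history** -/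
theorem rcl_KB (h : RclFree S K y) {B : Finset V} {O : Finset Y} (hO : O ⊆ S.C) (hk : PrcKB K S B O) :
    PrcKB K S (rclB S K y B) (rclO S K y B O) := by
  obtain ⟨k1, k2, k3, k4, k5⟩ := hk
  refine ⟨k1.trans subset_union_left, ?_, ?_, ?_, ?_⟩
  · intro v hv hv'
    rcases mem_union.1 hv' with h1 | h1
    · exact k2 v hv h1
    · exact rcl_T_unpin h h1 (mem_union_right _ hv)
  · intro y' hy'
    have ho : y' ∈ K.Op ∪ K.Om ∪ K.Cl := mem_union_left _ (mem_union_left _ hy')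
    exact ⟨(rcl_O_mem_off (fun h1 => rcl_YT_un h h1 ho) B O).1 (k3 y' hy').1, (k3 y' hy').2.trans subset_union_left⟩
  · intro y' hy'
    have ho : y' ∈ K.Op ∪ K.Om ∪ K.Cl := mem_union_left _ (mem_union_right _ hy')
    refine ⟨(rcl_O_mem_off (fun h1 => rcl_YT_un h h1 ho) B O).1 (k4 y' hy').1, fun hs => (k4 y' hy').2 ?_⟩
    exact (prc_sub_congr (rcl_B_mem_off (rcl_obs_off h (hO (k4 y' hy').1) ho) B)).2 hs
  · intro y' hy' hy''
    have ho : y' ∈ K.Op ∪ K.Om ∪ K.Cl := mem_union_right _ hy'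
    exact k5 y' hy' ((rcl_O_mem_off (fun h1 => rcl_YT_un h h1 ho) B O).2 hy'')

theorem rcl_kf_le_one {q : ℝ} (h0 : 0 ≤ q) (h1 : q ≤ 1) (bc o : Prop) [Decidable bc] [Decidable o] : prcKf q bc o ≤ 1 := by
  unfold prcKf; split_ifs <;> linarith

theorem rcl_kf_diag (q : ℝ) (bc : Prop) [Decidable bc] : prcKf q bc bc = q := by
  unfold prcKf; split_ifs <;> rfl

theorem rcl_W_nonneg (hok : ClOk S) (B : Finset V) (O : Finset Y) : 0 ≤ prcW S K B O := by
  unfold prcW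
  split_ifs
  · exact mul_nonneg (prod_nonneg fun y' hy' => prc_kf_nonneg (hok.q0 y' hy').le (hok.q1 y' hy') _ _) (Nat.cast_nonneg _)
  · exact le_rfl

/-- the ties of a legal history lie in the site set -/
theorem rcl_tie_in (hok : ClOk S) (hl : ClLegal S K) (O : Finset Y) : ∀ e ∈ prcTie S S.C K.Eq O, e.1 ∈ S.A ∧ e.2 ∈ S.A := by
  intro e he
  rw [prcTie, mem_union, mem_biUnion] at he
  rcases he with he | ⟨y', h1, h2⟩
  · obtain ⟨y', h1, h2, h3⟩ := hl.eq e he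
    exact ⟨hok.sub y' h1 h2, hok.sub y' h1 h3⟩
  · rw [mem_product] at h2
    exact ⟨hok.sub y' (mem_sdiff.1 h1).1 h2.1, hok.sub y' (mem_sdiff.1 h1).1 h2.2⟩

/-- the product of the cell factors -/
theorem rcl_prod (h : RclFree S K y) {a : ℝ} (ha0 : 0 ≤ a) (ha : ∀ y' ∈ S.C, a ≤ S.q y') (B : Finset V) (O : Finset Y) :
    a ^ (rclYT S K y).card * ∏ y' ∈ S.C, prcKf (S.q y') (ClConst B (S.sv y')) (y' ∈ O)
      ≤ ∏ y' ∈ S.C, prcKf (S.q y') (ClConst (rclB S K y B) (S.sv y')) (y' ∈ rclO S K y B O) := by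
  have hs := rcl_YT_sub h
  rw [← prod_sdiff hs, ← prod_sdiff hs]
  have e1 : ∏ y' ∈ S.C \ rclYT S K y, prcKf (S.q y') (ClConst (rclB S K y B) (S.sv y')) (y' ∈ rclO S K y B O)
      = ∏ y' ∈ S.C \ rclYT S K y, prcKf (S.q y') (ClConst B (S.sv y')) (y' ∈ O) := by
    refine prod_congr rfl fun y' hy' => ?_
    rw [mem_sdiff] at hy'
    exact (prc_kf_congr _ (prc_const_congr (rcl_B_mem_off (rcl_off hy'.1 hy'.2) B)) (rcl_O_mem_off hy'.2 B O)).symm
  have e2 : ∏ y' ∈ rclYT S K y, prcKf (S.q y') (ClConst (rclB S K y B) (S.sv y')) (y' ∈ rclO S K y B O) = ∏ y' ∈ rclYT S K y, S.q y' := by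
    refine prod_congr rfl fun y' hy' => ?_
    rw [prc_kf_congr _ Iff.rfl (rcl_O_mem_on hy' B O), rcl_kf_diag]
  have e3 : a ^ (rclYT S K y).card ≤ ∏ y' ∈ rclYT S K y, S.q y' := by
    rw [← prod_const]
    exact prod_le_prod (fun _ _ => ha0) fun y' hy' => ha y' (hs hy')
  have e4 : ∏ y' ∈ rclYT S K y, prcKf (S.q y') (ClConst B (S.sv y')) (y' ∈ O) ≤ 1 :=
    prod_le_one (fun y' hy' => prc_kf_nonneg (h.ok.q0 y' (hs hy')).le (h.ok.q1 y' (hs hy')) _ _)
      fun y' hy' => rcl_kf_le_one (h.ok.q0 y' (hs hy')).le (h.ok.q1 y' (hs hy')) _ _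
  have e5 : 0 ≤ ∏ y' ∈ S.C \ rclYT S K y, prcKf (S.q y') (ClConst B (S.sv y')) (y' ∈ O) :=
    prod_nonneg fun y' hy' => prc_kf_nonneg (h.ok.q0 y' (mem_sdiff.1 hy').1).le (h.ok.q1 y' (mem_sdiff.1 hy').1) _ _
  have e6 : 0 ≤ ∏ y' ∈ rclYT S K y, prcKf (S.q y') (ClConst B (S.sv y')) (y' ∈ O) :=
    prod_nonneg fun y' hy' => prc_kf_nonneg (h.ok.q0 y' (hs hy')).le (h.ok.q1 y' (hs hy')) _ _
  rw [e1, e2]
  have e7 : 0 ≤ a ^ (rclYT S K y).card := pow_nonneg ha0 _
  calc a ^ (rclYT S K y).card * ((∏ y' ∈ S.C \ rclYT S K y, prcKf (S.q y') (ClConst B (S.sv y')) (y' ∈ O))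
          * ∏ y' ∈ rclYT S K y, prcKf (S.q y') (ClConst B (S.sv y')) (y' ∈ O))
      ≤ a ^ (rclYT S K y).card * ((∏ y' ∈ S.C \ rclYT S K y, prcKf (S.q y') (ClConst B (S.sv y')) (y' ∈ O)) * 1) :=
        mul_le_mul_of_nonneg_left (mul_le_mul_of_nonneg_left e4 e5) e7
    _ = (∏ y' ∈ S.C \ rclYT S K y, prcKf (S.q y') (ClConst B (S.sv y')) (y' ∈ O)) * a ^ (rclYT S K y).card := by ring
    _ ≤ _ := mul_le_mul_of_nonneg_left e3 e5

/-- the number of second spins -/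
theorem rcl_cnt_map (h : RclFree S K y) (B : Finset V) (O : Finset Y) :
    (prcCnt S.A (prcTie S S.C K.Eq O) : ℝ) ≤ 2 ^ (rclTb S K y).card * prcCnt S.A (prcTie S S.C K.Eq (rclO S K y B O)) := by
  refine rcl_cnt S.A (rclTb S K y) (rcl_Tb_sub h) _ ((rclYT S K y).biUnion fun y' => S.sv y' ×ˢ S.sv y') _ (rcl_tie_in h.ok h.leg O) ?_ ?_
  · intro e he
    rw [mem_biUnion] at he
    obtain ⟨y', h1, h2⟩ := he
    rw [mem_product] at h2
    exact ⟨mem_biUnion.2 ⟨y', h1, h2.1⟩, mem_biUnion.2 ⟨y', h1, h2.2⟩⟩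
  · intro W hW
    rw [prc_resp_union, prc_resp_tie] at hW
    rw [prc_resp_tie]
    refine ⟨hW.1.1, fun y' hy' => ?_⟩
    by_cases hY : y' ∈ rclYT S K y
    · refine Or.inr ((prc_const_iff W _).2 fun u hu v hv => hW.2 (u, v) ?_)
      exact mem_biUnion.2 ⟨y', hY, mem_product.2 ⟨hu, hv⟩⟩
    · exact (hW.1.2 y' hy').imp (rcl_O_mem_off hY B O).1 id

/-- **the pointwise inequality of the patch** -/
theorem rcl_pt (h : RclFree S K y) {a : ℝ} (ha0 : 0 ≤ a) (ha : ∀ y' ∈ S.C, a ≤ S.q y') (B : Finset V) {O : Finset Y} (hO : O ⊆ S.C) :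
    a ^ (rclYT S K y).card * prcW S K B O ≤ 2 ^ (rclTb S K y).card * prcW S K (rclB S K y B) (rclO S K y B O) := by
  by_cases hk : PrcKB K S B O
  · have hk' := rcl_KB h hO hk
    unfold prcW
    rw [if_pos hk, if_pos hk']
    have c1 := rcl_prod h ha0 ha B O
    have c2 := rcl_cnt_map h B O
    have c3 : 0 ≤ ∏ y' ∈ S.C, prcKf (S.q y') (ClConst (rclB S K y B) (S.sv y')) (y' ∈ rclO S K y B O) :=
      prod_nonneg fun y' hy' => prc_kf_nonneg (h.ok.q0 y' hy').le (h.ok.q1 y' hy') _ _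
    calc a ^ (rclYT S K y).card * ((∏ y' ∈ S.C, prcKf (S.q y') (ClConst B (S.sv y')) (y' ∈ O)) * (prcCnt S.A (prcTie S S.C K.Eq O) : ℝ))
        = (a ^ (rclYT S K y).card * ∏ y' ∈ S.C, prcKf (S.q y') (ClConst B (S.sv y')) (y' ∈ O)) * (prcCnt S.A (prcTie S S.C K.Eq O) : ℝ) := by ring
      _ ≤ (∏ y' ∈ S.C, prcKf (S.q y') (ClConst (rclB S K y B) (S.sv y')) (y' ∈ rclO S K y B O))
            * (2 ^ (rclTb S K y).card * prcCnt S.A (prcTie S S.C K.Eq (rclO S K y B O))) :=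
          mul_le_mul c1 c2 (Nat.cast_nonneg _) c3
      _ = _ := by ring
  · have : prcW S K B O = 0 := by unfold prcW; rw [if_neg hk]
    rw [this, mul_zero]
    exact mul_nonneg (by positivity) (rcl_W_nonneg h.ok _ _)

/-- **the fibres of the patch map** -/
theorem rcl_fib (S : ClSys V Y) (K : ClCon V Y) (y : Y) (b : Finset V × Finset Y) :
    ((S.A.powerset ×ˢ S.C.powerset).filter fun p => (rclB S K y p.1, rclO S K y p.1 p.2) = b).card
      ≤ 2 ^ (rclT S K y).card * 2 ^ (rclYT S K y).card := by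
  rw [← card_powerset, ← card_powerset, ← card_product]
  refine card_le_card_of_injOn (fun p => (p.1 ∩ rclT S K y, p.2 ∩ rclYT S K y)) ?_ ?_
  · intro p _
    simp only [coe_product, coe_powerset, Set.mem_prod, Set.mem_preimage, Set.mem_powerset_iff, coe_subset]
    exact ⟨inter_subset_right, inter_subset_right⟩
  · intro p hp p' hp' he
    rw [mem_coe, mem_filter] at hp hp'
    have e0 : (rclB S K y p.1, rclO S K y p.1 p.2) = (rclB S K y p'.1, rclO S K y p'.1 p'.2) := hp.2.trans hp'.2.symm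
    rw [Prod.mk.injEq] at e0 he
    refine Prod.ext ?_ ?_
    · ext v
      by_cases hv : v ∈ rclT S K y
      · have := congrArg (fun s => v ∈ s) he.1
        simpa [hv] using this
      · have := congrArg (fun s => v ∈ s) e0.1
        simpa [rclB, hv] using this
    · ext y'
      by_cases hv : y' ∈ rclYT S K y
      · have := congrArg (fun s => y' ∈ s) he.2
        simpa [hv] using this
      · rw [rcl_O_mem_off hv p.1 p.2, rcl_O_mem_off hv p'.1 p'.2, e0.2]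

/-! ## 3. (C0) the patch inequality -/

theorem rcl_noW_tau (S : ClSys V Y) (y : Y) : PrcNoW (lenInd fun ω : ClCfg V Y => clTau S ω y = 1) := by
  intro ω ω' h1 h2
  have e : clTau S ω y = clTau S ω' y := by unfold clTau; rw [h1, h2]
  by_cases h : clTau S ω y = 1
  · rw [len_ind_pos (L := fun ω => clTau S ω y = 1) h, len_ind_pos (L := fun ω => clTau S ω y = 1) (e ▸ h)]
  · rw [len_ind_neg (L := fun ω => clTau S ω y = 1) h, len_ind_neg (L := fun ω => clTau S ω y = 1) (e ▸ h)]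

/-- **(C0) ONE CELL OPEN-PLUS UNDER A LEGAL HISTORY** -/
theorem rcl_patch (h : RclFree S K y) {a : ℝ} (ha0 : 0 ≤ a) (ha : ∀ y' ∈ S.C, a ≤ S.q y') :
    a ^ (rclYT S K y).card * S.Z (K.Holds S)
      ≤ 2 ^ ((rclTb S K y).card + (rclT S K y).card + (rclYT S K y).card) * S.N (K.Holds S) (lenInd fun ω => clTau S ω y = 1) := by
  rw [dis_Z_eq, prc_N_eq S K h.leg.wp h.leg.wm (G := fun _ => (1 : ℝ)) (fun _ _ _ _ => rfl),
    prc_N_eq S K h.leg.wp h.leg.wm (rcl_noW_tau S y), ← sum_product', ← sum_product']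
  set s := S.A.powerset ×ˢ S.C.powerset with hs
  set g : Finset V × Finset Y → ℝ := fun p => prcW S K p.1 p.2 * lenInd (fun ω => clTau S ω y = 1) ⟨p.1, ∅, p.2⟩ with hg
  set Φ : Finset V × Finset Y → Finset V × Finset Y := fun p => (rclB S K y p.1, rclO S K y p.1 p.2) with hΦ
  have hmem : ∀ p ∈ s, Φ p ∈ s := by
    intro p hp
    rw [hs, mem_product, mem_powerset, mem_powerset] at hp ⊢
    exact ⟨rcl_B_sub h hp.1, rcl_O_sub h _ hp.2⟩
  have hg0 : ∀ p ∈ s, 0 ≤ g p := fun p _ => mul_nonneg (rcl_W_nonneg h.ok _ _) (len_ind_nonneg _ _)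
  have s1 : ∀ p ∈ s, a ^ (rclYT S K y).card * (prcW S K p.1 p.2 * 1) ≤ 2 ^ (rclTb S K y).card * g (Φ p) := by
    intro p hp
    rw [hs, mem_product, mem_powerset, mem_powerset] at hp
    by_cases hk : PrcKB K S p.1 p.2
    · have e : lenInd (fun ω => clTau S ω y = 1) ⟨rclB S K y p.1, ∅, rclO S K y p.1 p.2⟩ = 1 :=
        len_ind_pos ((prc_tau_one S _ y).2 ⟨rcl_y_mem hk.1 _, rcl_sv_sub hk.1⟩)
      rw [hg, hΦ]
      simp only
      rw [e, mul_one, mul_one]
      exact rcl_pt h ha0 ha p.1 hp.2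
    · have : prcW S K p.1 p.2 = 0 := by unfold prcW; rw [if_neg hk]
      rw [this, zero_mul, mul_zero]
      exact mul_nonneg (by positivity) (hg0 _ (hmem p (by rw [hs, mem_product, mem_powerset, mem_powerset]; exact hp)))
  have s2 := rcl_sum_comp_le s Φ hmem (2 ^ (rclT S K y).card * 2 ^ (rclYT S K y).card) (fun b _ => rcl_fib S K y b) hg0
  calc a ^ (rclYT S K y).card * ∑ p ∈ s, prcW S K p.1 p.2 * 1 = ∑ p ∈ s, a ^ (rclYT S K y).card * (prcW S K p.1 p.2 * 1) := mul_sum _ _ _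
    _ ≤ ∑ p ∈ s, 2 ^ (rclTb S K y).card * g (Φ p) := sum_le_sum s1
    _ = 2 ^ (rclTb S K y).card * ∑ p ∈ s, g (Φ p) := (mul_sum _ _ _).symm
    _ ≤ 2 ^ (rclTb S K y).card * (((2 ^ (rclT S K y).card * 2 ^ (rclYT S K y).card : ℕ) : ℝ) * ∑ p ∈ s, g p) :=
        mul_le_mul_of_nonneg_left s2 (by positivity)
    _ = _ := by push_cast; rw [pow_add, pow_add]; ring

/-- the constant of the patch "one cell": cells with at most 3 sites, at most `nY` patch cells, `a ≤ q` -/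
noncomputable def rclKap (a : ℝ) (nY : ℕ) : ℝ := a ^ nY / 2 ^ (4 * nY + 3)

theorem rcl_kap_eqns_cite : True := by
  have := @rclKap.eq_1
  trivial

theorem rcl_kap_pos {a : ℝ} (ha : 0 < a) (nY : ℕ) : 0 < rclKap a nY := by unfold rclKap; positivity

theorem rcl_kap_le_one {a : ℝ} (ha0 : 0 ≤ a) (ha1 : a ≤ 1) (nY : ℕ) : rclKap a nY ≤ 1 := by
  unfold rclKap
  rw [div_le_one (by positivity)]
  exact (pow_le_one₀ ha0 ha1).trans (one_le_pow₀ (by norm_num))

/-- (C0) with the uniform constant -/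
theorem rcl_patch_kap (h : RclFree S K y) {a : ℝ} (ha0 : 0 ≤ a) (ha1 : a ≤ 1) (ha : ∀ y' ∈ S.C, a ≤ S.q y') {nY : ℕ}
    (h3 : ∀ y' ∈ S.C, (S.sv y').card ≤ 3) (hn : (rclYT S K y).card ≤ nY) :
    rclKap a nY * S.Z (K.Holds S) ≤ S.N (K.Holds S) (lenInd fun ω => clTau S ω y = 1) := by
  have c0 := rcl_patch h ha0 ha
  have hZ : 0 ≤ S.Z (K.Holds S) := len_Z_nonneg S h.ok _
  have hN : 0 ≤ S.N (K.Holds S) (lenInd fun ω => clTau S ω y = 1) := len_N_nonneg S h.ok _ _ fun ω _ => len_ind_nonneg _ _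
  have c1 : (rclT S K y).card ≤ 3 := (card_le_card sdiff_subset).trans (h3 y h.mem)
  have c2 : (rclTb S K y).card ≤ 3 * nY := by
    calc (rclTb S K y).card ≤ ∑ y' ∈ rclYT S K y, (S.sv y').card := card_biUnion_le
      _ ≤ ∑ y' ∈ rclYT S K y, 3 := sum_le_sum fun y' hy' => h3 y' (rcl_YT_sub h hy')
      _ = 3 * (rclYT S K y).card := by rw [sum_const, smul_eq_mul, mul_comm]
      _ ≤ 3 * nY := Nat.mul_le_mul_left _ hn
  have c3 : a ^ nY ≤ a ^ (rclYT S K y).card := pow_le_pow_of_le_one ha0 ha1 hn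
  have c4 : (2 : ℝ) ^ ((rclTb S K y).card + (rclT S K y).card + (rclYT S K y).card) ≤ 2 ^ (4 * nY + 3) :=
    pow_le_pow_right₀ (by norm_num) (by omega)
  unfold rclKap
  rw [div_mul_eq_mul_div, div_le_iff₀ (by positivity)]
  calc a ^ nY * S.Z (K.Holds S) ≤ a ^ (rclYT S K y).card * S.Z (K.Holds S) := mul_le_mul_of_nonneg_right c3 hZ
    _ ≤ _ := c0
    _ ≤ 2 ^ (4 * nY + 3) * S.N (K.Holds S) (lenInd fun ω => clTau S ω y = 1) := mul_le_mul_of_nonneg_right c4 hN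
    _ = _ := mul_comm _ _

/-- (C0) for an event implied by "the cell is open-plus" -/
theorem rcl_patch_ev (h : RclFree S K y) {a : ℝ} (ha0 : 0 ≤ a) (ha1 : a ≤ 1) (ha : ∀ y' ∈ S.C, a ≤ S.q y') {nY : ℕ}
    (h3 : ∀ y' ∈ S.C, (S.sv y').card ≤ 3) (hn : (rclYT S K y).card ≤ nY) {F : ClCfg V Y → Prop}
    (hF : ∀ ω, K.Holds S ω → clTau S ω y = 1 → F ω) :
    rclKap a nY * S.Z (K.Holds S) ≤ S.N (K.Holds S) (lenInd F) := by
  refine (rcl_patch_kap h ha0 ha1 ha h3 hn).trans (len_N_mono S h.ok _ _ _ fun ω hω => ?_)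
  by_cases h1 : clTau S ω y = 1
  · rw [len_ind_pos (L := F) (hF ω hω h1)]
    exact len_ind_le_one _ _
  · rw [len_ind_neg (L := fun ω => clTau S ω y = 1) h1]
    exact len_ind_nonneg _ _

/-- the patch cells are among the cells which meet `y` -/
theorem rcl_YT_card (h : RclFree S K y) {nY : ℕ} (hn : (S.C.filter fun y' => ¬ Disjoint (S.sv y') (S.sv y)).card ≤ nY) :
    (rclYT S K y).card ≤ nY := by
  refine (card_le_card fun y' hy' => ?_).trans hn
  rw [mem_filter]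
  refine ⟨rcl_YT_sub h hy', ?_⟩
  rcases mem_insert.1 hy' with rfl | h1
  · rw [disjoint_self]
    exact (h.ok.ne y' h.mem).ne_empty
  · exact fun hd => (mem_filter.1 h1).2 (hd.mono_right sdiff_subset)

/-- every site in at most `k` cells: at most `3 k` cells meet a cell -/
theorem rcl_nbr_card (S : ClSys V Y) (y : Y) {k : ℕ} (h3 : (S.sv y).card ≤ 3) (hk : ∀ v ∈ S.sv y, (S.C.filter fun y' => v ∈ S.sv y').card ≤ k) :
    (S.C.filter fun y' => ¬ Disjoint (S.sv y') (S.sv y)).card ≤ 3 * k := by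
  have hsub : (S.C.filter fun y' => ¬ Disjoint (S.sv y') (S.sv y)) ⊆ (S.sv y).biUnion fun v => S.C.filter fun y' => v ∈ S.sv y' := by
    intro y' hy'
    rw [mem_filter, not_disjoint_iff] at hy'
    obtain ⟨hC, v, h1, h2⟩ := hy'
    exact mem_biUnion.2 ⟨v, h2, mem_filter.2 ⟨hC, h1⟩⟩
  calc _ ≤ ((S.sv y).biUnion fun v => S.C.filter fun y' => v ∈ S.sv y').card := card_le_card hsub
    _ ≤ ∑ v ∈ S.sv y, (S.C.filter fun y' => v ∈ S.sv y').card := card_biUnion_le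
    _ ≤ ∑ v ∈ S.sv y, k := sum_le_sum hk
    _ = (S.sv y).card * k := by rw [sum_const, smul_eq_mul]
    _ ≤ 3 * k := Nat.mul_le_mul_right _ h3

/-! ## 4. (C1) the same under a record -/

/-- a cell free under `K`, not looked at, whose sites shared with the cells looked at are plus in `ω₀`, is free under the record of `ω₀` -/
theorem rcl_free_rec (h : RclFree S K y) (Q : ClCfg V Y → Finset Y) (ω₀ : ClCfg V Y) (hQ : y ∉ Q ω₀)
    (hpl : ∀ y' ∈ Q ω₀, ∀ v ∈ S.sv y', v ∈ S.sv y → v ∈ ω₀.B) : RclFree S (rsrRec S K Q ω₀) y where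
  ok := h.ok
  leg := rsr_rec_legal S K h.leg Q ω₀
  mem := h.mem
  un := by
    intro hm
    have h1 := h.un
    simp only [rsrRec, lenObs, mem_union, mem_filter] at hm h1
    tauto
  bm := by
    intro v hv hm
    simp only [rsrRec, lenObs, mem_union, mem_filter, mem_biUnion] at hm
    rcases hm with hm | ⟨⟨y', h1, h2⟩, h3⟩
    · exact h.bm v hv hm
    · exact h3 (hpl y' h1 v h2 hv)

/-- **(C1) ONE CELL OPEN-PLUS UNDER A RECORD** -/
theorem rcl_close (h : RclFree S K y) (Q : ClCfg V Y → Finset Y) (ω₀ : ClCfg V Y) (hQ : y ∉ Q ω₀)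
    (hpl : ∀ y' ∈ Q ω₀, ∀ v ∈ S.sv y', v ∈ S.sv y → v ∈ ω₀.B) {a : ℝ} (ha0 : 0 ≤ a) (ha1 : a ≤ 1) (ha : ∀ y' ∈ S.C, a ≤ S.q y') {nY : ℕ}
    (h3 : ∀ y' ∈ S.C, (S.sv y').card ≤ 3) (hn : (S.C.filter fun y' => ¬ Disjoint (S.sv y') (S.sv y)).card ≤ nY) {F : ClCfg V Y → Prop}
    (hF : ∀ ω, LenAgr S (Q ω₀) ω₀ ω → clTau S ω y = 1 → F ω) :
    rclKap a nY * S.Z ((rsrRec S K Q ω₀).Holds S) ≤ S.N ((rsrRec S K Q ω₀).Holds S) (lenInd F) := by
  have hf := rcl_free_rec h Q ω₀ hQ hpl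
  exact rcl_patch_ev hf ha0 ha1 ha h3 (rcl_YT_card hf hn) fun ω hω => hF ω ((rsr_rec_holds S K Q ω₀ ω).1 hω).2

end Patch

/-! ## 5. (C) in the lift: a cell of the box off the two clusters, next to both layers -/

section Lift

variable {V Y : Type} [DecidableEq V] [DecidableEq Y]

open Claims Claims.C0467

/-- a cell looked at which is not open-plus belongs to the cluster -/
theorem rcl_look_np {R σ P : Set TV} {z : TV} (hz : z ∈ rsrLook R σ P) (hP : z ∉ P) : z ∈ pleI tscG (R \ P) σ := by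
  obtain ⟨hR, h | h | ⟨i, hi, h⟩⟩ := hz
  · exact ple_I_side ⟨hR, hP⟩ h
  · exact h
  · exact ple_I_adj hi ⟨hR, hP⟩ h

/-- **(C) for one exploration**: `y` a cell of the box `R`, off the cluster; the cell `ι y` is free under `K`; chart on `R` -/
theorem rcl_close_lift {S : ClSys V Y} {K : ClCon V Y} {ι : TV → Y} {R σ : Set TV} (hch : RsfChart S ι R) (hinj : Set.InjOn ι R) {y : TV} (hyR : y ∈ R)
    (h : RclFree S K (ι y)) (ω₀ : ClCfg V Y) (hyI : y ∉ pleI tscG (R \ rsrY S ι ω₀) σ)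
    {a : ℝ} (ha0 : 0 ≤ a) (ha1 : a ≤ 1) (ha : ∀ y' ∈ S.C, a ≤ S.q y') {nY : ℕ}
    (h3 : ∀ y' ∈ S.C, (S.sv y').card ≤ 3) (hn : (S.C.filter fun y' => ¬ Disjoint (S.sv y') (S.sv (ι y))).card ≤ nY) {F : ClCfg V Y → Prop}
    (hF : ∀ ω, LenAgr S (rsrQ S ι R σ ω₀) ω₀ ω → y ∈ rsrY S ι ω → F ω) :
    rclKap a nY * S.Z ((rsrRec S K (rsrQ S ι R σ) ω₀).Holds S) ≤ S.N ((rsrRec S K (rsrQ S ι R σ) ω₀).Holds S) (lenInd F) := by
  classical
  by_cases hl : y ∈ rsrLook R σ (rsrY S ι ω₀)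
  · -- looked at, hence recorded open-plus
    have hP : y ∈ rsrY S ι ω₀ := by
      by_contra hP
      exact hyI (rcl_look_np hl hP)
    exact rsf_sure S h.ok K _ ω₀ (fun ω hω => hF ω hω ((rsr_agr_P S ι R σ ω₀ ω hω y hl).1 hP)) (rcl_kap_le_one ha0 ha1 nY)
  · refine rcl_close h _ ω₀ ?_ ?_ ha0 ha1 ha h3 hn fun ω hω ht => hF ω hω ⟨h.mem, ht⟩
    · intro hm
      obtain ⟨_, z, hz, hzy⟩ := mem_filter.1 hm
      exact hl (hinj hz.1 hyR hzy ▸ hz)
    · intro y' hy' v hv hvy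
      obtain ⟨hC, z, hz, rfl⟩ := mem_filter.1 hy'
      by_cases hP : z ∈ rsrY S ι ω₀
      · exact ((prc_tau_one S ω₀ (ι z)).1 hP.2).2 hv
      · exfalso
        have hzI := rcl_look_np hz hP
        rcases hch z hz.1 y hyR ⟨v, hv, hvy⟩ with rfl | hadj
        · exact hl hz
        · exact hl ⟨hyR, Or.inr (Or.inr ⟨z, hzI, hadj⟩)⟩

/-- the cluster of a union of seeds -/
theorem rcl_I_union {N σ₁ σ₂ : Set TV} {z : TV} (h₁ : z ∉ pleI tscG N σ₁) (h₂ : z ∉ pleI tscG N σ₂) : z ∉ pleI tscG N (σ₁ ∪ σ₂) := by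
  rintro ⟨t, ht, h | h, htz⟩
  · exact h₁ ⟨t, ht, h, htz⟩
  · exact h₂ ⟨t, ht, h, htz⟩

/-- **(C) CLOSE, in the form of `RsrSE`**: a cell `y` of the box, off the two clusters `I`, `J`, equal or adjacent to a cell of the layer `a` and to a cell of the layer `c` -/
theorem rcl_close_SE {S : ClSys V Y} {K : ClCon V Y} {ι : TV → Y} {c d w σ m e : ℤ} (hcd : c < d) (hw : 1 ≤ w) (hσ : 0 ≤ σ) (he : w + 4 ≤ e)
    (hch : RsfChart S ι (rswRect (m - e) (m + σ + e) c d)) (hinj : Set.InjOn ι (rswRect (m - e) (m + σ + e) c d)) (ω₀ : ClCfg V Y)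
    (h0 : RsrG0 (m - e) (m + σ + e) c d w m (m + σ) (rsrI S ι c d w σ m e ω₀) (rsrJ S ι c d w σ m e ω₀))
    {y z z' : TV} (hyR : y ∈ rswRect (m - e) (m + σ + e) c d) (h : RclFree S K (ι y))
    (hyI : y ∉ rsrI S ι c d w σ m e ω₀) (hyJ : y ∉ rsrJ S ι c d w σ m e ω₀)
    (hz : z ∈ rsfA S ι c d w σ m e ω₀) (hz' : z' ∈ rsfC S ι c d w σ m e ω₀) (h1 : z = y ∨ tscG.Adj z y) (h2 : y = z' ∨ tscG.Adj y z')
    {a : ℝ} (ha0 : 0 ≤ a) (ha1 : a ≤ 1) (ha : ∀ y' ∈ S.C, a ≤ S.q y') {nY : ℕ}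
    (h3 : ∀ y' ∈ S.C, (S.sv y').card ≤ 3) (hn : (S.C.filter fun y' => ¬ Disjoint (S.sv y') (S.sv (ι y))).card ≤ nY) :
    rclKap a nY * S.Z ((rsrRec S K (rsrQ2 S ι c d w σ m e) ω₀).Holds S)
      ≤ S.N ((rsrRec S K (rsrQ2 S ι c d w σ m e) ω₀).Holds S) (lenInd fun ω => RswF c d w σ m (rsrY S ι ω)) :=
  rcl_close_lift hch hinj hyR h ω₀ (rcl_I_union hyI hyJ) ha0 ha1 ha h3 hn fun ω hω hy =>
    rsf_one S ι hcd hw hσ he hω h0 ⟨hy, rsf_rect_band hyR⟩ hz hz' h1 h2

end Lift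

/-! ## 6. The instances: the ambient disc `rscAmb` with the history `rscK`, the cylinder `sdSys` with the pins `rsrK` -/

section Inst

open Claims Claims.C0467

/-- the rows of the sites of a cell of the cylinder -/
theorem rcl_cell_row {L : ℕ} {T : Bool} {z v : TV} (hv : v ∈ sdCell L T (sdRed L z)) : v.2 = z.2 ∨ v.2 = z.2 + 1 := by
  obtain ⟨δ, hδ, _, e2⟩ := rsf_cell_mem hv
  cases T
  · simp only [Bool.false_eq_true, if_false] at hδ
    rcases hδ with rfl | rfl | rfl <;> simp only at e2 <;> omega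
  · simp only [if_true] at hδ
    rcases hδ with rfl | rfl | rfl <;> simp only at e2 <;> omega

/-- a reduced index is its own reduction -/
theorem rcl_red_self {L : ℕ} {y : TV} (h0 : 0 ≤ y.1) (h1 : y.1 < L) : sdRed L y = y := rsc_red_id h0 h1

/-- a site lies in at most three cells of the class `T` -/
theorem rcl_site_card (L : ℕ) (T : Bool) (C : Finset TV) (hC : ∀ y ∈ C, 0 ≤ y.1 ∧ y.1 < L) (v : TV) : (C.filter fun y' => v ∈ sdCell L T y').card ≤ 3 := by
  have hsub : (C.filter fun y' => v ∈ sdCell L T y') ⊆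
      ((if T then {(0, 0), (1, 0), (0, 1)} else {(1, 0), (0, 1), (1, 1)} : Finset TV)).image fun δ => ((v.1 - δ.1) % (L : ℤ), v.2 - δ.2) := by
    intro y' hy'
    obtain ⟨h1, h2⟩ := mem_filter.1 hy'
    obtain ⟨g0, g1⟩ := hC y' h1
    rw [← rcl_red_self g0 g1] at h2
    obtain ⟨δ, hδ, e1, e2⟩ := rsf_cell_mem h2
    refine mem_image.2 ⟨δ, ?_, ?_⟩
    · cases T
      · simp only [Bool.false_eq_true, if_false] at hδ ⊢
        simpa using hδ
      · simp only [if_true] at hδ ⊢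
        simpa using hδ
    · refine Prod.ext ?_ (by simp only; omega)
      simp only
      rw [e1, Int.emod_sub_emod, add_sub_cancel_right, Int.emod_eq_of_lt g0 g1]
  refine (card_le_card hsub).trans (card_image_le.trans ?_)
  cases T
  · exact card_le_three
  · exact card_le_three

/-- the reduction is injective on a Euclidean rectangle shorter than the circumference -/
theorem rcl_red_inj (L : ℕ) {A B c d : ℤ} (hL : B - A < 2 * (L : ℤ)) : Set.InjOn (sdRed L) (rswRect A B c d) := by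
  intro z hz z' hz' h
  obtain ⟨a1, a2, _, _⟩ := hz
  obtain ⟨b1, b2, _, _⟩ := hz'
  unfold rswX at a1 a2 b1 b2
  have e2 : (sdRed L z).2 = (sdRed L z').2 := congrArg Prod.snd h
  have e1 : (sdRed L z).1 = (sdRed L z').1 := congrArg Prod.fst h
  simp only [sdRed] at e1 e2
  exact Prod.ext (rsf_emod e1 (by omega) (by omega)) e2

/-- a cell of the rows `a + 1 .. b - 1` is free under the mixed boundary condition, in the ambient disc -/
theorem rcl_amb_free (x : ℝ) (hx0 : 0 < x) (hx1 : x ≤ 1) (L : ℕ) (hL : 1 ≤ L) (T : Bool) (a b : ℤ) {y : TV} (h1 : a + 1 ≤ y.2) (h2 : y.2 < b) :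
    RclFree (rscAmb x L T a b) (rscK L a b) (sdRed L y) where
  ok := rsc_amb_ok x hx0 hx1 L T a b (by omega)
  leg := rsc_K_legal x L hL T a b (by omega)
  mem := by
    rw [rsc_amb_mem_C]
    obtain ⟨g1, g2, g3⟩ := rsq_red_rng L hL y
    exact ⟨⟨g1, g2⟩, by omega, by omega⟩
  un := by
    simp only [rscK, empty_union, union_empty, rsc_mem_row]
    rintro ⟨_, h⟩
    have : (sdRed L y).2 = y.2 := rfl
    omega
  bm := by
    intro v hv
    rw [rsc_amb_sv1 x L T a b (show (sdRed L y).2 ≠ a - 1 by show y.2 ≠ a - 1; omega)] at hv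
    have hr := rcl_cell_row hv
    simp only [rscK, mem_insert, rsc_mem_row]
    rintro (rfl | ⟨_, h⟩)
    · simp only at hr; omega
    · omega

/-- at most nine cells of the ambient disc meet a cell of the rows `a + 1 ..` -/
theorem rcl_amb_nbr (x : ℝ) (L : ℕ) (T : Bool) (a b : ℤ) {y : TV} (h1 : a + 1 ≤ y.2) :
    ((rscAmb x L T a b).C.filter fun y' => ¬ Disjoint ((rscAmb x L T a b).sv y') ((rscAmb x L T a b).sv (sdRed L y))).card ≤ 9 := by
  refine rcl_nbr_card (rscAmb x L T a b) (sdRed L y) (k := 3) (rsc_amb_card x L T a b _) fun v hv => ?_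
  rw [rsc_amb_sv1 x L T a b (show (sdRed L y).2 ≠ a - 1 by show y.2 ≠ a - 1; omega)] at hv
  have hr := rcl_cell_row hv
  refine (card_le_card fun y' hy' => ?_).trans
    (rcl_site_card L T (rscAmb x L T a b).C (fun y' hy' => ((rsc_amb_mem_C x L T a b).1 hy').1) v)
  obtain ⟨g1, g2⟩ := mem_filter.1 hy'
  refine mem_filter.2 ⟨g1, ?_⟩
  by_cases hj : y'.2 = a - 1
  · exfalso
    rw [rsc_amb_sv0 x L T a b hj] at g2
    simp only [mem_insert, mem_singleton] at g2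
    rcases g2 with rfl | rfl | rfl <;> simp only at hr <;> omega
  · rwa [rsc_amb_sv1 x L T a b hj] at g2

/-- **(C) CLOSE in the ambient disc of the mixed cylinder** (rows `0..H`), constant `rclKap (x ^ 2) 9` -/
theorem rcl_close_amb (x : ℝ) (hx0 : 0 < x) (hx1 : x ≤ 1) (L H : ℕ) (hL : 1 ≤ L) (T : Bool) {c d w σ m e : ℤ} (hcd : c < d) (hw : 1 ≤ w) (hσ : 0 ≤ σ)
    (he : w + 4 ≤ e) (hc : 1 ≤ c) (hd : d < H) (hLw : (σ + 2 * e) + (d - c) + 4 ≤ 2 * (L : ℤ)) (ω₀ : ClCfg TV TV)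
    (h0 : RsrG0 (m - e) (m + σ + e) c d w m (m + σ) (rsrI (rscAmb x L T 0 H) (sdRed L) c d w σ m e ω₀) (rsrJ (rscAmb x L T 0 H) (sdRed L) c d w σ m e ω₀))
    {y z z' : TV} (hyR : y ∈ rswRect (m - e) (m + σ + e) c d)
    (hyI : y ∉ rsrI (rscAmb x L T 0 H) (sdRed L) c d w σ m e ω₀) (hyJ : y ∉ rsrJ (rscAmb x L T 0 H) (sdRed L) c d w σ m e ω₀)
    (hz : z ∈ rsfA (rscAmb x L T 0 H) (sdRed L) c d w σ m e ω₀) (hz' : z' ∈ rsfC (rscAmb x L T 0 H) (sdRed L) c d w σ m e ω₀)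
    (h1 : z = y ∨ tscG.Adj z y) (h2 : y = z' ∨ tscG.Adj y z') :
    rclKap (x ^ 2) 9 * (rscAmb x L T 0 H).Z ((rsrRec (rscAmb x L T 0 H) (rscK L 0 H) (rsrQ2 (rscAmb x L T 0 H) (sdRed L) c d w σ m e) ω₀).Holds (rscAmb x L T 0 H))
      ≤ (rscAmb x L T 0 H).N ((rsrRec (rscAmb x L T 0 H) (rscK L 0 H) (rsrQ2 (rscAmb x L T 0 H) (sdRed L) c d w σ m e) ω₀).Holds (rscAmb x L T 0 H))
          (lenInd fun ω => RswF c d w σ m (rsrY (rscAmb x L T 0 H) (sdRed L) ω)) := by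
  have r1 := hyR.2.2.1
  have r2 := hyR.2.2.2
  exact rcl_close_SE hcd hw hσ he (rsf_chart_amb x L T 0 H (by omega) (by omega)) (rcl_red_inj L (by omega)) ω₀ h0 hyR
    (rcl_amb_free x hx0 hx1 L hL T 0 H (by omega) (by omega)) hyI hyJ hz hz' h1 h2 (by positivity) (pow_le_one₀ hx0.le hx1) (fun _ _ => le_rfl)
    (fun y' _ => rsc_amb_card x L T 0 H y') (rcl_amb_nbr x L T 0 H (by omega))

/-- **(C) PATCH in the window** (form of `rsg_patch` of 269): the box lies in the fundamental domain; a cell `y` of the box which is not looked at, all of whose observed index-neighbours are open-plus in `ω₀` -/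
theorem rcl_patch_amb (x : ℝ) (hx0 : 0 < x) (hx1 : x ≤ 1) (L H : ℕ) (T : Bool) (c d w σ m e : ℤ) (hcd : c < d) (hlo : d + 8 ≤ m - e)
    (hhi : m + σ + e - c + 12 ≤ 2 * (L : ℤ)) (hbot : 2 ≤ c) (htop : d + 3 ≤ H) (ω₀ : ClCfg TV TV) (y : TV) (hy : y ∈ rswRect (m - e) (m + σ + e) c d)
    (hQ : y ∉ rsrQ2 (rscAmb x L T 0 H) (sdRed L) c d w σ m e ω₀)
    (hadj : ∀ y' ∈ rsrQ2 (rscAmb x L T 0 H) (sdRed L) c d w σ m e ω₀, tscG.Adj y y' → clTau (rscAmb x L T 0 H) ω₀ y' = 1) :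
    rclKap (x ^ 2) 9 * (rscAmb x L T 0 H).Z ((rsrRec (rscAmb x L T 0 H) (rscK L 0 H) (rsrQ2 (rscAmb x L T 0 H) (sdRed L) c d w σ m e) ω₀).Holds (rscAmb x L T 0 H))
      ≤ (rscAmb x L T 0 H).N ((rsrRec (rscAmb x L T 0 H) (rscK L 0 H) (rsrQ2 (rscAmb x L T 0 H) (sdRed L) c d w σ m e) ω₀).Holds (rscAmb x L T 0 H))
          (lenInd fun ω => clTau (rscAmb x L T 0 H) ω y = 1) := by
  classical
  have hid : ∀ z ∈ rswRect (m - e) (m + σ + e) c d, sdRed L z = z := by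
    rintro z ⟨a1, a2, a3, a4⟩
    unfold rswX at a1 a2
    exact rsc_red_id (by omega) (by omega)
  obtain ⟨r1, r2, r3, r4⟩ := hy
  have hy : y ∈ rswRect (m - e) (m + σ + e) c d := ⟨r1, r2, r3, r4⟩
  have hL : 1 ≤ L := by omega
  have hf : RclFree (rscAmb x L T 0 H) (rscK L 0 H) y := by
    have := rcl_amb_free x hx0 hx1 L hL T 0 H (y := y) (by omega) (by omega)
    rwa [hid y hy] at this
  have hn : ((rscAmb x L T 0 H).C.filter fun y' => ¬ Disjoint ((rscAmb x L T 0 H).sv y') ((rscAmb x L T 0 H).sv y)).card ≤ 9 := by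
    have := rcl_amb_nbr x L T 0 H (y := y) (by omega)
    rwa [hid y hy] at this
  refine rcl_close hf _ ω₀ hQ ?_ (by positivity) (pow_le_one₀ hx0.le hx1) (fun _ _ => le_rfl) (fun y' _ => rsc_amb_card x L T 0 H y') hn fun ω _ h => h
  intro y' hy' v hv hvy
  obtain ⟨_, z, hz, hzy⟩ := mem_filter.1 hy'
  have e1 : y' = z := by rw [← hzy, hid z hz.1]
  subst e1
  have hch := rsf_chart_amb x L T 0 H (A := m - e) (B := m + σ + e) (c := c) (d := d) (by omega) (by omega) y' hz.1 y hy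
    ⟨v, by rw [hid y' hz.1]; exact hv, by rw [hid y hy]; exact hvy⟩
  rcases hch with rfl | hch
  · exact absurd hy' hQ
  · exact ((prc_tau_one _ ω₀ y').1 (hadj y' hy' hch.symm)).2 hv

end Inst

end Claimed.Agent.R291
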