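/-
# Row 291 (S0539), unit ANN, tool T4 : FINITE BOUNDARY PORTS on the carrier `ClSys` / `ClCon` of DIS and ANN, native      (owner helper116; prefix `prc_`)

TEX[annulus:ports]      (09-annulus.tex l.264-284)

The abstract counting kit is that of `Ann/Ports.lean` (transported to subsets of a finite set).  No planarity, no `ClDisk`, no `ClLegal`; ties = arbitrary pairs of sites.

§1 `prcCnt A T` = number of `W ⊆ A` which respect the ties `T`;   `prc_cnt_mul_le`, `prc_cnt_port`, `prc_cnt_res`.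
§2 `prc_N_eq` : `S.N (K.Holds S) G` as a sum over `(B, O)` of `1[K] * ∏ kf * cnt * G`.
§3 `PrcSplit S K R YR ER P`, `prcSR`, `prcKR`, `prcNR`, `prcAX`;   EXITS `prc_core` (numerators), `prc_two` (two histories of one ambient), `prc_two_amb`, `prc_two_gen`, `prc_two_E` (two ambients), `prc_le`, `prc_ge`, `prc_E_le`, `prc_E_ge`, `prc_feas` (ambient against the retained closed system); helpers `prc_loc_ind`, `prc_tau_loc`.
-/
import Claimed.Agent.R291.Ann.Ports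
import Claimed.Agent.R291.Dis.Buffer

set_option autoImplicit false
set_option linter.unusedSectionVars false
set_option linter.unusedVariables false
set_option linter.unusedSimpArgs false

namespace Claimed.Agent.R291

open Finset

/-! ## 1. The counting kit on subsets -/

section Kit

variable {V : Type} [DecidableEq V]

/-- `W` respects the ties `T` -/
def PrcResp (T : Finset (V × V)) (W : Finset V) : Prop := ∀ e ∈ T, (e.1 ∈ W ↔ e.2 ∈ W)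

instance prcRespDec (T : Finset (V × V)) : DecidablePred (PrcResp T) := fun W => by
  unfold PrcResp; infer_instance

/-- number of subsets of `A` which respect the ties -/
def prcCnt (A : Finset V) (T : Finset (V × V)) : ℕ := (A.powerset.filter fun W => PrcResp T W).card

/-- the ties between sites of `A`, on the subtype -/
def prcLift (A : Finset V) (T : Finset (V × V)) : Finset ({v // v ∈ A} × {v // v ∈ A}) :=
  univ.filter fun e => (e.1.1, e.2.1) ∈ T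

/-- `v` is an end of a tie -/
def PrcTouch (T : Finset (V × V)) (v : V) : Prop := ∃ e ∈ T, e.1 = v ∨ e.2 = v

theorem prc_kit_eqns_cite : True := by
  have := @PrcResp.eq_1
  have := @prcCnt.eq_1
  have := @prcLift.eq_1
  have := @PrcTouch.eq_1
  trivial

theorem prc_cnt_eq (A : Finset V) (T : Finset (V × V)) (hT : ∀ e ∈ T, e.1 ∈ A ∧ e.2 ∈ A) :
    prcCnt A T = prtCnt (Prod.fst : {v // v ∈ A} × {v // v ∈ A} → {v // v ∈ A}) Prod.snd (prcLift A T) := by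
  unfold prcCnt prtCnt
  refine card_nbij' (fun W (v : {v // v ∈ A}) => decide (v.1 ∈ W))
    (fun w => (univ.filter fun v : {v // v ∈ A} => w v = true).map (Function.Embedding.subtype _)) ?_ ?_ ?_ ?_
  · intro W hW
    simp only [coe_filter, mem_powerset, Set.mem_ofPred_eq, mem_univ, true_and] at hW ⊢
    intro e he
    simp only [prcLift, mem_filter, mem_univ, true_and] at he
    have := hW.2 _ he
    simp only at this
    simp [this]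
  · intro w hw
    simp only [coe_filter, mem_powerset, Set.mem_ofPred_eq, mem_univ, true_and] at hw ⊢
    refine ⟨?_, ?_⟩
    · intro v hv
      simp only [mem_map, mem_filter, mem_univ, true_and, Function.Embedding.coe_subtype, Subtype.exists, exists_and_right,
        exists_eq_right] at hv
      exact hv.1
    · intro e he
      obtain ⟨h1, h2⟩ := hT e he
      have := hw (⟨e.1, h1⟩, ⟨e.2, h2⟩) (by simp [prcLift, he])
      simp only at this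
      simp only [mem_map, mem_filter, mem_univ, true_and, Function.Embedding.coe_subtype, Subtype.exists, exists_and_right,
        exists_eq_right, h1, h2, exists_true_left, this]
  · intro W hW
    simp only [coe_filter, mem_powerset, Set.mem_ofPred_eq] at hW
    ext v
    simp only [mem_map, mem_filter, mem_univ, true_and, Function.Embedding.coe_subtype, Subtype.exists, exists_and_right,
      exists_eq_right, decide_eq_true_eq]
    exact ⟨fun h => h.2, fun h => ⟨hW.1 h, h⟩⟩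
  · intro w _
    funext v
    simp only [mem_map, mem_filter, mem_univ, true_and, Function.Embedding.coe_subtype, Subtype.exists, exists_and_right,
      exists_eq_right, v.2, exists_true_left]
    cases w v <;> simp

theorem prc_lift_union (A : Finset V) (T₁ T₂ : Finset (V × V)) : prcLift A (T₁ ∪ T₂) = prcLift A T₁ ∪ prcLift A T₂ := by
  ext e
  simp [prcLift]

theorem prc_in_union {A : Finset V} {T₁ T₂ : Finset (V × V)} (h₁ : ∀ e ∈ T₁, e.1 ∈ A ∧ e.2 ∈ A) (h₂ : ∀ e ∈ T₂, e.1 ∈ A ∧ e.2 ∈ A) :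
    ∀ e ∈ T₁ ∪ T₂, e.1 ∈ A ∧ e.2 ∈ A := fun e he => (mem_union.1 he).elim (h₁ e) (h₂ e)

/-- submultiplicativity -/
theorem prc_cnt_mul_le (A : Finset V) (T₁ T₂ : Finset (V × V)) (h₁ : ∀ e ∈ T₁, e.1 ∈ A ∧ e.2 ∈ A) (h₂ : ∀ e ∈ T₂, e.1 ∈ A ∧ e.2 ∈ A) :
    prcCnt A T₁ * prcCnt A T₂ ≤ prcCnt A (T₁ ∪ T₂) * 2 ^ A.card := by
  rw [prc_cnt_eq A T₁ h₁, prc_cnt_eq A T₂ h₂, prc_cnt_eq A _ (prc_in_union h₁ h₂), prc_lift_union]
  have := prt_cnt_mul_le (Prod.fst : {v // v ∈ A} × {v // v ∈ A} → {v // v ∈ A}) Prod.snd (prcLift A T₁) (prcLift A T₂)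
  simpa using this

/-- ports -/
theorem prc_cnt_port (A : Finset V) (T₁ T₂ : Finset (V × V)) (h₁ : ∀ e ∈ T₁, e.1 ∈ A ∧ e.2 ∈ A) (h₂ : ∀ e ∈ T₂, e.1 ∈ A ∧ e.2 ∈ A)
    (P : Finset V) (hP : ∀ v, PrcTouch T₁ v → PrcTouch T₂ v → v ∈ P) :
    prcCnt A (T₁ ∪ T₂) * 2 ^ A.card ≤ 2 ^ (P.card - 1) * (prcCnt A T₁ * prcCnt A T₂) := by
  rw [prc_cnt_eq A T₁ h₁, prc_cnt_eq A T₂ h₂, prc_cnt_eq A _ (prc_in_union h₁ h₂), prc_lift_union]
  have ht : ∀ (T : Finset (V × V)) (v : {v // v ∈ A}),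
      PrtTouch (Prod.fst : {v // v ∈ A} × {v // v ∈ A} → {v // v ∈ A}) Prod.snd (prcLift A T) v → PrcTouch T v.1 := by
    rintro T v ⟨e, he, hev⟩
    simp only [prcLift, mem_filter, mem_univ, true_and] at he
    refine ⟨_, he, ?_⟩
    rcases hev with rfl | rfl
    · exact Or.inl rfl
    · exact Or.inr rfl
  have := prt_cnt_port (Prod.fst : {v // v ∈ A} × {v // v ∈ A} → {v // v ∈ A}) Prod.snd (prcLift A T₁) (prcLift A T₂)
    (P.subtype (· ∈ A)) (fun v hv1 hv2 => by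
      rw [mem_subtype]; exact hP v.1 (ht _ v hv1) (ht _ v hv2))
  have hc : (P.subtype (· ∈ A)).card ≤ P.card := by
    rw [card_subtype]; exact card_filter_le _ _
  have hpow : 2 ^ ((P.subtype (· ∈ A)).card - 1) ≤ 2 ^ (P.card - 1) := Nat.pow_le_pow_right (by norm_num) (by omega)
  refine le_trans (by simpa using this) (Nat.mul_le_mul_right _ hpow)

theorem prc_cnt_pos (A : Finset V) (T : Finset (V × V)) : 0 < prcCnt A T :=
  card_pos.2 ⟨∅, by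
    rw [mem_filter, mem_powerset]
    exact ⟨empty_subset _, fun e _ => by simp⟩⟩

theorem prc_inter_union {α : Type} [DecidableEq α] (B R : Finset α) : B ∩ R ∪ B \ R = B := by
  ext v
  simp only [mem_union, mem_inter, mem_sdiff]
  tauto

/-- sums over the subsets of a disjoint union -/
theorem prc_sum_powerset {α : Type} [DecidableEq α] {R A : Finset α} (h : R ⊆ A) (φ : Finset α → ℝ) :
    ∑ B ∈ A.powerset, φ B = ∑ B₁ ∈ R.powerset, ∑ B₂ ∈ (A \ R).powerset, φ (B₁ ∪ B₂) := by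
  rw [← sum_product']
  refine sum_nbij' (fun B => (B ∩ R, B \ R)) (fun p => p.1 ∪ p.2) ?_ ?_ ?_ ?_ ?_
  · intro B hB
    rw [mem_powerset] at hB
    simp only [mem_product, mem_powerset]
    exact ⟨inter_subset_right, sdiff_subset_sdiff hB (Subset.refl _)⟩
  · intro p hp
    simp only [mem_product, mem_powerset] at hp
    rw [mem_powerset]
    exact union_subset (hp.1.trans h) (hp.2.trans sdiff_subset)
  · intro B _
    exact prc_inter_union B R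
  · intro p hp
    simp only [mem_product, mem_powerset] at hp
    refine Prod.ext ?_ ?_
    · ext v
      simp only [mem_inter, mem_union]
      constructor
      · rintro ⟨h1 | h1, h2⟩
        · exact h1
        · exact absurd h2 (mem_sdiff.1 (hp.2 h1)).2
      · intro h1; exact ⟨Or.inl h1, hp.1 h1⟩
    · ext v
      simp only [mem_sdiff, mem_union]
      constructor
      · rintro ⟨h1 | h1, h2⟩
        · exact absurd (hp.1 h1) h2
        · exact h1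
      · intro h1; exact ⟨Or.inr h1, (mem_sdiff.1 (hp.2 h1)).2⟩
  · intro B _
    simp only
    rw [prc_inter_union]

theorem prc_cnt_sum (A : Finset V) (T : Finset (V × V)) :
    (prcCnt A T : ℝ) = ∑ W ∈ A.powerset, if PrcResp T W then (1 : ℝ) else 0 := by
  unfold prcCnt
  rw [card_filter]
  push_cast
  rfl

/-- ties inside `R`: the other sites are free -/
theorem prc_cnt_res {R A : Finset V} (h : R ⊆ A) (T : Finset (V × V)) (hT : ∀ e ∈ T, e.1 ∈ R ∧ e.2 ∈ R) :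
    (prcCnt A T : ℝ) = 2 ^ (A \ R).card * prcCnt R T := by
  rw [prc_cnt_sum, prc_cnt_sum, prc_sum_powerset h, mul_sum]
  refine sum_congr rfl fun W₁ _ => ?_
  have e : ∀ W₂ ∈ (A \ R).powerset, (if PrcResp T (W₁ ∪ W₂) then (1 : ℝ) else 0) = if PrcResp T W₁ then (1 : ℝ) else 0 := by
    intro W₂ hW₂
    rw [mem_powerset] at hW₂
    refine if_congr ?_ rfl rfl
    have aux : ∀ v ∈ R, (v ∈ W₁ ∪ W₂ ↔ v ∈ W₁) := fun v hv => by
      rw [mem_union]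
      exact ⟨fun hh => hh.elim id fun h2 => absurd hv (mem_sdiff.1 (hW₂ h2)).2, Or.inl⟩
    unfold PrcResp
    refine forall_congr' fun e => forall_congr' fun he => ?_
    rw [aux _ (hT e he).1, aux _ (hT e he).2]
  rw [sum_congr rfl e, sum_const, card_powerset, nsmul_eq_mul]
  push_cast
  rfl

end Kit

/-! ## 2. The sum over `(B, O)` -/

section BO

variable {V Y : Type} [DecidableEq V] [DecidableEq Y]

/-- the factor of the cell table which does not see the second spin -/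
def prcKf (q : ℝ) (bc o : Prop) [Decidable bc] [Decidable o] : ℝ := if o then (if bc then q else 0) else (if bc then 1 - q else q)

theorem prc_cellW (q : ℝ) (bc wc o : Prop) [Decidable bc] [Decidable wc] [Decidable o] :
    clCellW q bc wc o = prcKf q bc o * (if o ∨ wc then 1 else 0) := by
  unfold clCellW prcKf
  by_cases h1 : o <;> by_cases h2 : wc <;> simp [h1, h2]

theorem prc_kf_nonneg {q : ℝ} (h0 : 0 ≤ q) (h1 : q ≤ 1) (bc o : Prop) [Decidable bc] [Decidable o] : 0 ≤ prcKf q bc o := by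
  unfold prcKf; split_ifs <;> linarith

theorem prc_kf_congr (q : ℝ) {bc bc' o o' : Prop} [Decidable bc] [Decidable bc'] [Decidable o] [Decidable o'] (h1 : bc ↔ bc') (h2 : o ↔ o') :
    prcKf q bc o = prcKf q bc' o' := by
  unfold prcKf
  by_cases a : bc <;> by_cases b : o <;> simp [a, b, ← h1, ← h2]

/-- the ties of the second spin: the prescribed ones and the pairs of sites of a closed cell -/
def prcTie (S : ClSys V Y) (Cs : Finset Y) (E : Finset (V × V)) (O : Finset Y) : Finset (V × V) :=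
  E ∪ (Cs \ O).biUnion fun y => S.sv y ×ˢ S.sv y

theorem prc_const_iff (W s : Finset V) : ClConst W s ↔ ∀ u ∈ s, ∀ v ∈ s, (u ∈ W ↔ v ∈ W) := by
  unfold ClConst
  constructor
  · rintro (h | h) u hu v hv
    · exact ⟨fun _ => h hv, fun _ => h hu⟩
    · exact ⟨fun h1 => absurd h1 (h u hu), fun h1 => absurd h1 (h v hv)⟩
  · intro h
    by_cases hh : ∃ u ∈ s, u ∈ W
    · obtain ⟨u, hu, huW⟩ := hh
      exact Or.inl fun v hv => (h u hu v hv).1 huW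
    · exact Or.inr fun v hv hvW => hh ⟨v, hv, hvW⟩

theorem prc_resp_union {T₁ T₂ : Finset (V × V)} {W : Finset V} : PrcResp (T₁ ∪ T₂) W ↔ PrcResp T₁ W ∧ PrcResp T₂ W := by
  unfold PrcResp
  constructor
  · intro h; exact ⟨fun e he => h e (mem_union_left _ he), fun e he => h e (mem_union_right _ he)⟩
  · rintro ⟨h1, h2⟩ e he
    exact (mem_union.1 he).elim (h1 e) (h2 e)

theorem prc_resp_tie (S : ClSys V Y) (Cs : Finset Y) (E : Finset (V × V)) (O : Finset Y) (W : Finset V) :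
    PrcResp (prcTie S Cs E O) W ↔ PrcResp E W ∧ ∀ y ∈ Cs, y ∈ O ∨ ClConst W (S.sv y) := by
  unfold prcTie
  rw [prc_resp_union]
  refine and_congr Iff.rfl ?_
  constructor
  · intro h y hy
    by_cases hO : y ∈ O
    · exact Or.inl hO
    · refine Or.inr ((prc_const_iff W _).2 fun u hu v hv => h (u, v) ?_)
      rw [mem_biUnion]
      exact ⟨y, mem_sdiff.2 ⟨hy, hO⟩, mem_product.2 ⟨hu, hv⟩⟩
  · intro h e he
    rw [mem_biUnion] at he
    obtain ⟨y, hy, hey⟩ := he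
    rw [mem_sdiff] at hy
    rw [mem_product] at hey
    rcases h y hy.1 with h1 | h1
    · exact absurd h1 hy.2
    · exact (prc_const_iff W _).1 h1 _ hey.1 _ hey.2

/-- the part of a constraint which reads `(B, O)` -/
def PrcKB (K : ClCon V Y) (S : ClSys V Y) (B : Finset V) (O : Finset Y) : Prop :=
  K.Bp ⊆ B ∧ (∀ v ∈ K.Bm, v ∉ B) ∧ (∀ y ∈ K.Op, y ∈ O ∧ S.sv y ⊆ B) ∧ (∀ y ∈ K.Om, y ∈ O ∧ ¬ S.sv y ⊆ B) ∧ ∀ y ∈ K.Cl, y ∉ O

theorem prc_tau_one (S : ClSys V Y) (ω : ClCfg V Y) (y : Y) : clTau S ω y = 1 ↔ y ∈ ω.O ∧ S.sv y ⊆ ω.B := by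
  unfold clTau; split_ifs <;> simp_all

theorem prc_tau_neg (S : ClSys V Y) (ω : ClCfg V Y) (y : Y) : clTau S ω y = -1 ↔ y ∈ ω.O ∧ ¬ S.sv y ⊆ ω.B := by
  unfold clTau; split_ifs <;> simp_all

theorem prc_holds (S : ClSys V Y) (K : ClCon V Y) (hwp : K.Wp = ∅) (hwm : K.Wm = ∅) (ω : ClCfg V Y) :
    K.Holds S ω ↔ PrcKB K S ω.B ω.O ∧ PrcResp K.Eq ω.W := by
  unfold ClCon.Holds PrcKB PrcResp
  simp only [prc_tau_one, prc_tau_neg, hwp, hwm, empty_subset, notMem_empty, false_imp_iff, implies_true, and_true]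
  tauto

open Classical in
/-- the weight of `(B, O)` under the constraint `K`, second spins summed out -/
noncomputable def prcW (S : ClSys V Y) (K : ClCon V Y) (B : Finset V) (O : Finset Y) : ℝ :=
  if PrcKB K S B O then (∏ y ∈ S.C, prcKf (S.q y) (ClConst B (S.sv y)) (y ∈ O)) * (prcCnt S.A (prcTie S S.C K.Eq O) : ℝ) else 0

theorem prc_bo_eqns_cite : True := by
  have := @prcKf.eq_1
  have := @prcTie.eq_1
  have := @PrcKB.eq_1
  have := @prcW.eq_1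
  trivial

/-- `G` does not read the second spin -/
def PrcNoW (G : ClCfg V Y → ℝ) : Prop := ∀ ω ω' : ClCfg V Y, ω.B = ω'.B → ω.O = ω'.O → G ω = G ω'

/-- **the sum over `(B, O)`** -/
theorem prc_N_eq (S : ClSys V Y) (K : ClCon V Y) (hwp : K.Wp = ∅) (hwm : K.Wm = ∅) {G : ClCfg V Y → ℝ} (hG : PrcNoW G) :
    S.N (K.Holds S) G = ∑ B ∈ S.A.powerset, ∑ O ∈ S.C.powerset, prcW S K B O * G ⟨B, ∅, O⟩ := by
  classical
  unfold ClSys.N
  rw [cl_sum_cfgs]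
  refine sum_congr rfl fun B _ => ?_
  rw [sum_comm]
  refine sum_congr rfl fun O _ => ?_
  have e : ∀ W ∈ S.A.powerset, (if K.Holds S ⟨B, W, O⟩ then S.wt ⟨B, W, O⟩ * G ⟨B, W, O⟩ else 0)
      = (if PrcKB K S B O then (∏ y ∈ S.C, prcKf (S.q y) (ClConst B (S.sv y)) (y ∈ O)) * G ⟨B, ∅, O⟩ else 0)
        * (if PrcResp (prcTie S S.C K.Eq O) W then (1 : ℝ) else 0) := by
    intro W _
    rw [hG ⟨B, W, O⟩ ⟨B, ∅, O⟩ rfl rfl]
    have hw : S.wt ⟨B, W, O⟩ = (∏ y ∈ S.C, prcKf (S.q y) (ClConst B (S.sv y)) (y ∈ O))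
        * (if ∀ y ∈ S.C, y ∈ O ∨ ClConst W (S.sv y) then 1 else 0) := by
      unfold ClSys.wt
      simp only [prc_cellW]
      rw [prod_mul_distrib, prod_ite_zero]
      simp
    rw [hw]
    simp only [prc_holds S K hwp hwm, prc_resp_tie]
    by_cases h1 : PrcKB K S B O <;> by_cases h2 : PrcResp K.Eq W <;> by_cases h3 : ∀ y ∈ S.C, y ∈ O ∨ ClConst W (S.sv y) <;>
      simp [h1, h2, h3]
  rw [sum_congr rfl e, ← mul_sum, ← prc_cnt_sum]
  unfold prcW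
  split_ifs <;> ring

theorem prc_cnt_congr (A : Finset V) {T T' : Finset (V × V)} (h : ∀ W, PrcResp T W ↔ PrcResp T' W) : prcCnt A T = prcCnt A T' := by
  unfold prcCnt
  congr 1
  exact filter_congr fun W _ => h W

theorem prc_const_congr {B B' s : Finset V} (h : ∀ v ∈ s, (v ∈ B ↔ v ∈ B')) : ClConst B s ↔ ClConst B' s := by
  rw [prc_const_iff, prc_const_iff]
  refine forall_congr' fun u => forall_congr' fun hu => forall_congr' fun v => forall_congr' fun hv => ?_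
  rw [h u hu, h v hv]

theorem prc_sub_congr {B B' s : Finset V} (h : ∀ v ∈ s, (v ∈ B ↔ v ∈ B')) : s ⊆ B ↔ s ⊆ B' :=
  ⟨fun H v hv => (h v hv).1 (H hv), fun H v hv => (h v hv).2 (H hv)⟩

end BO

/-! ## 3. Ports -/

section Ports

variable {V Y : Type} [DecidableEq V] [DecidableEq Y]

/-- **retained set with ports** (see `PrtSplit` of `Ann/Ports.lean`) -/
structure PrcSplit (S : ClSys V Y) (K : ClCon V Y) (R : Finset V) (YR : Finset Y) (ER : Finset (V × V)) (P : Finset V) : Prop where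
  RA : R ⊆ S.A
  YC : YR ⊆ S.C
  sub : ∀ y ∈ S.C, S.sv y ⊆ S.A
  q0 : ∀ y ∈ S.C, 0 ≤ S.q y
  q1 : ∀ y ∈ S.C, S.q y ≤ 1
  cellR : ∀ y ∈ YR, S.sv y ⊆ R
  pinX : ∀ y ∈ S.C, y ∉ YR → S.sv y ∩ R ⊆ K.Bp ∪ K.Bm
  portC : ∀ y ∈ S.C, y ∉ YR → y ∈ K.Op ∪ K.Om ∨ S.sv y ∩ R ⊆ P
  eqR : ER ⊆ K.Eq
  eqR_in : ∀ e ∈ ER, e.1 ∈ R ∧ e.2 ∈ R
  portE : ∀ e ∈ K.Eq, e ∉ ER → (e.1 ∈ R → e.1 ∈ P) ∧ (e.2 ∈ R → e.2 ∈ P)
  eqA : ∀ e ∈ K.Eq, e.1 ∈ S.A ∧ e.2 ∈ S.A
  wp : K.Wp = ∅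
  wm : K.Wm = ∅

/-- the retained system -/
def prcSR (S : ClSys V Y) (R : Finset V) (YR : Finset Y) : ClSys V Y := ⟨R, YR, S.sv, S.q⟩

/-- the retained constraint -/
def prcKR (K : ClCon V Y) (R : Finset V) (YR : Finset Y) (ER : Finset (V × V)) : ClCon V Y :=
  ⟨K.Bp ∩ R, K.Bm ∩ R, ER, K.Op ∩ YR, K.Om ∩ YR, K.Cl ∩ YR, ∅, ∅⟩

/-- `G` is a function of the first spins on `R` and of the open cells of `YR` -/
def PrcLoc (R : Finset V) (YR : Finset Y) (G : ClCfg V Y → ℝ) : Prop :=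
  ∀ ω ω' : ClCfg V Y, ω.B ∩ R = ω'.B ∩ R → ω.O ∩ YR = ω'.O ∩ YR → G ω = G ω'

/-- the exterior part of the constraint -/
def PrcKX (S : ClSys V Y) (K : ClCon V Y) (R : Finset V) (YR : Finset Y) (B₂ : Finset V) (O₂ : Finset Y) : Prop :=
  (∀ v ∈ K.Bp, v ∉ R → v ∈ B₂) ∧ (∀ v ∈ K.Bm, v ∉ R → v ∉ B₂) ∧ (∀ y ∈ K.Op, y ∉ YR → y ∈ O₂ ∧ S.sv y ⊆ (K.Bp ∩ R) ∪ B₂) ∧
    (∀ y ∈ K.Om, y ∉ YR → y ∈ O₂ ∧ ¬ S.sv y ⊆ (K.Bp ∩ R) ∪ B₂) ∧ ∀ y ∈ K.Cl, y ∉ YR → y ∉ O₂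

open Classical in
/-- the exterior weight -/
noncomputable def prcWX (S : ClSys V Y) (K : ClCon V Y) (R : Finset V) (YR : Finset Y) (ER : Finset (V × V)) (B₂ : Finset V)
    (O₂ : Finset Y) : ℝ :=
  if PrcKX S K R YR B₂ O₂ then (∏ y ∈ S.C \ YR, prcKf (S.q y) (ClConst ((K.Bp ∩ R) ∪ B₂) (S.sv y)) (y ∈ O₂))
    * (prcCnt S.A (prcTie S (S.C \ YR) (K.Eq \ ER) O₂) : ℝ) else 0

theorem prc_ports_eqns_cite : True := by
  have := @PrcNoW.eq_1
  have := @prcSR.eq_1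
  have := @prcKR.eq_1
  have := @PrcLoc.eq_1
  have := @PrcKX.eq_1
  have := @prcWX.eq_1
  trivial

variable {S : ClSys V Y} {K : ClCon V Y} {R : Finset V} {YR : Finset Y} {ER : Finset (V × V)} {P : Finset V}

theorem prc_loc_noW {G : ClCfg V Y → ℝ} (h : PrcLoc R YR G) : PrcNoW G := fun ω ω' h1 h2 => h ω ω' (by rw [h1]) (by rw [h2])

/-- membership in a union of a part inside and a part outside -/
theorem prc_mem_in {α : Type} [DecidableEq α] {R A X₁ X₂ : Finset α} (h₂ : X₂ ⊆ A \ R) {v : α} (hv : v ∈ R) : v ∈ X₁ ∪ X₂ ↔ v ∈ X₁ := by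
  rw [mem_union]
  exact ⟨fun h => h.elim id fun h' => absurd hv (mem_sdiff.1 (h₂ h')).2, Or.inl⟩

theorem prc_mem_out {α : Type} [DecidableEq α] {R X₁ X₂ : Finset α} (h₁ : X₁ ⊆ R) {v : α} (hv : v ∉ R) : v ∈ X₁ ∪ X₂ ↔ v ∈ X₂ := by
  rw [mem_union]
  exact ⟨fun h => h.elim (fun h' => absurd (h₁ h') hv) id, Or.inr⟩

/-- on an exterior cell the first spin of the retained part is read on the pins -/
theorem prc_pin_mem (hs : PrcSplit S K R YR ER P) {B₁ B₂ : Finset V} (hB₁ : B₁ ⊆ R) (hp : K.Bp ∩ R ⊆ B₁) (hm : ∀ v ∈ K.Bm ∩ R, v ∉ B₁)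
    {y : Y} (hy : y ∈ S.C) (hyR : y ∉ YR) {v : V} (hv : v ∈ S.sv y) : v ∈ B₁ ∪ B₂ ↔ v ∈ (K.Bp ∩ R) ∪ B₂ := by
  by_cases hR : v ∈ R
  · have h1 := hs.pinX y hy hyR (mem_inter.2 ⟨hv, hR⟩)
    simp only [mem_union, mem_inter]
    rcases mem_union.1 h1 with h2 | h2
    · have := hp (mem_inter.2 ⟨h2, hR⟩)
      tauto
    · have h3 := hm v (mem_inter.2 ⟨h2, hR⟩)
      have h4 : v ∉ K.Bp := fun h5 => h3 (hp (mem_inter.2 ⟨h5, hR⟩))
      tauto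
  · simp only [mem_union, mem_inter]
    have : v ∉ B₁ := fun h => hR (hB₁ h)
    tauto

/-- the constraint splits -/
theorem prc_KB_split (hs : PrcSplit S K R YR ER P) {B₁ B₂ : Finset V} {O₁ O₂ : Finset Y} (hB₁ : B₁ ⊆ R) (hB₂ : B₂ ⊆ S.A \ R)
    (hO₁ : O₁ ⊆ YR) (hO₂ : O₂ ⊆ S.C \ YR) :
    PrcKB K S (B₁ ∪ B₂) (O₁ ∪ O₂) ↔ PrcKB (prcKR K R YR ER) (prcSR S R YR) B₁ O₁ ∧ PrcKX S K R YR B₂ O₂ := by
  unfold PrcKB PrcKX prcKR prcSR
  simp only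
  have mB_in : ∀ {v}, v ∈ R → (v ∈ B₁ ∪ B₂ ↔ v ∈ B₁) := fun hv => prc_mem_in hB₂ hv
  have mB_out : ∀ {v}, v ∉ R → (v ∈ B₁ ∪ B₂ ↔ v ∈ B₂) := fun hv => prc_mem_out hB₁ hv
  have mO_in : ∀ {y}, y ∈ YR → (y ∈ O₁ ∪ O₂ ↔ y ∈ O₁) := fun hy => prc_mem_in hO₂ hy
  have mO_out : ∀ {y}, y ∉ YR → (y ∈ O₁ ∪ O₂ ↔ y ∈ O₂) := fun hy => prc_mem_out hO₁ hy
  have sv_in : ∀ {y}, y ∈ YR → (S.sv y ⊆ B₁ ∪ B₂ ↔ S.sv y ⊆ B₁) := fun hy =>
    prc_sub_congr fun v hv => mB_in (hs.cellR _ hy hv)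
  constructor
  · rintro ⟨a1, a2, a3, a4, a5⟩
    have hp : K.Bp ∩ R ⊆ B₁ := fun v hv => (mB_in (mem_inter.1 hv).2).1 (a1 (mem_inter.1 hv).1)
    have hm : ∀ v ∈ K.Bm ∩ R, v ∉ B₁ := fun v hv h => a2 v (mem_inter.1 hv).1 (mem_union_left _ h)
    have sv_out : ∀ {y}, y ∈ O₂ → (S.sv y ⊆ B₁ ∪ B₂ ↔ S.sv y ⊆ (K.Bp ∩ R) ∪ B₂) := fun hy =>
      prc_sub_congr fun v hv => prc_pin_mem hs hB₁ hp hm (mem_sdiff.1 (hO₂ hy)).1 (mem_sdiff.1 (hO₂ hy)).2 hv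
    refine ⟨⟨hp, hm, ?_, ?_, ?_⟩, ?_, ?_, ?_, ?_, ?_⟩
    · intro y hy
      obtain ⟨h1, h2⟩ := mem_inter.1 hy
      exact ⟨(mO_in h2).1 (a3 y h1).1, (sv_in h2).1 (a3 y h1).2⟩
    · intro y hy
      obtain ⟨h1, h2⟩ := mem_inter.1 hy
      exact ⟨(mO_in h2).1 (a4 y h1).1, fun h => (a4 y h1).2 ((sv_in h2).2 h)⟩
    · intro y hy h
      exact a5 y (mem_inter.1 hy).1 (mem_union_left _ h)
    · intro v hv hR
      exact (mB_out hR).1 (a1 hv)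
    · intro v hv hR h
      exact a2 v hv (mem_union_right _ h)
    · intro y hy hyR
      have h1 := (mO_out hyR).1 (a3 y hy).1
      exact ⟨h1, (sv_out h1).1 (a3 y hy).2⟩
    · intro y hy hyR
      have h1 := (mO_out hyR).1 (a4 y hy).1
      exact ⟨h1, fun h => (a4 y hy).2 ((sv_out h1).2 h)⟩
    · intro y hy hyR h
      exact a5 y hy (mem_union_right _ h)
  · rintro ⟨⟨hp, hm, b3, b4, b5⟩, c1, c2, c3, c4, c5⟩
    have sv_out : ∀ {y}, y ∈ O₂ → (S.sv y ⊆ B₁ ∪ B₂ ↔ S.sv y ⊆ (K.Bp ∩ R) ∪ B₂) := fun hy =>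
      prc_sub_congr fun v hv => prc_pin_mem hs hB₁ hp hm (mem_sdiff.1 (hO₂ hy)).1 (mem_sdiff.1 (hO₂ hy)).2 hv
    refine ⟨?_, ?_, ?_, ?_, ?_⟩
    · intro v hv
      by_cases hR : v ∈ R
      · exact mem_union_left _ (hp (mem_inter.2 ⟨hv, hR⟩))
      · exact mem_union_right _ (c1 v hv hR)
    · intro v hv
      by_cases hR : v ∈ R
      · rw [mB_in hR]; exact hm v (mem_inter.2 ⟨hv, hR⟩)
      · rw [mB_out hR]; exact c2 v hv hR
    · intro y hy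
      by_cases hyR : y ∈ YR
      · have := b3 y (mem_inter.2 ⟨hy, hyR⟩)
        exact ⟨(mO_in hyR).2 this.1, (sv_in hyR).2 this.2⟩
      · have := c3 y hy hyR
        exact ⟨(mO_out hyR).2 this.1, (sv_out this.1).2 this.2⟩
    · intro y hy
      by_cases hyR : y ∈ YR
      · have := b4 y (mem_inter.2 ⟨hy, hyR⟩)
        exact ⟨(mO_in hyR).2 this.1, fun h => this.2 ((sv_in hyR).1 h)⟩
      · have := c4 y hy hyR
        exact ⟨(mO_out hyR).2 this.1, fun h => this.2 ((sv_out this.1).1 h)⟩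
    · intro y hy
      by_cases hyR : y ∈ YR
      · rw [mO_in hyR]; exact b5 y (mem_inter.2 ⟨hy, hyR⟩)
      · rw [mO_out hyR]; exact c5 y hy hyR

/-- the cell factors split -/
theorem prc_kf_split (hs : PrcSplit S K R YR ER P) {B₁ B₂ : Finset V} {O₁ O₂ : Finset Y} (hB₁ : B₁ ⊆ R) (hB₂ : B₂ ⊆ S.A \ R)
    (hO₁ : O₁ ⊆ YR) (hO₂ : O₂ ⊆ S.C \ YR) (hp : K.Bp ∩ R ⊆ B₁) (hm : ∀ v ∈ K.Bm ∩ R, v ∉ B₁) :
    ∏ y ∈ S.C, prcKf (S.q y) (ClConst (B₁ ∪ B₂) (S.sv y)) (y ∈ O₁ ∪ O₂)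
      = (∏ y ∈ YR, prcKf (S.q y) (ClConst B₁ (S.sv y)) (y ∈ O₁))
        * ∏ y ∈ S.C \ YR, prcKf (S.q y) (ClConst ((K.Bp ∩ R) ∪ B₂) (S.sv y)) (y ∈ O₂) := by
  rw [← prod_sdiff hs.YC, mul_comm]
  congr 1
  · refine prod_congr rfl fun y hy => prc_kf_congr _ ?_ (prc_mem_in hO₂ hy)
    exact prc_const_congr fun v hv => prc_mem_in hB₂ (hs.cellR y hy hv)
  · refine prod_congr rfl fun y hy => ?_
    obtain ⟨h1, h2⟩ := mem_sdiff.1 hy
    exact prc_kf_congr _ (prc_const_congr fun v hv => prc_pin_mem hs hB₁ hp hm h1 h2 hv) (prc_mem_out hO₁ h2)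

/-- the ties split -/
theorem prc_tie_split (hs : PrcSplit S K R YR ER P) {O₁ O₂ : Finset Y} (hO₁ : O₁ ⊆ YR) (hO₂ : O₂ ⊆ S.C \ YR) (W : Finset V) :
    PrcResp (prcTie S S.C K.Eq (O₁ ∪ O₂)) W ↔ PrcResp (prcTie S YR ER O₁ ∪ prcTie S (S.C \ YR) (K.Eq \ ER) O₂) W := by
  rw [prc_resp_union, prc_resp_tie, prc_resp_tie, prc_resp_tie]
  constructor
  · rintro ⟨h1, h2⟩
    refine ⟨⟨fun e he => h1 e (hs.eqR he), fun y hy => ?_⟩, ⟨fun e he => h1 e (mem_sdiff.1 he).1, fun y hy => ?_⟩⟩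
    · rcases h2 y (hs.YC hy) with h | h
      · exact Or.inl ((prc_mem_in hO₂ hy).1 h)
      · exact Or.inr h
    · obtain ⟨a, b⟩ := mem_sdiff.1 hy
      rcases h2 y a with h | h
      · exact Or.inl ((prc_mem_out hO₁ b).1 h)
      · exact Or.inr h
  · rintro ⟨⟨a1, a2⟩, ⟨b1, b2⟩⟩
    refine ⟨fun e he => ?_, fun y hy => ?_⟩
    · by_cases h : e ∈ ER
      · exact a1 e h
      · exact b1 e (mem_sdiff.2 ⟨he, h⟩)
    · by_cases h : y ∈ YR
      · exact (a2 y h).imp (mem_union_left _) id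
      · exact (b2 y (mem_sdiff.2 ⟨hy, h⟩)).imp (mem_union_right _) id

theorem prc_tieR_in (hs : PrcSplit S K R YR ER P) (O₁ : Finset Y) : ∀ e ∈ prcTie S YR ER O₁, e.1 ∈ R ∧ e.2 ∈ R := by
  intro e he
  unfold prcTie at he
  rcases mem_union.1 he with h | h
  · exact hs.eqR_in e h
  · obtain ⟨y, hy, hey⟩ := mem_biUnion.1 h
    have := hs.cellR y (mem_sdiff.1 hy).1
    exact ⟨this (mem_product.1 hey).1, this (mem_product.1 hey).2⟩

theorem prc_tieX_in (hs : PrcSplit S K R YR ER P) (O₂ : Finset Y) : ∀ e ∈ prcTie S (S.C \ YR) (K.Eq \ ER) O₂, e.1 ∈ S.A ∧ e.2 ∈ S.A := by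
  intro e he
  unfold prcTie at he
  rcases mem_union.1 he with h | h
  · exact hs.eqA e (mem_sdiff.1 h).1
  · obtain ⟨y, hy, hey⟩ := mem_biUnion.1 h
    have := hs.sub y (mem_sdiff.1 (mem_sdiff.1 hy).1).1
    exact ⟨this (mem_product.1 hey).1, this (mem_product.1 hey).2⟩

/-- the exterior ties touch the retained set at the ports only -/
theorem prc_tieX_port (hs : PrcSplit S K R YR ER P) {B₂ : Finset V} {O₂ : Finset Y} (hk : PrcKX S K R YR B₂ O₂) {v : V}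
    (hv : PrcTouch (prcTie S (S.C \ YR) (K.Eq \ ER) O₂) v) (hR : v ∈ R) : v ∈ P := by
  obtain ⟨e, he, hev⟩ := hv
  unfold prcTie at he
  have key : (e.1 ∈ R → e.1 ∈ P) ∧ (e.2 ∈ R → e.2 ∈ P) := by
    rcases mem_union.1 he with h | h
    · exact hs.portE e (mem_sdiff.1 h).1 (mem_sdiff.1 h).2
    · obtain ⟨y, hy, hey⟩ := mem_biUnion.1 h
      obtain ⟨hy1, hy2⟩ := mem_sdiff.1 hy
      obtain ⟨hyC, hyR⟩ := mem_sdiff.1 hy1
      rcases hs.portC y hyC hyR with h1 | h1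
      · rcases mem_union.1 h1 with h2 | h2
        · exact absurd (hk.2.2.1 y h2 hyR).1 hy2
        · exact absurd (hk.2.2.2.1 y h2 hyR).1 hy2
      · exact ⟨fun h2 => h1 (mem_inter.2 ⟨(mem_product.1 hey).1, h2⟩), fun h2 => h1 (mem_inter.2 ⟨(mem_product.1 hey).2, h2⟩)⟩
  rcases hev with rfl | rfl
  · exact key.1 hR
  · exact key.2 hR

theorem prc_WX_nonneg (hs : PrcSplit S K R YR ER P) (B₂ : Finset V) (O₂ : Finset Y) : 0 ≤ prcWX S K R YR ER B₂ O₂ := by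
  classical
  unfold prcWX
  split_ifs
  · exact mul_nonneg (prod_nonneg fun y hy => prc_kf_nonneg (hs.q0 y (mem_sdiff.1 hy).1) (hs.q1 y (mem_sdiff.1 hy).1) _ _) (Nat.cast_nonneg _)
  · exact le_rfl

theorem prc_WR_nonneg (hs : PrcSplit S K R YR ER P) (B₁ : Finset V) (O₁ : Finset Y) :
    0 ≤ prcW (prcSR S R YR) (prcKR K R YR ER) B₁ O₁ := by
  classical
  unfold prcW
  split_ifs
  · exact mul_nonneg (prod_nonneg fun y hy => prc_kf_nonneg (hs.q0 y (hs.YC hy)) (hs.q1 y (hs.YC hy)) _ _) (Nat.cast_nonneg _)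
  · exact le_rfl

/-- **one configuration** -/
theorem prc_pt (hs : PrcSplit S K R YR ER P) {B₁ B₂ : Finset V} {O₁ O₂ : Finset Y} (hB₁ : B₁ ⊆ R) (hB₂ : B₂ ⊆ S.A \ R)
    (hO₁ : O₁ ⊆ YR) (hO₂ : O₂ ⊆ S.C \ YR) :
    prcW (prcSR S R YR) (prcKR K R YR ER) B₁ O₁ * prcWX S K R YR ER B₂ O₂ ≤ prcW S K (B₁ ∪ B₂) (O₁ ∪ O₂) * 2 ^ R.card ∧
    prcW S K (B₁ ∪ B₂) (O₁ ∪ O₂) * 2 ^ R.card
      ≤ 2 ^ (P.card - 1) * (prcW (prcSR S R YR) (prcKR K R YR ER) B₁ O₁ * prcWX S K R YR ER B₂ O₂) := by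
  classical
  have hsplit := prc_KB_split hs hB₁ hB₂ hO₁ hO₂
  unfold prcW prcWX
  by_cases c1 : PrcKB (prcKR K R YR ER) (prcSR S R YR) B₁ O₁
  swap
  · rw [if_neg c1, if_neg fun h => c1 (hsplit.1 h).1]; simp
  by_cases c2 : PrcKX S K R YR B₂ O₂
  swap
  · rw [if_neg c2, if_neg fun h => c2 (hsplit.1 h).2]; simp
  rw [if_pos c1, if_pos c2, if_pos (hsplit.2 ⟨c1, c2⟩), prc_kf_split hs hB₁ hB₂ hO₁ hO₂ c1.1 c1.2.1,
    prc_cnt_congr S.A (prc_tie_split hs hO₁ hO₂)]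
  show (∏ y ∈ YR, prcKf (S.q y) (ClConst B₁ (S.sv y)) (y ∈ O₁)) * (prcCnt R (prcTie S YR ER O₁) : ℝ) * _ ≤ _ ∧
    _ ≤ _ * ((∏ y ∈ YR, prcKf (S.q y) (ClConst B₁ (S.sv y)) (y ∈ O₁)) * (prcCnt R (prcTie S YR ER O₁) : ℝ) * _)
  obtain ⟨a, ha⟩ : ∃ a, a = ∏ y ∈ YR, prcKf (S.q y) (ClConst B₁ (S.sv y)) (y ∈ O₁) := ⟨_, rfl⟩
  obtain ⟨b, hb⟩ : ∃ b, b = ∏ y ∈ S.C \ YR, prcKf (S.q y) (ClConst ((K.Bp ∩ R) ∪ B₂) (S.sv y)) (y ∈ O₂) := ⟨_, rfl⟩
  have ha0 : 0 ≤ a := by rw [ha]; exact prod_nonneg fun y hy => prc_kf_nonneg (hs.q0 y (hs.YC hy)) (hs.q1 y (hs.YC hy)) _ _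
  have hb0 : 0 ≤ b := by
    rw [hb]; exact prod_nonneg fun y hy => prc_kf_nonneg (hs.q0 y (mem_sdiff.1 hy).1) (hs.q1 y (mem_sdiff.1 hy).1) _ _
  rw [← ha, ← hb]
  have tR := prc_tieR_in hs O₁
  have tRA : ∀ e ∈ prcTie S YR ER O₁, e.1 ∈ S.A ∧ e.2 ∈ S.A := fun e he => ⟨hs.RA (tR e he).1, hs.RA (tR e he).2⟩
  have tX := prc_tieX_in hs O₂
  have n1 := prc_cnt_mul_le S.A _ _ tRA tX
  have n2 := prc_cnt_port S.A _ _ tRA tX P (fun v hv1 hv2 => by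
    refine prc_tieX_port hs c2 hv2 ?_
    obtain ⟨e, he, hev⟩ := hv1
    rcases hev with rfl | rfl
    · exact (tR e he).1
    · exact (tR e he).2)
  have n3 := prc_cnt_res hs.RA _ tR
  obtain ⟨nR, hnR⟩ : ∃ n : ℝ, n = prcCnt R (prcTie S YR ER O₁) := ⟨_, rfl⟩
  obtain ⟨nX, hnX⟩ : ∃ n : ℝ, n = prcCnt S.A (prcTie S (S.C \ YR) (K.Eq \ ER) O₂) := ⟨_, rfl⟩
  obtain ⟨nU, hnU⟩ : ∃ n : ℝ, n = prcCnt S.A (prcTie S YR ER O₁ ∪ prcTie S (S.C \ YR) (K.Eq \ ER) O₂) := ⟨_, rfl⟩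
  have hcard : (2 : ℝ) ^ S.A.card = 2 ^ (S.A \ R).card * 2 ^ R.card := by
    rw [← pow_add, card_sdiff_add_card_eq_card hs.RA]
  have n1' : (2 : ℝ) ^ (S.A \ R).card * nR * nX ≤ nU * (2 ^ (S.A \ R).card * 2 ^ R.card) := by
    rw [hnR, hnX, hnU, ← n3, ← hcard]; exact_mod_cast n1
  have n2' : nU * ((2 : ℝ) ^ (S.A \ R).card * 2 ^ R.card) ≤ 2 ^ (P.card - 1) * (2 ^ (S.A \ R).card * nR * nX) := by
    rw [hnR, hnX, hnU, ← n3, ← hcard]; exact_mod_cast n2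
  have hpos : (0 : ℝ) < 2 ^ (S.A \ R).card := by positivity
  have m1 : nR * nX ≤ nU * 2 ^ R.card := by
    refine le_of_mul_le_mul_left ?_ hpos
    calc _ = (2 : ℝ) ^ (S.A \ R).card * nR * nX := by ring
      _ ≤ _ := n1'
      _ = _ := by ring
  have m2 : nU * 2 ^ R.card ≤ 2 ^ (P.card - 1) * (nR * nX) := by
    refine le_of_mul_le_mul_left ?_ hpos
    calc _ = nU * ((2 : ℝ) ^ (S.A \ R).card * 2 ^ R.card) := by ring
      _ ≤ _ := n2'
      _ = _ := by ring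
  rw [← hnR, ← hnX, ← hnU]
  have hab := mul_nonneg ha0 hb0
  constructor
  · calc a * nR * (b * nX) = a * b * (nR * nX) := by ring
      _ ≤ a * b * (nU * 2 ^ R.card) := mul_le_mul_of_nonneg_left m1 hab
      _ = _ := by ring
  · calc a * b * nU * 2 ^ R.card = a * b * (nU * 2 ^ R.card) := by ring
      _ ≤ a * b * (2 ^ (P.card - 1) * (nR * nX)) := mul_le_mul_of_nonneg_left m2 hab
      _ = _ := by ring

/-- the exterior constant -/
noncomputable def prcAX (S : ClSys V Y) (K : ClCon V Y) (R : Finset V) (YR : Finset Y) (ER : Finset (V × V)) : ℝ :=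
  ∑ B₂ ∈ (S.A \ R).powerset, ∑ O₂ ∈ (S.C \ YR).powerset, prcWX S K R YR ER B₂ O₂

/-- the retained numerator -/
noncomputable def prcNR (S : ClSys V Y) (K : ClCon V Y) (R : Finset V) (YR : Finset Y) (ER : Finset (V × V)) (G : ClCfg V Y → ℝ) : ℝ :=
  (prcSR S R YR).N ((prcKR K R YR ER).Holds (prcSR S R YR)) G

theorem prc_core_eqns_cite : True := by
  have := @prcAX.eq_1
  have := @prcNR.eq_1
  trivial

theorem prc_AX_nonneg (hs : PrcSplit S K R YR ER P) : 0 ≤ prcAX S K R YR ER :=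
  sum_nonneg fun B₂ _ => sum_nonneg fun O₂ _ => prc_WX_nonneg hs B₂ O₂

theorem prc_union_inter {α : Type} [DecidableEq α] {R A X₁ X₂ : Finset α} (h₂ : X₂ ⊆ A \ R) : (X₁ ∪ X₂) ∩ R = X₁ ∩ R := by
  ext v; simp only [mem_inter]; exact and_congr_left fun hv => prc_mem_in h₂ hv

theorem prc_loc_union {G : ClCfg V Y → ℝ} (hG : PrcLoc R YR G) {B₁ B₂ : Finset V} {O₁ O₂ : Finset Y} (hB₂ : B₂ ⊆ S.A \ R)
    (hO₂ : O₂ ⊆ S.C \ YR) : G ⟨B₁ ∪ B₂, ∅, O₁ ∪ O₂⟩ = G ⟨B₁, ∅, O₁⟩ :=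
  hG _ _ (prc_union_inter hB₂) (prc_union_inter hO₂)

/-- the numerator of the ambient, the retained variables outside -/
theorem prc_N_split (hs : PrcSplit S K R YR ER P) {G : ClCfg V Y → ℝ} (hG : PrcLoc R YR G) :
    S.N (K.Holds S) G = ∑ B₁ ∈ R.powerset, ∑ O₁ ∈ YR.powerset,
      (∑ B₂ ∈ (S.A \ R).powerset, ∑ O₂ ∈ (S.C \ YR).powerset, prcW S K (B₁ ∪ B₂) (O₁ ∪ O₂)) * G ⟨B₁, ∅, O₁⟩ := by
  rw [prc_N_eq S K hs.wp hs.wm (prc_loc_noW hG), prc_sum_powerset hs.RA]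
  refine sum_congr rfl fun B₁ _ => ?_
  have e : ∀ B₂ ∈ (S.A \ R).powerset, ∑ O ∈ S.C.powerset, prcW S K (B₁ ∪ B₂) O * G ⟨B₁ ∪ B₂, ∅, O⟩
      = ∑ O₁ ∈ YR.powerset, ∑ O₂ ∈ (S.C \ YR).powerset, prcW S K (B₁ ∪ B₂) (O₁ ∪ O₂) * G ⟨B₁, ∅, O₁⟩ := by
    intro B₂ hB₂
    rw [prc_sum_powerset hs.YC]
    refine sum_congr rfl fun O₁ _ => sum_congr rfl fun O₂ hO₂ => ?_
    rw [prc_loc_union hG (mem_powerset.1 hB₂) (mem_powerset.1 hO₂)]
  rw [sum_congr rfl e, sum_comm]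
  refine sum_congr rfl fun O₁ _ => ?_
  rw [sum_mul]
  refine sum_congr rfl fun B₂ _ => ?_
  rw [sum_mul]

theorem prc_NR_eq (S : ClSys V Y) (K : ClCon V Y) (R : Finset V) (YR : Finset Y) (ER : Finset (V × V)) {G : ClCfg V Y → ℝ}
    (hG : PrcLoc R YR G) :
    prcNR S K R YR ER G = ∑ B₁ ∈ R.powerset, ∑ O₁ ∈ YR.powerset, prcW (prcSR S R YR) (prcKR K R YR ER) B₁ O₁ * G ⟨B₁, ∅, O₁⟩ :=
  prc_N_eq (prcSR S R YR) (prcKR K R YR ER) rfl rfl (prc_loc_noW hG)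

/-- **PORTS, numerators** : up to the exterior constant and `2 ^ (|P| - 1)` the ambient numerator is the retained one -/
theorem prc_core (hs : PrcSplit S K R YR ER P) {G : ClCfg V Y → ℝ} (hG : PrcLoc R YR G) (h0 : ∀ ω, 0 ≤ G ω) :
    prcNR S K R YR ER G * prcAX S K R YR ER ≤ S.N (K.Holds S) G * 2 ^ R.card ∧
    S.N (K.Holds S) G * 2 ^ R.card ≤ 2 ^ (P.card - 1) * (prcNR S K R YR ER G * prcAX S K R YR ER) := by
  have key : ∀ B₁ ∈ R.powerset, ∀ O₁ ∈ YR.powerset,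
      prcW (prcSR S R YR) (prcKR K R YR ER) B₁ O₁ * prcAX S K R YR ER
        ≤ (∑ B₂ ∈ (S.A \ R).powerset, ∑ O₂ ∈ (S.C \ YR).powerset, prcW S K (B₁ ∪ B₂) (O₁ ∪ O₂)) * 2 ^ R.card ∧
      (∑ B₂ ∈ (S.A \ R).powerset, ∑ O₂ ∈ (S.C \ YR).powerset, prcW S K (B₁ ∪ B₂) (O₁ ∪ O₂)) * 2 ^ R.card
        ≤ 2 ^ (P.card - 1) * (prcW (prcSR S R YR) (prcKR K R YR ER) B₁ O₁ * prcAX S K R YR ER) := by
    intro B₁ hB₁ O₁ hO₁
    unfold prcAX
    constructor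
    · rw [mul_sum, sum_mul]
      refine sum_le_sum fun B₂ hB₂ => ?_
      rw [mul_sum, sum_mul]
      exact sum_le_sum fun O₂ hO₂ =>
        (prc_pt hs (mem_powerset.1 hB₁) (mem_powerset.1 hB₂) (mem_powerset.1 hO₁) (mem_powerset.1 hO₂)).1
    · rw [mul_sum, mul_sum, sum_mul]
      refine sum_le_sum fun B₂ hB₂ => ?_
      rw [mul_sum, mul_sum, sum_mul]
      exact sum_le_sum fun O₂ hO₂ =>
        (prc_pt hs (mem_powerset.1 hB₁) (mem_powerset.1 hB₂) (mem_powerset.1 hO₁) (mem_powerset.1 hO₂)).2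
  rw [prc_N_split hs hG, prc_NR_eq S K R YR ER hG]
  constructor
  · rw [sum_mul, sum_mul]
    refine sum_le_sum fun B₁ hB₁ => ?_
    rw [sum_mul, sum_mul]
    refine sum_le_sum fun O₁ hO₁ => ?_
    calc _ = prcW (prcSR S R YR) (prcKR K R YR ER) B₁ O₁ * prcAX S K R YR ER * G ⟨B₁, ∅, O₁⟩ := by ring
      _ ≤ _ := mul_le_mul_of_nonneg_right (key B₁ hB₁ O₁ hO₁).1 (h0 _)
      _ = _ := by ring
  · rw [sum_mul, sum_mul, mul_sum]
    refine sum_le_sum fun B₁ hB₁ => ?_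
    rw [sum_mul, sum_mul, mul_sum]
    refine sum_le_sum fun O₁ hO₁ => ?_
    calc _ = (∑ B₂ ∈ (S.A \ R).powerset, ∑ O₂ ∈ (S.C \ YR).powerset, prcW S K (B₁ ∪ B₂) (O₁ ∪ O₂)) * 2 ^ R.card * G ⟨B₁, ∅, O₁⟩ := by
          ring
      _ ≤ _ := mul_le_mul_of_nonneg_right (key B₁ hB₁ O₁ hO₁).2 (h0 _)
      _ = _ := by ring

theorem prc_NR_nonneg (hs : PrcSplit S K R YR ER P) {G : ClCfg V Y → ℝ} (hG : PrcLoc R YR G) (h0 : ∀ ω, 0 ≤ G ω) :
    0 ≤ prcNR S K R YR ER G := by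
  rw [prc_NR_eq S K R YR ER hG]
  exact sum_nonneg fun B₁ _ => sum_nonneg fun O₁ _ => mul_nonneg (prc_WR_nonneg hs B₁ O₁) (h0 _)

theorem prc_N_nonneg (hs : PrcSplit S K R YR ER P) {G : ClCfg V Y → ℝ} (hG : PrcLoc R YR G) (h0 : ∀ ω, 0 ≤ G ω) :
    0 ≤ S.N (K.Holds S) G := by
  have h1 := (prc_core hs hG h0).1
  have h2 := mul_nonneg (prc_NR_nonneg hs hG h0) (prc_AX_nonneg hs)
  have h3 : (0 : ℝ) < 2 ^ R.card := by positivity
  by_contra h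
  push Not at h
  have := mul_neg_of_neg_of_pos h h3
  linarith

theorem prc_loc_one : PrcLoc R YR (fun _ : ClCfg V Y => (1 : ℝ)) := fun _ _ _ _ => rfl

/-- the retained partition function -/
theorem prc_ZR_eq (S : ClSys V Y) (K : ClCon V Y) (R : Finset V) (YR : Finset Y) (ER : Finset (V × V)) :
    (prcSR S R YR).Z ((prcKR K R YR ER).Holds (prcSR S R YR)) = prcNR S K R YR ER fun _ => 1 := dis_Z_eq _ _

/-- the algebra of the comparison of two ambients -/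
theorem prc_cross_alg {n₁ z₁ n₂ z₂ nR zR a₁ a₂ c c₁ c₂ : ℝ} (hc : 0 < c) (hc₁ : 0 ≤ c₁) (hc₂ : 0 ≤ c₂) (hnR : 0 ≤ nR) (hzR : 0 ≤ zR)
    (ha₁ : 0 ≤ a₁) (ha₂ : 0 ≤ a₂) (hz₂ : 0 ≤ z₂) (e1 : n₁ * c ≤ c₁ * (nR * a₁)) (e2 : zR * a₁ ≤ z₁ * c) (e3 : z₂ * c ≤ c₂ * (zR * a₂))
    (e4 : nR * a₂ ≤ n₂ * c) : n₁ * z₂ ≤ c₁ * c₂ * (z₁ * n₂) := by
  have hcc : 0 < c * c := mul_pos hc hc
  refine le_of_mul_le_mul_right ?_ hcc
  calc n₁ * z₂ * (c * c) = (n₁ * c) * (z₂ * c) := by ring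
    _ ≤ (c₁ * (nR * a₁)) * (z₂ * c) := mul_le_mul_of_nonneg_right e1 (mul_nonneg hz₂ hc.le)
    _ ≤ (c₁ * (nR * a₁)) * (c₂ * (zR * a₂)) := mul_le_mul_of_nonneg_left e3 (mul_nonneg hc₁ (mul_nonneg hnR ha₁))
    _ = c₁ * c₂ * ((zR * a₁) * (nR * a₂)) := by ring
    _ ≤ c₁ * c₂ * ((z₁ * c) * (nR * a₂)) :=
        mul_le_mul_of_nonneg_left (mul_le_mul_of_nonneg_right e2 (mul_nonneg hnR ha₂)) (mul_nonneg hc₁ hc₂)
    _ ≤ c₁ * c₂ * ((z₁ * c) * (n₂ * c)) := by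
        refine mul_le_mul_of_nonneg_left (mul_le_mul_of_nonneg_left e4 ?_) (mul_nonneg hc₁ hc₂)
        exact le_trans (mul_nonneg hzR ha₁) e2
    _ = c₁ * c₂ * (z₁ * n₂) * (c * c) := by ring

/-- **PORTS, two histories / two ambients** with the same retained numerators -/
theorem prc_two_gen {S₁ S₂ : ClSys V Y} {K₁ K₂ : ClCon V Y} {P₁ P₂ : Finset V} (h₁ : PrcSplit S₁ K₁ R YR ER P₁)
    (h₂ : PrcSplit S₂ K₂ R YR ER P₂) (hN : ∀ G, PrcLoc R YR G → prcNR S₁ K₁ R YR ER G = prcNR S₂ K₂ R YR ER G)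
    {F : ClCfg V Y → ℝ} (hF : PrcLoc R YR F) (h0 : ∀ ω, 0 ≤ F ω) :
    S₁.N (K₁.Holds S₁) F * S₂.Z (K₂.Holds S₂)
      ≤ 2 ^ ((P₁.card - 1) + (P₂.card - 1)) * (S₁.Z (K₁.Holds S₁) * S₂.N (K₂.Holds S₂) F) := by
  have o0 : ∀ ω : ClCfg V Y, (0 : ℝ) ≤ (fun _ => 1) ω := fun _ => zero_le_one
  have a1 := prc_core h₁ hF h0
  have a2 := prc_core h₁ prc_loc_one o0
  have b1 := prc_core h₂ hF h0
  have b2 := prc_core h₂ prc_loc_one o0
  rw [← hN F hF] at b1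
  rw [← hN _ prc_loc_one] at b2
  rw [dis_Z_eq, dis_Z_eq, pow_add]
  exact prc_cross_alg (by positivity) (by positivity) (by positivity) (prc_NR_nonneg h₁ hF h0) (prc_NR_nonneg h₁ prc_loc_one o0)
    (prc_AX_nonneg h₁) (prc_AX_nonneg h₂) (prc_N_nonneg h₂ prc_loc_one o0) a1.2 a2.1 b2.2 b1.1

/-- **PORTS, two histories of ONE ambient** (the form of `Ann/LenSE.lean`) -/
theorem prc_two {K₁ K₂ : ClCon V Y} {P₁ P₂ : Finset V} (h₁ : PrcSplit S K₁ R YR ER P₁) (h₂ : PrcSplit S K₂ R YR ER P₂)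
    (hBp : K₁.Bp ∩ R = K₂.Bp ∩ R) (hBm : K₁.Bm ∩ R = K₂.Bm ∩ R) (hOp : K₁.Op ∩ YR = K₂.Op ∩ YR) (hOm : K₁.Om ∩ YR = K₂.Om ∩ YR)
    (hCl : K₁.Cl ∩ YR = K₂.Cl ∩ YR) {F : ClCfg V Y → ℝ} (hF : PrcLoc R YR F) (h0 : ∀ ω, 0 ≤ F ω) :
    S.N (K₁.Holds S) F * S.Z (K₂.Holds S) ≤ 2 ^ ((P₁.card - 1) + (P₂.card - 1)) * (S.Z (K₁.Holds S) * S.N (K₂.Holds S) F) := by
  refine prc_two_gen h₁ h₂ (fun G _ => ?_) hF h0
  unfold prcNR prcKR
  rw [hBp, hBm, hOp, hOm, hCl]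

/-- **PORTS, ambient against the retained closed system**, cross-multiplied, upper bound -/
theorem prc_le (hs : PrcSplit S K R YR ER P) {G : ClCfg V Y → ℝ} (hG : PrcLoc R YR G) (h0 : ∀ ω, 0 ≤ G ω) :
    S.N (K.Holds S) G * prcNR S K R YR ER (fun _ => 1) ≤ 2 ^ (P.card - 1) * (prcNR S K R YR ER G * S.Z (K.Holds S)) := by
  have o0 : ∀ ω : ClCfg V Y, (0 : ℝ) ≤ (fun _ => 1) ω := fun _ => zero_le_one
  have a1 := prc_core hs hG h0
  have a2 := prc_core hs prc_loc_one o0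
  have hn := prc_NR_nonneg hs hG h0
  have hz := prc_NR_nonneg hs prc_loc_one o0
  have hN := prc_N_nonneg hs hG h0
  have hZ := prc_N_nonneg hs prc_loc_one o0
  have ha := prc_AX_nonneg hs
  have hc : (0 : ℝ) < 2 ^ R.card := by positivity
  have hp : (0 : ℝ) ≤ 2 ^ (P.card - 1) := by positivity
  rw [dis_Z_eq]
  rcases ha.eq_or_lt with h | h
  · rw [← h] at a1
    have : S.N (K.Holds S) G = 0 := by
      have h5 : S.N (K.Holds S) G * 2 ^ R.card ≤ 0 := by simpa using a1.2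
      have h6 := mul_nonneg hN hc.le
      have h7 : S.N (K.Holds S) G * 2 ^ R.card = 0 := le_antisymm h5 h6
      exact (mul_eq_zero.1 h7).resolve_right hc.ne'
    rw [this, zero_mul]
    exact mul_nonneg hp (mul_nonneg hn hZ)
  · refine le_of_mul_le_mul_right ?_ (mul_pos hc h)
    calc _ = (S.N (K.Holds S) G * 2 ^ R.card) * (prcNR S K R YR ER (fun _ => 1) * prcAX S K R YR ER) := by ring
      _ ≤ (2 ^ (P.card - 1) * (prcNR S K R YR ER G * prcAX S K R YR ER)) * (prcNR S K R YR ER (fun _ => 1) * prcAX S K R YR ER) :=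
          mul_le_mul_of_nonneg_right a1.2 (mul_nonneg hz ha)
      _ ≤ (2 ^ (P.card - 1) * (prcNR S K R YR ER G * prcAX S K R YR ER)) * (S.N (K.Holds S) (fun _ => 1) * 2 ^ R.card) :=
          mul_le_mul_of_nonneg_left a2.1 (mul_nonneg hp (mul_nonneg hn ha))
      _ = _ := by ring

/-- **PORTS, ambient against the retained closed system**, cross-multiplied, lower bound -/
theorem prc_ge (hs : PrcSplit S K R YR ER P) {G : ClCfg V Y → ℝ} (hG : PrcLoc R YR G) (h0 : ∀ ω, 0 ≤ G ω) :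
    prcNR S K R YR ER G * S.Z (K.Holds S) ≤ 2 ^ (P.card - 1) * (S.N (K.Holds S) G * prcNR S K R YR ER (fun _ => 1)) := by
  have o0 : ∀ ω : ClCfg V Y, (0 : ℝ) ≤ (fun _ => 1) ω := fun _ => zero_le_one
  have a1 := prc_core hs hG h0
  have a2 := prc_core hs prc_loc_one o0
  have hn := prc_NR_nonneg hs hG h0
  have hz := prc_NR_nonneg hs prc_loc_one o0
  have hN := prc_N_nonneg hs hG h0
  have hZ := prc_N_nonneg hs prc_loc_one o0
  have ha := prc_AX_nonneg hs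
  have hc : (0 : ℝ) < 2 ^ R.card := by positivity
  have hp : (0 : ℝ) ≤ 2 ^ (P.card - 1) := by positivity
  rw [dis_Z_eq]
  rcases ha.eq_or_lt with h | h
  · rw [← h] at a2
    have : S.N (K.Holds S) (fun _ => 1) = 0 := by
      have h5 : S.N (K.Holds S) (fun _ => 1) * 2 ^ R.card ≤ 0 := by simpa using a2.2
      have h6 := mul_nonneg hZ hc.le
      have h7 : S.N (K.Holds S) (fun _ => 1) * 2 ^ R.card = 0 := le_antisymm h5 h6
      exact (mul_eq_zero.1 h7).resolve_right hc.ne'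
    rw [this, mul_zero]
    exact mul_nonneg hp (mul_nonneg hN hz)
  · refine le_of_mul_le_mul_right ?_ (mul_pos hc h)
    calc _ = (prcNR S K R YR ER G * prcAX S K R YR ER) * (S.N (K.Holds S) (fun _ => 1) * 2 ^ R.card) := by ring
      _ ≤ (S.N (K.Holds S) G * 2 ^ R.card) * (S.N (K.Holds S) (fun _ => 1) * 2 ^ R.card) :=
          mul_le_mul_of_nonneg_right a1.1 (mul_nonneg hZ hc.le)
      _ ≤ (S.N (K.Holds S) G * 2 ^ R.card) * (2 ^ (P.card - 1) * (prcNR S K R YR ER (fun _ => 1) * prcAX S K R YR ER)) :=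
          mul_le_mul_of_nonneg_left a2.2 (mul_nonneg hN hc.le)
      _ = _ := by ring

/-- feasibility passes to the retained closed system -/
theorem prc_feas (hs : PrcSplit S K R YR ER P) (hZ : 0 < S.Z (K.Holds S)) :
    0 < (prcSR S R YR).Z ((prcKR K R YR ER).Holds (prcSR S R YR)) := by
  have o0 : ∀ ω : ClCfg V Y, (0 : ℝ) ≤ (fun _ => 1) ω := fun _ => zero_le_one
  have a2 := (prc_core hs prc_loc_one o0).2
  rw [prc_ZR_eq]
  rw [dis_Z_eq] at hZ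
  have hz := prc_NR_nonneg hs prc_loc_one o0
  rcases hz.eq_or_lt with h | h
  · rw [← h] at a2
    have hc : (0 : ℝ) < 2 ^ R.card := by positivity
    have := mul_pos hZ hc
    simp only [zero_mul, mul_zero] at a2
    linarith
  · exact h

/-- **PORTS, normalised**, upper bound -/
theorem prc_E_le (hs : PrcSplit S K R YR ER P) {G : ClCfg V Y → ℝ} (hG : PrcLoc R YR G) (h0 : ∀ ω, 0 ≤ G ω) :
    S.E (K.Holds S) G ≤ 2 ^ (P.card - 1) * (prcSR S R YR).E ((prcKR K R YR ER).Holds (prcSR S R YR)) G := by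
  have o0 : ∀ ω : ClCfg V Y, (0 : ℝ) ≤ (fun _ => 1) ω := fun _ => zero_le_one
  rw [dis_E_eq, dis_E_eq]
  have hn := prc_NR_nonneg hs hG h0
  have hz := prc_NR_nonneg hs prc_loc_one o0
  have hZ0 : 0 ≤ S.Z (K.Holds S) := by rw [dis_Z_eq]; exact prc_N_nonneg hs prc_loc_one o0
  have hp : (0 : ℝ) ≤ 2 ^ (P.card - 1) := by positivity
  rcases hZ0.eq_or_lt with h | h
  · rw [← h, div_zero]
    rw [prc_ZR_eq]
    exact mul_nonneg hp (div_nonneg hn hz)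
  · have hzR := prc_feas hs h
    have := prc_le hs hG h0
    rw [← prc_ZR_eq] at this
    rw [div_le_iff₀ h, mul_assoc, div_mul_eq_mul_div, mul_div_assoc', le_div_iff₀ hzR]
    exact this

/-- **PORTS, normalised**, lower bound -/
theorem prc_E_ge (hs : PrcSplit S K R YR ER P) (hZ : 0 < S.Z (K.Holds S)) {G : ClCfg V Y → ℝ} (hG : PrcLoc R YR G) (h0 : ∀ ω, 0 ≤ G ω) :
    (prcSR S R YR).E ((prcKR K R YR ER).Holds (prcSR S R YR)) G ≤ 2 ^ (P.card - 1) * S.E (K.Holds S) G := by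
  rw [dis_E_eq, dis_E_eq]
  have hzR := prc_feas hs hZ
  have := prc_ge hs hG h0
  rw [← prc_ZR_eq] at this
  rw [div_le_iff₀ hzR, mul_assoc, div_mul_eq_mul_div, mul_div_assoc', le_div_iff₀ hZ]
  exact this

/-- the retained weight reads the cells of `YR` only -/
theorem prc_WR_congr {S₁ S₂ : ClSys V Y} {K₁ K₂ : ClCon V Y} (hsv : ∀ y ∈ YR, S₁.sv y = S₂.sv y) (hq : ∀ y ∈ YR, S₁.q y = S₂.q y)
    (hK : prcKR K₁ R YR ER = prcKR K₂ R YR ER) (B : Finset V) (O : Finset Y) :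
    prcW (prcSR S₁ R YR) (prcKR K₁ R YR ER) B O = prcW (prcSR S₂ R YR) (prcKR K₂ R YR ER) B O := by
  classical
  rw [hK]
  have e1 : PrcKB (prcKR K₂ R YR ER) (prcSR S₁ R YR) B O ↔ PrcKB (prcKR K₂ R YR ER) (prcSR S₂ R YR) B O := by
    unfold PrcKB prcKR prcSR
    simp only
    refine and_congr Iff.rfl (and_congr Iff.rfl (and_congr ?_ (and_congr ?_ Iff.rfl)))
    · refine forall_congr' fun y => forall_congr' fun hy => ?_
      rw [hsv y (mem_inter.1 hy).2]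
    · refine forall_congr' fun y => forall_congr' fun hy => ?_
      rw [hsv y (mem_inter.1 hy).2]
  have e2 : ∏ y ∈ (prcSR S₁ R YR).C, prcKf ((prcSR S₁ R YR).q y) (ClConst B ((prcSR S₁ R YR).sv y)) (y ∈ O)
      = ∏ y ∈ (prcSR S₂ R YR).C, prcKf ((prcSR S₂ R YR).q y) (ClConst B ((prcSR S₂ R YR).sv y)) (y ∈ O) := by
    refine prod_congr rfl fun y hy => ?_
    have hy' : y ∈ YR := hy
    show prcKf (S₁.q y) (ClConst B (S₁.sv y)) (y ∈ O) = prcKf (S₂.q y) (ClConst B (S₂.sv y)) (y ∈ O)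
    rw [hq y hy']
    exact prc_kf_congr _ (by rw [hsv y hy']) Iff.rfl
  have e3 : prcTie (prcSR S₁ R YR) (prcSR S₁ R YR).C (prcKR K₂ R YR ER).Eq O
      = prcTie (prcSR S₂ R YR) (prcSR S₂ R YR).C (prcKR K₂ R YR ER).Eq O := by
    unfold prcTie
    congr 1
    refine biUnion_congr rfl fun y hy => ?_
    have hy' : y ∈ YR := (mem_sdiff.1 hy).1
    show S₁.sv y ×ˢ S₁.sv y = S₂.sv y ×ˢ S₂.sv y
    rw [hsv y hy']
  unfold prcW
  rw [e2, e3]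
  by_cases h : PrcKB (prcKR K₂ R YR ER) (prcSR S₂ R YR) B O
  · rw [if_pos h, if_pos (e1.2 h)]; rfl
  · rw [if_neg h, if_neg fun h' => h (e1.1 h')]

theorem prc_NR_congr {S₁ S₂ : ClSys V Y} {K₁ K₂ : ClCon V Y} (hsv : ∀ y ∈ YR, S₁.sv y = S₂.sv y) (hq : ∀ y ∈ YR, S₁.q y = S₂.q y)
    (hK : prcKR K₁ R YR ER = prcKR K₂ R YR ER) {G : ClCfg V Y → ℝ} (hG : PrcLoc R YR G) :
    prcNR S₁ K₁ R YR ER G = prcNR S₂ K₂ R YR ER G := by
  rw [prc_NR_eq S₁ K₁ R YR ER hG, prc_NR_eq S₂ K₂ R YR ER hG]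
  exact sum_congr rfl fun B _ => sum_congr rfl fun O _ => by rw [prc_WR_congr hsv hq hK]

/-- **PORTS, two ambients** which agree on the retained cells -/
theorem prc_two_amb {S₁ S₂ : ClSys V Y} {K₁ K₂ : ClCon V Y} {P₁ P₂ : Finset V} (h₁ : PrcSplit S₁ K₁ R YR ER P₁)
    (h₂ : PrcSplit S₂ K₂ R YR ER P₂) (hsv : ∀ y ∈ YR, S₁.sv y = S₂.sv y) (hq : ∀ y ∈ YR, S₁.q y = S₂.q y)
    (hK : prcKR K₁ R YR ER = prcKR K₂ R YR ER) {F : ClCfg V Y → ℝ} (hF : PrcLoc R YR F) (h0 : ∀ ω, 0 ≤ F ω) :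
    S₁.N (K₁.Holds S₁) F * S₂.Z (K₂.Holds S₂)
      ≤ 2 ^ ((P₁.card - 1) + (P₂.card - 1)) * (S₁.Z (K₁.Holds S₁) * S₂.N (K₂.Holds S₂) F) :=
  prc_two_gen h₁ h₂ (fun _ hG => prc_NR_congr hsv hq hK hG) hF h0

/-- normalised form of `prc_two_gen` -/
theorem prc_two_E {S₁ S₂ : ClSys V Y} {K₁ K₂ : ClCon V Y} {P₁ P₂ : Finset V} (h₁ : PrcSplit S₁ K₁ R YR ER P₁)
    (h₂ : PrcSplit S₂ K₂ R YR ER P₂) (hN : ∀ G, PrcLoc R YR G → prcNR S₁ K₁ R YR ER G = prcNR S₂ K₂ R YR ER G)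
    (hZ₂ : 0 < S₂.Z (K₂.Holds S₂)) {F : ClCfg V Y → ℝ} (hF : PrcLoc R YR F) (h0 : ∀ ω, 0 ≤ F ω) :
    S₁.E (K₁.Holds S₁) F ≤ 2 ^ ((P₁.card - 1) + (P₂.card - 1)) * S₂.E (K₂.Holds S₂) F := by
  have o0 : ∀ ω : ClCfg V Y, (0 : ℝ) ≤ (fun _ => 1) ω := fun _ => zero_le_one
  rw [dis_E_eq, dis_E_eq]
  have hZ0 : 0 ≤ S₁.Z (K₁.Holds S₁) := by rw [dis_Z_eq]; exact prc_N_nonneg h₁ prc_loc_one o0
  rcases hZ0.eq_or_lt with h | h
  · rw [← h, div_zero]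
    exact mul_nonneg (by positivity) (div_nonneg (prc_N_nonneg h₂ hF h0) hZ₂.le)
  · have := prc_two_gen h₁ h₂ hN hF h0
    rw [div_le_iff₀ h, mul_assoc, div_mul_eq_mul_div, mul_div_assoc', le_div_iff₀ hZ₂]
    calc _ ≤ _ := this
      _ = _ := by ring

/-- the indicator of an event which reads `(B ∩ R, O ∩ YR)` is local -/
theorem prc_loc_ind {L : ClCfg V Y → Prop} (hL : ∀ ω ω' : ClCfg V Y, ω.B ∩ R = ω'.B ∩ R → ω.O ∩ YR = ω'.O ∩ YR → (L ω ↔ L ω')) :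
    PrcLoc R YR (clInd L) := by
  classical
  intro ω ω' h1 h2
  unfold clInd
  have := hL ω ω' h1 h2
  by_cases h : L ω
  · rw [if_pos h, if_pos (this.1 h)]
  · rw [if_neg h, if_neg fun h' => h (this.2 h')]

/-- the status of a retained cell is local -/
theorem prc_tau_loc (hc : ∀ y ∈ YR, S.sv y ⊆ R) {ω ω' : ClCfg V Y} (h1 : ω.B ∩ R = ω'.B ∩ R) (h2 : ω.O ∩ YR = ω'.O ∩ YR) {y : Y}
    (hy : y ∈ YR) : clTau S ω y = clTau S ω' y := by
  have e1 : y ∈ ω.O ↔ y ∈ ω'.O := by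
    have : y ∈ ω.O ∩ YR ↔ y ∈ ω'.O ∩ YR := by rw [h2]
    simpa [hy] using this
  have e2 : S.sv y ⊆ ω.B ↔ S.sv y ⊆ ω'.B := by
    refine prc_sub_congr fun v hv => ?_
    have : v ∈ ω.B ∩ R ↔ v ∈ ω'.B ∩ R := by rw [h1]
    simpa [hc y hy hv] using this
  unfold clTau
  by_cases a : y ∈ ω.O <;> by_cases b : S.sv y ⊆ ω.B <;> simp [a, b, ← e1, ← e2]

end Ports

end Claimed.Agent.R291
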