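import Claimed.Agent.R291.Ann.Len
import Claimed.Agent.R291.Dis.Buffer
import Claimed.Agent.R291.Ann.PortsCl

/-!
# Row 291 (S0539), Ann/LenSE : A2-(SE) = THE ADAPTER  `LenSE` ⟸ STRAIGHT LSS      (owner helper20, co-architect of A2 with helper193; prefix `lse_` / `Lse` / `lse`)

TEX[annulus:gluing] (09-annulus.tex l.520-675), in the form needed by `Ann/Len.lean` (193).      Plan: `origin/helper20:notes/R291/lse_20.md`.

ALL FOUR LAWS ARE HISTORIES OF THE SAME AMBIENT `S` (no closed strip law, no patch, no layers, no Timar):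
  `K' = lenRec` (full record of the two box closures)  ≥  `h1 = K' + minus wall next to M`                                   (`dis_order`)
  `h1` ~ `h2 = K + (all cells of the box off M open-plus) + the same wall`                                                   (ports of 116, retained part `(R, M)`, at most 4 ports: factor 64)
  `h2` ≥ `h3 = K + (top and bottom ROWS OF CELLS open-plus) + straight minus walls outside the two short sides`              (`dis_order`)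
  **`LseLSS S K G c a b`** : `c Z(h3) ≤ N(h3; no non-plus left-right walk of the box)`                                        = THE CONTRACT WITH A1 (55)
`M` = the fresh (not looked at) cells of the box joined inside the fresh cells to both short sides;  `R` = its sites.
**`lse_main : LseGeo S K G a b → (ports ≤ 4) → LseLSS S K G c a b → LenSE S K G (c / 64) a b`.**
-/

set_option autoImplicit false
set_option linter.unusedSectionVars false
set_option linter.unusedVariables false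

namespace Claimed.Agent.R291

open Relation

section abstract

variable {V Y : Type} [DecidableEq V] [DecidableEq Y]

/-! ## 0. vocabulary -/

/-- all sites of a set of cells -/
def lseSv (S : ClSys V Y) (Q : Finset Y) : Finset V := Q.biUnion S.sv

/-- add extreme pins and extreme cells to a history -/
def lseAdd (K : ClCon V Y) (bp bm : Finset V) (op om : Finset Y) : ClCon V Y :=
  { K with Bp := K.Bp ∪ bp, Bm := K.Bm ∪ bm, Op := K.Op ∪ op, Om := K.Om ∪ om }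

open Classical in
/-- the cells of the box -/
noncomputable def lseO (S : ClSys V Y) (G : LenGeo Y) (a b : ℤ) : Finset Y := S.C.filter (fun y => G.box a b y)

/-- the fresh cells: cells of the box which the two explorations did not look at -/
noncomputable def lseFr (S : ClSys V Y) (G : LenGeo Y) (a b : ℤ) (ω₀ : ClCfg V Y) : Finset Y := lseO S G a b \ lenQ S G a b ω₀

/-- one step inside a set of cells -/
def LseSt (G : LenGeo Y) (T : Finset Y) (u v : Y) : Prop := G.adj u v ∧ u ∈ T ∧ v ∈ T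

open Classical in
/-- **the retained cells**: fresh cells joined inside the fresh cells to both short sides of the box -/
noncomputable def lseM (S : ClSys V Y) (G : LenGeo Y) (a b : ℤ) (ω₀ : ClCfg V Y) : Finset Y :=
  (lseFr S G a b ω₀).filter (fun y =>
    (∃ l ∈ lseFr S G a b ω₀, G.X l = a ∧ ReflTransGen (LseSt G (lseFr S G a b ω₀)) l y) ∧
    (∃ r ∈ lseFr S G a b ω₀, G.X r = b ∧ ReflTransGen (LseSt G (lseFr S G a b ω₀)) y r))

/-- the retained sites -/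
noncomputable def lseR (S : ClSys V Y) (G : LenGeo Y) (a b : ℤ) (ω₀ : ClCfg V Y) : Finset V := lseSv S (lseM S G a b ω₀)

open Classical in
/-- the cells outside the box which touch the retained sites -/
noncomputable def lseEo (S : ClSys V Y) (G : LenGeo Y) (a b : ℤ) (ω₀ : ClCfg V Y) : Finset Y :=
  S.C.filter (fun w => w ∉ lseO S G a b ∧ ∃ v ∈ S.sv w, v ∈ lseR S G a b ω₀)

open Classical in
/-- the WALL: outer cells touching the retained sites, without any plus pin of the record -/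
noncomputable def lseXw (S : ClSys V Y) (K : ClCon V Y) (G : LenGeo Y) (a b : ℤ) (ω₀ : ClCfg V Y) : Finset Y :=
  (lseEo S G a b ω₀).filter (fun w => ∀ v ∈ S.sv w, v ∉ (lenRec S K G a b ω₀).Bp)

/-- the outer cells touching the retained sites which contain a plus pin of the record (they stay unobserved) -/
noncomputable def lseXp (S : ClSys V Y) (K : ClCon V Y) (G : LenGeo Y) (a b : ℤ) (ω₀ : ClCfg V Y) : Finset Y :=
  lseEo S G a b ω₀ \ lseXw S K G a b ω₀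

/-- the new minus pins -/
noncomputable def lseNm (S : ClSys V Y) (K : ClCon V Y) (G : LenGeo Y) (a b : ℤ) (ω₀ : ClCfg V Y) : Finset V :=
  lseSv S (lseXw S K G a b ω₀) ∪ ((lseR S G a b ω₀ ∩ lseSv S (lseEo S G a b ω₀)) \ (lenRec S K G a b ω₀).Bp)

/-- **the ports** -/
noncomputable def lseP (S : ClSys V Y) (K : ClCon V Y) (G : LenGeo Y) (a b : ℤ) (ω₀ : ClCfg V Y) : Finset V :=
  lseR S G a b ω₀ ∩ lseSv S (lseXp S K G a b ω₀)

/-- `h1` = the record + the wall -/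
noncomputable def lseH1 (S : ClSys V Y) (K : ClCon V Y) (G : LenGeo Y) (a b : ℤ) (ω₀ : ClCfg V Y) : ClCon V Y :=
  lseAdd (lenRec S K G a b ω₀) ∅ (lseNm S K G a b ω₀) ∅ (lseXw S K G a b ω₀)

/-- `h2` = everything of the box off `M` open-plus + the wall -/
noncomputable def lseH2 (S : ClSys V Y) (K : ClCon V Y) (G : LenGeo Y) (a b : ℤ) (ω₀ : ClCfg V Y) : ClCon V Y :=
  lseAdd K (lseSv S (lseO S G a b \ lseM S G a b ω₀)) (lseNm S K G a b ω₀) (lseO S G a b \ lseM S G a b ω₀) (lseXw S K G a b ω₀)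

open Classical in
/-- the top and the bottom row of the box -/
noncomputable def lseTB (S : ClSys V Y) (G : LenGeo Y) (a b : ℤ) : Finset Y := (lseO S G a b).filter (fun y => G.top y ∨ G.bot y)

open Classical in
/-- the straight walls: cells outside the box which touch it and do not touch its top and bottom rows -/
noncomputable def lseW3 (S : ClSys V Y) (G : LenGeo Y) (a b : ℤ) : Finset Y :=
  S.C.filter (fun w => w ∉ lseO S G a b ∧ (∃ v ∈ S.sv w, v ∈ lseSv S (lseO S G a b)) ∧ ∀ v ∈ S.sv w, v ∉ lseSv S (lseTB S G a b))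

/-- the minus pins of the straight reference -/
noncomputable def lseN3 (S : ClSys V Y) (G : LenGeo Y) (a b : ℤ) : Finset V :=
  lseSv S (lseW3 S G a b) ∪ ((lseSv S (lseO S G a b) ∩ lseSv S (S.C \ lseO S G a b)) \ lseSv S (lseTB S G a b))

/-- **`h3` = THE STRAIGHT REFERENCE**: top and bottom rows of cells open-plus, the sites of the two short sides minus, open-minus walls outside; it depends on the box only -/
noncomputable def lseH3 (S : ClSys V Y) (K : ClCon V Y) (G : LenGeo Y) (a b : ℤ) : ClCon V Y :=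
  lseAdd K (lseSv S (lseTB S G a b)) (lseN3 S G a b) (lseTB S G a b) (lseW3 S G a b)

/-- **THE CONTRACT WITH A1 (55)**: straight short-direction crossing (TEX[annulus:straight-short]) in the dual form, as a history of the ambient system -/
def LseLSS (S : ClSys V Y) (K : ClCon V Y) (G : LenGeo Y) (c : ℝ) (a b : ℤ) : Prop :=
  c * S.Z ((lseH3 S K G a b).Holds S) ≤ S.N ((lseH3 S K G a b).Holds S) (lenInd fun ω => G.Vp (lenNp S ω) a b)

/-- what the adapter needs to know about the chart near the box -/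
structure LseGeo (S : ClSys V Y) (K : ClCon V Y) (G : LenGeo Y) (a b : ℤ) : Prop where
  /-- the band consists of cells of the system -/
  band : ∀ y, G.band y → y ∈ S.C
  /-- (H1) two distinct cells of the box which share a site are adjacent -/
  adj : ∀ y ∈ lseO S G a b, ∀ z ∈ lseO S G a b, y ≠ z → (∃ v ∈ S.sv y, v ∈ S.sv z) → G.adj y z
  /-- (G1) two cells of the box which touch one outer cell are equal or adjacent -/
  out : ∀ w ∈ S.C, w ∉ lseO S G a b → ∀ y ∈ lseO S G a b, ∀ z ∈ lseO S G a b, (∃ v ∈ S.sv w, v ∈ S.sv y) → (∃ v ∈ S.sv w, v ∈ S.sv z) →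
    y = z ∨ G.adj y z
  /-- (H2) `K` is clear near the box -/
  clr : ∀ w ∈ S.C, (∃ v ∈ S.sv w, v ∈ lseSv S (lseO S G a b)) →
    (∀ v ∈ S.sv w, v ∉ K.Bp ∧ v ∉ K.Bm) ∧ w ∉ K.Op ∧ w ∉ K.Om ∧ w ∉ K.Cl
  /-- (H2) no equality edge touches the box -/
  clrE : ∀ e ∈ K.Eq, e.1 ∉ lseSv S (lseO S G a b) ∧ e.2 ∉ lseSv S (lseO S G a b)

/-- retained part with ports (ClSys copy of `PrtSplit` of 116, no retained equality edge) -/
structure LseSplit (S : ClSys V Y) (K : ClCon V Y) (R : Finset V) (M : Finset Y) (P : Finset V) : Prop where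
  cellR : ∀ y ∈ M, y ∈ S.C ∧ S.sv y ⊆ R
  pinX : ∀ w ∈ S.C, w ∉ M → ∀ v ∈ S.sv w, v ∈ R → v ∈ K.Bp ∪ K.Bm
  portC : ∀ w ∈ S.C, w ∉ M → (w ∈ K.Op ∪ K.Om) ∨ ∀ v ∈ S.sv w, v ∈ R → v ∈ P
  portE : ∀ e ∈ K.Eq, (e.1 ∈ R → e.1 ∈ P) ∧ (e.2 ∈ R → e.2 ∈ P)

/-- the equation lemmas of the definitions of this file are generated HERE -/
theorem lse_defs_eqns_cite : True := by
  have := @lseSv.eq_1
  have := @lseAdd.eq_1
  have := @lseO.eq_1
  have := @lseFr.eq_1
  have := @LseSt.eq_1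
  have := @lseM.eq_1
  have := @lseR.eq_1
  have := @lseEo.eq_1
  have := @lseXw.eq_1
  have := @lseXp.eq_1
  have := @lseNm.eq_1
  have := @lseP.eq_1
  have := @lseH1.eq_1
  have := @lseH2.eq_1
  have := @lseTB.eq_1
  have := @lseW3.eq_1
  have := @lseN3.eq_1
  have := @lseH3.eq_1
  have := @LseLSS.eq_1
  trivial

/-- **(ORD)** conditional order between the legal histories which keep the pins of `K`.   For a system with `ClDisk` it is `dis_order` (`lse_ord_of_disk`);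
for the mixed cylinder (NOT a disk; `Split b` holds for the `b` which satisfy the mixed pins) it is supplied by the model adapter, like `LenFkg`. -/
def LseOrd (S : ClSys V Y) (K : ClCon V Y) : Prop :=
  ∀ K₁ K₂ : ClCon V Y, ClLegal S K₁ → ClLegal S K₂ → K.Bp ⊆ K₁.Bp → K.Bm ⊆ K₁.Bm → K.Bp ⊆ K₂.Bp → K.Bm ⊆ K₂.Bm → ClLe K₁ K₂ →
    ∀ F : ClCfg V Y → ℝ, ClMono S F → S.N (K₁.Holds S) F * S.Z (K₂.Holds S) ≤ S.Z (K₁.Holds S) * S.N (K₂.Holds S) F

theorem lse_ord_of_disk (S : ClSys V Y) (hS : ClDisk S) (K : ClCon V Y) : LseOrd S K :=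
  fun K₁ K₂ h₁ h₂ _ _ _ _ hle F hF => dis_order S hS K₁ K₂ h₁ h₂ hle F hF

/-- the event which reads the retained cells only -/
def LseFM (S : ClSys V Y) (G : LenGeo Y) (a b : ℤ) (M : Finset Y) (ω : ClCfg V Y) : Prop :=
  G.Vp (fun y => lenNp S ω y ∧ ¬ y ∉ M) a b

/-! ## 1. PORTS (116) -/

/-- **PORTS, two histories of one ambient with the same retained data** (TEX[annulus:ports]).   OWNER 116 (`prt_ports` of `Ann/Ports` through the adapter / native form `prc_` of `Ann/PortsCl`): LINK. -/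
theorem lse_ports (S : ClSys V Y) (hS : ClOk S) (h3 : ∀ y ∈ S.C, (S.sv y).card ≤ 3) (K₁ K₂ : ClCon V Y) (h₁ : ClLegal S K₁) (h₂ : ClLegal S K₂)
    (R : Finset V) (M : Finset Y) (P₁ P₂ : Finset V) (s₁ : LseSplit S K₁ R M P₁) (s₂ : LseSplit S K₂ R M P₂)
    (hbp : ∀ v ∈ R, (v ∈ K₁.Bp ↔ v ∈ K₂.Bp)) (hbm : ∀ v ∈ R, (v ∈ K₁.Bm ↔ v ∈ K₂.Bm))
    (hob : ∀ y ∈ M, (y ∈ K₁.Op ↔ y ∈ K₂.Op) ∧ (y ∈ K₁.Om ↔ y ∈ K₂.Om) ∧ (y ∈ K₁.Cl ↔ y ∈ K₂.Cl))
    (F : ClCfg V Y → ℝ) (hF0 : ∀ ω, 0 ≤ F ω)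
    (hF : ∀ ω ω' : ClCfg V Y, ω.B ∩ R = ω'.B ∩ R → (∀ y ∈ M, clTau S ω y = clTau S ω' y) → F ω = F ω') :
    S.N (K₁.Holds S) F * S.Z (K₂.Holds S) ≤ 2 ^ ((P₁.card - 1) + (P₂.card - 1)) * (S.Z (K₁.Holds S) * S.N (K₂.Holds S) F) := by
  classical
  have mk : ∀ (K : ClCon V Y) (P : Finset V), ClLegal S K → LseSplit S K R M P → PrcSplit S K (R ∩ S.A) M ∅ P := by
    intro K P hK s
    refine ⟨Finset.inter_subset_right, fun y hy => (s.cellR y hy).1, hS.sub, fun y hy => (hS.q0 y hy).le, hS.q1, ?_, ?_, ?_,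
      Finset.empty_subset _, ?_, ?_, ?_, hK.wp, hK.wm⟩
    · intro y hy v hv
      exact Finset.mem_inter.2 ⟨(s.cellR y hy).2 hv, hS.sub y (s.cellR y hy).1 hv⟩
    · intro y hy hyM v hv
      obtain ⟨a1, a2⟩ := Finset.mem_inter.1 hv
      exact s.pinX y hy hyM v a1 (Finset.mem_inter.1 a2).1
    · intro y hy hyM
      exact (s.portC y hy hyM).imp id fun h v hv => h v (Finset.mem_inter.1 hv).1 (Finset.mem_inter.1 (Finset.mem_inter.1 hv).2).1
    · intro e he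
      exact absurd he (Finset.notMem_empty _)
    · intro e he _
      exact ⟨fun h => (s.portE e he).1 (Finset.mem_inter.1 h).1, fun h => (s.portE e he).2 (Finset.mem_inter.1 h).1⟩
    · intro e he
      obtain ⟨y, hy, a1, a2⟩ := hK.eq e he
      exact ⟨hS.sub y hy a1, hS.sub y hy a2⟩
  have hFF : ∀ C : ClCfg V Y → Prop, S.N C F = S.N C fun ω => F ⟨ω.B ∩ S.A, ω.W, ω.O⟩ := fun C =>
    dis_N_congr S C fun ω hω _ => by
      rw [cl_mem_cfgs] at hω
      rw [Finset.inter_eq_left.2 hω.1]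
  have hloc : PrcLoc (R ∩ S.A) M fun ω : ClCfg V Y => F ⟨ω.B ∩ S.A, ω.W, ω.O⟩ := by
    intro ω ω' a1 a2
    have a3 : (ω.B ∩ S.A) ∩ (R ∩ S.A) = (ω'.B ∩ S.A) ∩ (R ∩ S.A) := by
      ext v
      have : v ∈ ω.B ∩ (R ∩ S.A) ↔ v ∈ ω'.B ∩ (R ∩ S.A) := by rw [a1]
      simp only [Finset.mem_inter] at this ⊢
      tauto
    refine hF _ _ ?_ fun y hy => ?_
    · ext v
      have : v ∈ ω.B ∩ (R ∩ S.A) ↔ v ∈ ω'.B ∩ (R ∩ S.A) := by rw [a1]
      simp only [Finset.mem_inter] at this ⊢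
      tauto
    · exact prc_tau_loc (S := S) (R := R ∩ S.A) (YR := M) (mk K₁ P₁ h₁ s₁).cellR (ω := ⟨ω.B ∩ S.A, ω.W, ω.O⟩)
        (ω' := ⟨ω'.B ∩ S.A, ω'.W, ω'.O⟩) a3 a2 hy
  rw [hFF, hFF]
  refine prc_two (mk K₁ P₁ h₁ s₁) (mk K₂ P₂ h₂ s₂) ?_ ?_ ?_ ?_ ?_ hloc fun ω => hF0 _
  · ext v
    simp only [Finset.mem_inter]
    exact and_congr_left fun h => hbp v h.1
  · ext v
    simp only [Finset.mem_inter]
    exact and_congr_left fun h => hbm v h.1
  · ext y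
    simp only [Finset.mem_inter]
    exact and_congr_left fun h => (hob y h).1
  · ext y
    simp only [Finset.mem_inter]
    exact and_congr_left fun h => (hob y h).2.1
  · ext y
    simp only [Finset.mem_inter]
    exact and_congr_left fun h => (hob y h).2.2

/-! ## 2. generic lemmas on `lseAdd` -/

theorem lse_mem_sv {S : ClSys V Y} {Q : Finset Y} {v : V} : v ∈ lseSv S Q ↔ ∃ y ∈ Q, v ∈ S.sv y := by
  unfold lseSv; exact Finset.mem_biUnion

theorem lse_sv_mono {S : ClSys V Y} {Q Q' : Finset Y} (h : Q ⊆ Q') : lseSv S Q ⊆ lseSv S Q' :=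
  Finset.biUnion_subset_biUnion_of_subset_left _ h

/-- legality of an extension by extreme cells with all their sites pinned -/
theorem lse_add_legal (S : ClSys V Y) {K : ClCon V Y} (hK : ClLegal S K) {bp bm : Finset V} {op om : Finset Y}
    (hop : lseSv S op ⊆ bp) (hom : lseSv S om ⊆ bm) : ClLegal S (lseAdd K bp bm op om) := by
  refine ⟨hK.wp, hK.wm, ?_, hK.eq⟩
  intro y hy hyo v hv
  simp only [lseAdd, Finset.mem_union] at hyo ⊢
  have hfull : y ∈ K.Op ∪ K.Om ∪ K.Cl → v ∈ K.Bp ∨ v ∈ K.Bm := fun h => Finset.mem_union.1 (hK.full y hy h hv)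
  rcases hyo with ((h | h) | (h | h)) | h
  · rcases hfull (by simp [h]) with h' | h'
    · exact Or.inl (Or.inl h')
    · exact Or.inr (Or.inl h')
  · exact Or.inl (Or.inr (hop (lse_mem_sv.2 ⟨y, h, hv⟩)))
  · rcases hfull (by simp [h]) with h' | h'
    · exact Or.inl (Or.inl h')
    · exact Or.inr (Or.inl h')
  · exact Or.inr (Or.inr (hom (lse_mem_sv.2 ⟨y, h, hv⟩)))
  · rcases hfull (by simp [h]) with h' | h'
    · exact Or.inl (Or.inl h')
    · exact Or.inr (Or.inl h')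

/-- feasibility of an extension by extreme cells -/
theorem lse_add_feas (S : ClSys V Y) {K : ClCon V Y} (hK : ClLegal S K) (hf : ClFeas S K) {bp bm : Finset V} {op om : Finset Y}
    (hbp : bp ⊆ S.A) (hop : lseSv S op ⊆ bp) (hom : lseSv S om ⊆ bm) (hopC : op ⊆ S.C) (homC : om ⊆ S.C)
    (d1 : Disjoint (K.Bp ∪ bp) (K.Bm ∪ bm)) (ne : ∀ y ∈ S.C, (S.sv y).Nonempty)
    (d2 : ∀ y ∈ op ∪ om, y ∉ K.Cl) : ClFeas S (lseAdd K bp bm op om) := by
  have hOp : ∀ y ∈ K.Op ∪ op, S.sv y ⊆ K.Bp ∪ bp := by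
    intro y hy v hv
    rcases Finset.mem_union.1 hy with h | h
    · exact Finset.mem_union_left _ (hf.op y h hv)
    · exact Finset.mem_union_right _ (hop (lse_mem_sv.2 ⟨y, h, hv⟩))
  have hOm : ∀ y ∈ K.Om ∪ om, S.sv y ⊆ K.Bm ∪ bm := by
    intro y hy v hv
    rcases Finset.mem_union.1 hy with h | h
    · exact Finset.mem_union_left _ (hf.om y h hv)
    · exact Finset.mem_union_right _ (hom (lse_mem_sv.2 ⟨y, h, hv⟩))
  have hOpC : K.Op ∪ op ⊆ S.C := Finset.union_subset hf.opC hopC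
  have hOmC : K.Om ∪ om ⊆ S.C := Finset.union_subset hf.omC homC
  refine ⟨Finset.union_subset hf.bpA hbp, d1, hOpC, hOmC, hOp, hOm, ?_, ?_, ?_, ?_⟩
  · intro y hy hyC h
    have hfull := hK.full y hyC (Finset.mem_union_right _ hy)
    refine hf.cl y hy hyC ?_
    rcases h with h | h
    · left
      intro v hv
      rcases Finset.mem_union.1 (hfull hv) with h' | h'
      · exact h'
      · exact absurd (Finset.mem_union_left bm h') (Finset.disjoint_left.1 d1 (h hv))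
    · right
      intro v hv
      rcases Finset.mem_union.1 (hfull hv) with h' | h'
      · exact absurd (h hv) (Finset.disjoint_left.1 d1 (Finset.mem_union_left bp h'))
      · exact h'
  · refine Finset.disjoint_left.2 fun y h1 h2 => ?_
    obtain ⟨v, hv⟩ := ne y (hOpC h1)
    exact Finset.disjoint_left.1 d1 (hOp y h1 hv) (hOm y h2 hv)
  · refine Finset.disjoint_left.2 fun y h1 h2 => ?_
    rcases Finset.mem_union.1 h1 with h | h
    · exact Finset.disjoint_left.1 hf.d2 h h2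
    · exact d2 y (Finset.mem_union_left _ h) h2
  · refine Finset.disjoint_left.2 fun y h1 h2 => ?_
    rcases Finset.mem_union.1 h1 with h | h
    · exact Finset.disjoint_left.1 hf.d3 h h2
    · exact d2 y (Finset.mem_union_right _ h) h2

/-! ## 3. deterministic facts (no planarity) -/

section facts

variable (S : ClSys V Y) (K : ClCon V Y) (G : LenGeo Y) (a b : ℤ) (ω₀ : ClCfg V Y)

theorem lse_mem_O {S : ClSys V Y} {G : LenGeo Y} {a b : ℤ} {y : Y} : y ∈ lseO S G a b ↔ y ∈ S.C ∧ G.box a b y := by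
  classical
  unfold lseO; exact Finset.mem_filter

theorem lse_mem_Q {S : ClSys V Y} {G : LenGeo Y} {a b : ℤ} {ω₀ : ClCfg V Y} {y : Y} :
    y ∈ lenQ S G a b ω₀ ↔ y ∈ S.C ∧ G.Q (lenNp S ω₀) a b y := by
  classical
  unfold lenQ; exact Finset.mem_filter

theorem lse_mem_Fr {S : ClSys V Y} {G : LenGeo Y} {a b : ℤ} {ω₀ : ClCfg V Y} {y : Y} :
    y ∈ lseFr S G a b ω₀ ↔ y ∈ lseO S G a b ∧ y ∉ lenQ S G a b ω₀ := by
  unfold lseFr; exact Finset.mem_sdiff

theorem lse_Q_sub_O : lenQ S G a b ω₀ ⊆ lseO S G a b := by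
  intro y hy
  obtain ⟨h1, h2⟩ := lse_mem_Q.1 hy
  exact lse_mem_O.2 ⟨h1, h2.1⟩

/-- FACT0: a cell looked at which is non-plus belongs to one of the two explored clusters -/
theorem lse_Q_np {y : Y} (hy : y ∈ lenQ S G a b ω₀) (hn : lenNp S ω₀ y) : G.D (lenNp S ω₀) a b y := by
  obtain ⟨_, hbox, h⟩ := lse_mem_Q.1 hy
  rcases h with h | h | ⟨z, hz, hzy⟩
  · exact Or.inl (len_cl_self hn hbox h)
  · exact Or.inr (len_cl_self hn hbox h)
  · rcases hz with hz | hz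
    · exact Or.inl (len_cl_step hz ⟨hzy, hz.1, hn, hz.2.1, hbox⟩)
    · exact Or.inr (len_cl_step hz ⟨hzy, hz.1, hn, hz.2.1, hbox⟩)

theorem lse_TB_sub_Q : lseTB S G a b ⊆ lenQ S G a b ω₀ := by
  classical
  intro y hy
  unfold lseTB at hy
  obtain ⟨h1, h2⟩ := Finset.mem_filter.1 hy
  obtain ⟨h3, h4⟩ := lse_mem_O.1 h1
  refine lse_mem_Q.2 ⟨h3, h4, ?_⟩
  rcases h2 with h | h
  · exact Or.inl h
  · exact Or.inr (Or.inl h)

theorem lse_M_sub_Fr : lseM S G a b ω₀ ⊆ lseFr S G a b ω₀ := by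
  classical
  unfold lseM; exact Finset.filter_subset _ _

/-- a fresh neighbour of a retained cell is retained -/
theorem lse_M_adj {m z : Y} (hm : m ∈ lseM S G a b ω₀) (hz : z ∈ lseFr S G a b ω₀) (h : G.adj m z) : z ∈ lseM S G a b ω₀ := by
  classical
  unfold lseM at hm ⊢
  obtain ⟨hmF, ⟨l, hl, hla, hlm⟩, r, hr, hrb, hmr⟩ := Finset.mem_filter.1 hm
  refine Finset.mem_filter.2 ⟨hz, ⟨l, hl, hla, hlm.tail ⟨h, hmF, hz⟩⟩, r, hr, hrb, ReflTransGen.head ⟨G.symm _ _ h, hz, hmF⟩ hmr⟩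

variable {S K G a b ω₀}

theorem lse_mem_R {v : V} : v ∈ lseR S G a b ω₀ ↔ ∃ m ∈ lseM S G a b ω₀, v ∈ S.sv m := by
  unfold lseR; exact lse_mem_sv

theorem lse_tau_one {ω : ClCfg V Y} {y : Y} (h : clTau S ω y = 1) : S.sv y ⊆ ω.B := by
  unfold clTau at h
  split_ifs at h with h1 h2
  · exact h2
  all_goals exact absurd h (by norm_num)

/-- FACT1: a cell of the box off `M` which touches the retained sites has been looked at and is open-plus -/
theorem lse_ext_in (hG : LseGeo S K G a b) {w : Y} (hw : w ∈ lseO S G a b) (hwM : w ∉ lseM S G a b ω₀)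
    (ht : ∃ v ∈ S.sv w, v ∈ lseR S G a b ω₀) : w ∈ lenQ S G a b ω₀ ∧ clTau S ω₀ w = 1 := by
  obtain ⟨v, hvw, hvR⟩ := ht
  obtain ⟨m, hm, hvm⟩ := lse_mem_R.1 hvR
  have hmF := lse_M_sub_Fr S G a b ω₀ hm
  obtain ⟨hmO, hmQ⟩ := lse_mem_Fr.1 hmF
  have hne : m ≠ w := fun h => hwM (h ▸ hm)
  have hadj : G.adj m w := hG.adj m hmO w hw hne ⟨v, hvm, hvw⟩
  have hwQ : w ∈ lenQ S G a b ω₀ := by
    by_contra hc
    exact hwM (lse_M_adj S G a b ω₀ hm (lse_mem_Fr.2 ⟨hw, hc⟩) hadj)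
  refine ⟨hwQ, ?_⟩
  by_contra hn
  have hD := lse_Q_np S G a b ω₀ hwQ hn
  exact hmQ (lse_mem_Q.2 ⟨(lse_mem_O.1 hmO).1, (lse_mem_O.1 hmO).2, Or.inr (Or.inr ⟨w, hD, G.symm _ _ hadj⟩)⟩)

theorem lse_rec_bp {v : V} : v ∈ (lenRec S K G a b ω₀).Bp ↔ v ∈ K.Bp ∨ (v ∈ lseSv S (lenQ S G a b ω₀) ∧ v ∈ ω₀.B) := by
  unfold lenRec lenObs lseSv
  simp only [Finset.mem_union, Finset.mem_filter]

theorem lse_rec_bm {v : V} : v ∈ (lenRec S K G a b ω₀).Bm ↔ v ∈ K.Bm ∨ (v ∈ lseSv S (lenQ S G a b ω₀) ∧ v ∉ ω₀.B) := by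
  unfold lenRec lenObs lseSv
  simp only [Finset.mem_union, Finset.mem_filter]

theorem lse_M_sub_O : lseM S G a b ω₀ ⊆ lseO S G a b := fun y hy => (lse_mem_Fr.1 (lse_M_sub_Fr S G a b ω₀ hy)).1

theorem lse_R_sub : lseR S G a b ω₀ ⊆ lseSv S (lseO S G a b) := lse_sv_mono lse_M_sub_O

/-- the sites of the box carry no pin of `K` -/
theorem lse_clr_O (hG : LseGeo S K G a b) {v : V} (hv : v ∈ lseSv S (lseO S G a b)) : v ∉ K.Bp ∧ v ∉ K.Bm := by
  obtain ⟨y, hy, hvy⟩ := lse_mem_sv.1 hv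
  exact (hG.clr y (lse_mem_O.1 hy).1 ⟨v, hvy, hv⟩).1 v hvy

theorem lse_Q_not_M {y : Y} (hy : y ∈ lenQ S G a b ω₀) : y ∈ lseO S G a b \ lseM S G a b ω₀ :=
  Finset.mem_sdiff.2 ⟨lse_Q_sub_O S G a b ω₀ hy, fun h => (lse_mem_Fr.1 (lse_M_sub_Fr S G a b ω₀ h)).2 hy⟩

/-- the plus pins of the record on the retained sites -/
theorem lse_R_bp (hG : LseGeo S K G a b) {v : V} (hv : v ∈ lseR S G a b ω₀) :
    v ∈ (lenRec S K G a b ω₀).Bp ↔ v ∈ lseSv S (lseO S G a b \ lseM S G a b ω₀) := by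
  rw [lse_rec_bp]
  constructor
  · rintro (h | ⟨h, _⟩)
    · exact absurd h (lse_clr_O hG (lse_R_sub hv)).1
    · obtain ⟨y, hy, hvy⟩ := lse_mem_sv.1 h
      exact lse_mem_sv.2 ⟨y, lse_Q_not_M hy, hvy⟩
  · intro h
    obtain ⟨w, hw, hvw⟩ := lse_mem_sv.1 h
    obtain ⟨hwO, hwM⟩ := Finset.mem_sdiff.1 hw
    obtain ⟨hwQ, hτ⟩ := lse_ext_in hG hwO hwM ⟨v, hvw, hv⟩
    exact Or.inr ⟨lse_mem_sv.2 ⟨w, hwQ, hvw⟩, lse_tau_one hτ hvw⟩

/-- the record has no minus pin on the retained sites -/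
theorem lse_R_bm (hG : LseGeo S K G a b) {v : V} (hv : v ∈ lseR S G a b ω₀) : v ∉ (lenRec S K G a b ω₀).Bm := by
  rw [lse_rec_bm]
  rintro (h | ⟨h, hn⟩)
  · exact (lse_clr_O hG (lse_R_sub hv)).2 h
  · obtain ⟨w, hw, hvw⟩ := lse_mem_sv.1 h
    obtain ⟨hwO, hwM⟩ := Finset.mem_sdiff.1 (lse_Q_not_M hw)
    exact hn (lse_tau_one (lse_ext_in hG hwO hwM ⟨v, hvw, hv⟩).2 hvw)

/-- a cell of the box off `M` which is adjacent to a retained cell has been looked at and is open-plus -/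
theorem lse_adj_in {m y : Y} (hm : m ∈ lseM S G a b ω₀) (hy : y ∈ lseO S G a b) (hyM : y ∉ lseM S G a b ω₀) (h : G.adj m y) :
    y ∈ lenQ S G a b ω₀ ∧ clTau S ω₀ y = 1 := by
  classical
  have hmFr := lse_M_sub_Fr S G a b ω₀ hm
  have hyQ : y ∈ lenQ S G a b ω₀ := by
    by_contra hc
    exact hyM (lse_M_adj S G a b ω₀ hm (Finset.mem_sdiff.2 ⟨hy, hc⟩) h)
  refine ⟨hyQ, ?_⟩
  by_contra hn
  have hD := lse_Q_np S G a b ω₀ hyQ hn
  obtain ⟨hmO, hmQ⟩ := Finset.mem_sdiff.1 hmFr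
  obtain ⟨hmC, hmb⟩ := Finset.mem_filter.1 hmO
  exact hmQ (Finset.mem_filter.2 ⟨hmC, hmb, Or.inr (Or.inr ⟨y, hD, G.symm _ _ h⟩)⟩)

/-- the sites of a looked at open-plus cell are plus pins of the record -/
theorem lse_plus_bp {y : Y} (hy : y ∈ lenQ S G a b ω₀) (ht : clTau S ω₀ y = 1) {v : V} (hv : v ∈ S.sv y) :
    v ∈ (lenRec S K G a b ω₀).Bp := by
  have hB : S.sv y ⊆ ω₀.B := by
    unfold clTau at ht
    split_ifs at ht with h1 h2
    · exact h2
    · exact absurd ht (by norm_num)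
  exact Finset.mem_union_right _ (Finset.mem_filter.2 ⟨Finset.mem_biUnion.2 ⟨y, hy, hv⟩, hB hv⟩)

theorem lse_M_OnQ {m : Y} (hm : m ∈ lseM S G a b ω₀) : m ∈ lseO S G a b ∧ m ∉ lenQ S G a b ω₀ :=
  Finset.mem_sdiff.1 (lse_M_sub_Fr S G a b ω₀ hm)

/-- the wall is part of the straight wall -/
theorem lse_Xw_sub (hG : LseGeo S K G a b) : lseXw S K G a b ω₀ ⊆ lseW3 S G a b := by
  classical
  intro w hw
  obtain ⟨hwE, hwp⟩ := Finset.mem_filter.1 hw
  obtain ⟨hwC, hwO, v', hv'w, hv'R⟩ := Finset.mem_filter.1 hwE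
  obtain ⟨m, hm, hv'm⟩ := lse_mem_sv.1 hv'R
  obtain ⟨hmO, hmQ⟩ := lse_M_OnQ hm
  refine Finset.mem_filter.2 ⟨hwC, hwO, ⟨v', hv'w, lse_mem_sv.2 ⟨m, hmO, hv'm⟩⟩, ?_⟩
  intro v hv hvT
  obtain ⟨t, ht, hvt⟩ := lse_mem_sv.1 hvT
  have htQ := lse_TB_sub_Q S G a b ω₀ ht
  have htO : t ∈ lseO S G a b := (Finset.mem_filter.1 ht).1
  have htM : t ∉ lseM S G a b ω₀ := fun h => (lse_M_OnQ h).2 htQ
  rcases hG.out w hwC hwO m hmO t htO ⟨v', hv'w, hv'm⟩ ⟨v, hv, hvt⟩ with h | h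
  · exact htM (h ▸ hm)
  · exact hwp v hv (lse_plus_bp htQ (lse_adj_in hm htO htM h).2 hvt)

/-- the new minus pins are minus pins of the straight reference -/
theorem lse_Nm_sub (hG : LseGeo S K G a b) : lseNm S K G a b ω₀ ⊆ lseN3 S G a b := by
  classical
  intro v hv
  rcases Finset.mem_union.1 hv with h | h
  · exact Finset.mem_union_left _ (lse_sv_mono (lse_Xw_sub hG) h)
  · obtain ⟨h1, hbp⟩ := Finset.mem_sdiff.1 h
    obtain ⟨hR, hE⟩ := Finset.mem_inter.1 h1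
    obtain ⟨m, hm, hvm⟩ := lse_mem_sv.1 hR
    obtain ⟨hmO, hmQ⟩ := lse_M_OnQ hm
    obtain ⟨w, hw, hvw⟩ := lse_mem_sv.1 hE
    obtain ⟨hwC, hwO, _⟩ := Finset.mem_filter.1 hw
    refine Finset.mem_union_right _ (Finset.mem_sdiff.2 ⟨Finset.mem_inter.2 ⟨lse_mem_sv.2 ⟨m, hmO, hvm⟩,
      lse_mem_sv.2 ⟨w, Finset.mem_sdiff.2 ⟨hwC, hwO⟩, hvw⟩⟩, ?_⟩)
    intro hvT
    obtain ⟨t, ht, hvt⟩ := lse_mem_sv.1 hvT
    have htQ := lse_TB_sub_Q S G a b ω₀ ht
    have htO : t ∈ lseO S G a b := (Finset.mem_filter.1 ht).1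
    have htM : t ∉ lseM S G a b ω₀ := fun h => (lse_M_OnQ h).2 htQ
    have hne : m ≠ t := fun h => htM (h ▸ hm)
    exact hbp (lse_plus_bp htQ (lse_adj_in hm htO htM (hG.adj m hmO t htO hne ⟨v, hvm, hvt⟩)).2 hvt)

/-- the new minus pins avoid the box off `M` -/
theorem lse_Nm_disj (hG : LseGeo S K G a b) :
    Disjoint (lseSv S (lseO S G a b \ lseM S G a b ω₀)) (lseNm S K G a b ω₀) := by
  classical
  rw [Finset.disjoint_left]
  intro v hv hN
  obtain ⟨y, hy, hvy⟩ := lse_mem_sv.1 hv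
  obtain ⟨hyO, hyM⟩ := Finset.mem_sdiff.1 hy
  rcases Finset.mem_union.1 hN with h | h
  · obtain ⟨w, hw, hvw⟩ := lse_mem_sv.1 h
    obtain ⟨hwE, hwp⟩ := Finset.mem_filter.1 hw
    obtain ⟨hwC, hwO, v', hv'w, hv'R⟩ := Finset.mem_filter.1 hwE
    obtain ⟨m, hm, hv'm⟩ := lse_mem_sv.1 hv'R
    obtain ⟨hmO, hmQ⟩ := lse_M_OnQ hm
    rcases hG.out w hwC hwO m hmO y hyO ⟨v', hv'w, hv'm⟩ ⟨v, hvw, hvy⟩ with h | h
    · exact hyM (h ▸ hm)
    · obtain ⟨q1, q2⟩ := lse_adj_in hm hyO hyM h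
      exact hwp v hvw (lse_plus_bp q1 q2 hvy)
  · obtain ⟨h1, hbp⟩ := Finset.mem_sdiff.1 h
    obtain ⟨hR, _⟩ := Finset.mem_inter.1 h1
    obtain ⟨m, hm, hvm⟩ := lse_mem_sv.1 hR
    obtain ⟨hmO, hmQ⟩ := lse_M_OnQ hm
    have hne : m ≠ y := fun h => hyM (h ▸ hm)
    obtain ⟨q1, q2⟩ := lse_adj_in hm hyO hyM (hG.adj m hmO y hyO hne ⟨v, hvm, hvy⟩)
    exact hbp (lse_plus_bp q1 q2 hvy)

/-! ### the events -/

/-- under the record, the event on the retained cells implies the event of `LenSE` -/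
theorem lse_ev_h (hG : LseGeo S K G a b) {ω : ClCfg V Y} (hω : (lenRec S K G a b ω₀).Holds S ω) (h : LseFM S G a b (lseM S G a b ω₀) ω) :
    G.Vp (fun y => lenNp S ω y ∧ ¬ G.D (lenNp S ω₀) a b y) a b := by
  classical
  have hagr := ((len_obs_holds S K (lenQ S G a b ω₀) ω₀ ω).1 hω).2
  -- a non-plus cell of the box off the explored clusters is fresh
  have hfr : ∀ y, (lenNp S ω y ∧ ¬ G.D (lenNp S ω₀) a b y) → G.box a b y → y ∈ lseFr S G a b ω₀ := by
    intro y hy hb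
    refine Finset.mem_sdiff.2 ⟨Finset.mem_filter.2 ⟨hG.band y hb.1, hb⟩, fun hQ => ?_⟩
    refine hy.2 (lse_Q_np S G a b ω₀ hQ ?_)
    have := hy.1
    unfold lenNp at this ⊢
    rwa [hagr.2 y hQ] at this
  intro v hv hX
  obtain ⟨hv1, hv2, u, hu, hw⟩ := hv
  have hw' : ReflTransGen (LseSt G (lseFr S G a b ω₀)) u v :=
    ReflTransGen.mono (fun x y hs => ⟨hs.1, hfr x hs.2.1 hs.2.2.2.1, hfr y hs.2.2.1 hs.2.2.2.2⟩) _ _ hw
  have hvFr := hfr v hv1 hv2
  have hu' : (lenNp S ω u ∧ ¬ G.D (lenNp S ω₀) a b u) ∧ G.box a b u := by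
    rcases ReflTransGen.cases_head hw with e | ⟨c, hs, _⟩
    · subst e; exact ⟨hv1, hv2⟩
    · exact ⟨hs.2.1, hs.2.2.2.1⟩
  have huFr := hfr u hu'.1 hu'.2
  have huM : u ∈ lseM S G a b ω₀ :=
    Finset.mem_filter.2 ⟨huFr, ⟨u, huFr, hu, ReflTransGen.refl⟩, ⟨v, hvFr, hX, hw'⟩⟩
  have key : ∀ w, ReflTransGen (G.st (fun y => lenNp S ω y ∧ ¬ G.D (lenNp S ω₀) a b y) a b) u w →
      w ∈ lseM S G a b ω₀ ∧ ReflTransGen (G.st (fun y => lenNp S ω y ∧ ¬ y ∉ lseM S G a b ω₀) a b) u w := by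
    intro w hw
    induction hw with
    | refl => exact ⟨huM, ReflTransGen.refl⟩
    | @tail x y _ hs ih =>
      have hyM := lse_M_adj S G a b ω₀ ih.1 (hfr y hs.2.2.1 hs.2.2.2.2) hs.1
      exact ⟨hyM, ih.2.tail ⟨hs.1, ⟨hs.2.1.1, not_not.2 ih.1⟩, ⟨hs.2.2.1.1, not_not.2 hyM⟩, hs.2.2.2.1, hs.2.2.2.2⟩⟩
  obtain ⟨hvM, hwM⟩ := key v hw
  exact h v ⟨⟨hv1.1, not_not.2 hvM⟩, hv2, u, hu, hwM⟩ hX

theorem lse_ev_M (M : Finset Y) {ω : ClCfg V Y} (h : G.Vp (lenNp S ω) a b) : LseFM S G a b M ω :=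
  len_Vp_anti (fun _ _ hn => hn.1) h

/-- the event on the retained cells reads their statuses only -/
theorem lse_ev_loc (M : Finset Y) {ω ω' : ClCfg V Y} (h : ∀ y ∈ M, clTau S ω y = clTau S ω' y) :
    LseFM S G a b M ω ↔ LseFM S G a b M ω' := by
  have e : (fun y => lenNp S ω y ∧ ¬ y ∉ M) = (fun y => lenNp S ω' y ∧ ¬ y ∉ M) := by
    funext y
    by_cases hy : y ∈ M
    · unfold lenNp
      rw [h y hy]
    · simp [hy]
  unfold LseFM
  rw [e]

/-! ### the four histories -/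

theorem lse_legal1 (hK : ClLegal S K) : ClLegal S (lseH1 S K G a b ω₀) := by
  unfold lseH1
  refine lse_add_legal S (len_obs_legal S K hK _ ω₀) ?_ ?_
  · intro v hv
    obtain ⟨y, hy, _⟩ := lse_mem_sv.1 hv
    exact absurd hy (Finset.notMem_empty y)
  · unfold lseNm
    exact Finset.subset_union_left

theorem lse_legal2 (hK : ClLegal S K) : ClLegal S (lseH2 S K G a b ω₀) := by
  unfold lseH2
  refine lse_add_legal S hK (Finset.Subset.refl _) ?_
  unfold lseNm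
  exact Finset.subset_union_left

theorem lse_legal3 (hK : ClLegal S K) : ClLegal S (lseH3 S K G a b) := by
  unfold lseH3
  refine lse_add_legal S hK (Finset.Subset.refl _) ?_
  unfold lseN3
  exact Finset.subset_union_left

theorem lse_O_sub_C : lseO S G a b ⊆ S.C := by
  classical
  exact Finset.filter_subset _ _

theorem lse_M_not_Q {y : Y} (hy : y ∈ lseM S G a b ω₀) : y ∉ lenQ S G a b ω₀ :=
  (Finset.mem_sdiff.1 (lse_M_sub_Fr S G a b ω₀ hy)).2

theorem lse_R_sub_O : lseR S G a b ω₀ ⊆ lseSv S (lseO S G a b) := lse_sv_mono lse_M_sub_O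

theorem lse_mem_Eo {w : Y} : w ∈ lseEo S G a b ω₀ ↔ w ∈ S.C ∧ w ∉ lseO S G a b ∧ ∃ v ∈ S.sv w, v ∈ lseR S G a b ω₀ := by
  classical
  unfold lseEo
  exact Finset.mem_filter

theorem lse_mem_Xw {w : Y} : w ∈ lseXw S K G a b ω₀ ↔ w ∈ lseEo S G a b ω₀ ∧ ∀ v ∈ S.sv w, v ∉ (lenRec S K G a b ω₀).Bp := by
  classical
  unfold lseXw
  exact Finset.mem_filter

theorem lse_Xw_sub_C : lseXw S K G a b ω₀ ⊆ S.C := fun _ hw => (lse_mem_Eo.1 (lse_mem_Xw.1 hw).1).1

/-- a cell of `Eo` is in the wall or in `Xp` -/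
theorem lse_Eo_cases {w : Y} (hw : w ∈ lseEo S G a b ω₀) : w ∈ lseXw S K G a b ω₀ ∨ w ∈ lseXp S K G a b ω₀ := by
  by_cases h : w ∈ lseXw S K G a b ω₀
  · exact Or.inl h
  · exact Or.inr (Finset.mem_sdiff.2 ⟨hw, h⟩)

/-- `K` is clear on every cell which touches the box -/
theorem lse_clr_site (hG : LseGeo S K G a b) {w : Y} (hw : w ∈ S.C) {u : V} (hu : u ∈ S.sv w) (huO : u ∈ lseSv S (lseO S G a b)) {v : V}
    (hv : v ∈ S.sv w) : v ∉ K.Bp ∧ v ∉ K.Bm := (hG.clr w hw ⟨u, hu, huO⟩).1 v hv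

theorem lse_clr_Xw (hG : LseGeo S K G a b) {v : V} (hv : v ∈ lseSv S (lseXw S K G a b ω₀)) : v ∉ K.Bp ∧ v ∉ K.Bm := by
  obtain ⟨w, hw, hvw⟩ := lse_mem_sv.1 hv
  obtain ⟨hwC, _, u, hu, huR⟩ := lse_mem_Eo.1 (lse_mem_Xw.1 hw).1
  exact lse_clr_site hG hwC hu (lse_R_sub_O huR) hvw

theorem lse_clr_Nm (hG : LseGeo S K G a b) {v : V} (hv : v ∈ lseNm S K G a b ω₀) : v ∉ K.Bp ∧ v ∉ K.Bm := by
  unfold lseNm at hv
  rcases Finset.mem_union.1 hv with h | h
  · exact lse_clr_Xw hG h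
  · exact lse_clr_O hG (lse_R_sub_O (Finset.mem_inter.1 (Finset.mem_sdiff.1 h).1).1)

theorem lse_Nm_not_bp {v : V} (hv : v ∈ lseNm S K G a b ω₀) : v ∉ (lenRec S K G a b ω₀).Bp := by
  unfold lseNm at hv
  rcases Finset.mem_union.1 hv with h | h
  · obtain ⟨w, hw, hvw⟩ := lse_mem_sv.1 h
    exact (lse_mem_Xw.1 hw).2 v hvw
  · exact (Finset.mem_sdiff.1 h).2

theorem lse_Xw_sv_Nm : lseSv S (lseXw S K G a b ω₀) ⊆ lseNm S K G a b ω₀ := by
  unfold lseNm
  exact Finset.subset_union_left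

theorem lse_Xw_not_cl (hG : LseGeo S K G a b) {y : Y} (hy : y ∈ lseXw S K G a b ω₀) : y ∉ K.Cl ∧ y ∉ lenQ S G a b ω₀ := by
  obtain ⟨hwC, hwO, u, hu, huR⟩ := lse_mem_Eo.1 (lse_mem_Xw.1 hy).1
  exact ⟨(hG.clr y hwC ⟨u, hu, lse_R_sub_O huR⟩).2.2.2, fun h => hwO (lse_Q_sub_O S G a b ω₀ h)⟩

theorem lse_O_not_cl (hS : ClOk S) (hG : LseGeo S K G a b) {y : Y} (hy : y ∈ lseO S G a b) : y ∉ K.Cl := by
  obtain ⟨u, hu⟩ := hS.ne y (lse_O_sub_C hy)
  exact (hG.clr y (lse_O_sub_C hy) ⟨u, hu, lse_mem_sv.2 ⟨y, hy, hu⟩⟩).2.2.2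

theorem lse_TB_sub_OM : lseTB S G a b ⊆ lseO S G a b \ lseM S G a b ω₀ := by
  classical
  intro y hy
  refine Finset.mem_sdiff.2 ⟨(Finset.mem_filter.1 hy).1, fun h => lse_M_not_Q h (lse_TB_sub_Q S G a b ω₀ hy)⟩

theorem lse_mem_W3 {w : Y} : w ∈ lseW3 S G a b ↔ w ∈ S.C ∧ w ∉ lseO S G a b ∧ (∃ v ∈ S.sv w, v ∈ lseSv S (lseO S G a b)) ∧
    ∀ v ∈ S.sv w, v ∉ lseSv S (lseTB S G a b) := by
  classical
  unfold lseW3
  exact Finset.mem_filter

theorem lse_TB_sub_O : lseTB S G a b ⊆ lseO S G a b := by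
  classical
  exact Finset.filter_subset _ _

/-- the common part of the two splits: a cell off `M` which touches the retained sites -/
theorem lse_ext_cases (hG : LseGeo S K G a b) {w : Y} (hw : w ∈ S.C) (hwM : w ∉ lseM S G a b ω₀) {v : V} (hv : v ∈ S.sv w)
    (hvR : v ∈ lseR S G a b ω₀) :
    (w ∈ lseO S G a b \ lseM S G a b ω₀ ∧ w ∈ lenQ S G a b ω₀ ∧ clTau S ω₀ w = 1) ∨ w ∈ lseEo S G a b ω₀ := by
  by_cases hO : w ∈ lseO S G a b
  · obtain ⟨h1, h2⟩ := lse_ext_in hG hO hwM ⟨v, hv, hvR⟩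
    exact Or.inl ⟨Finset.mem_sdiff.2 ⟨hO, hwM⟩, h1, h2⟩
  · exact Or.inr (lse_mem_Eo.2 ⟨hw, hO, v, hv, hvR⟩)

/-- (1) `h1` is below the record -/
theorem lse_le1 : ClLe (lseH1 S K G a b ω₀) (lenRec S K G a b ω₀) where
  bp := by
    show (lenRec S K G a b ω₀).Bp ∪ ∅ ⊆ _
    rw [Finset.union_empty]
  bm := Finset.subset_union_left
  op := by
    show (lenRec S K G a b ω₀).Op ∪ ∅ ⊆ _
    rw [Finset.union_empty]
  om := Finset.subset_union_left
  cl1 := Finset.subset_union_left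
  cl2 := Finset.subset_union_left
  eq := rfl

/-- (3) the straight reference is below `h2` -/
theorem lse_le3 (hG : LseGeo S K G a b) : ClLe (lseH3 S K G a b) (lseH2 S K G a b ω₀) where
  bp := Finset.union_subset_union_right (lse_sv_mono lse_TB_sub_OM)
  bm := Finset.union_subset_union_right (lse_Nm_sub hG)
  op := Finset.union_subset_union_right lse_TB_sub_OM
  om := Finset.union_subset_union_right (lse_Xw_sub hG)
  cl1 := Finset.subset_union_left
  cl2 := Finset.subset_union_left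
  eq := rfl

theorem lse_feas1 (hS : ClOk S) (hK : ClLegal S K) (hG : LseGeo S K G a b)
    (hZ : 0 < S.Z ((lenRec S K G a b ω₀).Holds S)) : 0 < S.Z ((lseH1 S K G a b ω₀).Holds S) := by
  have l0 : ClLegal S (lenRec S K G a b ω₀) := len_obs_legal S K hK _ ω₀
  have f0 : ClFeas S (lenRec S K G a b ω₀) := dis_feas_conv S hS _ l0 hZ
  refine dis_feas S hS _ (lse_legal1 hK) ?_
  refine lse_add_feas S l0 f0 (Finset.empty_subset _) (by unfold lseSv; simp) lse_Xw_sv_Nm (Finset.empty_subset _) lse_Xw_sub_C ?_ hS.ne ?_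
  · rw [Finset.union_empty, Finset.disjoint_union_right]
    exact ⟨f0.dis, Finset.disjoint_right.2 fun v hv => lse_Nm_not_bp hv⟩
  · intro y hy
    rw [Finset.empty_union] at hy
    obtain ⟨h1, h2⟩ := lse_Xw_not_cl hG hy
    intro hc
    rcases Finset.mem_union.1 (show y ∈ K.Cl ∪ (lenQ S G a b ω₀).filter (fun y => clTau S ω₀ y = 0) from hc) with h | h
    · exact h1 h
    · exact h2 (Finset.mem_filter.1 h).1

theorem lse_feas2 (hS : ClOk S) (hK : ClLegal S K) (hG : LseGeo S K G a b)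
    (hZ : 0 < S.Z (K.Holds S)) : 0 < S.Z ((lseH2 S K G a b ω₀).Holds S) := by
  have f0 : ClFeas S K := dis_feas_conv S hS _ hK hZ
  refine dis_feas S hS _ (lse_legal2 hK) ?_
  have hOM : lseO S G a b \ lseM S G a b ω₀ ⊆ S.C := Finset.sdiff_subset.trans lse_O_sub_C
  refine lse_add_feas S hK f0 ?_ (Finset.Subset.refl _) lse_Xw_sv_Nm hOM lse_Xw_sub_C ?_ hS.ne ?_
  · intro v hv
    obtain ⟨y, hy, hvy⟩ := lse_mem_sv.1 hv
    exact hS.sub y (hOM hy) hvy
  · rw [Finset.disjoint_union_left, Finset.disjoint_union_right, Finset.disjoint_union_right]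
    refine ⟨⟨f0.dis, Finset.disjoint_right.2 fun v hv => (lse_clr_Nm hG hv).1⟩,
      Finset.disjoint_left.2 fun v hv => (lse_clr_O hG (lse_sv_mono Finset.sdiff_subset hv)).2, lse_Nm_disj hG⟩
  · intro y hy
    rcases Finset.mem_union.1 hy with h | h
    · exact lse_O_not_cl hS hG (Finset.mem_sdiff.1 h).1
    · exact (lse_Xw_not_cl hG h).1

theorem lse_feas3 (hS : ClOk S) (hK : ClLegal S K) (hG : LseGeo S K G a b)
    (hZ : 0 < S.Z (K.Holds S)) : 0 < S.Z ((lseH3 S K G a b).Holds S) := by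
  have f0 : ClFeas S K := dis_feas_conv S hS _ hK hZ
  refine dis_feas S hS _ (lse_legal3 hK) ?_
  have hTB : lseTB S G a b ⊆ S.C := lse_TB_sub_O.trans lse_O_sub_C
  have hW3 : lseW3 S G a b ⊆ S.C := fun _ hw => (lse_mem_W3.1 hw).1
  have hN3 : ∀ v ∈ lseN3 S G a b, (v ∉ K.Bp ∧ v ∉ K.Bm) ∧ v ∉ lseSv S (lseTB S G a b) := by
    intro v hv
    unfold lseN3 at hv
    rcases Finset.mem_union.1 hv with h | h
    · obtain ⟨w, hw, hvw⟩ := lse_mem_sv.1 h
      obtain ⟨hwC, _, ⟨u, hu, huO⟩, h4⟩ := lse_mem_W3.1 hw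
      exact ⟨lse_clr_site hG hwC hu huO hvw, h4 v hvw⟩
    · obtain ⟨h1, h2⟩ := Finset.mem_sdiff.1 h
      exact ⟨lse_clr_O hG (Finset.mem_inter.1 h1).1, h2⟩
  refine lse_add_feas S hK f0 ?_ (Finset.Subset.refl _) (by unfold lseN3; exact Finset.subset_union_left) hTB hW3 ?_ hS.ne ?_
  · intro v hv
    obtain ⟨y, hy, hvy⟩ := lse_mem_sv.1 hv
    exact hS.sub y (hTB hy) hvy
  · rw [Finset.disjoint_union_left, Finset.disjoint_union_right, Finset.disjoint_union_right]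
    refine ⟨⟨f0.dis, Finset.disjoint_right.2 fun v hv => (hN3 v hv).1.1⟩,
      Finset.disjoint_left.2 fun v hv => (lse_clr_O hG (lse_sv_mono lse_TB_sub_O hv)).2, Finset.disjoint_right.2 fun v hv => (hN3 v hv).2⟩
  · intro y hy
    rcases Finset.mem_union.1 hy with h | h
    · exact lse_O_not_cl hS hG (lse_TB_sub_O h)
    · obtain ⟨hwC, _, hu, _⟩ := lse_mem_W3.1 h
      exact (hG.clr y hwC hu).2.2.2

theorem lse_split1 (hS : ClOk S) (hG : LseGeo S K G a b) :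
    LseSplit S (lseH1 S K G a b ω₀) (lseR S G a b ω₀) (lseM S G a b ω₀) (lseP S K G a b ω₀) where
  cellR := fun y hy => ⟨lse_O_sub_C (lse_M_sub_O hy), fun v hv => lse_mem_sv.2 ⟨y, hy, hv⟩⟩
  pinX := by
    intro w hw hwM v hv hvR
    show v ∈ ((lenRec S K G a b ω₀).Bp ∪ ∅) ∪ ((lenRec S K G a b ω₀).Bm ∪ lseNm S K G a b ω₀)
    rw [Finset.union_empty]
    by_cases hb : v ∈ (lenRec S K G a b ω₀).Bp
    · exact Finset.mem_union_left _ hb
    · refine Finset.mem_union_right _ ?_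
      rcases lse_ext_cases hG hw hwM hv hvR with ⟨_, h2, _⟩ | h
      · refine Finset.mem_union_left _ ?_
        have hm : v ∈ (lenQ S G a b ω₀).biUnion S.sv := Finset.mem_biUnion.2 ⟨w, h2, hv⟩
        show v ∈ K.Bm ∪ ((lenQ S G a b ω₀).biUnion S.sv).filter (fun v => v ∉ ω₀.B)
        refine Finset.mem_union_right _ (Finset.mem_filter.2 ⟨hm, fun hB => hb ?_⟩)
        show v ∈ K.Bp ∪ ((lenQ S G a b ω₀).biUnion S.sv).filter (fun v => v ∈ ω₀.B)
        exact Finset.mem_union_right _ (Finset.mem_filter.2 ⟨hm, hB⟩)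
      · refine Finset.mem_union_right _ ?_
        unfold lseNm
        exact Finset.mem_union_right _ (Finset.mem_sdiff.2 ⟨Finset.mem_inter.2 ⟨hvR, lse_mem_sv.2 ⟨w, h, hv⟩⟩, hb⟩)
  portC := by
    intro w hw hwM
    by_cases ht : ∃ v ∈ S.sv w, v ∈ lseR S G a b ω₀
    · obtain ⟨v, hv, hvR⟩ := ht
      rcases lse_ext_cases hG hw hwM hv hvR with ⟨_, h2, h3⟩ | h
      · refine Or.inl (Finset.mem_union_left _ ?_)
        show w ∈ (K.Op ∪ (lenQ S G a b ω₀).filter (fun y => clTau S ω₀ y = 1)) ∪ ∅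
        rw [Finset.union_empty]
        exact Finset.mem_union_right _ (Finset.mem_filter.2 ⟨h2, h3⟩)
      · rcases lse_Eo_cases (K := K) h with h' | h'
        · exact Or.inl (Finset.mem_union_right _ (Finset.mem_union_right _ h'))
        · exact Or.inr fun u hu huR => Finset.mem_inter.2 ⟨huR, lse_mem_sv.2 ⟨w, h', hu⟩⟩
    · exact Or.inr fun u hu huR => absurd ⟨u, hu, huR⟩ ht
  portE := fun e he => ⟨fun h => absurd (lse_R_sub_O h) (hG.clrE e he).1, fun h => absurd (lse_R_sub_O h) (hG.clrE e he).2⟩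

theorem lse_split2 (hS : ClOk S) (hG : LseGeo S K G a b) :
    LseSplit S (lseH2 S K G a b ω₀) (lseR S G a b ω₀) (lseM S G a b ω₀) (lseP S K G a b ω₀) where
  cellR := fun y hy => ⟨lse_O_sub_C (lse_M_sub_O hy), fun v hv => lse_mem_sv.2 ⟨y, hy, hv⟩⟩
  pinX := by
    intro w hw hwM v hv hvR
    show v ∈ (K.Bp ∪ lseSv S (lseO S G a b \ lseM S G a b ω₀)) ∪ (K.Bm ∪ lseNm S K G a b ω₀)
    rcases lse_ext_cases hG hw hwM hv hvR with ⟨h1, _, _⟩ | h
    · exact Finset.mem_union_left _ (Finset.mem_union_right _ (lse_mem_sv.2 ⟨w, h1, hv⟩))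
    · by_cases hb : v ∈ (lenRec S K G a b ω₀).Bp
      · exact Finset.mem_union_left _ (Finset.mem_union_right _ ((lse_R_bp hG hvR).1 hb))
      · refine Finset.mem_union_right _ (Finset.mem_union_right _ ?_)
        unfold lseNm
        exact Finset.mem_union_right _ (Finset.mem_sdiff.2 ⟨Finset.mem_inter.2 ⟨hvR, lse_mem_sv.2 ⟨w, h, hv⟩⟩, hb⟩)
  portC := by
    intro w hw hwM
    by_cases ht : ∃ v ∈ S.sv w, v ∈ lseR S G a b ω₀
    · obtain ⟨v, hv, hvR⟩ := ht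
      rcases lse_ext_cases hG hw hwM hv hvR with ⟨h1, _, _⟩ | h
      · exact Or.inl (Finset.mem_union_left _ (Finset.mem_union_right _ h1))
      · rcases lse_Eo_cases (K := K) h with h' | h'
        · exact Or.inl (Finset.mem_union_right _ (Finset.mem_union_right _ h'))
        · exact Or.inr fun u hu huR => Finset.mem_inter.2 ⟨huR, lse_mem_sv.2 ⟨w, h', hu⟩⟩
    · exact Or.inr fun u hu huR => absurd ⟨u, hu, huR⟩ ht
  portE := fun e he => ⟨fun h => absurd (lse_R_sub_O h) (hG.clrE e he).1, fun h => absurd (lse_R_sub_O h) (hG.clrE e he).2⟩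

/-- the two histories have the same retained data -/
theorem lse_same (hG : LseGeo S K G a b) :
    (∀ v ∈ lseR S G a b ω₀, (v ∈ (lseH2 S K G a b ω₀).Bp ↔ v ∈ (lseH1 S K G a b ω₀).Bp)) ∧
    (∀ v ∈ lseR S G a b ω₀, (v ∈ (lseH2 S K G a b ω₀).Bm ↔ v ∈ (lseH1 S K G a b ω₀).Bm)) ∧
    ∀ y ∈ lseM S G a b ω₀, (y ∈ (lseH2 S K G a b ω₀).Op ↔ y ∈ (lseH1 S K G a b ω₀).Op) ∧
      (y ∈ (lseH2 S K G a b ω₀).Om ↔ y ∈ (lseH1 S K G a b ω₀).Om) ∧ (y ∈ (lseH2 S K G a b ω₀).Cl ↔ y ∈ (lseH1 S K G a b ω₀).Cl) := by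
  refine ⟨fun v hv => ?_, fun v hv => ?_, fun y hy => ⟨?_, ?_, ?_⟩⟩
  · show v ∈ K.Bp ∪ lseSv S (lseO S G a b \ lseM S G a b ω₀) ↔ v ∈ (lenRec S K G a b ω₀).Bp ∪ ∅
    rw [Finset.union_empty, lse_R_bp hG hv, Finset.mem_union]
    exact ⟨fun h => h.resolve_left (lse_clr_O hG (lse_R_sub_O hv)).1, Or.inr⟩
  · show v ∈ K.Bm ∪ lseNm S K G a b ω₀ ↔ v ∈ (lenRec S K G a b ω₀).Bm ∪ lseNm S K G a b ω₀
    rw [Finset.mem_union, Finset.mem_union]
    exact ⟨fun h => Or.inr (h.resolve_left (lse_clr_O hG (lse_R_sub_O hv)).2), fun h => Or.inr (h.resolve_left (lse_R_bm hG hv))⟩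
  · show y ∈ K.Op ∪ (lseO S G a b \ lseM S G a b ω₀) ↔ y ∈ (K.Op ∪ (lenQ S G a b ω₀).filter (fun y => clTau S ω₀ y = 1)) ∪ ∅
    simp only [Finset.union_empty, Finset.mem_union, Finset.mem_sdiff, Finset.mem_filter, hy, lse_M_not_Q hy, not_true_eq_false, and_false,
      false_and]
  · show y ∈ K.Om ∪ lseXw S K G a b ω₀ ↔ y ∈ (K.Om ∪ (lenQ S G a b ω₀).filter (fun y => clTau S ω₀ y = -1)) ∪ lseXw S K G a b ω₀
    simp only [Finset.mem_union, Finset.mem_filter, lse_M_not_Q hy, false_and, or_false]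
  · show y ∈ K.Cl ↔ y ∈ K.Cl ∪ (lenQ S G a b ω₀).filter (fun y => clTau S ω₀ y = 0)
    simp only [Finset.mem_union, Finset.mem_filter, lse_M_not_Q hy, false_and, or_false]

end facts

/-! ## 4. THE CHAIN -/

theorem lse_Z_mono (S : ClSys V Y) (hS : ClOk S) {K₁ K₂ : ClCfg V Y → Prop} (h : ∀ ω, K₁ ω → K₂ ω) : S.Z K₁ ≤ S.Z K₂ := by
  classical
  unfold ClSys.Z
  refine Finset.sum_le_sum fun ω _ => ?_
  by_cases h1 : K₁ ω
  · rw [if_pos h1, if_pos (h ω h1)]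
  · rw [if_neg h1]
    split_ifs
    · exact dis_wt_nonneg S hS ω
    · exact le_rfl

theorem lse_Vp_monoP (S : ClSys V Y) (G : LenGeo Y) (hb : ∀ y, G.band y → y ∈ S.C) (a b : ℤ) :
    ClMonoP S (fun ω => G.Vp (lenNp S ω) a b) := by
  intro ω ω' _ h2 h
  exact len_Vp_anti (fun y hy hn => len_np_anti S h2 (hb y hy) hn) h

/-- **THE ADAPTER**: the strip estimate (SE) of the lengthening from the straight short-direction crossing -/
theorem lse_main (S : ClSys V Y) (hS : ClOk S) (h3 : ∀ y ∈ S.C, (S.sv y).card ≤ 3) (K : ClCon V Y) (hK : ClLegal S K) (hO : LseOrd S K)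
    (G : LenGeo Y) (a b : ℤ) (hG : LseGeo S K G a b)
    (hP : ∀ ω₀ ∈ S.cfgs, K.Holds S ω₀ → G.Hp (lenNp S ω₀) a b → (lseP S K G a b ω₀).card ≤ 4)
    {c : ℝ} (hc : 0 ≤ c) (hL : LseLSS S K G c a b) : LenSE S K G (c / 64) a b := by
  intro ω₀ hω₀ hK₀ hHp
  have hN0 : 0 ≤ S.N ((lenRec S K G a b ω₀).Holds S)
      (lenInd fun ω => G.Vp (fun y => lenNp S ω y ∧ ¬ G.D (lenNp S ω₀) a b y) a b) :=
    dis_N_nonneg S hS _ (len_ind_nonneg _)
  rcases (dis_Z_nonneg S hS ((lenRec S K G a b ω₀).Holds S)).eq_or_lt with hZ | hZ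
  · rw [← hZ, mul_zero]; exact hN0
  have hZK : 0 < S.Z (K.Holds S) :=
    hZ.trans_le (lse_Z_mono S hS fun ω hω => ((len_rec_iff S K G hG.band a b ω₀ ω).1 hω).1)
  have z1 := lse_feas1 (ω₀ := ω₀) hS hK hG hZ
  have z2 := lse_feas2 (ω₀ := ω₀) hS hK hG hZK
  have z3 := lse_feas3 hS hK hG hZK
  have l0 : ClLegal S (lenRec S K G a b ω₀) := len_obs_legal S K hK _ ω₀
  have l1 := lse_legal1 (G := G) (a := a) (b := b) (ω₀ := ω₀) hK
  have l2 := lse_legal2 (G := G) (a := a) (b := b) (ω₀ := ω₀) hK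
  have l3 := lse_legal3 (G := G) (a := a) (b := b) hK
  have mM : ClMono S (lenInd (LseFM S G a b (lseM S G a b ω₀))) :=
    len_ind_mono S (len_Vp_monoP S G hG.band a b (fun y => y ∉ lseM S G a b ω₀))
  have mT : ClMono S (lenInd fun ω => G.Vp (lenNp S ω) a b) := len_ind_mono S (lse_Vp_monoP S G hG.band a b)
  -- (4) + (3)
  have s3 := hO _ _ l3 l2 Finset.subset_union_left Finset.subset_union_left Finset.subset_union_left Finset.subset_union_left
    (lse_le3 (ω₀ := ω₀) hG) _ mT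
  have s3' : S.N ((lseH2 S K G a b ω₀).Holds S) (lenInd fun ω => G.Vp (lenNp S ω) a b)
      ≤ S.N ((lseH2 S K G a b ω₀).Holds S) (lenInd (LseFM S G a b (lseM S G a b ω₀))) := by
    refine dis_N_mono S hS _ fun ω _ _ => ?_
    by_cases h : G.Vp (lenNp S ω) a b
    · rw [len_ind_pos h, len_ind_pos (L := LseFM S G a b (lseM S G a b ω₀)) (lse_ev_M _ h)]
    · rw [len_ind_neg h]; exact len_ind_nonneg _ _
  have t2 : c * S.Z ((lseH2 S K G a b ω₀).Holds S) ≤ S.N ((lseH2 S K G a b ω₀).Holds S) (lenInd (LseFM S G a b (lseM S G a b ω₀))) := by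
    refine le_trans ?_ s3'
    refine le_of_mul_le_mul_left ?_ z3
    calc S.Z ((lseH3 S K G a b).Holds S) * (c * S.Z ((lseH2 S K G a b ω₀).Holds S))
        = (c * S.Z ((lseH3 S K G a b).Holds S)) * S.Z ((lseH2 S K G a b ω₀).Holds S) := by ring
      _ ≤ S.N ((lseH3 S K G a b).Holds S) (lenInd fun ω => G.Vp (lenNp S ω) a b) * S.Z ((lseH2 S K G a b ω₀).Holds S) :=
          mul_le_mul_of_nonneg_right hL z2.le
      _ ≤ _ := s3
  -- (2)
  obtain ⟨e1, e2, e3⟩ := lse_same (ω₀ := ω₀) hG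
  have s2 := lse_ports S hS h3 _ _ l2 l1 _ _ _ _ (lse_split2 (ω₀ := ω₀) hS hG) (lse_split1 (ω₀ := ω₀) hS hG) e1 e2 e3
    (lenInd (LseFM S G a b (lseM S G a b ω₀))) (len_ind_nonneg _) (by
      intro ω ω' _ h
      by_cases h' : LseFM S G a b (lseM S G a b ω₀) ω
      · rw [len_ind_pos h', len_ind_pos ((lse_ev_loc _ h).1 h')]
      · rw [len_ind_neg h', len_ind_neg fun h'' => h' ((lse_ev_loc _ h).2 h'')])
  have n1 : 0 ≤ S.N ((lseH1 S K G a b ω₀).Holds S) (lenInd (LseFM S G a b (lseM S G a b ω₀))) :=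
    dis_N_nonneg S hS _ (len_ind_nonneg _)
  have hp : (2 : ℝ) ^ (((lseP S K G a b ω₀).card - 1) + ((lseP S K G a b ω₀).card - 1)) ≤ 64 := by
    have h4 := hP ω₀ hω₀ hK₀ hHp
    calc (2 : ℝ) ^ (((lseP S K G a b ω₀).card - 1) + ((lseP S K G a b ω₀).card - 1)) ≤ 2 ^ 6 :=
          pow_le_pow_right₀ (by norm_num) (by omega)
      _ = 64 := by norm_num
  have t1 : c * S.Z ((lseH1 S K G a b ω₀).Holds S) ≤ 64 * S.N ((lseH1 S K G a b ω₀).Holds S) (lenInd (LseFM S G a b (lseM S G a b ω₀))) := by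
    refine le_of_mul_le_mul_left ?_ z2
    calc S.Z ((lseH2 S K G a b ω₀).Holds S) * (c * S.Z ((lseH1 S K G a b ω₀).Holds S))
        = (c * S.Z ((lseH2 S K G a b ω₀).Holds S)) * S.Z ((lseH1 S K G a b ω₀).Holds S) := by ring
      _ ≤ S.N ((lseH2 S K G a b ω₀).Holds S) (lenInd (LseFM S G a b (lseM S G a b ω₀))) * S.Z ((lseH1 S K G a b ω₀).Holds S) :=
          mul_le_mul_of_nonneg_right t2 z1.le
      _ ≤ _ := s2
      _ ≤ 64 * (S.Z ((lseH2 S K G a b ω₀).Holds S) * S.N ((lseH1 S K G a b ω₀).Holds S) (lenInd (LseFM S G a b (lseM S G a b ω₀)))) :=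
          mul_le_mul_of_nonneg_right hp (mul_nonneg z2.le n1)
      _ = _ := by ring
  -- (1)
  have s1 := hO _ _ l1 l0 (Finset.subset_union_left.trans Finset.subset_union_left) (Finset.subset_union_left.trans Finset.subset_union_left)
    Finset.subset_union_left Finset.subset_union_left (lse_le1 (S := S) (K := K) (G := G) (a := a) (b := b) (ω₀ := ω₀)) _ mM
  have t0 : c * S.Z ((lenRec S K G a b ω₀).Holds S) ≤ 64 * S.N ((lenRec S K G a b ω₀).Holds S) (lenInd (LseFM S G a b (lseM S G a b ω₀))) := by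
    refine le_of_mul_le_mul_left ?_ z1
    calc S.Z ((lseH1 S K G a b ω₀).Holds S) * (c * S.Z ((lenRec S K G a b ω₀).Holds S))
        = (c * S.Z ((lseH1 S K G a b ω₀).Holds S)) * S.Z ((lenRec S K G a b ω₀).Holds S) := by ring
      _ ≤ (64 * S.N ((lseH1 S K G a b ω₀).Holds S) (lenInd (LseFM S G a b (lseM S G a b ω₀)))) * S.Z ((lenRec S K G a b ω₀).Holds S) :=
          mul_le_mul_of_nonneg_right t1 hZ.le
      _ = 64 * (S.N ((lseH1 S K G a b ω₀).Holds S) (lenInd (LseFM S G a b (lseM S G a b ω₀))) * S.Z ((lenRec S K G a b ω₀).Holds S)) := by ring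
      _ ≤ 64 * (S.Z ((lseH1 S K G a b ω₀).Holds S) * S.N ((lenRec S K G a b ω₀).Holds S) (lenInd (LseFM S G a b (lseM S G a b ω₀)))) :=
          mul_le_mul_of_nonneg_left s1 (by norm_num)
      _ = _ := by ring
  have s0 : S.N ((lenRec S K G a b ω₀).Holds S) (lenInd (LseFM S G a b (lseM S G a b ω₀)))
      ≤ S.N ((lenRec S K G a b ω₀).Holds S) (lenInd fun ω => G.Vp (fun y => lenNp S ω y ∧ ¬ G.D (lenNp S ω₀) a b y) a b) := by
    refine dis_N_mono S hS _ fun ω _ hω => ?_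
    by_cases h : LseFM S G a b (lseM S G a b ω₀) ω
    · rw [len_ind_pos h, len_ind_pos (L := fun ω => G.Vp (fun y => lenNp S ω y ∧ ¬ G.D (lenNp S ω₀) a b y) a b) (lse_ev_h hG hω h)]
    · rw [len_ind_neg h]; exact len_ind_nonneg _ _
  have : c * S.Z ((lenRec S K G a b ω₀).Holds S)
      ≤ 64 * S.N ((lenRec S K G a b ω₀).Holds S) (lenInd fun ω => G.Vp (fun y => lenNp S ω y ∧ ¬ G.D (lenNp S ω₀) a b y) a b) :=
    t0.trans (mul_le_mul_of_nonneg_left s0 (by norm_num))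
  linarith

end abstract

end Claimed.Agent.R291
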