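import Claimed.Agent.R291.Defs.RswStrip
import Claimed.Agent.R291.Glue.Enter

/-!
# Row 291 (S0539), unit ANN, block A3-II (E), Ann/RswEnt : THE ENTRANCE UNDER THE RECORD OF THE TWO EXPLORATIONS      (owner helper164; prefix `rse_`, defs `Rse…` / `rse…`)

TEX[annulus:RSW] TEX[annulus:ports]
-/

set_option autoImplicit false
set_option linter.unusedSectionVars false
set_option linter.unusedVariables false

namespace Claimed.Agent.R291

open Relation Claims.C0467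

/-! ### 1. the junction cells, at the level of the indices -/

section idx

variable {y0 y1 xm xM : ℤ} {a c : Set (ℤ × ℤ)} {pa qa pc qc : ℤ × ℤ}

/-- a JUNCTION cell: neither free nor on a crossing; touches a free cell and a cell of a solid side -/
def RsePort (y0 y1 xm xM : ℤ) (a c : Set (ℤ × ℤ)) (y : ℤ × ℤ) : Prop :=
  y ∉ hxrQ y0 y1 xm xM a c ∧ y ∉ a ∧ y ∉ c ∧ (∃ f ∈ hxrQ y0 y1 xm xM a c, f = y ∨ triAdj f y) ∧
    ∃ z, (z ∈ hxrAA y0 y1 xM a ∨ z ∈ hxrCC y0 y1 xm c) ∧ (z = y ∨ triAdj z y)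

theorem rse_eqns_cite : True := by
  have := @RsePort.eq_1
  trivial

/-- a cell of the band next to a free cell is free or lies on a crossing -/
theorem rse_nbr (H : HxrPair y0 y1 xm xM a c pa qa pc qc) {f y : ℤ × ℤ} (hf : f ∈ hxrQ y0 y1 xm xM a c) (hy : y ∈ plsBand y0 y1)
    (h : triAdj f y) : y ∈ hxrQ y0 y1 xm xM a c ∨ y ∈ a ∨ y ∈ c := by
  by_cases hA : y ∈ hxrAA y0 y1 xM a
  · exact Or.inr (Or.inl (hxr_AA_bd H.A hf.1 (fun h' => hf.2 (Or.inl h')) hA h))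
  · by_cases hC : y ∈ hxrCC y0 y1 xm c
    · exact Or.inr (Or.inr (hxr_CC_bd H.C hf.1 (fun h' => hf.2 (Or.inr h')) hC h))
    · exact Or.inl ⟨hy, fun h' => h'.elim hA hC⟩

/-- a cell of a solid side next to a free cell lies on the crossing -/
theorem rse_nbr2 (H : HxrPair y0 y1 xm xM a c pa qa pc qc) {f z : ℤ × ℤ} (hf : f ∈ hxrQ y0 y1 xm xM a c)
    (hz : z ∈ hxrAA y0 y1 xM a ∨ z ∈ hxrCC y0 y1 xm c) (h : triAdj f z) : z ∈ a ∨ z ∈ c := by
  rcases hz with h' | h'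
  · exact Or.inl (hxr_AA_bd H.A hf.1 (fun h0 => hf.2 (Or.inl h0)) h' h)
  · exact Or.inr (hxr_CC_bd H.C hf.1 (fun h0 => hf.2 (Or.inr h0)) h' h)

theorem rse_top_a (H : HxrPair y0 y1 xm xM a c pa qa pc qc) {z f : ℤ × ℤ} (hz : z ∈ a) (hz1 : z.2 = y1) (hf1 : f.2 = y1) (hx : f.1 ≤ z.1) :
    f ∉ hxrQ y0 y1 xm xM a c := fun hf =>
  hf.2 (Or.inl (hxr_AA_top (q := z) ⟨H.A.sub, H.A.conn, H.A.box, H.A.pa, hz, H.A.p0, hz1⟩ hf1 hx))

theorem rse_bot_a (H : HxrPair y0 y1 xm xM a c pa qa pc qc) {z f : ℤ × ℤ} (hz : z ∈ a) (hz1 : z.2 = y0) (hf1 : f.2 = y0) (hx : f.1 ≤ z.1) :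
    f ∉ hxrQ y0 y1 xm xM a c := fun hf =>
  hf.2 (Or.inl (hxr_AA_bot (p := z) ⟨H.A.sub, H.A.conn, H.A.box, hz, H.A.qa, hz1, H.A.q1⟩ hf1 hx))

theorem rse_top_c (H : HxrPair y0 y1 xm xM a c pa qa pc qc) {z f : ℤ × ℤ} (hz : z ∈ c) (hz1 : z.2 = y1) (hf1 : f.2 = y1) (hx : z.1 ≤ f.1) :
    f ∉ hxrQ y0 y1 xm xM a c := fun hf =>
  hf.2 (Or.inr (hxr_CC_top (q := z) ⟨H.C.sub, H.C.conn, H.C.box, H.C.pa, hz, H.C.p0, hz1⟩ hf1 hx))

theorem rse_bot_c (H : HxrPair y0 y1 xm xM a c pa qa pc qc) {z f : ℤ × ℤ} (hz : z ∈ c) (hz1 : z.2 = y0) (hf1 : f.2 = y0) (hx : z.1 ≤ f.1) :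
    f ∉ hxrQ y0 y1 xm xM a c := fun hf =>
  hf.2 (Or.inr (hxr_CC_bot (p := z) ⟨H.C.sub, H.C.conn, H.C.box, hz, H.C.qa, hz1, H.C.q1⟩ hf1 hx))

/-- the four kinds of junction cells -/
theorem rse_port_kind (H : HxrPair y0 y1 xm xM a c pa qa pc qc) {y : ℤ × ℤ} (hy : RsePort y0 y1 xm xM a c y) :
    (y.2 = y1 + 1 ∧ (y.1, y1) ∈ a ∧ (y.1 + 1, y1) ∈ hxrQ y0 y1 xm xM a c) ∨
    (y.2 = y1 + 1 ∧ (y.1 + 1, y1) ∈ c ∧ (y.1, y1) ∈ hxrQ y0 y1 xm xM a c) ∨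
    (y.2 = y0 - 1 ∧ (y.1 - 1, y0) ∈ a ∧ (y.1, y0) ∈ hxrQ y0 y1 xm xM a c) ∨
    (y.2 = y0 - 1 ∧ (y.1, y0) ∈ c ∧ (y.1 - 1, y0) ∈ hxrQ y0 y1 xm xM a c) := by
  obtain ⟨h1, h2, h3, ⟨f, hf, hfy⟩, z, hz, hzy⟩ := hy
  have hfy' : triAdj f y := by
    rcases hfy with rfl | h
    · exact absurd hf h1
    · exact h
  have hyB : y ∉ plsBand y0 y1 := by
    intro hB
    rcases rse_nbr H hf hB hfy' with h | h | h
    · exact h1 h
    · exact h2 h
    · exact h3 h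
  have hzB : y0 ≤ z.2 ∧ z.2 ≤ y1 := by
    rcases hz with h | h
    · exact h.1
    · exact h.1
  have hzy' : triAdj z y := by
    rcases hzy with rfl | h
    · exact absurd hzB hyB
    · exact h
  have hfB : y0 ≤ f.2 ∧ f.2 ≤ y1 := hf.1
  have hyB' : ¬ (y0 ≤ y.2 ∧ y.2 ≤ y1) := hyB
  have hzf : z ≠ f := by
    rintro rfl
    exact hf.2 hz
  rw [tsc_adj_iff] at hfy' hzy'
  obtain ⟨f1, f2⟩ := f
  obtain ⟨z1, z2⟩ := z
  obtain ⟨u, v⟩ := y
  simp only [ne_eq, Prod.mk.injEq] at *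
  by_cases hv : v = y1 + 1
  · have ef : f2 = y1 := by omega
    have ez : z2 = y1 := by omega
    subst ef ez
    by_cases hc : z1 = u
    · have e2 : f1 = u + 1 := by omega
      subst hc e2
      left
      refine ⟨hv, ?_, hf⟩
      rcases rse_nbr2 H hf hz ((tsc_adj_iff _ _).2 (by dsimp only; omega)) with h | h
      · exact h
      · exact absurd hf (rse_top_c H h rfl rfl (by dsimp only; omega))
    · have e1 : z1 = u + 1 := by omega
      have e2 : f1 = u := by omega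
      subst e1 e2
      right; left
      refine ⟨hv, ?_, hf⟩
      rcases rse_nbr2 H hf hz ((tsc_adj_iff _ _).2 (by dsimp only; omega)) with h | h
      · exact absurd hf (rse_top_a H h rfl rfl (by dsimp only; omega))
      · exact h
  · have hv' : v = y0 - 1 := by omega
    have ef : f2 = y0 := by omega
    have ez : z2 = y0 := by omega
    subst ef ez
    by_cases hc : z1 = u
    · have e2 : f1 = u - 1 := by omega
      subst hc e2
      right; right; right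
      refine ⟨hv', ?_, hf⟩
      rcases rse_nbr2 H hf hz ((tsc_adj_iff _ _).2 (by dsimp only; omega)) with h | h
      · exact absurd hf (rse_bot_a H h rfl rfl (by dsimp only; omega))
      · exact h
    · have e1 : z1 = u - 1 := by omega
      have e2 : f1 = u := by omega
      subst e1 e2
      right; right; left
      refine ⟨hv', ?_, hf⟩
      rcases rse_nbr2 H hf hz ((tsc_adj_iff _ _).2 (by dsimp only; omega)) with h | h
      · exact h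
      · exact absurd hf (rse_bot_c H h rfl rfl (by dsimp only; omega))

/-- **there are at most four junction cells** -/
theorem rse_port_four (H : HxrPair y0 y1 xm xM a c pa qa pc qc) :
    ∃ t1 t2 t3 t4 : ℤ × ℤ, ∀ y, RsePort y0 y1 xm xM a c y → y = t1 ∨ y = t2 ∨ y = t3 ∨ y = t4 := by
  classical
  have pick : ∀ P : ℤ × ℤ → Prop, (∀ y y', P y → P y' → y = y') → ∃ t, ∀ y, P y → y = t := by
    intro P hP
    by_cases hex : ∃ t, P t
    · obtain ⟨t, ht⟩ := hex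
      exact ⟨t, fun y hy => hP y t hy ht⟩
    · exact ⟨(0, 0), fun y hy => absurd ⟨y, hy⟩ hex⟩
  obtain ⟨t1, ht1⟩ := pick (fun y => y.2 = y1 + 1 ∧ (y.1, y1) ∈ a ∧ (y.1 + 1, y1) ∈ hxrQ y0 y1 xm xM a c) (by
    rintro ⟨u, v⟩ ⟨u', v'⟩ ⟨h1, h2, h3⟩ ⟨h1', h2', h3'⟩
    dsimp only at *
    have g1 : ¬ u + 1 ≤ u' := fun hle => rse_top_a H h2' rfl rfl hle h3
    have g2 : ¬ u' + 1 ≤ u := fun hle => rse_top_a H h2 rfl rfl hle h3'
    rw [Prod.mk.injEq]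
    omega)
  obtain ⟨t2, ht2⟩ := pick (fun y => y.2 = y1 + 1 ∧ (y.1 + 1, y1) ∈ c ∧ (y.1, y1) ∈ hxrQ y0 y1 xm xM a c) (by
    rintro ⟨u, v⟩ ⟨u', v'⟩ ⟨h1, h2, h3⟩ ⟨h1', h2', h3'⟩
    dsimp only at *
    have g1 : ¬ u' + 1 ≤ u := fun hle => rse_top_c H h2' rfl rfl hle h3
    have g2 : ¬ u + 1 ≤ u' := fun hle => rse_top_c H h2 rfl rfl hle h3'
    rw [Prod.mk.injEq]
    omega)
  obtain ⟨t3, ht3⟩ := pick (fun y => y.2 = y0 - 1 ∧ (y.1 - 1, y0) ∈ a ∧ (y.1, y0) ∈ hxrQ y0 y1 xm xM a c) (by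
    rintro ⟨u, v⟩ ⟨u', v'⟩ ⟨h1, h2, h3⟩ ⟨h1', h2', h3'⟩
    dsimp only at *
    have g1 : ¬ u ≤ u' - 1 := fun hle => rse_bot_a H h2' rfl rfl hle h3
    have g2 : ¬ u' ≤ u - 1 := fun hle => rse_bot_a H h2 rfl rfl hle h3'
    rw [Prod.mk.injEq]
    omega)
  obtain ⟨t4, ht4⟩ := pick (fun y => y.2 = y0 - 1 ∧ (y.1, y0) ∈ c ∧ (y.1 - 1, y0) ∈ hxrQ y0 y1 xm xM a c) (by
    rintro ⟨u, v⟩ ⟨u', v'⟩ ⟨h1, h2, h3⟩ ⟨h1', h2', h3'⟩
    dsimp only at *
    have g1 : ¬ u' ≤ u - 1 := fun hle => rse_bot_c H h2' rfl rfl hle h3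
    have g2 : ¬ u ≤ u' - 1 := fun hle => rse_bot_c H h2 rfl rfl hle h3'
    rw [Prod.mk.injEq]
    omega)
  refine ⟨t1, t2, t3, t4, fun y hy => ?_⟩
  rcases rse_port_kind H hy with h | h | h | h
  · exact Or.inl (ht1 y h)
  · exact Or.inr (Or.inl (ht2 y h))
  · exact Or.inr (Or.inr (Or.inl (ht3 y h)))
  · exact Or.inr (Or.inr (Or.inr (ht4 y h)))

end idx

/-! ### 2. cells and sites of the planar lattice, both classes -/

theorem rse_share {T : Bool} {f y v : TV} (h1 : v ∈ rsgCs T f) (h2 : v ∈ rsgCs T y) : y = f ∨ triAdj f y := by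
  rw [rsg_mem_cs] at h1 h2
  rw [tsc_adj_iff, Prod.ext_iff]
  cases T
  · simp only [Bool.false_eq_true, false_and, true_and, false_or] at h1 h2
    omega
  · simp only [Bool.true_eq_false, false_and, true_and, or_false] at h1 h2
    omega

theorem rse_cs_rows {T : Bool} {z v : TV} (h : v ∈ rsgCs T z) : z.2 ≤ v.2 ∧ v.2 ≤ z.2 + 1 ∧ z.1 ≤ v.1 ∧ v.1 ≤ z.1 + 1 := by
  rw [rsg_mem_cs] at h
  omega

theorem rse_cs_card (T : Bool) (z : TV) : (rsgCs T z).card = 3 := by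
  obtain ⟨i, j⟩ := z
  cases T
  · simp only [rsgCs, cellD, Bool.false_eq_true, if_false]
    rw [Finset.card_eq_three]
    exact ⟨_, _, _, by simp, by simp, by simp, rfl⟩
  · simp only [rsgCs, cellV, if_true]
    rw [Finset.card_eq_three]
    exact ⟨_, _, _, by simp, by simp, by simp, rfl⟩

theorem rse_mem_cells {T : Bool} {Q : Finset TV} {y : TV} : y ∈ rsgCells T Q ↔ ∃ u ∈ rsgCs T y, u ∈ Q := by
  cases T
  · simp only [rsgCells, rsgCs, cellD, Bool.false_eq_true, if_false, Finset.mem_union, Finset.mem_image, Finset.mem_insert,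
      Finset.mem_singleton, exists_eq_or_imp, exists_eq_left]
    constructor
    · rintro ((⟨u, hu, rfl⟩ | ⟨u, hu, rfl⟩) | ⟨u, hu, rfl⟩)
      · left; simpa using hu
      · right; left; simpa using hu
      · right; right; simpa using hu
    · rintro (h | h | h)
      · exact Or.inl (Or.inl ⟨_, h, by simp⟩)
      · exact Or.inl (Or.inr ⟨_, h, by simp⟩)
      · exact Or.inr ⟨_, h, by simp⟩
  · exact lat_mem_cells

/-- a cell of an outer row has at most two sites on the site rows of the band -/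
theorem rse_out_card (T : Bool) {y0 y1 : ℤ} {y : TV} (hy : y.2 = y1 + 1 ∨ y.2 = y0 - 1) :
    ((rsgCs T y).filter (fun v => y0 ≤ v.2 ∧ v.2 ≤ y1 + 1)).card ≤ 2 := by
  have key : ∃ w ∈ rsgCs T y, ¬ (y0 ≤ w.2 ∧ w.2 ≤ y1 + 1) := by
    rcases hy with hy | hy
    · refine ⟨(y.1, y.2 + 1), rsg_mem_cs.2 ?_, by dsimp only; omega⟩
      cases T <;> simp
    · cases T
      · exact ⟨(y.1 + 1, y.2), rsg_mem_cs.2 (by simp), by dsimp only; omega⟩
      · exact ⟨(y.1, y.2), rsg_mem_cs.2 (by simp), by dsimp only; omega⟩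
  obtain ⟨w, hw, hw'⟩ := key
  have hsub : (rsgCs T y).filter (fun v => y0 ≤ v.2 ∧ v.2 ≤ y1 + 1) ⊆ (rsgCs T y).erase w := by
    intro v hv
    obtain ⟨a1, a2⟩ := Finset.mem_filter.1 hv
    exact Finset.mem_erase.2 ⟨fun e => hw' (e ▸ a2), a1⟩
  refine (Finset.card_le_card hsub).trans ?_
  rw [Finset.card_erase_of_mem hw, rse_cs_card]

/-- **the sites of the junction cells**: at most eight -/
theorem rse_port_sites {y0 y1 xm xM : ℤ} {a c : Set TV} {pa qa pc qc : TV} (H : HxrPair y0 y1 xm xM a c pa qa pc qc) (T : Bool) :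
    ∃ P : Finset TV, P.card ≤ 8 ∧ ∀ y, RsePort y0 y1 xm xM a c y → ∀ v ∈ rsgCs T y, y0 ≤ v.2 → v.2 ≤ y1 + 1 → v ∈ P := by
  classical
  obtain ⟨t1, t2, t3, t4, ht⟩ := rse_port_four H
  refine ⟨(({t1, t2, t3, t4} : Finset TV).filter (RsePort y0 y1 xm xM a c)).biUnion
    (fun y => (rsgCs T y).filter (fun v => y0 ≤ v.2 ∧ v.2 ≤ y1 + 1)), ?_, ?_⟩
  · refine (Finset.card_biUnion_le_card_mul _ _ 2 fun y hy => ?_).trans ?_
    · have hp := (Finset.mem_filter.1 hy).2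
      refine rse_out_card T ?_
      rcases rse_port_kind H hp with h | h | h | h
      · exact Or.inl h.1
      · exact Or.inl h.1
      · exact Or.inr h.1
      · exact Or.inr h.1
    · have h4 : (({t1, t2, t3, t4} : Finset TV).filter (RsePort y0 y1 xm xM a c)).card ≤ 4 :=
        (Finset.card_filter_le _ _).trans Finset.card_le_four
      omega
  · intro y hy v hv h1 h2
    refine Finset.mem_biUnion.2 ⟨y, Finset.mem_filter.2 ⟨?_, hy⟩, Finset.mem_filter.2 ⟨hv, h1, h2⟩⟩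
    simp only [Finset.mem_insert, Finset.mem_singleton]
    exact ht y hy

/-! ### 3. the entrance data: any ambient which is planar near the box, any record which knows nothing of the free cells -/

/-- **what the ambient and the record must satisfy** (geometry and bookkeeping only; producer for `rscAmb` + `rsrRec`: `rsg_amb`, `Ann/RswGlue`) -/
structure RseAmb (x : ℝ) (Tm : ClSys TV TV) (h : ClCon TV TV) (D : RsgDat) : Prop where
  sub : ∀ y ∈ Tm.C, Tm.sv y ⊆ Tm.A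
  /-- the chart: near the box the ambient is the planar lattice of class `D.T` -/
  chart : ∀ z ∈ rswRect (D.xm - 4) (D.xM + 4) (D.y0 - 2) (D.y1 + 2), z ∈ Tm.C ∧ Tm.sv z = rsgCs D.T z ∧ Tm.q z = x ^ 2
  nb : ∀ z ∈ rswRect D.xm D.xM D.y0 D.y1, ∀ y ∈ Tm.C, ∀ v ∈ rsgCs D.T z, v ∈ Tm.sv y → y = z ∨ tscG.Adj z y
  /-- the record -/
  eq : h.Eq = ∅
  opS : ∀ y ∈ h.Op, Tm.sv y ⊆ h.Bp
  layer : ∀ z, z ∈ D.a ∨ z ∈ D.c → z ∈ h.Op
  obs : ∀ y, y ∈ h.Op ∨ y ∈ h.Om ∨ y ∈ h.Cl → y ∉ hxrQ D.y0 D.y1 D.xm D.xM D.a D.c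
  /-- a pinned site near the band is a site of a cell of the box which lies in a solid side (a cell looked at) -/
  pin : ∀ v, v ∈ h.Bp ∨ v ∈ h.Bm → D.y0 - 1 ≤ v.2 → v.2 ≤ D.y1 + 2 →
    ∃ y ∈ rswRect D.xm D.xM D.y0 D.y1, v ∈ rsgCs D.T y ∧ (y ∈ hxrAA D.y0 D.y1 D.xM D.a ∨ y ∈ hxrCC D.y0 D.y1 D.xm D.c)

section amb

variable {x : ℝ} {Tm : ClSys TV TV} {h : ClCon TV TV} {D : RsgDat} {pa qa pc qc : TV}

theorem rse_mem_M (H : HxrPair D.y0 D.y1 D.xm D.xM D.a D.c pa qa pc qc) {z : TV} :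
    z ∈ rsgM D ↔ z ∈ hxrQ D.y0 D.y1 D.xm D.xM D.a D.c := by
  classical
  unfold rsgM
  rw [Finset.mem_filter]
  refine ⟨fun h => h.2, fun h => ⟨rsg_box_mem ?_, h⟩⟩
  have h1 := hxr_Q_box H z h
  exact ⟨h1.1, h1.2, h.1.1, h.1.2⟩

theorem rse_mem_Q {v : TV} : v ∈ rsgQ D ↔ ∃ f ∈ rsgM D, v ∈ rsgCs D.T f := by
  unfold rsgQ
  exact Finset.mem_biUnion

theorem rse_Q_box (H : HxrPair D.y0 D.y1 D.xm D.xM D.a D.c pa qa pc qc) {f : TV} (hf : f ∈ hxrQ D.y0 D.y1 D.xm D.xM D.a D.c) :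
    f ∈ rswRect D.xm D.xM D.y0 D.y1 := by
  have h1 := hxr_Q_box H f hf
  exact ⟨h1.1, h1.2, hf.1.1, hf.1.2⟩

theorem rse_big {A B c d : ℤ} {z y : TV} (hz : z ∈ rswRect A B c d) (h : y = z ∨ triAdj z y) : y ∈ rswRect (A - 4) (B + 4) (c - 2) (d + 2) := by
  obtain ⟨h1, h2, h3, h4⟩ := hz
  unfold rswX at h1 h2
  rcases h with rfl | h
  · exact ⟨by unfold rswX; omega, by unfold rswX; omega, by omega, by omega⟩
  · rw [tsc_adj_iff] at h
    exact ⟨by unfold rswX; omega, by unfold rswX; omega, by omega, by omega⟩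

/-- a site of a free cell which lies in a non free cell is on one of the four sides -/
theorem rse_side (H : HxrPair D.y0 D.y1 D.xm D.xM D.a D.c pa qa pc qc) {f y v : TV} (hf : f ∈ hxrQ D.y0 D.y1 D.xm D.xM D.a D.c)
    (hy : y ∉ hxrQ D.y0 D.y1 D.xm D.xM D.a D.c) (h1 : v ∈ rsgCs D.T f) (h2 : v ∈ rsgCs D.T y) :
    v ∈ rsgLa D ∪ rsgLc D ∪ rsgLd D ∪ rsgLb D := by
  classical
  have hQ : v ∈ rsgQ D := rse_mem_Q.2 ⟨f, (rse_mem_M H).2 hf, h1⟩
  simp only [Finset.mem_union, rsgLa, rsgLc, rsgLd, rsgLb, rsgSide, Finset.mem_filter]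
  rcases rse_share h1 h2 with rfl | hadj
  · exact absurd hf hy
  by_cases hB : y ∈ plsBand D.y0 D.y1
  · rcases rse_nbr H hf hB hadj with h | h | h
    · exact absurd h hy
    · exact Or.inl (Or.inl (Or.inl ⟨hQ, y, h, h2⟩))
    · exact Or.inl (Or.inl (Or.inr ⟨hQ, y, h, h2⟩))
  · have hB' : ¬ (D.y0 ≤ y.2 ∧ y.2 ≤ D.y1) := hB
    have hfB : D.y0 ≤ f.2 ∧ f.2 ≤ D.y1 := hf.1
    have r1 := rse_cs_rows h1
    have r2 := rse_cs_rows h2
    rw [tsc_adj_iff] at hadj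
    by_cases ht : y.2 = D.y1 + 1
    · exact Or.inr ⟨hQ, by omega⟩
    · exact Or.inl (Or.inr ⟨hQ, by omega⟩)

/-- a cell of the ambient which contains a site of the strip is a planar cell next to a free cell -/
theorem rse_cell (R : RseAmb x Tm h D) (H : HxrPair D.y0 D.y1 D.xm D.xM D.a D.c pa qa pc qc) {y v : TV} (hy : y ∈ Tm.C) (hv : v ∈ Tm.sv y)
    (hQ : v ∈ rsgQ D) : ∃ f ∈ hxrQ D.y0 D.y1 D.xm D.xM D.a D.c, v ∈ rsgCs D.T f ∧ (y = f ∨ triAdj f y) ∧ Tm.sv y = rsgCs D.T y := by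
  obtain ⟨f, hfM, hvf⟩ := rse_mem_Q.1 hQ
  have hf := (rse_mem_M H).1 hfM
  have hfB := rse_Q_box H hf
  have hadj := R.nb f hfB y hy v hvf hv
  exact ⟨f, hf, hvf, hadj, (R.chart y (rse_big hfB hadj)).2.1⟩

theorem rse_okS (hx0 : 0 < x) (hx1 : x ≤ 1) (D : RsgDat) : ClOk (rsgS x D) where
  sub := fun y _ => Finset.inter_subset_right
  ne := fun y hy => by
    obtain ⟨u, h1, h2⟩ := rse_mem_cells.1 hy
    exact ⟨u, Finset.mem_inter.2 ⟨h1, h2⟩⟩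
  q0 := by
    intro y _
    show 0 < if (rsgCs D.T y ∩ rsgQ D).card = 3 then x ^ 2 else x
    split_ifs <;> positivity
  q1 := by
    intro y _
    show (if (rsgCs D.T y ∩ rsgQ D).card = 3 then x ^ 2 else x) ≤ 1
    split_ifs
    · exact pow_le_one₀ hx0.le hx1
    · exact hx1

/-- **(LAY)** the layer of the strip = the four sides -/
theorem rse_lay (R : RseAmb x Tm h D) (H : HxrPair D.y0 D.y1 D.xm D.xM D.a D.c pa qa pc qc) :
    entLay Tm (rsgQ D) (rsgM D) = rsgLa D ∪ rsgLc D ∪ rsgLd D ∪ rsgLb D := by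
  classical
  ext v
  rw [ent_mem_lay]
  constructor
  · rintro ⟨hQ, y, hy, hvy⟩
    obtain ⟨hyC, hyM⟩ := Finset.mem_sdiff.1 hy
    obtain ⟨f, hf, hvf, _, hsv⟩ := rse_cell R H hyC hvy hQ
    exact rse_side H hf (fun h' => hyM ((rse_mem_M H).2 h')) hvf (hsv ▸ hvy)
  · intro hv
    simp only [Finset.mem_union, rsgLa, rsgLc, rsgLd, rsgLb, rsgSide, Finset.mem_filter] at hv
    have hQ : v ∈ rsgQ D := by tauto
    refine ⟨hQ, ?_⟩
    obtain ⟨f, hfM, hvf⟩ := rse_mem_Q.1 hQ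
    have hfB := rse_Q_box H ((rse_mem_M H).1 hfM)
    have key : ∃ z, z ∉ hxrQ D.y0 D.y1 D.xm D.xM D.a D.c ∧ v ∈ rsgCs D.T z := by
      rcases hv with ((⟨_, z, hz, hvz⟩ | ⟨_, z, hz, hvz⟩) | ⟨_, h0⟩) | ⟨_, h1⟩
      · exact ⟨z, fun h' => h'.2 (Or.inl (hxr_a_sub_AA H.A hz)), hvz⟩
      · exact ⟨z, fun h' => h'.2 (Or.inr (hxr_c_sub_CC H.C hz)), hvz⟩
      · refine ⟨(v.1, v.2 - 1), fun h' => ?_, rsg_mem_cs.2 ?_⟩
        · have := h'.1.1
          dsimp only at this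
          omega
        · rcases Bool.eq_false_or_eq_true D.T with hT | hT <;> simp [hT]
      · rcases Bool.eq_false_or_eq_true D.T with hT | hT
        · refine ⟨(v.1, v.2), fun h' => ?_, rsg_mem_cs.2 (by simp [hT])⟩
          have := h'.1.2
          dsimp only at this
          omega
        · refine ⟨(v.1 - 1, v.2), fun h' => ?_, rsg_mem_cs.2 (by simp [hT])⟩
          have := h'.1.2
          dsimp only at this
          omega
    obtain ⟨z, hz, hvz⟩ := key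
    obtain ⟨c1, c2, _⟩ := R.chart z (rse_big hfB (rse_share hvf hvz))
    exact ⟨z, Finset.mem_sdiff.2 ⟨c1, fun h' => hz ((rse_mem_M H).1 h')⟩, c2 ▸ hvz⟩

/-- **(E) the entrance data** -/
theorem rse_geo (hx0 : 0 < x) (hx1 : x ≤ 1) (R : RseAmb x Tm h D) (H : HxrPair D.y0 D.y1 D.xm D.xM D.a D.c pa qa pc qc)
    (okT : ClOk Tm) (legal : ClLegal Tm h) (feas : 0 < Tm.Z (h.Holds Tm)) :
    EntGeo Tm (rsgS x D) h (rsgQ D) (rsgM D) (rsgCb D) (rsgLa D) (rsgLc D) (rsgLd D) (rsgLb D) h.Bp h.Op := by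
  classical
  have hch : ∀ f ∈ rsgM D, f ∈ Tm.C ∧ Tm.sv f = rsgCs D.T f ∧ Tm.q f = x ^ 2 := fun f hf =>
    R.chart f (rse_big (rse_Q_box H ((rse_mem_M H).1 hf)) (Or.inl rfl))
  have hcsQ : ∀ f ∈ rsgM D, rsgCs D.T f ⊆ rsgQ D := fun f hf v hv => rse_mem_Q.2 ⟨f, hf, hv⟩
  have hbox : ∀ z, z ∈ D.a ∨ z ∈ D.c → z ∈ rswRect D.xm D.xM D.y0 D.y1 := by
    rintro z (hz | hz)
    · exact ⟨(H.A.box z hz).1, (H.A.box z hz).2, (H.A.sub hz).1, (H.A.sub hz).2⟩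
    · exact ⟨(H.C.box z hz).1, (H.C.box z hz).2, (H.C.sub hz).1, (H.C.sub hz).2⟩
  have hplus : ∀ z, z ∈ D.a ∨ z ∈ D.c → ∀ v ∈ rsgCs D.T z, v ∈ h.Bp := by
    intro z hz v hv
    refine R.opS z (R.layer z hz) ?_
    rw [(R.chart z (rse_big (hbox z hz) (Or.inl rfl))).2.1]
    exact hv
  have hpin : ∀ v, v ∈ h.Bp ∨ v ∈ h.Bm → v ∈ rsgQ D → ∃ f ∈ hxrQ D.y0 D.y1 D.xm D.xM D.a D.c, v ∈ rsgCs D.T f ∧
      ∃ y ∈ rswRect D.xm D.xM D.y0 D.y1, v ∈ rsgCs D.T y ∧ (y ∈ hxrAA D.y0 D.y1 D.xM D.a ∨ y ∈ hxrCC D.y0 D.y1 D.xm D.c) := by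
    intro v hv hQ
    obtain ⟨f, hfM, hvf⟩ := rse_mem_Q.1 hQ
    have hf := (rse_mem_M H).1 hfM
    have hfB : D.y0 ≤ f.2 ∧ f.2 ≤ D.y1 := hf.1
    have rows := rse_cs_rows hvf
    exact ⟨f, hf, hvf, R.pin v hv (by omega) (by omega)⟩
  exact {
    okT := okT
    okS := rse_okS hx0 hx1 D
    legal := legal
    feas := feas
    QA := by
      intro v hv
      obtain ⟨f, hfM, hvf⟩ := rse_mem_Q.1 hv
      obtain ⟨c1, c2, _⟩ := hch f hfM
      exact R.sub f c1 (c2 ▸ hvf)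
    SA := rfl
    YT := fun f hf => (hch f hf).1
    YS := by
      intro f hf
      obtain ⟨u, hu⟩ : (rsgCs D.T f).Nonempty := Finset.card_pos.1 (by rw [rse_cs_card]; norm_num)
      exact rse_mem_cells.2 ⟨u, hu, hcsQ f hf hu⟩
    cb := fun y hy hyM => Finset.mem_sdiff.2 ⟨hy, hyM⟩
    cbC := Finset.sdiff_subset
    cbY := fun y hy => (Finset.mem_sdiff.1 hy).2
    cellR := by
      intro f hf
      rw [(hch f hf).2.1]
      exact hcsQ f hf
    sv := by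
      intro f hf
      rw [(hch f hf).2.1]
      exact Finset.inter_eq_left.2 (hcsQ f hf)
    q := by
      intro f hf
      rw [(hch f hf).2.2]
      show (if (rsgCs D.T f ∩ rsgQ D).card = 3 then x ^ 2 else x) = x ^ 2
      rw [Finset.inter_eq_left.2 (hcsQ f hf), rse_cs_card, if_pos rfl]
    pl := subset_rfl
    rib := subset_rfl
    ribS := R.opS
    bm := by
      intro v hv hQ
      obtain ⟨f, hf, hvf, y, hyB, hvy, hyS⟩ := hpin v (Or.inr hv) hQ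
      obtain ⟨c1, c2, _⟩ := R.chart y (rse_big hyB (Or.inl rfl))
      exact ent_mem_lay.2 ⟨hQ, y, Finset.mem_sdiff.2 ⟨c1, fun h' => ((rse_mem_M H).1 h').2 hyS⟩, c2 ▸ hvy⟩
    obs := fun y hy => ⟨fun h' => R.obs y (Or.inl h') ((rse_mem_M H).1 hy), fun h' => R.obs y (Or.inr (Or.inl h')) ((rse_mem_M H).1 hy),
      fun h' => R.obs y (Or.inr (Or.inr h')) ((rse_mem_M H).1 hy)⟩
    eq := by
      intro e he
      rw [R.eq] at he
      exact absurd he (Finset.notMem_empty _)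
    plQ := by
      ext v
      simp only [Finset.mem_inter, Finset.mem_union]
      constructor
      · rintro ⟨hP, hQ⟩
        obtain ⟨f, hf, hvf, y, hyB, hvy, hyS⟩ := hpin v (Or.inl hP) hQ
        rcases rse_share hvf hvy with rfl | hadj
        · exact absurd hyS hf.2
        · rcases rse_nbr2 H hf hyS hadj with h' | h'
          · exact Or.inl (Finset.mem_filter.2 ⟨hQ, y, h', hvy⟩)
          · exact Or.inr (Finset.mem_filter.2 ⟨hQ, y, h', hvy⟩)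
      · rintro (hv | hv)
        · obtain ⟨hQ, z, hz, hvz⟩ := Finset.mem_filter.1 hv
          exact ⟨hplus z (Or.inl hz) v hvz, hQ⟩
        · obtain ⟨hQ, z, hz, hvz⟩ := Finset.mem_filter.1 hv
          exact ⟨hplus z (Or.inr hz) v hvz, hQ⟩
    lay := rse_lay R H
    cbL := by
      intro y hy v hv
      obtain ⟨_, hyM⟩ := Finset.mem_sdiff.1 hy
      obtain ⟨hvy, hQ⟩ := Finset.mem_inter.1 (show v ∈ rsgCs D.T y ∩ rsgQ D from hv)
      obtain ⟨f, hfM, hvf⟩ := rse_mem_Q.1 hQ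
      exact rse_side H ((rse_mem_M H).1 hfM) (fun h' => hyM ((rse_mem_M H).2 h')) hvf hvy }

/-- **(E1) the ports of the ambient** -/
theorem rse_P1 (R : RseAmb x Tm h D) (H : HxrPair D.y0 D.y1 D.xm D.xM D.a D.c pa qa pc qc) :
    (entP1 Tm h (rsgQ D) (rsgM D) h.Bp h.Op).card ≤ 8 := by
  classical
  obtain ⟨P, hP, hsub⟩ := rse_port_sites H D.T
  refine (Finset.card_le_card fun v hv => ?_).trans hP
  unfold entP1 at hv
  obtain ⟨y, hy, hvy⟩ := Finset.mem_biUnion.1 hv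
  obtain ⟨hy1, hyO, hyM'⟩ := Finset.mem_filter.1 hy
  obtain ⟨hyC, hyM⟩ := Finset.mem_sdiff.1 hy1
  obtain ⟨hvy1, hvQ⟩ := Finset.mem_inter.1 hvy
  obtain ⟨f, hf, hvf, hadj, hsv⟩ := rse_cell R H hyC hvy1 hvQ
  have hyQ : y ∉ hxrQ D.y0 D.y1 D.xm D.xM D.a D.c := fun h' => hyM ((rse_mem_M H).2 h')
  obtain ⟨u, huy, huP⟩ : ∃ u ∈ Tm.sv y, u ∈ h.Bp := by
    by_contra hc
    push Not at hc
    refine hyM' fun u hu => ?_
    rw [ent_mem_M]
    left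
    refine ⟨?_, hc u hu⟩
    by_cases hQ : u ∈ rsgQ D
    · exact Or.inr (ent_mem_lay.2 ⟨hQ, y, hy1, hu⟩)
    · exact Or.inl ⟨R.sub y hyC hu, hQ⟩
  rw [hsv] at huy hvy1
  have hfB : D.y0 ≤ f.2 ∧ f.2 ≤ D.y1 := hf.1
  have hyrow : f.2 - 1 ≤ y.2 ∧ y.2 ≤ f.2 + 1 := by
    rcases hadj with rfl | h'
    · omega
    · rw [tsc_adj_iff] at h'
      omega
  have hur := rse_cs_rows huy
  have hvr := rse_cs_rows hvf
  obtain ⟨z, hzB, huz, hzS⟩ := R.pin u (Or.inl huP) (by omega) (by omega)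
  exact hsub y ⟨hyQ, fun h' => hyO (R.layer y (Or.inl h')), fun h' => hyO (R.layer y (Or.inr h')), ⟨f, hf, hadj.imp Eq.symm id⟩,
    z, hzS, (rse_share huz huy).imp Eq.symm id⟩ v hvy1 (by omega) (by omega)

end amb

end Claimed.Agent.R291
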