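import Claimed.Agent.R291.Ann.RswF
import Claimed.Agent.R291.Pl.Record
import Claimed.Agent.R291.Defs.RswStrip

/-!
# Row 291 (S0539), Ann/RswPl : BLOCK A3, PART II, THE BRIDGE  RECORD ⟹ PAIR      (owner helper206; prefix `rpl_`, `rpl`, `Rpl`)      no sorry

Ruling of 24 (07:38Z), point (4): the dictionary of record uses the index sets of `Pl/Record` (105): `AA = hxrAA`, `CC = hxrCC`, free cells `= hxrQ`.   THIS FILE joins them to the record of `Ann/RswRec` (269).   DETERMINISTIC.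
§0 the objects of `Ann/RswRec` as functions of the plus set `P` (box `R = rswRect (m - e) (m + σ + e) c d`): `rplI`, `rplJ` (clusters), `rplA`, `rplC` (layers), `RplG0`, `rplAA`, `rplCC`, `rplQ`.
   By `rfl` (`rpl_I_eq` ..): `rsrI S ι .. ω = rplI .. (rsrY S ι ω)`, `rsfA S ι .. ω = rplA .. (rsrY S ι ω)`.
§1 `rpl_crA`, `rpl_crC` (`HxrCr`, feet in the landing intervals), **`rpl_pair`** : `RplG0` + not `RsfTouch a c` + `2 w < σ` ⟹ `HxrPair c d (m - e) (m + σ + e) a c pa qa pc qc`.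
§2 `rpl_seed_AA`, `rpl_seed_CC`, **`rpl_I_AA`**, **`rpl_J_CC`**, `rpl_dI_AA`, `rpl_dJ_CC`, **`rpl_look`** : look set `⊆ AA ∪ CC`, `rpl_Q_free` : a free cell has never been looked at.      (NO hypothesis on touching.)
§3 `rpl_Q_R` (free cells lie in the box), `rpl_Q_nbr` (a neighbour in the band of a free cell is free or in `a ∪ c`), `rpl_Q_seen` (a looked-at cell which touches a free cell is in `a ∪ c`), `rpl_Q_I` (free cells do not touch
   `I ∪ J`), `rpl_mid_Q` (a cell of the band which touches both layers is free: geometry of (C)).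
§4 **`rpl_tip`**, **`rpl_tube`** : `HxrThree` from `RsrG1` / `RsrG0` + narrow box (`hxr_tip`, `hxr_tube` of 105 with the numerology of `rsr_glue`).
§5 the model `(S, ι)`: `rpl_mem_Q2`, **`rpl_unseen`** (`ι z ∉ rsrQ2 .. ω` for `z` free, `ι` injective on the box), **`rpl_seen_plus`** (a cell of the record which shares a site with a free cell is a cell of `a ∪ c`, status `1`),
   `rpl_pin_plus` (the pins of the record on the sites of the free cells are plus), `rpl_inj_sd` (`sdRed L` is injective on a short rectangle).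
§6 CORE CELLS (cure of the thin tip trap, 187 07:50Z): `rpl_A_touch`, `rpl_C_touch`, **`rpl_core_R`**, **`rpl_core_L`** (a long tip of `a` / `c` forces a cell of `I` / `J` on the thick axis), `rpl_cs_share`,
   `rplD T .. P : RsgDat` (`= rsgD T (m - e) (m + σ + e) c d w m (m + σ) P` of 269 by `rfl`), **`rpl_core_off`** (no site of a cell of `I ∪ J` lies in `rsgQ`).
-/

set_option autoImplicit false
set_option linter.unusedSectionVars false
set_option linter.unusedVariables false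

namespace Claimed.Agent.R291

open Claims Claims.C0467 Relation

/-! ## §0 names for the objects of `Ann/RswRec` as functions of the plus set -/

/-- the cluster `I` of the left arc -/
def rplI (c d w σ m e : ℤ) (P : Set TV) : Set TV := pleI tscG (rswRect (m - e) (m + σ + e) c d \ P) (rsrSgL (m - e) c d m w)

/-- the cluster `J` of the right arc -/
def rplJ (c d w σ m e : ℤ) (P : Set TV) : Set TV := pleI tscG (rswRect (m - e) (m + σ + e) c d \ P) (rsrSgR (m + σ + e) c d (m + σ) w)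

/-- the layer `a` -/
def rplA (c d w σ m e : ℤ) (P : Set TV) : Set TV := rsrGa (m - e) (m + σ + e) c d w m (rplI c d w σ m e P)

/-- the layer `c` -/
def rplC (c d w σ m e : ℤ) (P : Set TV) : Set TV := rsrGc (m - e) (m + σ + e) c d w (m + σ) (rplJ c d w σ m e P)

/-- both layers exist -/
def RplG0 (c d w σ m e : ℤ) (P : Set TV) : Prop := RsrG0 (m - e) (m + σ + e) c d w m (m + σ) (rplI c d w σ m e P) (rplJ c d w σ m e P)

/-- the solid left side, the solid right side, the free cells -/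
def rplAA (c d w σ m e : ℤ) (P : Set TV) : Set TV := hxrAA c d (m + σ + e) (rplA c d w σ m e P)

def rplCC (c d w σ m e : ℤ) (P : Set TV) : Set TV := hxrCC c d (m - e) (rplC c d w σ m e P)

def rplQ (c d w σ m e : ℤ) (P : Set TV) : Set TV := hxrQ c d (m - e) (m + σ + e) (rplA c d w σ m e P) (rplC c d w σ m e P)

theorem rpl_eqns_cite : True := by
  have := @rplI.eq_1
  have := @rplJ.eq_1
  have := @rplA.eq_1
  have := @rplC.eq_1
  have := @RplG0.eq_1
  have := @rplAA.eq_1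
  have := @rplCC.eq_1
  have := @rplQ.eq_1
  trivial

variable {c d w σ m e : ℤ} {P : Set TV}

theorem rpl_A_sub : rplA c d w σ m e P ⊆ rswRect (m - e) (m + σ + e) c d ∩ P := ple_gam_sub

theorem rpl_C_sub : rplC c d w σ m e P ⊆ rswRect (m - e) (m + σ + e) c d ∩ P := ple_gam_sub

theorem rpl_I_sub : rplI c d w σ m e P ⊆ rswRect (m - e) (m + σ + e) c d \ P := ple_I_sub

theorem rpl_J_sub : rplJ c d w σ m e P ⊆ rswRect (m - e) (m + σ + e) c d \ P := ple_I_sub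

/-! ## §1 the two crossings -/

/-- the layer `a` is a crossing of the band with its feet in the landing intervals at `m` -/
theorem rpl_crA (hcd : c < d) (hw : 1 ≤ w) (hσ : 0 ≤ σ) (he : w + 4 ≤ e) (h0 : RplG0 c d w σ m e P) :
    ∃ pa qa, HxrCr c d (m - e) (m + σ + e) (rplA c d w σ m e P) pa qa ∧ pa ∈ rsrLam c m w ∧ qa ∈ rsrLam d m w := by
  have qL := rsr_quad_L (A := m - e) (B := m + σ + e) (c := c) (d := d) (i := m) (w := w) hcd hw (by omega) (by omega)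
  obtain ⟨l, r, hl1, hl2, hr2, hlr⟩ := ple_gam_cross qL h0.1
  refine ⟨l, r, ⟨fun z hz => rsf_rect_band (rpl_A_sub hz).1, ple_gam_conn qL.side qL.opp h0.1, fun z hz => ?_, hl1, tsc_R_mem hlr hl1, hl2.1, hr2.1⟩, hl2, hr2⟩
  exact ⟨(rpl_A_sub hz).1.1, (rpl_A_sub hz).1.2.1⟩

/-- the layer `c` is a crossing of the band with its feet in the landing intervals at `m + σ` -/
theorem rpl_crC (hcd : c < d) (hw : 1 ≤ w) (hσ : 0 ≤ σ) (he : w + 4 ≤ e) (h0 : RplG0 c d w σ m e P) :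
    ∃ pc qc, HxrCr c d (m - e) (m + σ + e) (rplC c d w σ m e P) pc qc ∧ pc ∈ rsrLam c (m + σ) w ∧ qc ∈ rsrLam d (m + σ) w := by
  have qR := rsr_quad_R (A := m - e) (B := m + σ + e) (c := c) (d := d) (i := m + σ) (w := w) hcd hw (by omega) (by omega)
  obtain ⟨l, r, hl1, hl2, hr2, hlr⟩ := ple_gam_cross qR h0.2
  refine ⟨l, r, ⟨fun z hz => rsf_rect_band (rpl_C_sub hz).1, ple_gam_conn qR.side qR.opp h0.2, fun z hz => ?_, hl1, tsc_R_mem hlr hl1, hl2.1, hr2.1⟩, hl2, hr2⟩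
  exact ⟨(rpl_C_sub hz).1.1, (rpl_C_sub hz).1.2.1⟩

/-- **RECORD ⟹ PAIR** -/
theorem rpl_pair (hcd : c < d) (hw : 1 ≤ w) (hσ : 2 * w < σ) (he : w + 4 ≤ e) (h0 : RplG0 c d w σ m e P)
    (hT : ¬ RsfTouch (rplA c d w σ m e P) (rplC c d w σ m e P)) :
    ∃ pa qa pc qc, HxrPair c d (m - e) (m + σ + e) (rplA c d w σ m e P) (rplC c d w σ m e P) pa qa pc qc ∧
      pa ∈ rsrLam c m w ∧ qa ∈ rsrLam d m w ∧ pc ∈ rsrLam c (m + σ) w ∧ qc ∈ rsrLam d (m + σ) w := by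
  obtain ⟨pa, qa, HA, h1, h2⟩ := rpl_crA hcd hw (by omega) he h0
  obtain ⟨pc, qc, HC, h3, h4⟩ := rpl_crC hcd hw (by omega) he h0
  refine ⟨pa, qa, pc, qc, ⟨HA, HC, ?_, ?_, fun u hu v hv => ⟨fun e => hT ⟨u, hu, v, hv, Or.inl e⟩, fun e => hT ⟨u, hu, v, hv, Or.inr e⟩⟩⟩, h1, h2, h3, h4⟩
  · obtain ⟨a1, a2, a3⟩ := h1
    obtain ⟨b1, b2, b3⟩ := h3
    unfold rswX at *
    omega
  · obtain ⟨a1, a2, a3⟩ := h2
    obtain ⟨b1, b2, b3⟩ := h4
    unfold rswX at *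
    omega

/-! ## §2 what has been looked at lies in the solid sides -/

/-- the left arc lies in the solid left side -/
theorem rpl_seed_AA {pa qa : TV} (H : HxrCr c d (m - e) (m + σ + e) (rplA c d w σ m e P) pa qa) (h1 : pa ∈ rsrLam c m w) (h2 : qa ∈ rsrLam d m w)
    {t : TV} (ht : t ∈ rswRect (m - e) (m + σ + e) c d) (hs : t ∈ rsrSgL (m - e) c d m w) : t ∈ rplAA c d w σ m e P := by
  rcases hs with hs | ⟨hs | hs, hx⟩
  · by_cases hta : t ∈ rplA c d w σ m e P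
    · exact hxr_a_sub_AA H hta
    · have hb : ((t.1 - 1, t.2) : TV) ∈ plsBand c d := ⟨ht.2.2.1, ht.2.2.2⟩
      have hX : hxsX ((t.1 - 1, t.2) : TV) < m - e := by
        unfold rswX at hs
        show 2 * (t.1 - 1) + t.2 < m - e
        omega
      have h3 := hxr_AA_far H hb hX
      have h4 : ((t.1 - 1, t.2) : TV) ∉ rplA c d w σ m e P := fun h => by
        have := (H.box _ h).1
        omega
      refine hxr_sol_R h3 (tsc_R_step ?_ ⟨hb, h4⟩ ⟨rsf_rect_band ht, hta⟩)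
      rw [tsc_G_adj, tsc_adj_iff]
      simp
  · refine hxr_AA_bot H hs ?_
    obtain ⟨a1, a2, a3⟩ := h1
    unfold rswX at *
    omega
  · refine hxr_AA_top H hs ?_
    obtain ⟨a1, a2, a3⟩ := h2
    unfold rswX at *
    omega

/-- the right arc lies in the solid right side -/
theorem rpl_seed_CC {pc qc : TV} (H : HxrCr c d (m - e) (m + σ + e) (rplC c d w σ m e P) pc qc) (h1 : pc ∈ rsrLam c (m + σ) w)
    (h2 : qc ∈ rsrLam d (m + σ) w) {t : TV} (ht : t ∈ rswRect (m - e) (m + σ + e) c d) (hs : t ∈ rsrSgR (m + σ + e) c d (m + σ) w) :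
    t ∈ rplCC c d w σ m e P := by
  rcases hs with hs | ⟨hs | hs, hx⟩
  · by_cases hta : t ∈ rplC c d w σ m e P
    · exact hxr_c_sub_CC H hta
    · have hb : ((t.1 + 1, t.2) : TV) ∈ plsBand c d := ⟨ht.2.2.1, ht.2.2.2⟩
      have hX : m + σ + e < hxsX ((t.1 + 1, t.2) : TV) := by
        unfold rswX at hs
        show m + σ + e < 2 * (t.1 + 1) + t.2
        omega
      have h3 := hxr_CC_far H hb hX
      have h4 : ((t.1 + 1, t.2) : TV) ∉ rplC c d w σ m e P := fun h => by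
        have := (H.box _ h).2
        omega
      refine hxr_sol_R h3 (tsc_R_step ?_ ⟨hb, h4⟩ ⟨rsf_rect_band ht, hta⟩)
      rw [tsc_G_adj, tsc_adj_iff]
      simp
  · refine hxr_CC_bot H hs ?_
    obtain ⟨a1, a2, a3⟩ := h1
    unfold rswX at *
    omega
  · refine hxr_CC_top H hs ?_
    obtain ⟨a1, a2, a3⟩ := h2
    unfold rswX at *
    omega

/-- **`I ⊆ AA`** -/
theorem rpl_I_AA (hcd : c < d) (hw : 1 ≤ w) (hσ : 0 ≤ σ) (he : w + 4 ≤ e) (h0 : RplG0 c d w σ m e P) : rplI c d w σ m e P ⊆ rplAA c d w σ m e P := by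
  obtain ⟨pa, qa, H, h1, h2⟩ := rpl_crA hcd hw hσ he h0
  rintro z ⟨t, ht, hts, htz⟩
  refine hxr_sol_R (rpl_seed_AA H h1 h2 ht.1 hts) (tsc_R_mono ?_ htz)
  exact fun u hu => ⟨rsf_rect_band hu.1, fun h => hu.2 (rpl_A_sub h).2⟩

/-- **`J ⊆ CC`** -/
theorem rpl_J_CC (hcd : c < d) (hw : 1 ≤ w) (hσ : 0 ≤ σ) (he : w + 4 ≤ e) (h0 : RplG0 c d w σ m e P) : rplJ c d w σ m e P ⊆ rplCC c d w σ m e P := by
  obtain ⟨pc, qc, H, h1, h2⟩ := rpl_crC hcd hw hσ he h0
  rintro z ⟨t, ht, hts, htz⟩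
  refine hxr_sol_R (rpl_seed_CC H h1 h2 ht.1 hts) (tsc_R_mono ?_ htz)
  exact fun u hu => ⟨rsf_rect_band hu.1, fun h => hu.2 (rpl_C_sub h).2⟩

/-- a cell of the band next to `I` lies in `AA` -/
theorem rpl_dI_AA (hcd : c < d) (hw : 1 ≤ w) (hσ : 0 ≤ σ) (he : w + 4 ≤ e) (h0 : RplG0 c d w σ m e P) {i z : TV} (hi : i ∈ rplI c d w σ m e P)
    (hz : z ∈ plsBand c d) (h : tscG.Adj i z) : z ∈ rplAA c d w σ m e P := by
  obtain ⟨pa, qa, H, h1, h2⟩ := rpl_crA hcd hw hσ he h0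
  by_cases hza : z ∈ rplA c d w σ m e P
  · exact hxr_a_sub_AA H hza
  · exact hxr_sol_R (rpl_I_AA hcd hw hσ he h0 hi) (tsc_R_step h ⟨rsf_rect_band (rpl_I_sub hi).1, fun h' => (rpl_I_sub hi).2 (rpl_A_sub h').2⟩ ⟨hz, hza⟩)

/-- a cell of the band next to `J` lies in `CC` -/
theorem rpl_dJ_CC (hcd : c < d) (hw : 1 ≤ w) (hσ : 0 ≤ σ) (he : w + 4 ≤ e) (h0 : RplG0 c d w σ m e P) {i z : TV} (hi : i ∈ rplJ c d w σ m e P)
    (hz : z ∈ plsBand c d) (h : tscG.Adj i z) : z ∈ rplCC c d w σ m e P := by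
  obtain ⟨pc, qc, H, h1, h2⟩ := rpl_crC hcd hw hσ he h0
  by_cases hza : z ∈ rplC c d w σ m e P
  · exact hxr_c_sub_CC H hza
  · exact hxr_sol_R (rpl_J_CC hcd hw hσ he h0 hi) (tsc_R_step h ⟨rsf_rect_band (rpl_J_sub hi).1, fun h' => (rpl_J_sub hi).2 (rpl_C_sub h').2⟩ ⟨hz, hza⟩)

/-- the cluster of the union of the two arcs -/
theorem rpl_I_union {z : TV} (hz : z ∈ pleI tscG (rswRect (m - e) (m + σ + e) c d \ P) (rsrSeed c d w σ m e)) :
    z ∈ rplI c d w σ m e P ∨ z ∈ rplJ c d w σ m e P := by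
  obtain ⟨t, ht, hts | hts, htz⟩ := hz
  · exact Or.inl ⟨t, ht, hts, htz⟩
  · exact Or.inr ⟨t, ht, hts, htz⟩

/-- **everything which has been looked at lies in `AA ∪ CC`** -/
theorem rpl_look (hcd : c < d) (hw : 1 ≤ w) (hσ : 0 ≤ σ) (he : w + 4 ≤ e) (h0 : RplG0 c d w σ m e P) :
    rsrLook (rswRect (m - e) (m + σ + e) c d) (rsrSeed c d w σ m e) P ⊆ rplAA c d w σ m e P ∪ rplCC c d w σ m e P := by
  obtain ⟨pa, qa, HA, a1, a2⟩ := rpl_crA hcd hw hσ he h0
  obtain ⟨pc, qc, HC, c1, c2⟩ := rpl_crC hcd hw hσ he h0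
  rintro z ⟨hzR, (hs | hs) | hz | ⟨i, hi, hiz⟩⟩
  · exact Or.inl (rpl_seed_AA HA a1 a2 hzR hs)
  · exact Or.inr (rpl_seed_CC HC c1 c2 hzR hs)
  · rcases rpl_I_union hz with hz | hz
    · exact Or.inl (rpl_I_AA hcd hw hσ he h0 hz)
    · exact Or.inr (rpl_J_CC hcd hw hσ he h0 hz)
  · rcases rpl_I_union hi with hi | hi
    · exact Or.inl (rpl_dI_AA hcd hw hσ he h0 hi (rsf_rect_band hzR) hiz)
    · exact Or.inr (rpl_dJ_CC hcd hw hσ he h0 hi (rsf_rect_band hzR) hiz)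

/-- **a free cell has never been looked at** -/
theorem rpl_Q_free (hcd : c < d) (hw : 1 ≤ w) (hσ : 0 ≤ σ) (he : w + 4 ≤ e) (h0 : RplG0 c d w σ m e P) {z : TV} (hz : z ∈ rplQ c d w σ m e P) :
    z ∉ rsrLook (rswRect (m - e) (m + σ + e) c d) (rsrSeed c d w σ m e) P := fun h => hz.2 (rpl_look hcd hw hσ he h0 h)


/-! ## §3 the free cells and their neighbours -/

/-- the free cells lie in the box -/
theorem rpl_Q_R (hcd : c < d) (hw : 1 ≤ w) (hσ : 0 ≤ σ) (he : w + 4 ≤ e) (h0 : RplG0 c d w σ m e P) :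
    rplQ c d w σ m e P ⊆ rswRect (m - e) (m + σ + e) c d := by
  obtain ⟨pa, qa, HA, -, -⟩ := rpl_crA hcd hw hσ he h0
  obtain ⟨pc, qc, HC, -, -⟩ := rpl_crC hcd hw hσ he h0
  intro z hz
  refine ⟨?_, ?_, hz.1.1, hz.1.2⟩
  · by_contra h
    exact hz.2 (Or.inl (hxr_AA_far HA hz.1 (by show rswX z < m - e; omega)))
  · by_contra h
    exact hz.2 (Or.inr (hxr_CC_far HC hz.1 (by show m + σ + e < rswX z; omega)))

/-- **a neighbour, in the band, of a free cell is free or belongs to one of the two layers** -/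
theorem rpl_Q_nbr (hcd : c < d) (hw : 1 ≤ w) (hσ : 0 ≤ σ) (he : w + 4 ≤ e) (h0 : RplG0 c d w σ m e P) {z y : TV} (hz : z ∈ rplQ c d w σ m e P)
    (hy : y ∈ plsBand c d) (h : tscG.Adj z y) : y ∈ rplQ c d w σ m e P ∨ y ∈ rplA c d w σ m e P ∨ y ∈ rplC c d w σ m e P := by
  obtain ⟨pa, qa, HA, -, -⟩ := rpl_crA hcd hw hσ he h0
  obtain ⟨pc, qc, HC, -, -⟩ := rpl_crC hcd hw hσ he h0
  by_cases h1 : y ∈ hxrAA c d (m + σ + e) (rplA c d w σ m e P)
  · exact Or.inr (Or.inl (hxr_AA_bd HA hz.1 (fun h' => hz.2 (Or.inl h')) h1 h))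
  · by_cases h2 : y ∈ hxrCC c d (m - e) (rplC c d w σ m e P)
    · exact Or.inr (Or.inr (hxr_CC_bd HC hz.1 (fun h' => hz.2 (Or.inr h')) h2 h))
    · exact Or.inl ⟨hy, fun h' => h'.elim h1 h2⟩

/-- **a cell which has been looked at and touches a free cell belongs to one of the two layers** (so it is open-plus) -/
theorem rpl_Q_seen (hcd : c < d) (hw : 1 ≤ w) (hσ : 0 ≤ σ) (he : w + 4 ≤ e) (h0 : RplG0 c d w σ m e P) {z y : TV} (hz : z ∈ rplQ c d w σ m e P)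
    (hy : y ∈ rsrLook (rswRect (m - e) (m + σ + e) c d) (rsrSeed c d w σ m e) P) (h : z = y ∨ tscG.Adj z y) :
    y ∈ rplA c d w σ m e P ∨ y ∈ rplC c d w σ m e P := by
  rcases h with rfl | h
  · exact absurd hy (rpl_Q_free hcd hw hσ he h0 hz)
  · rcases rpl_Q_nbr hcd hw hσ he h0 hz (rsf_rect_band hy.1) h with h1 | h1
    · exact absurd hy (rpl_Q_free hcd hw hσ he h0 h1)
    · exact h1

/-- a free cell does not touch the clusters -/
theorem rpl_Q_I (hcd : c < d) (hw : 1 ≤ w) (hσ : 0 ≤ σ) (he : w + 4 ≤ e) (h0 : RplG0 c d w σ m e P) {z i : TV} (hz : z ∈ rplQ c d w σ m e P)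
    (hi : i ∈ rplI c d w σ m e P ∨ i ∈ rplJ c d w σ m e P) : z ≠ i ∧ ¬ tscG.Adj z i := by
  have hiP : i ∉ P := hi.elim (fun h => (rpl_I_sub h).2) (fun h => (rpl_J_sub h).2)
  have hiR : i ∈ rswRect (m - e) (m + σ + e) c d := hi.elim (fun h => (rpl_I_sub h).1) (fun h => (rpl_J_sub h).1)
  have hlook : i ∈ rsrLook (rswRect (m - e) (m + σ + e) c d) (rsrSeed c d w σ m e) P := by
    refine ⟨hiR, Or.inr (Or.inl ?_)⟩
    rcases hi with ⟨t, ht, hts, hti⟩ | ⟨t, ht, hts, hti⟩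
    · exact ⟨t, ht, Or.inl hts, hti⟩
    · exact ⟨t, ht, Or.inr hts, hti⟩
  have key : ¬ (z = i ∨ tscG.Adj z i) := fun h =>
    (rpl_Q_seen hcd hw hσ he h0 hz hlook h).elim (fun h' => hiP (rpl_A_sub h').2) (fun h' => hiP (rpl_C_sub h').2)
  exact ⟨fun h => key (Or.inl h), fun h => key (Or.inr h)⟩

/-- **a cell of the band which touches both layers is free** (geometry of (C) = (T2)) -/
theorem rpl_mid_Q (hcd : c < d) (hw : 1 ≤ w) (hσ : 2 * w < σ) (he : w + 4 ≤ e) (h0 : RplG0 c d w σ m e P)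
    (hT : ¬ RsfTouch (rplA c d w σ m e P) (rplC c d w σ m e P)) {y z z' : TV} (hy : y ∈ plsBand c d) (hz : z ∈ rplA c d w σ m e P)
    (hz' : z' ∈ rplC c d w σ m e P) (h1 : tscG.Adj z y) (h2 : tscG.Adj y z') : y ∈ rplQ c d w σ m e P := by
  obtain ⟨pa, qa, pc, qc, H, -⟩ := rpl_pair hcd hw hσ he h0 hT
  refine ⟨hy, ?_⟩
  rintro (h | h)
  · exact (hxr_sep H y h z' (hxr_c_sub_CC H.C hz')).2 h2
  · exact (hxr_sep H z (hxr_a_sub_AA H.A hz) y h).2 h1

/-! ## §4 three places -/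

/-- **TIP**: a record with long tips whose layers do not touch has three places in order -/
theorem rpl_tip {e2 : ℤ} (hcd : c < d) (hw : 1 ≤ w) (hσ : 2 * w < σ) (he : w + 4 ≤ e) (h21 : e2 ≤ e) (h2 : e + 2 * σ + w + 8 ≤ 2 * e2)
    (h1 : RsrG1 (m - e) (m + σ + e) c d w m (m + σ) (m + e2) (m + σ - e2) (rplI c d w σ m e P) (rplJ c d w σ m e P))
    (hT : ¬ RsfTouch (rplA c d w σ m e P) (rplC c d w σ m e P)) :
    ∃ (μ : Fin 3 → ℤ) (K : Fin 3 → Set TV), (∀ i, μ i = m + e2 + 1 ∨ μ i = m + σ - e2 - 1) ∧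
      HxrThree c d (rplAA c d w σ m e P) (rplCC c d w σ m e P) (rplQ c d w σ m e P)
        (hxrD c d (m - e) (m + σ + e) (rplA c d w σ m e P) (rplC c d w σ m e P)) (hxrB c d (m - e) (m + σ + e) (rplA c d w σ m e P) (rplC c d w σ m e P))
        (fun i => hxsM (μ i)) K := by
  obtain ⟨h0, ⟨za, hza, hxa⟩, ⟨zc, hzc, hxc⟩⟩ := h1
  obtain ⟨pa, qa, pc, qc, H, ⟨-, a1, a2⟩, ⟨-, a3, a4⟩, ⟨-, c1, c2⟩, ⟨-, c3, c4⟩⟩ := rpl_pair hcd hw hσ he h0 hT
  have e1 : ∀ z : TV, hxsX z = rswX z := fun _ => rfl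
  exact hxr_tip H (μr := m + e2 + 1) (μl := m + σ - e2 - 1) ⟨za, hza, by rw [e1]; omega⟩ ⟨zc, hzc, by rw [e1]; omega⟩ (by omega) (by omega)
    (by rw [e1]; omega) (by rw [e1]; omega) (by rw [e1]; omega) (by rw [e1]; omega) (by omega)

/-- **TUBE**: a record in a narrow box whose layers do not touch has three places in order -/
theorem rpl_tube (hcd : c < d) (hw : 1 ≤ w) (hσ : 2 * w < σ) (he : w + 4 ≤ e) (hW : 12 * (2 * e + σ) + 64 ≤ d - c) (h0 : RplG0 c d w σ m e P)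
    (hT : ¬ RsfTouch (rplA c d w σ m e P) (rplC c d w σ m e P)) :
    ∃ (t : Fin 3 → ℤ) (K : Fin 3 → Set TV),
      HxrThree c d (rplAA c d w σ m e P) (rplCC c d w σ m e P) (rplQ c d w σ m e P)
        (hxrD c d (m - e) (m + σ + e) (rplA c d w σ m e P) (rplC c d w σ m e P)) (hxrB c d (m - e) (m + σ + e) (rplA c d w σ m e P) (rplC c d w σ m e P))
        (fun i => hxrSw (t i)) K := by
  obtain ⟨pa, qa, pc, qc, H, -⟩ := rpl_pair hcd hw hσ he h0 hT
  exact hxr_tube H (by omega)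

/-! ## §5 the model: what the record knows about the free cells -/

section model

variable {V Y : Type} [DecidableEq V] [DecidableEq Y] (S : ClSys V Y) (ι : TV → Y)

theorem rpl_I_eq (ω : ClCfg V Y) : rsrI S ι c d w σ m e ω = rplI c d w σ m e (rsrY S ι ω) := rfl

theorem rpl_J_eq (ω : ClCfg V Y) : rsrJ S ι c d w σ m e ω = rplJ c d w σ m e (rsrY S ι ω) := rfl

theorem rpl_A_eq (ω : ClCfg V Y) : rsfA S ι c d w σ m e ω = rplA c d w σ m e (rsrY S ι ω) := rfl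

theorem rpl_C_eq (ω : ClCfg V Y) : rsfC S ι c d w σ m e ω = rplC c d w σ m e (rsrY S ι ω) := rfl

/-- a cell of the record: it is the image of a cell which has been looked at -/
theorem rpl_mem_Q2 {ω : ClCfg V Y} {y : Y} : y ∈ rsrQ2 S ι c d w σ m e ω ↔
    y ∈ S.C ∧ ∃ z ∈ rsrLook (rswRect (m - e) (m + σ + e) c d) (rsrSeed c d w σ m e) (rsrY S ι ω), ι z = y := by
  classical
  unfold rsrQ2 rsrQ
  exact Finset.mem_filter

/-- **the record has not looked at a free cell** -/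
theorem rpl_unseen (hcd : c < d) (hw : 1 ≤ w) (hσ : 0 ≤ σ) (he : w + 4 ≤ e) (hinj : Set.InjOn ι (rswRect (m - e) (m + σ + e) c d)) {ω : ClCfg V Y}
    (h0 : RplG0 c d w σ m e (rsrY S ι ω)) {z : TV} (hz : z ∈ rplQ c d w σ m e (rsrY S ι ω)) : ι z ∉ rsrQ2 S ι c d w σ m e ω := by
  intro h
  obtain ⟨-, z', hz', e'⟩ := (rpl_mem_Q2 S ι).1 h
  have : z' = z := hinj hz'.1 (rpl_Q_R hcd hw hσ he h0 hz) e'
  exact rpl_Q_free hcd hw hσ he h0 hz (this ▸ hz')

/-- **a cell of the record which shares a site with a free cell is a cell of one of the two layers; it is open-plus** -/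
theorem rpl_seen_plus (hcd : c < d) (hw : 1 ≤ w) (hσ : 0 ≤ σ) (he : w + 4 ≤ e) (hch : RsfChart S ι (rswRect (m - e) (m + σ + e) c d)) {ω : ClCfg V Y}
    (h0 : RplG0 c d w σ m e (rsrY S ι ω)) {z : TV} (hz : z ∈ rplQ c d w σ m e (rsrY S ι ω)) {y : Y} (hy : y ∈ rsrQ2 S ι c d w σ m e ω)
    (hv : ∃ v, v ∈ S.sv (ι z) ∧ v ∈ S.sv y) :
    (∃ z', (z' ∈ rplA c d w σ m e (rsrY S ι ω) ∨ z' ∈ rplC c d w σ m e (rsrY S ι ω)) ∧ tscG.Adj z z' ∧ ι z' = y) ∧ clTau S ω y = 1 := by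
  obtain ⟨-, z', hz', rfl⟩ := (rpl_mem_Q2 S ι).1 hy
  have hadj := hch z (rpl_Q_R hcd hw hσ he h0 hz) z' hz'.1 hv
  have hac := rpl_Q_seen hcd hw hσ he h0 hz hz' hadj
  have hne : tscG.Adj z z' := by
    rcases hadj with rfl | h
    · exact absurd hz' (rpl_Q_free hcd hw hσ he h0 hz)
    · exact h
  refine ⟨⟨z', hac, hne, rfl⟩, ?_⟩
  exact (hac.elim (fun h => (rpl_A_sub h).2) (fun h => (rpl_C_sub h).2)).2

/-- a site of a free cell which is pinned by the record is a site of a cell of one of the two layers; it is plus -/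
theorem rpl_pin_plus (hcd : c < d) (hw : 1 ≤ w) (hσ : 0 ≤ σ) (he : w + 4 ≤ e)
    (hch : RsfChart S ι (rswRect (m - e) (m + σ + e) c d)) {ω : ClCfg V Y} (h0 : RplG0 c d w σ m e (rsrY S ι ω)) {z : TV}
    (hz : z ∈ rplQ c d w σ m e (rsrY S ι ω)) {v : V} (hv : v ∈ S.sv (ι z)) (hp : v ∈ (rsrQ2 S ι c d w σ m e ω).biUnion S.sv) : v ∈ ω.B := by
  obtain ⟨y, hy, hvy⟩ := Finset.mem_biUnion.1 hp
  exact (dis_tau_one.1 (rpl_seen_plus S ι hcd hw hσ he hch h0 hz hy ⟨v, hv, hvy⟩).2).2 hvy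

end model

/-- the reduction mod `L` is injective on a Euclidean rectangle shorter than the circumference -/
theorem rpl_inj_sd (L : ℕ) {A B c d : ℤ} (hL : (B - A) + (d - c) + 2 ≤ 2 * (L : ℤ)) : Set.InjOn (sdRed L) (rswRect A B c d) := by
  rintro z ⟨a1, a2, a3, a4⟩ z' ⟨b1, b2, b3, b4⟩ h
  unfold rswX at a1 a2 b1 b2
  have h1 : (sdRed L z).1 = (sdRed L z').1 := congrArg Prod.fst h
  have h2 : (sdRed L z).2 = (sdRed L z').2 := congrArg Prod.snd h
  exact Prod.ext (rsf_emod h1 (by omega) (by omega)) h2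

/-! ## §6 the core cells (cure of the THIN TIP TRAP, alert of 187 07:50Z) -/

/-- a cell of the layer `a` lies on the left arc or touches the cluster `I` -/
theorem rpl_A_touch {z : TV} (hz : z ∈ rplA c d w σ m e P) : z ∈ rsrSgL (m - e) c d m w ∨ ∃ i ∈ rplI c d w σ m e P, tscG.Adj i z := hz.2

theorem rpl_C_touch {z : TV} (hz : z ∈ rplC c d w σ m e P) : z ∈ rsrSgR (m + σ + e) c d (m + σ) w ∨ ∃ i ∈ rplJ c d w σ m e P, tscG.Adj i z := hz.2

/-- **CORE CELL ON THE THICK AXIS, right tip**: if the layer `a` reaches `X ≥ μ + 1` the explored cluster `I` has a cell with `|X - μ| ≤ 1` -/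
theorem rpl_core_R (he : w + 4 ≤ e) {μ : ℤ} (hμ : m - w + 2 ≤ μ) (har : ∃ z ∈ rplA c d w σ m e P, μ + 1 ≤ rswX z) :
    ∃ i₀ ∈ rplI c d w σ m e P, μ - 1 ≤ rswX i₀ ∧ rswX i₀ ≤ μ + 1 := by
  obtain ⟨z, hz, hzX⟩ := har
  rcases rpl_A_touch hz with hs | ⟨i, hi, hiz⟩
  · exfalso
    rcases hs with hs | ⟨-, hs⟩ <;> omega
  · have hiX : μ - 1 ≤ rswX i := by
      have := (tsc_adj_iff _ _).1 hiz
      unfold rswX at *
      omega
    obtain ⟨t, ht, hts, hti⟩ := hi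
    have htI : t ∈ rplI c d w σ m e P := ple_I_side ht hts
    have htX : rswX t ≤ μ + 1 := by
      rcases hts with hs | ⟨-, hs⟩ <;> omega
    exact hxr_ivt_X htI (ple_I_path htI hti) htX hiX

/-- discrete intermediate value theorem, from the right to the left -/
theorem rpl_ivt {s : Set TV} {u v : TV} (hu : u ∈ s) (h : TscR tscG s u v) {μ : ℤ} (h1 : μ - 1 ≤ rswX u) (h2 : rswX v ≤ μ + 1) :
    ∃ z ∈ s, μ - 1 ≤ rswX z ∧ rswX z ≤ μ + 1 :=
  hxr_ivt_X (tsc_R_mem h hu) (tsc_R_symm h) h2 h1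

/-- **CORE CELL ON THE THICK AXIS, left tip** -/
theorem rpl_core_L (he : w + 4 ≤ e) {μ : ℤ} (hμ : μ ≤ m + σ + w - 2) (hcl : ∃ z ∈ rplC c d w σ m e P, rswX z ≤ μ - 1) :
    ∃ j₀ ∈ rplJ c d w σ m e P, μ - 1 ≤ rswX j₀ ∧ rswX j₀ ≤ μ + 1 := by
  obtain ⟨z, hz, hzX⟩ := hcl
  rcases rpl_C_touch hz with hs | ⟨i, hi, hiz⟩
  · exfalso
    rcases hs with hs | ⟨-, hs⟩ <;> omega
  · have hiX : rswX i ≤ μ + 1 := by
      have := (tsc_adj_iff _ _).1 hiz
      unfold rswX at *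
      omega
    obtain ⟨t, ht, hts, hti⟩ := hi
    have htJ : t ∈ rplJ c d w σ m e P := ple_I_side ht hts
    have htX : μ - 1 ≤ rswX t := by
      rcases hts with hs | ⟨-, hs⟩ <;> omega
    exact rpl_ivt htJ (ple_I_path htJ hti) htX hiX

/-- two cells of one class which share a site have equal or adjacent indices -/
theorem rpl_cs_share {T : Bool} {z z' v : TV} (h : v ∈ rsgCs T z) (h' : v ∈ rsgCs T z') : z = z' ∨ tscG.Adj z z' := by
  rw [rsg_mem_cs] at h h'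
  rw [tsc_G_adj, tsc_adj_iff, Prod.ext_iff]
  cases T
  · simp only [Bool.false_eq_true, false_and, true_and, false_or] at h h'
    omega
  · simp only [Bool.true_eq_false, false_and, true_and, or_false] at h h'
    omega

/-- the strip data of the plus set `P` -/
def rplD (T : Bool) (c d w σ m e : ℤ) (P : Set TV) : RsgDat := ⟨T, c, d, m - e, m + σ + e, rplA c d w σ m e P, rplC c d w σ m e P⟩

theorem rpl_eqns_cite2 : True := by
  have := @rplD.eq_1
  trivial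

/-- a free cell of the strip data -/
theorem rpl_mem_M {T : Bool} {z : TV} (hz : z ∈ rsgM (rplD T c d w σ m e P)) : z ∈ rplQ c d w σ m e P := by
  classical
  exact (Finset.mem_filter.1 hz).2

/-- **no site of a cell of `I ∪ J` lies in the strip** -/
theorem rpl_core_off (T : Bool) (hcd : c < d) (hw : 1 ≤ w) (hσ : 0 ≤ σ) (he : w + 4 ≤ e) (h0 : RplG0 c d w σ m e P) {i : TV}
    (hi : i ∈ rplI c d w σ m e P ∨ i ∈ rplJ c d w σ m e P) : ∀ v ∈ rsgCs T i, v ∉ rsgQ (rplD T c d w σ m e P) := by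
  intro v hv hQ
  obtain ⟨z, hz, hvz⟩ := Finset.mem_biUnion.1 hQ
  have h1 := rpl_Q_I hcd hw hσ he h0 (rpl_mem_M hz) hi
  rcases rpl_cs_share hvz hv with h | h
  · exact h1.1 h
  · exact h1.2 h

end Claimed.Agent.R291
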