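import Claimed.Agent.R291.Defs.RswGeo
import Claimed.Agent.R291.Pl.StripBar
import Claimed.Agent.R291.Pl.Closed
import Claimed.Agent.R291.Ann.RswPl

/-!
# Row 291 (S0539), unit ANN, block A3 PART II (L), Ann/RswGeo : THE RECORD SIDE OF (L)      (owner helper278, ruling of 24 07:54Z; prefix `rgo_`)

TEX[annulus:RSW] TEX[annulus:gluing]      INTERFACE = `Defs/RswGeo.lean`: `RsgGeoD D I J ia ic w`, `RsgGeo D`, `RsgCoreA D i`, `RsgCoreC D i`.
§1 DICTIONARY   `rgo_cs` (`rsgCs = rdiCs`), `rgo_mem_M`, `rgo_mem_Q`, `rgo_mem_La` .., `rgo_sys` (`RdiSys x T Q (rsgSQ x T Q)`)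
§2 CONSUMER-FACING LEMMAS (place side: 115 `Ann/RswTip`, 1 `Glue/AdaptT`, 31 `Glue/AdaptP`, 191 `Glue/TubeO`, 62 `Glue/Flip`), all from `hg : RsgGeo D` (+ `H : HxrPair ..` where said):
   `rgo_strip` (GlStrip, both classes)   `rgo_sc` (TriSC Q)   `rgo_conn`   `rgo_lay` (latBd Q ⊆ four sides)   `rgo_cb` (glCb Q ⊆ rsgCb D)   `rgo_M_sub` (cells of M inside Q)   `rgo_hA`, `rgo_hC` (a site of Q in a cell of AA lies in La)
   `rgo_pcl` (PclStrip of 187: band, box, barriers, the two ends non empty; = `psb_rsg_strip` of 173)   `rgo_core_offA/C` (no site of a core cell lies in Q)   `rgo_site3` (a site of Q off the extreme rows has its cells in M ∪ a ∪ c)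
§3 PRODUCER   `rgo_geoD` : the record data (`rsgD T A B c d w m m' P`) satisfy `RsgGeoD`;   `rsg_geo` : `RsgGeo`
§4 DEEP TIPS  `rgo_coreA`, `rgo_coreC` : the layer reaches `X > μ` ⟹ a CORE cell on the thick axis `μ - 1 ≤ X ≤ μ + 1`
-/

set_option autoImplicit false
set_option linter.unusedSectionVars false
set_option linter.unusedVariables false

namespace Claimed.Agent.R291

open Relation Claims Claims.C0467

/-! ## §1 dictionary -/

theorem rgo_cs : rsgCs = rdiCs := rfl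

variable {D : RsgDat}

theorem rgo_F_rect (hg : RsgGeo D) : rsgF D ⊆ rswRect D.xm D.xM D.y0 D.y1 := by
  obtain ⟨I, J, ia, ic, w, G⟩ := hg
  exact G.geo.sub

theorem rgo_mem_M (hg : RsgGeo D) {y : TV} : y ∈ rsgM D ↔ y ∈ rsgF D := by
  classical
  unfold rsgM
  rw [Finset.mem_filter]
  exact ⟨fun h => h.2, fun h => ⟨rsg_box_mem (rgo_F_rect hg h), h⟩⟩

theorem rgo_mem_Q (hg : RsgGeo D) {u : TV} : u ∈ rsgQ D ↔ u ∈ rdiSt D.T (rsgF D) := by
  unfold rsgQ rdiSt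
  rw [Finset.mem_biUnion]
  constructor
  · rintro ⟨z, hz, hu⟩
    exact ⟨z, (rgo_mem_M hg).1 hz, hu⟩
  · rintro ⟨z, hz, hu⟩
    exact ⟨z, (rgo_mem_M hg).2 hz, hu⟩

theorem rgo_coe_Q (hg : RsgGeo D) : (↑(rsgQ D) : Set TV) = rdiSt D.T (rsgF D) := by
  ext u
  exact rgo_mem_Q hg

theorem rgo_mem_La {u : TV} : u ∈ rsgLa D ↔ u ∈ rsgQ D ∧ u ∈ rdiSt D.T D.a := by
  classical
  unfold rsgLa rsgSide
  rw [Finset.mem_filter]
  rfl

theorem rgo_mem_Lc {u : TV} : u ∈ rsgLc D ↔ u ∈ rsgQ D ∧ u ∈ rdiSt D.T D.c := by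
  classical
  unfold rsgLc rsgSide
  rw [Finset.mem_filter]
  rfl

theorem rgo_mem_Ld {u : TV} : u ∈ rsgLd D ↔ u ∈ rsgQ D ∧ u.2 = D.y0 := by
  unfold rsgLd
  rw [Finset.mem_filter]

theorem rgo_mem_Lb {u : TV} : u ∈ rsgLb D ↔ u ∈ rsgQ D ∧ u.2 = D.y1 + 1 := by
  unfold rsgLb
  rw [Finset.mem_filter]

/-- the cells of the closed system -/
theorem rgo_mem_cells (T : Bool) (Q : Finset TV) (y : TV) : y ∈ rsgCells T Q ↔ ∃ u ∈ rdiCs T y, u ∈ Q :=
  rdi_rsg_cells T Q y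

/-- the closed system of 269 is a closed system of 182 -/
theorem rgo_sys (x : ℝ) (T : Bool) (Q : Finset TV) : RdiSys x T Q (rsgSQ x T Q) where
  A := rfl
  C := rgo_mem_cells T Q
  sv := fun _ => rfl
  q := fun y => by
    show (if (rsgCs T y ∩ Q).card = 3 then x ^ 2 else x) = x ^ 2 ∨ (if (rsgCs T y ∩ Q).card = 3 then x ^ 2 else x) = x
    split_ifs
    · exact Or.inl rfl
    · exact Or.inr rfl

theorem rgo_mem_Cb (x : ℝ) (hg : RsgGeo D) {y : TV} : y ∈ rsgCb D ↔ y ∈ (rsgS x D).C ∧ y ∉ rsgF D := by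
  unfold rsgCb
  rw [Finset.mem_sdiff, rgo_mem_M hg]
  rfl

/-! ## §2 what the place side consumes -/

/-- **(G1) THE STRIP** (both classes) -/
theorem rgo_strip {x : ℝ} (hx0 : 0 < x) (hx1 : x ≤ 1) (hh : 1 / 2 ≤ x ^ 2) (hg : RsgGeo D) :
    GlStrip (rsgS x D) (rsgCb D) (rsgLa D) (rsgLc D) (rsgLd D) (rsgLb D) := by
  obtain ⟨I, J, ia, ic, w, G⟩ := id hg
  exact rdi_geo_strip hx0 hx1 hh G.geo (rgo_sys x D.T (rsgQ D)) (fun u => rgo_mem_Q hg) (fun u => rgo_mem_La) (fun u => rgo_mem_Lc)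
    (fun u => rgo_mem_Ld) (fun u => rgo_mem_Lb) (fun y => rgo_mem_Cb x hg)

/-- **(G2) NO HOLE** -/
theorem rgo_sc (hg : RsgGeo D) : TriSCOn (ZMod 2) tscG (↑(rsgQ D) : Set TV) := by
  rw [rgo_coe_Q hg]
  obtain ⟨I, J, ia, ic, w, G⟩ := hg
  exact rdi_sc D.T G.geo.sub G.geo.sideA G.geo.sideC G.geo.bd

theorem rgo_conn (hg : RsgGeo D) : TscConn tscG (↑(rsgQ D) : Set TV) := by
  rw [rgo_coe_Q hg]
  obtain ⟨I, J, ia, ic, w, G⟩ := hg
  exact rdi_st_conn D.T G.geo.conn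

/-- (G5) the free cells lie inside `Q` -/
theorem rgo_M_sub : ∀ y ∈ rsgM D, rsgCs D.T y ⊆ rsgQ D := by
  intro y hy u hu
  exact Finset.mem_biUnion.2 ⟨y, hy, hu⟩

/-- **(G3') (LAY), cells**: a site of `Q` in a cell off `M`: the cell belongs to a layer or the site lies on an extreme row (both classes) -/
theorem rgo_lay_cell (hg : RsgGeo D) {y u : TV} (hy : y ∉ rsgF D) (hu : u ∈ rsgCs D.T y) (huQ : u ∈ rsgQ D) :
    y ∈ D.a ∨ y ∈ D.c ∨ u.2 = D.y0 ∨ u.2 = D.y1 + 1 := by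
  have hQ := (rgo_mem_Q hg).1 huQ
  obtain ⟨I, J, ia, ic, w, G⟩ := hg
  exact rdi_lay G.geo.sub G.geo.lr G.geo.bd hy hu hQ

/-- **(G3) (LAY), sites**: the boundary sites of `Q` lie on the four sides (both classes) -/
theorem rgo_lay (hg : RsgGeo D) : latBd (rsgQ D) ⊆ rsgLa D ∪ rsgLc D ∪ rsgLd D ∪ rsgLb D := by
  obtain ⟨I, J, ia, ic, w, G⟩ := hg
  exact rdi_rsg_lay G.geo

/-- (G4) the clipped cells are boundary cells (class true) -/
theorem rgo_cb (hT : D.T = true) : glCb (rsgQ D) ⊆ rsgCb D := by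
  intro y hy
  obtain ⟨h1, h2⟩ := gl_mem_cb.1 hy
  unfold rsgCb
  refine Finset.mem_sdiff.2 ⟨?_, fun hM => h2 ?_⟩
  · rw [hT]
    exact h1
  · have h3 := rgo_M_sub y hM
    rw [hT] at h3
    exact h3

/-- **(G7)** a site of `Q` in a cell of the solid left side lies in `La` -/
theorem rgo_hA (hg : RsgGeo D) {pa qa pc qc : TV} (H : HxrPair D.y0 D.y1 D.xm D.xM D.a D.c pa qa pc qc) :
    ∀ z ∈ rsgAA D, ∀ s ∈ rsgCs D.T z, s ∈ rsgQ D → s ∈ rsgLa D := by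
  obtain ⟨I, J, ia, ic, w, G⟩ := hg
  exact rdi_rsg_hA G.geo H

theorem rgo_hC (hg : RsgGeo D) {pa qa pc qc : TV} (H : HxrPair D.y0 D.y1 D.xm D.xM D.a D.c pa qa pc qc) :
    ∀ z ∈ rsgCC D, ∀ s ∈ rsgCs D.T z, s ∈ rsgQ D → s ∈ rsgLc D := by
  obtain ⟨I, J, ia, ic, w, G⟩ := hg
  exact rdi_rsg_hC G.geo H

/-- **(G8)** no site of a core cell lies in `Q` -/
theorem rgo_core_offA (hg : RsgGeo D) {i : TV} (hi : RsgCoreA D i) : ∀ s ∈ rsgCs D.T i, s ∉ rsgQ D := by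
  intro s hs hQ
  exact rdi_in_site hi.2 hs ((rgo_mem_Q hg).1 hQ)

theorem rgo_core_offC (hg : RsgGeo D) {i : TV} (hi : RsgCoreC D i) : ∀ s ∈ rsgCs D.T i, s ∉ rsgQ D := by
  intro s hs hQ
  exact rdi_in_site hi.2 hs ((rgo_mem_Q hg).1 hQ)

/-- **(G6) THE CLOSED STRIP OF 187** (site lattice: rows `y0 .. y1 + 1`, box `xm ≤ X ≤ xM + 3`; both classes)      = `psb_rsg_strip` of 173 -/
theorem rgo_pcl (hg : RsgGeo D) {pa qa pc qc : TV} (H : HxrPair D.y0 D.y1 D.xm D.xM D.a D.c pa qa pc qc) :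
    PclStrip D.y0 (D.y1 + 1) D.xm (D.xM + 3) (↑(rsgQ D)) (↑(rsgLa D)) (↑(rsgLc D)) (↑(rsgLd D \ (rsgLa D ∪ rsgLc D))) (↑(rsgLb D \ (rsgLa D ∪ rsgLc D))) := by
  obtain ⟨I, J, ia, ic, w, G⟩ := hg
  exact psb_rsg_strip D G.geo G.IR G.JR H

/-! ## §3 the producer: the record data -/

section rec

variable {A B c d w m m' : ℤ} {P : Set TV}

/-- the left arc lies in the solid left side (general box) -/
theorem rgo_seed_AA {a : Set TV} {pa qa : TV} (H : HxrCr c d A B a pa qa) (h1 : m - w ≤ hxsX pa) (h2 : m - w ≤ hxsX qa)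
    {t : TV} (ht : t ∈ rswRect A B c d) (hs : t ∈ rsrSgL A c d m w) : t ∈ hxrAA c d B a := by
  rcases hs with hs | ⟨hs | hs, hx⟩
  · by_cases hta : t ∈ a
    · exact hxr_a_sub_AA H hta
    · have hb : ((t.1 - 1, t.2) : TV) ∈ plsBand c d := ⟨ht.2.2.1, ht.2.2.2⟩
      have hX : hxsX ((t.1 - 1, t.2) : TV) < A := by
        unfold rswX at hs
        show 2 * (t.1 - 1) + t.2 < A
        omega
      have h3 := hxr_AA_far H hb hX
      have h4 : ((t.1 - 1, t.2) : TV) ∉ a := fun h => by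
        have := (H.box _ h).1
        omega
      refine hxr_sol_R h3 (tsc_R_step ?_ ⟨hb, h4⟩ ⟨rsf_rect_band ht, hta⟩)
      rw [tsc_G_adj, tsc_adj_iff]
      simp
  · refine hxr_AA_bot H hs ?_
    have := H.p0
    unfold rswX at hx
    unfold hxsX at h1
    omega
  · refine hxr_AA_top H hs ?_
    have := H.q1
    unfold rswX at hx
    unfold hxsX at h2
    omega

theorem rgo_seed_CC {a : Set TV} {pc qc : TV} (H : HxrCr c d A B a pc qc) (h1 : hxsX pc ≤ m' + w) (h2 : hxsX qc ≤ m' + w)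
    {t : TV} (ht : t ∈ rswRect A B c d) (hs : t ∈ rsrSgR B c d m' w) : t ∈ hxrCC c d A a := by
  rcases hs with hs | ⟨hs | hs, hx⟩
  · by_cases hta : t ∈ a
    · exact hxr_c_sub_CC H hta
    · have hb : ((t.1 + 1, t.2) : TV) ∈ plsBand c d := ⟨ht.2.2.1, ht.2.2.2⟩
      have hX : B < hxsX ((t.1 + 1, t.2) : TV) := by
        unfold rswX at hs
        show B < 2 * (t.1 + 1) + t.2
        omega
      have h3 := hxr_CC_far H hb hX
      have h4 : ((t.1 + 1, t.2) : TV) ∉ a := fun h => by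
        have := (H.box _ h).2
        omega
      refine hxr_sol_R h3 (tsc_R_step ?_ ⟨hb, h4⟩ ⟨rsf_rect_band ht, hta⟩)
      rw [tsc_G_adj, tsc_adj_iff]
      simp
  · refine hxr_CC_bot H hs ?_
    have := H.p0
    unfold rswX at hx
    unfold hxsX at h1
    omega
  · refine hxr_CC_top H hs ?_
    have := H.q1
    unfold rswX at hx
    unfold hxsX at h2
    omega

/-- **THE PRODUCER**, unpacked form: the strip data of two explorations in one box (`f1 .. f4`: feet and heads in the landing intervals, from `rsg_pair`) -/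
theorem rgo_geoD (T : Bool) {pa qa pc qc : TV}
    (hP : HxrPair c d A B (rsrGa A B c d w m (pleI tscG (rswRect A B c d \ P) (rsrSgL A c d m w)))
      (rsrGc A B c d w m' (pleI tscG (rswRect A B c d \ P) (rsrSgR B c d m' w))) pa qa pc qc)
    (hlook : ∀ z ∈ rsrLook (rswRect A B c d) (rsrSgL A c d m w ∪ rsrSgR B c d m' w) P,
      z ∈ hxrAA c d B (rsrGa A B c d w m (pleI tscG (rswRect A B c d \ P) (rsrSgL A c d m w))) ∨
      z ∈ hxrCC c d A (rsrGc A B c d w m' (pleI tscG (rswRect A B c d \ P) (rsrSgR B c d m' w))))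
    (h2 : ¬ RsgT2 c d (rsrGa A B c d w m (pleI tscG (rswRect A B c d \ P) (rsrSgL A c d m w)))
      (rsrGc A B c d w m' (pleI tscG (rswRect A B c d \ P) (rsrSgR B c d m' w))))
    (f1 : m - w ≤ hxsX pa) (f2 : m - w ≤ hxsX qa) (f3 : hxsX pc ≤ m' + w) (f4 : hxsX qc ≤ m' + w) :
    RsgGeoD ⟨T, c, d, A, B, rsrGa A B c d w m (pleI tscG (rswRect A B c d \ P) (rsrSgL A c d m w)),
        rsrGc A B c d w m' (pleI tscG (rswRect A B c d \ P) (rsrSgR B c d m' w))⟩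
      (pleI tscG (rswRect A B c d \ P) (rsrSgL A c d m w)) (pleI tscG (rswRect A B c d \ P) (rsrSgR B c d m' w)) m m' w where
  geo := rdi_geo_rec hP hlook (fun y hy h => h2 ⟨y, hy, h⟩)
  IR := fun z hz => (ple_I_sub hz).1
  JR := fun z hz => (ple_I_sub hz).1
  IA := by
    rintro z ⟨t, ht, hts, htz⟩
    refine hxr_sol_R (rgo_seed_AA hP.A f1 f2 ht.1 hts) (tsc_R_mono ?_ htz)
    exact fun u hu => ⟨rsf_rect_band hu.1, fun h => hu.2 (ple_gam_sub h).2⟩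
  JC := by
    rintro z ⟨t, ht, hts, htz⟩
    refine hxr_sol_R (rgo_seed_CC hP.C f3 f4 ht.1 hts) (tsc_R_mono ?_ htz)
    exact fun u hu => ⟨rsf_rect_band hu.1, fun h => hu.2 (ple_gam_sub h).2⟩

end rec

/-! ## §4 deep tips -/

/-- **the right tip is thick**: the layer `a` reaches `X > μ`, the arc lies on the left of the axis ⟹ a CORE cell on the thick axis -/
theorem rgo_coreA {I J : Set TV} {ia ic w μ : ℤ} (G : RsgGeoD D I J ia ic w) (hz : ∃ z ∈ D.a, μ < hxsX z) (h1 : D.xm + 1 ≤ μ) (h2 : ia - w + 1 ≤ μ) :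
    ∃ i, RsgCoreA D i ∧ μ - 1 ≤ hxsX i ∧ hxsX i ≤ μ + 1 := by
  obtain ⟨z, hz, hX⟩ := hz
  obtain ⟨hzR, -, hσ | ⟨i, hi, hiz⟩⟩ := G.geo.sideA.lay z hz
  · exfalso
    have e : hxsX z = rswX z := rfl
    rcases hσ with h | ⟨-, h⟩ <;> omega
  · obtain ⟨t, htI, htσ, hit⟩ := G.geo.sideA.toσ i hi
    have hXi : μ - 1 ≤ hxsX i := by
      have := (tsc_adj_iff _ _).1 hiz
      simp only [hxsX] at hX ⊢
      omega
    have hXt : hxsX t ≤ μ + 1 := by
      have e : hxsX t = rswX t := rfl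
      rcases htσ.2 with h | ⟨-, h⟩ <;> omega
    obtain ⟨v, hv, hv1, hv2⟩ := hxr_ivt_X (m := μ) htI (tsc_R_symm hit) hXt hXi
    exact ⟨v, ⟨G.IA hv, G.geo.sideA.inI v hv⟩, hv1, hv2⟩

/-- **the left tip is thick** -/
theorem rgo_coreC {I J : Set TV} {ia ic w μ : ℤ} (G : RsgGeoD D I J ia ic w) (hz : ∃ z ∈ D.c, hxsX z < μ) (h1 : μ + 1 ≤ D.xM) (h2 : μ + 1 ≤ ic + w) :
    ∃ i, RsgCoreC D i ∧ μ - 1 ≤ hxsX i ∧ hxsX i ≤ μ + 1 := by
  obtain ⟨z, hz, hX⟩ := hz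
  obtain ⟨hzR, -, hσ | ⟨i, hi, hiz⟩⟩ := G.geo.sideC.lay z hz
  · exfalso
    have e : hxsX z = rswX z := rfl
    rcases hσ with h | ⟨-, h⟩ <;> omega
  · obtain ⟨t, htI, htσ, hit⟩ := G.geo.sideC.toσ i hi
    have hXi : hxsX i ≤ μ + 1 := by
      have := (tsc_adj_iff _ _).1 hiz
      simp only [hxsX] at hX ⊢
      omega
    have hXt : μ - 1 ≤ hxsX t := by
      have e : hxsX t = rswX t := rfl
      rcases htσ.2 with h | ⟨-, h⟩ <;> omega
    obtain ⟨v, hv, hv1, hv2⟩ := hxr_ivt_X (m := μ) hi hit hXi hXt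
    exact ⟨v, ⟨G.JC hv, G.geo.sideC.inI v hv⟩, hv1, hv2⟩

end Claimed.Agent.R291
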