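import Claimed.Agent.R291.Ann.RswCyl
import Claimed.Agent.R291.Ann.RswRec
import Claimed.Agent.R291.Glue.Enter
import Claimed.Agent.R291.Pl.Record
import Claimed.Agent.R291.Defs.RswStrip
import Claimed.Agent.R291.Ann.RswClose
import Claimed.Agent.R291.Ann.RswEnt
import Claimed.Agent.R291.Ann.RswPl
import Claimed.Agent.R291.Glue.AdaptTip
import Claimed.Agent.R291.Glue.AdaptT
import Claimed.Agent.R291.Glue.Flip
import Claimed.Agent.R291.Ann.RswGeo

/-!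
# Row 291 (S0539), unit ANN, block A3 PART II (c), Ann/RswGlue : THE ASSEMBLY OF (SE-TIP), (SE-TUBE)      (owner / typist helper269; prefix `rsg_`, defs `Rsg…` / `rsg…`)

TEX[annulus:RSW] TEX[annulus:gluing]      Design: 36 (06:58Z), rulings of 187 (07:15Z) and 24 (07:10Z).   Everything below `rsg_rsc_glue : RscGlue x` is COMPILED GLUE over the closed contracts listed here.

AMBIENT  `rsgT x L T H = rscAmb x L T 0 H` (a DISC: `rsc_amb_disk`), history `rscK L 0 H`, chart `ι = sdRed L`.   NO SEAM: `rsg_norm` (shift of the law) puts the box into the window `RsgWin`, where `sdRed L = id`: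
the cell of index `z` of the ambient has the sites `rsgCs T z` (`cellV z` / `cellD z`): INDICES = CELLS, LIFTED SITES = SITES.  No images anywhere.
RECORD   `rsgRec` = `rsrRec` of `Ann/RswRec` (ONE box `R = rswRect A B c d`, `A = m - e`, `B = m + σ + e`);   `P₀ = rsrY .. ω₀` the open-plus cells of the reference configuration.
INDEX LATTICE   `rsgA` = `a` (layer of the cluster of the left arc at `m`), `rsgC` = `c`;   solid sides, strip = those of 105 (`Pl/Record`): `hxrAA c d B a`, `hxrCC c d A c`, `hxrQ c d A B a c`.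
STRIP DATA `D : RsgDat` = (class, band, box, `a`, `c`).   `rsgM D` the free cells between `a` and `c` (Finset), `rsgQ D` = their SITES, `rsgLa/Lc` = sites of `Q` in a cell of `a` / `c`, `rsgLd/Lb` = sites of `Q` on the extreme site rows,
`rsgS x D` = THE CLOSED STRIP SYSTEM (class `T` cells clipped to `Q`; `= clAmb x Q` for `T = true`: `rsg_S_true`), `rsgCb D` = its cells off `M`, `rsgH0 x D = glH0 ..`.

TRICHOTOMY (index distance of `a` and `c`):   `RsgT1` (≤ 1) ⟹ `F` surely;   `RsgT2` (= 2) ⟹ PATCH of one free cell;   else `RsgFar` (≥ 3) ⟹ STRIP.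

CONTRACTS (closed statements; owners posted by 24 / 187):
 (N)  `rsg_norm`          shift of the law: only boxes inside the window                                   269 (proved here)
 (R)  `rsg_pair`          record, `G0`, not T1 ⟹ `HxrPair` with feet / heads in the landing intervals      269 + 112
 (R') `rsg_look`          every cell looked at lies in `AA ∪ CC`                                           269 + 112
 (F)  `rsg_F_link`        `a ∪ c ⊆ Y` and a path of `Y` in the band from `a` to `c` ⟹ `RswF`               259 / 206 ((T) + (J))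
 (C)  `rsg_patch`         one free cell all of whose observed neighbours are open-plus is open-plus w.p. ≥ κ(x)       16 (`Ann/RswClose`)
 (E)  `rsg_ent`, `rsg_P1`, `rsg_P2`     `EntGeo` for (ambient, closed strip, record) + ports     63 + 182 (+ 36)
 (L)  `rsg_est_tip`, `rsg_est_tube`     `RsgEst x (rplD ..)`: `1/64 Z ≤ N(join)` in the CLOSED strip system, AT THE RECORD LEVEL (§3')      115 + 278 (TIP), 1 + 191 (TUBE), 62 (class false)
-/

set_option autoImplicit false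
set_option linter.unusedSectionVars false
set_option linter.unusedVariables false

namespace Claimed.Agent.R291

open Relation Claims Claims.C0467

/-! ## §1 the strip data and the closed strip system (planar, both classes): `Defs/RswStrip` -/

/-! ## §2 the contracts of the closed strip (planar; no record, no cylinder) -/

/-- the sites of a cell, in coordinates -/
theorem rsg88_mem_cs (T : Bool) (z s : TV) : s ∈ rsgCs T z ↔
    (T = true ∧ ((s.1 = z.1 ∧ s.2 = z.2) ∨ (s.1 = z.1 + 1 ∧ s.2 = z.2) ∨ (s.1 = z.1 ∧ s.2 = z.2 + 1))) ∨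
    (T = false ∧ ((s.1 = z.1 + 1 ∧ s.2 = z.2) ∨ (s.1 = z.1 ∧ s.2 = z.2 + 1) ∨ (s.1 = z.1 + 1 ∧ s.2 = z.2 + 1))) := by
  cases T <;> simp [rsgCs, cellV, cellD, Prod.ext_iff]

/-- two cells of one class which share a site are equal or adjacent -/
theorem rsg88_share (T : Bool) {y z s : TV} (h1 : s ∈ rsgCs T y) (h2 : s ∈ rsgCs T z) : z = y ∨ tscG.Adj z y := by
  rw [rsg88_mem_cs] at h1 h2
  rw [tsc_G_adj, tsc_adj_iff, Prod.ext_iff]
  cases T
  · simp only [Bool.false_eq_true, false_and, true_and, false_or] at h1 h2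
    omega
  · simp only [Bool.true_eq_false, false_and, true_and, or_false] at h1 h2
    omega

/-- a cell off the band with two sites in cells of the band: each of its sites lies in ONE cell of the band -/
theorem rsg88_two (T : Bool) {y0 y1 : ℤ} {y t t' s zt zt' z w : TV} (hrow : y.2 < y0 ∨ y1 < y.2)
    (ht : t ∈ rsgCs T y) (ht' : t' ∈ rsgCs T y) (hs : s ∈ rsgCs T y) (hne : t ≠ t')
    (hzt : t ∈ rsgCs T zt) (hzt' : t' ∈ rsgCs T zt') (hz : s ∈ rsgCs T z) (hw : s ∈ rsgCs T w)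
    (bt : zt ∈ plsBand y0 y1) (bt' : zt' ∈ plsBand y0 y1) (bz : z ∈ plsBand y0 y1) (bw : w ∈ plsBand y0 y1) : w = z := by
  rw [rsg88_mem_cs] at ht ht' hs hzt hzt' hz hw
  have hne' : ¬ (t.1 = t'.1 ∧ t.2 = t'.2) := fun h => hne (Prod.ext h.1 h.2)
  obtain ⟨a1, a2⟩ := bt
  obtain ⟨b1, b2⟩ := bt'
  obtain ⟨c1, c2⟩ := bz
  obtain ⟨d1, d2⟩ := bw
  cases T
  · simp only [Bool.false_eq_true, false_and, true_and, false_or] at ht ht' hs hzt hzt' hz hw
    rcases hrow with hr | hr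
    · have e1 : s.2 = y0 := by omega
      have e2 : z.1 = s.1 - 1 ∧ z.2 = y0 := by omega
      have e3 : w.1 = s.1 - 1 ∧ w.2 = y0 := by omega
      exact Prod.ext (by omega) (by omega)
    · exfalso
      have e1 : t.1 = y.1 + 1 ∧ t.2 = y.2 := by omega
      have e2 : t'.1 = y.1 + 1 ∧ t'.2 = y.2 := by omega
      omega
  · simp only [Bool.true_eq_false, false_and, true_and, or_false] at ht ht' hs hzt hzt' hz hw
    rcases hrow with hr | hr
    · exfalso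
      have e1 : t.1 = y.1 ∧ t.2 = y.2 + 1 := by omega
      have e2 : t'.1 = y.1 ∧ t'.2 = y.2 + 1 := by omega
      omega
    · have e1 : s.2 = y1 + 1 := by omega
      have e2 : z.1 = s.1 ∧ z.2 = y1 := by omega
      have e3 : w.1 = s.1 ∧ w.2 = y1 := by omega
      exact Prod.ext (by omega) (by omega)

/-- a site of a cell off the band which lies in a cell of the band lies on an extreme site row -/
theorem rsg88_end (T : Bool) {y0 y1 : ℤ} {y s z : TV} (hs : s ∈ rsgCs T y) (hz : s ∈ rsgCs T z) (bz : z ∈ plsBand y0 y1) :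
    (y.2 < y0 → s.2 = y0) ∧ (y1 < y.2 → s.2 = y1 + 1) := by
  rw [rsg88_mem_cs] at hs hz
  obtain ⟨c1, c2⟩ := bz
  cases T
  · simp only [Bool.false_eq_true, false_and, true_and, false_or] at hs hz
    constructor <;> intro _ <;> omega
  · simp only [Bool.true_eq_false, false_and, true_and, or_false] at hs hz
    constructor <;> intro _ <;> omega

/-- (E2) the ports of the closed strip system.      OWNER 63 / 182. -/
theorem rsg_P2 (x : ℝ) (D : RsgDat) {pa qa pc qc : TV} (H : HxrPair D.y0 D.y1 D.xm D.xM D.a D.c pa qa pc qc)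
    (hfar : ¬ RsgT2 D.y0 D.y1 D.a D.c) : (entP2 (rsgS x D) (rsgCb D) (rsgLa D) (rsgLc D) (rsgLd D) (rsgLb D)).card ≤ 8 := by
  classical
  have hM : ∀ z, z ∈ rsgM D ↔ z ∈ hxrQ D.y0 D.y1 D.xm D.xM D.a D.c := fun z =>
    ⟨fun h => (Finset.mem_filter.1 h).2, fun h => Finset.mem_filter.2
      ⟨rsg_box_mem ⟨(hxr_Q_box H z h).1, (hxr_Q_box H z h).2, h.1.1, h.1.2⟩, h⟩⟩
  have hQ : ∀ s, s ∈ rsgQ D ↔ ∃ z ∈ hxrQ D.y0 D.y1 D.xm D.xM D.a D.c, s ∈ rsgCs D.T z := by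
    intro s
    unfold rsgQ
    rw [Finset.mem_biUnion]
    exact ⟨fun ⟨z, hz, hs⟩ => ⟨z, (hM z).1 hz, hs⟩, fun ⟨z, hz, hs⟩ => ⟨z, (hM z).2 hz, hs⟩⟩
  have hLa : ∀ s, s ∈ rsgLa D ↔ s ∈ rsgQ D ∧ ∃ z ∈ D.a, s ∈ rsgCs D.T z := fun s => Finset.mem_filter
  have hLc : ∀ s, s ∈ rsgLc D ↔ s ∈ rsgQ D ∧ ∃ z ∈ D.c, s ∈ rsgCs D.T z := fun s => Finset.mem_filter
  have hLd : ∀ s, s ∈ rsgLd D ↔ s ∈ rsgQ D ∧ s.2 = D.y0 := fun s => Finset.mem_filter
  have hLb : ∀ s, s ∈ rsgLb D ↔ s ∈ rsgQ D ∧ s.2 = D.y1 + 1 := fun s => Finset.mem_filter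
  have hoff : ∀ z ∈ hxrQ D.y0 D.y1 D.xm D.xM D.a D.c, z ∉ D.a ∧ z ∉ D.c := fun z hz =>
    ⟨fun h => hz.2 (Or.inl (hxr_a_sub_AA H.A h)), fun h => hz.2 (Or.inr (hxr_c_sub_CC H.C h))⟩
  have hsv : ∀ y s, s ∈ (rsgS x D).sv y ↔ s ∈ rsgCs D.T y ∧ s ∈ rsgQ D := fun y s => Finset.mem_inter
  have hend : ∀ s, s ∈ glEnd (rsgLa D) (rsgLc D) (rsgLd D) (rsgLb D) ↔ (s ∈ rsgLd D ∨ s ∈ rsgLb D) ∧ ¬ (s ∈ rsgLa D ∨ s ∈ rsgLc D) := by
    intro s
    unfold glEnd
    rw [Finset.mem_sdiff, Finset.mem_union, Finset.mem_union]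
  have key : (rsgCb D).filter (fun y => ¬ (rsgS x D).sv y ⊆ rsgLa D ∪ rsgLc D ∧ ¬ (rsgS x D).sv y ⊆ glEnd (rsgLa D) (rsgLc D) (rsgLd D) (rsgLb D)) = ∅ := by
    rw [Finset.filter_eq_empty_iff]
    rintro y hy ⟨h1, h2⟩
    have hyM : y ∉ hxrQ D.y0 D.y1 D.xm D.xM D.a D.c := fun h => (Finset.mem_sdiff.1 hy).2 ((hM y).2 h)
    by_cases hband : y ∈ plsBand D.y0 D.y1
    · -- a cell of the band: it lies on a layer
      apply h1
      intro s hs
      obtain ⟨hs1, hs2⟩ := (hsv y s).1 hs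
      obtain ⟨z, hz, hsz⟩ := (hQ s).1 hs2
      have hsol : y ∈ hxrAA D.y0 D.y1 D.xM D.a ∨ y ∈ hxrCC D.y0 D.y1 D.xm D.c := by
        by_contra hn
        exact hyM ⟨hband, hn⟩
      have hadj : tscG.Adj z y := by
        rcases rsg88_share D.T hs1 hsz with e | e
        · exact absurd (e ▸ hz) hyM
        · exact e
      rcases hsol with h' | h'
      · exact Finset.mem_union_left _ ((hLa s).2 ⟨hs2, y, hxr_AA_bd H.A hz.1 (fun h0 => hz.2 (Or.inl h0)) h' hadj, hs1⟩)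
      · exact Finset.mem_union_right _ ((hLc s).2 ⟨hs2, y, hxr_CC_bd H.C hz.1 (fun h0 => hz.2 (Or.inr h0)) h' hadj, hs1⟩)
    · -- a cell off the band
      have hrow : y.2 < D.y0 ∨ D.y1 < y.2 := by
        by_contra hn
        exact hband ⟨by omega, by omega⟩
      -- every site of the cell in `Q` lies on an end; it determines its free cell
      have hsite : ∀ s ∈ (rsgS x D).sv y, (s ∈ rsgLd D ∨ s ∈ rsgLb D) := by
        intro s hs
        obtain ⟨hs1, hs2⟩ := (hsv y s).1 hs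
        obtain ⟨z, hz, hsz⟩ := (hQ s).1 hs2
        have he := rsg88_end D.T hs1 hsz hz.1
        rcases hrow with hr | hr
        · exact Or.inl ((hLd s).2 ⟨hs2, he.1 hr⟩)
        · exact Or.inr ((hLb s).2 ⟨hs2, he.2 hr⟩)
      -- either the sites are never on a layer, or there is only one site
      by_cases hone : ∀ s ∈ (rsgS x D).sv y, ∀ s' ∈ (rsgS x D).sv y, s = s'
      · by_cases hl : ∃ s ∈ (rsgS x D).sv y, s ∈ rsgLa D ∨ s ∈ rsgLc D
        · obtain ⟨s, hs, hsl⟩ := hl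
          apply h1
          intro s' hs'
          rw [← hone s hs s' hs']
          exact Finset.mem_union.2 hsl
        · apply h2
          intro s hs
          exact (hend s).2 ⟨hsite s hs, fun hh => hl ⟨s, hs, hh⟩⟩
      · apply h2
        intro s hs
        refine (hend s).2 ⟨hsite s hs, ?_⟩
        push Not at hone
        obtain ⟨t, ht, t', ht', hne⟩ := hone
        obtain ⟨ht1, ht2⟩ := (hsv y t).1 ht
        obtain ⟨ht1', ht2'⟩ := (hsv y t').1 ht'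
        obtain ⟨zt, hzt, hszt⟩ := (hQ t).1 ht2
        obtain ⟨zt', hzt', hszt'⟩ := (hQ t').1 ht2'
        obtain ⟨hs1, hs2⟩ := (hsv y s).1 hs
        obtain ⟨z, hz, hsz⟩ := (hQ s).1 hs2
        have hw : ∀ w ∈ plsBand D.y0 D.y1, s ∈ rsgCs D.T w → w = z := fun w hw hsw =>
          rsg88_two D.T hrow ht1 ht1' hs1 hne hszt hszt' hsz hsw hzt.1 hzt'.1 hz.1 hw
        rintro (hh | hh)
        · obtain ⟨-, w, hw1, hw2⟩ := (hLa s).1 hh
          exact (hoff z hz).1 (hw w (H.A.sub hw1) hw2 ▸ hw1)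
        · obtain ⟨-, w, hw1, hw2⟩ := (hLc s).1 hh
          exact (hoff z hz).2 (hw w (H.C.sub hw1) hw2 ▸ hw1)
  unfold entP2
  rw [key]
  simp

/-! ## §3 the index lattice: from the explorations to the strip data -/

section idx

/-- the layer `a` of the cluster of the left arc at `m` -/
def rsgA (A B c d w m : ℤ) (P : Set TV) : Set TV := rsrGa A B c d w m (pleI tscG (rswRect A B c d \ P) (rsrSgL A c d m w))

/-- the layer `c` of the cluster of the right arc at `m'` -/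
def rsgC (A B c d w m' : ℤ) (P : Set TV) : Set TV := rsrGc A B c d w m' (pleI tscG (rswRect A B c d \ P) (rsrSgR B c d m' w))

/-- both crossings exist -/
def RsgG0 (A B c d w m m' : ℤ) (P : Set TV) : Prop :=
  RsrG0 A B c d w m m' (pleI tscG (rswRect A B c d \ P) (rsrSgL A c d m w)) (pleI tscG (rswRect A B c d \ P) (rsrSgR B c d m' w))

/-- the strip data of the two explorations -/
def rsgD (T : Bool) (A B c d w m m' : ℤ) (P : Set TV) : RsgDat := ⟨T, c, d, A, B, rsgA A B c d w m P, rsgC A B c d w m' P⟩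

theorem rsg_eqns_cite2 : True := by
  have := @rsgA.eq_1
  have := @rsgC.eq_1
  have := @RsgG0.eq_1
  have := @rsgD.eq_1
  trivial

variable {A B c d w m m' : ℤ} {P : Set TV}

theorem rsg_rect_band : rswRect A B c d ⊆ plsBand c d := fun _ h => ⟨h.2.2.1, h.2.2.2⟩

theorem rsg_A_sub : rsgA A B c d w m P ⊆ rswRect A B c d ∩ P := ple_gam_sub

theorem rsg_C_sub : rsgC A B c d w m' P ⊆ rswRect A B c d ∩ P := ple_gam_sub

/-- the layer `a` is a crossing of the band with its feet in the landing intervals at `m`      (206) -/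
theorem rsg_crA (hcd : c < d) (hw : 1 ≤ w) (hA : A + 4 ≤ m - w) (hB : m + w + 4 ≤ B) (hG : RsgG0 A B c d w m m' P) :
    ∃ pa qa, HxrCr c d A B (rsgA A B c d w m P) pa qa ∧ pa ∈ rsrLam c m w ∧ qa ∈ rsrLam d m w := by
  have qL := rsr_quad_L (A := A) (B := B) (c := c) (d := d) (i := m) (w := w) hcd hw hA hB
  obtain ⟨l, r, hl1, hl2, hr2, hlr⟩ := ple_gam_cross qL hG.1
  refine ⟨l, r, ⟨fun z hz => rsg_rect_band (rsg_A_sub hz).1, ple_gam_conn qL.side qL.opp hG.1, fun z hz => ?_, hl1, tsc_R_mem hlr hl1, hl2.1, hr2.1⟩, hl2, hr2⟩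
  exact ⟨(rsg_A_sub hz).1.1, (rsg_A_sub hz).1.2.1⟩

/-- the layer `c` is a crossing of the band with its feet in the landing intervals at `m'`      (206) -/
theorem rsg_crC (hcd : c < d) (hw : 1 ≤ w) (hA : A + 4 ≤ m' - w) (hB : m' + w + 4 ≤ B) (hG : RsgG0 A B c d w m m' P) :
    ∃ pc qc, HxrCr c d A B (rsgC A B c d w m' P) pc qc ∧ pc ∈ rsrLam c m' w ∧ qc ∈ rsrLam d m' w := by
  have qR := rsr_quad_R (A := A) (B := B) (c := c) (d := d) (i := m') (w := w) hcd hw hA hB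
  obtain ⟨l, r, hl1, hl2, hr2, hlr⟩ := ple_gam_cross qR hG.2
  refine ⟨l, r, ⟨fun z hz => rsg_rect_band (rsg_C_sub hz).1, ple_gam_conn qR.side qR.opp hG.2, fun z hz => ?_, hl1, tsc_R_mem hlr hl1, hl2.1, hr2.1⟩, hl2, hr2⟩
  exact ⟨(rsg_C_sub hz).1.1, (rsg_C_sub hz).1.2.1⟩

/-- the left arc lies in the solid left side      (206) -/
theorem rsg_seed_AA {pa qa : TV} (H : HxrCr c d A B (rsgA A B c d w m P) pa qa) (h1 : pa ∈ rsrLam c m w) (h2 : qa ∈ rsrLam d m w)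
    {t : TV} (ht : t ∈ rswRect A B c d) (hs : t ∈ rsrSgL A c d m w) : t ∈ hxrAA c d B (rsgA A B c d w m P) := by
  rcases hs with hs | ⟨hs | hs, hx⟩
  · by_cases hta : t ∈ rsgA A B c d w m P
    · exact hxr_a_sub_AA H hta
    · have hb : ((t.1 - 1, t.2) : TV) ∈ plsBand c d := ⟨ht.2.2.1, ht.2.2.2⟩
      have hX : hxsX ((t.1 - 1, t.2) : TV) < A := by
        unfold rswX at hs
        show 2 * (t.1 - 1) + t.2 < A
        omega
      have h3 := hxr_AA_far H hb hX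
      have h4 : ((t.1 - 1, t.2) : TV) ∉ rsgA A B c d w m P := fun h => by
        have := (H.box _ h).1
        omega
      refine hxr_sol_R h3 (tsc_R_step ?_ ⟨hb, h4⟩ ⟨rsg_rect_band ht, hta⟩)
      rw [tsc_G_adj, tsc_adj_iff]
      simp
  · refine hxr_AA_bot H hs ?_
    obtain ⟨a1, a2, a3⟩ := h1
    unfold rswX at *
    omega
  · refine hxr_AA_top H hs ?_
    obtain ⟨a1, a2, a3⟩ := h2
    unfold rswX at *
    omega

/-- the right arc lies in the solid right side      (206) -/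
theorem rsg_seed_CC {pc qc : TV} (H : HxrCr c d A B (rsgC A B c d w m' P) pc qc) (h1 : pc ∈ rsrLam c m' w) (h2 : qc ∈ rsrLam d m' w)
    {t : TV} (ht : t ∈ rswRect A B c d) (hs : t ∈ rsrSgR B c d m' w) : t ∈ hxrCC c d A (rsgC A B c d w m' P) := by
  rcases hs with hs | ⟨hs | hs, hx⟩
  · by_cases hta : t ∈ rsgC A B c d w m' P
    · exact hxr_c_sub_CC H hta
    · have hb : ((t.1 + 1, t.2) : TV) ∈ plsBand c d := ⟨ht.2.2.1, ht.2.2.2⟩
      have hX : B < hxsX ((t.1 + 1, t.2) : TV) := by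
        unfold rswX at hs
        show B < 2 * (t.1 + 1) + t.2
        omega
      have h3 := hxr_CC_far H hb hX
      have h4 : ((t.1 + 1, t.2) : TV) ∉ rsgC A B c d w m' P := fun h => by
        have := (H.box _ h).2
        omega
      refine hxr_sol_R h3 (tsc_R_step ?_ ⟨hb, h4⟩ ⟨rsg_rect_band ht, hta⟩)
      rw [tsc_G_adj, tsc_adj_iff]
      simp
  · refine hxr_CC_bot H hs ?_
    obtain ⟨a1, a2, a3⟩ := h1
    unfold rswX at *
    omega
  · refine hxr_CC_top H hs ?_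
    obtain ⟨a1, a2, a3⟩ := h2
    unfold rswX at *
    omega

/-- (R) the two layers are two crossings of the band.      OWNER 269. -/
theorem rsg_pair (hcd : c < d) (hw : 1 ≤ w) (hA : A + 4 ≤ m - w) (hmm : m + w < m' - w) (hB : m' + w + 4 ≤ B) (hG : RsgG0 A B c d w m m' P)
    (h1 : ¬ RsgT1 (rsgA A B c d w m P) (rsgC A B c d w m' P)) :
    ∃ pa qa pc qc : TV, HxrPair c d A B (rsgA A B c d w m P) (rsgC A B c d w m' P) pa qa pc qc ∧
      (m - w ≤ hxsX pa ∧ hxsX pa ≤ m + w) ∧ (m - w ≤ hxsX qa ∧ hxsX qa ≤ m + w) ∧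
      (m' - w ≤ hxsX pc ∧ hxsX pc ≤ m' + w) ∧ (m' - w ≤ hxsX qc ∧ hxsX qc ≤ m' + w) := by
  obtain ⟨pa, qa, HA, ⟨a0, a1, a2⟩, ⟨a3, a4, a5⟩⟩ := rsg_crA hcd hw hA (by omega) hG
  obtain ⟨pc, qc, HC, ⟨c0, c1, c2⟩, ⟨c3, c4, c5⟩⟩ := rsg_crC hcd hw (by omega) hB hG
  refine ⟨pa, qa, pc, qc, ⟨HA, HC, ?_, ?_, fun u hu v hv => ⟨fun e => h1 ⟨u, hu, v, hv, Or.inl e⟩, fun e => h1 ⟨u, hu, v, hv, Or.inr e⟩⟩⟩,
    ⟨a1, a2⟩, ⟨a4, a5⟩, ⟨c1, c2⟩, ⟨c4, c5⟩⟩
  · unfold rswX at *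
    omega
  · unfold rswX at *
    omega

/-- (R') every cell looked at lies in a solid side.      OWNER 269. -/
theorem rsg_look (hcd : c < d) (hw : 1 ≤ w) (hA : A + 4 ≤ m - w) (hmm : m + w < m' - w) (hB : m' + w + 4 ≤ B) (hG : RsgG0 A B c d w m m' P)
    {z : TV} (hz : z ∈ rsrLook (rswRect A B c d) (rsrSgL A c d m w ∪ rsrSgR B c d m' w) P) :
    z ∈ hxrAA c d B (rsgA A B c d w m P) ∨ z ∈ hxrCC c d A (rsgC A B c d w m' P) := by
  obtain ⟨pa, qa, HA, a1, a2⟩ := rsg_crA hcd hw hA (by omega) hG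
  obtain ⟨pc, qc, HC, c1, c2⟩ := rsg_crC hcd hw (by omega) hB hG
  have offA : rswRect A B c d \ P ⊆ plsBand c d \ rsgA A B c d w m P := fun u hu => ⟨rsg_rect_band hu.1, fun h => hu.2 (rsg_A_sub h).2⟩
  have offC : rswRect A B c d \ P ⊆ plsBand c d \ rsgC A B c d w m' P := fun u hu => ⟨rsg_rect_band hu.1, fun h => hu.2 (rsg_C_sub h).2⟩
  -- the cluster of the two arcs
  have hcl : ∀ i, i ∈ pleI tscG (rswRect A B c d \ P) (rsrSgL A c d m w ∪ rsrSgR B c d m' w) →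
      (i ∈ hxrAA c d B (rsgA A B c d w m P) ∨ i ∈ hxrCC c d A (rsgC A B c d w m' P)) ∧ i ∈ rswRect A B c d \ P := by
    rintro i ⟨t, ht, hts | hts, hti⟩
    · exact ⟨Or.inl (hxr_sol_R (rsg_seed_AA HA a1 a2 ht.1 hts) (tsc_R_mono offA hti)), tsc_R_mem hti ht⟩
    · exact ⟨Or.inr (hxr_sol_R (rsg_seed_CC HC c1 c2 ht.1 hts) (tsc_R_mono offC hti)), tsc_R_mem hti ht⟩
  obtain ⟨hzR, (hs | hs) | hz | ⟨i, hi, hiz⟩⟩ := hz
  · exact Or.inl (rsg_seed_AA HA a1 a2 hzR hs)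
  · exact Or.inr (rsg_seed_CC HC c1 c2 hzR hs)
  · exact (hcl z hz).1
  · obtain ⟨h | h, hiN⟩ := hcl i hi
    · left
      by_cases hza : z ∈ rsgA A B c d w m P
      · exact hxr_a_sub_AA HA hza
      · exact hxr_sol_R h (tsc_R_step hiz (offA hiN) ⟨rsg_rect_band hzR, hza⟩)
    · right
      by_cases hza : z ∈ rsgC A B c d w m' P
      · exact hxr_c_sub_CC HC hza
      · exact hxr_sol_R h (tsc_R_step hiz (offC hiN) ⟨rsg_rect_band hzR, hza⟩)

/-- (R'') the two layers are looked at and open-plus.      OWNER 269. -/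
theorem rsg_layer (z : TV) (hz : z ∈ rsgA A B c d w m P ∨ z ∈ rsgC A B c d w m' P) :
    z ∈ P ∧ z ∈ rsrLook (rswRect A B c d) (rsrSgL A c d m w ∪ rsrSgR B c d m' w) P := by
  rcases hz with hz | hz
  · refine ⟨(rsg_A_sub hz).2, (rsg_A_sub hz).1, ?_⟩
    rcases hz.2 with h | ⟨i, ⟨t, ht, hts, hti⟩, h⟩
    · exact Or.inl (Or.inl h)
    · exact Or.inr (Or.inr ⟨i, ⟨t, ht, Or.inl hts, hti⟩, h⟩)
  · refine ⟨(rsg_C_sub hz).2, (rsg_C_sub hz).1, ?_⟩
    rcases hz.2 with h | ⟨i, ⟨t, ht, hts, hti⟩, h⟩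
    · exact Or.inl (Or.inr h)
    · exact Or.inr (Or.inr ⟨i, ⟨t, ht, Or.inr hts, hti⟩, h⟩)

/-- (F) = (T) + (J): a path of open-plus cells of the band from `a` to `c` gives `F`.      OWNER 269. -/
theorem rsg_F_link {σ : ℤ} (hcd : c < d) (hw : 1 ≤ w) (hA : A + 4 ≤ m - w) (hσ : 2 * w < σ) (hB : m + σ + w + 4 ≤ B) (hG : RsgG0 A B c d w m (m + σ) P)
    {Y : Set TV} (ha : rsgA A B c d w m P ⊆ Y) (hc : rsgC A B c d w (m + σ) P ⊆ Y) {u v : TV} (hu : u ∈ rsgA A B c d w m P)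
    (hv : v ∈ rsgC A B c d w (m + σ) P) (h : TscR tscG (Y ∩ plsBand c d) u v) : RswF c d w σ m Y := by
  obtain ⟨pa, qa, HA, ⟨a0, a1⟩, ⟨a3, a4⟩⟩ := rsg_crA hcd hw hA (by omega) hG
  obtain ⟨pc, qc, HC, ⟨c0, c1⟩, ⟨c3, c4⟩⟩ := rsg_crC hcd hw (by omega) hB hG
  have sa : rsgA A B c d w m P ⊆ Y ∩ plsBand c d := fun z hz => ⟨ha hz, HA.sub hz⟩
  have sc : rsgC A B c d w (m + σ) P ⊆ Y ∩ plsBand c d := fun z hz => ⟨hc hz, HC.sub hz⟩
  exact ⟨pa, qa, pc, qc, sa HA.pa, a0, a3, c0, c3, a1, a4, c1, c4, tsc_R_mono sa (HA.conn pa HA.pa qa HA.qa),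
    tsc_R_trans (tsc_R_mono sa (HA.conn pa HA.pa u hu)) (tsc_R_trans h (tsc_R_mono sc (HC.conn v hv pc HC.pa))),
    tsc_R_mono sc (HC.conn pc HC.pa qc HC.qa)⟩

end idx

/-! ## §3' THE TWO CONTRACTS (L), AT THE RECORD LEVEL      (retype of 08:10Z: alerts of 182, 187, 122: an abstract `HxrPair` is too little: hairs, holes, thin tips)

Vocabulary of 206 (`Ann/RswPl`): `rplA`, `rplC`, `RplG0`, `rplD T c d w σ m e P : RsgDat` (`= rsgD T (m - e) (m + σ + e) c d w m (m + σ) P` by `rfl`), `P` = ANY set of indices (the open-plus cells).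
Everything true at the record is available: thickness (`RdiSide`, `rdi_rsg_strip_rec` of 182), barriers (173), core cells (`rpl_core_R/L` of 206), `rpl_pair`, ports (63).   BOTH classes. -/

theorem rsg_half {x : ℝ} (hx1 : 1 / Real.sqrt 2 ≤ x) : 1 / 2 ≤ x ^ 2 := by
  have h0 : (0 : ℝ) ≤ 1 / Real.sqrt 2 := by positivity
  have h1 : (1 / Real.sqrt 2) ^ 2 ≤ x ^ 2 := pow_le_pow_left₀ h0 hx1 2
  have h2 : (1 / Real.sqrt 2) ^ 2 = 1 / 2 := by
    rw [div_pow, one_pow, Real.sq_sqrt (by norm_num)]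
  rwa [h2] at h1

/-- the common hypotheses of the two contracts (L), in free letters -/
def RsgHyp (A B c d w m m' : ℤ) (P : Set TV) : Prop :=
  c < d ∧ 1 ≤ w ∧ A + 4 ≤ m - w ∧ m + w < m' - w ∧ m' + w + 4 ≤ B ∧ RsgG0 A B c d w m m' P ∧
    ¬ RsgT1 (rsgA A B c d w m P) (rsgC A B c d w m' P) ∧ ¬ RsgT2 c d (rsgA A B c d w m P) (rsgC A B c d w m' P)

theorem rsg_eqns_cite5 : True := by
  have := @RsgHyp.eq_1
  trivial

/-- they are invariant under the reflection -/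
theorem rsg_hyp_flip {A B c d w m m' : ℤ} {P : Set TV} (h : RsgHyp A B c d w m m' P) :
    RsgHyp (A + 1) (B + 1) (-d - 1) (-c - 1) w (m + 1) (m' + 1) (glfJ ⁻¹' P) := by
  obtain ⟨h1, h2, h3, h4, h5, h6, h7, h8⟩ := h
  refine ⟨by omega, h2, by omega, by omega, by omega, ?_, ?_, ?_⟩
  · unfold RsgG0
    rw [glf_clI, glf_clJ, glf_G0]
    exact h6
  · unfold rsgA rsgC
    rw [glf_clI, glf_clJ, glf_Ga, glf_Gc, glf_T1]
    exact h7
  · unfold rsgA rsgC
    rw [glf_clI, glf_clJ, glf_Ga, glf_Gc, glf_T2]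
    exact h8

/-- what they give: the pair and the geometry of the record -/
theorem rsg_hyp_geo {A B c d w m m' : ℤ} {P : Set TV} (h : RsgHyp A B c d w m m' P) (T : Bool) :
    ∃ pa qa pc qc : TV, HxrPair c d A B (rsgA A B c d w m P) (rsgC A B c d w m' P) pa qa pc qc ∧
      (m - w ≤ hxsX pa ∧ hxsX pa ≤ m + w) ∧ (m - w ≤ hxsX qa ∧ hxsX qa ≤ m + w) ∧
      (m' - w ≤ hxsX pc ∧ hxsX pc ≤ m' + w) ∧ (m' - w ≤ hxsX qc ∧ hxsX qc ≤ m' + w) ∧
      RsgGeoD (glfRec T A B c d w m m' P) (pleI tscG (rswRect A B c d \ P) (rsrSgL A c d m w)) (pleI tscG (rswRect A B c d \ P) (rsrSgR B c d m' w)) m m' w := by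
  obtain ⟨h1, h2, h3, h4, h5, h6, h7, h8⟩ := h
  obtain ⟨pa, qa, pc, qc, hP, f1, f2, f3, f4⟩ := rsg_pair h1 h2 h3 h4 h5 h6 h7
  exact ⟨pa, qa, pc, qc, hP, f1, f2, f3, f4, rgo_geoD T hP (fun z hz => rsg_look h1 h2 h3 h4 h5 h6 hz) h8 f1.1 f2.1 f3.2 f4.2⟩

/-- **(L-TIP)**.      ASSEMBLER 115 (`Ann/RswTip`), record side 278; class `false` by the flip of 62. -/
theorem rsg_est_tip (x : ℝ) (hx1 : 1 / Real.sqrt 2 ≤ x) (hx2 : x ≤ 1) (T : Bool) {c d w σ m e e2 : ℤ} {P : Set TV} (hcd : c < d) (hw : 1 ≤ w) (hσ : 2 * w < σ)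
    (he : w + 4 ≤ e) (h21 : e2 ≤ e) (h22 : e + 3 * σ + w + 8 ≤ 2 * e2) (h0 : RplG0 c d w σ m e P)
    (h1 : ¬ RsgT1 (rplA c d w σ m e P) (rplC c d w σ m e P)) (h2 : ¬ RsgT2 c d (rplA c d w σ m e P) (rplC c d w σ m e P))
    (hta : ∃ z ∈ rplA c d w σ m e P, m + e2 < rswX z) (htc : ∃ z ∈ rplC c d w σ m e P, rswX z < m + σ - e2) : RsgEst x (rplD T c d w σ m e P) :=
  glf_rpl_tip (lt_of_lt_of_le (by positivity) hx1) hx2 3 (fun g1 g2 g3 g4 g5 g6 g7 g8 g9 g10 g11 => rsa_tip_true x hx1 hx2 g1 g2 g3 g4 g5 g6 g7 g8 g9 g10 g11)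
    T hcd hw hσ he h21 h22 h0 h1 h2 hta htc

/-- **(L-TUBE)**.      ASSEMBLER 1 / 191 (`gat_three` + `hxr_tube`); class `false` by the flip of 62. -/
theorem rsg_est_tube (x : ℝ) (hx1 : 1 / Real.sqrt 2 ≤ x) (hx2 : x ≤ 1) (T : Bool) {c d w σ m e : ℤ} {P : Set TV} (hcd : c < d) (hw : 1 ≤ w) (hσ : 2 * w < σ)
    (he : w + 4 ≤ e) (hnar : 12 * (σ + 2 * e) + 64 ≤ d - c) (h0 : RplG0 c d w σ m e P)
    (h1 : ¬ RsgT1 (rplA c d w σ m e P) (rplC c d w σ m e P)) (h2 : ¬ RsgT2 c d (rplA c d w σ m e P) (rplC c d w σ m e P)) : RsgEst x (rplD T c d w σ m e P) := by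
  have hx0 : 0 < x := lt_of_lt_of_le (by positivity) hx1
  refine glf_class hx0 hx2 (fun A B c d w m m' P => RsgHyp A B c d w m m' P ∧ 12 * (B - A) + 64 ≤ d - c) ?_ ?_ ?_ T (m - e) (m + σ + e) c d w m (m + σ) P
    ⟨⟨hcd, hw, by omega, by omega, by omega, h0, h1, h2⟩, by omega⟩
  · rintro A B c d w m m' P ⟨h, h'⟩
    exact ⟨rsg_hyp_flip h, by omega⟩
  · rintro A B c d w m m' P ⟨h, _⟩
    obtain ⟨pa, qa, pc, qc, hP, _⟩ := rsg_hyp_geo h false
    exact hxr_Q_box hP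
  · rintro A B c d w m m' P ⟨h, h'⟩
    obtain ⟨pa, qa, pc, qc, hP, _, _, _, _, hg⟩ := rsg_hyp_geo h true
    exact gat_est_tube hx0 hx2 (rsg_half hx1) (glfRec true A B c d w m m' P) rfl ⟨_, _, _, _, _, hg⟩ (pa := pa) (qa := qa) (pc := pc) (qc := qc) hP h'

/-! ## §4 the ambient disc, the window, the record -/

/-- THE AMBIENT: the mixed cylinder with a cone below (a disc: `rsc_amb_disk`) -/
noncomputable def rsgT (x : ℝ) (L H : ℕ) (T : Bool) : ClSys TV TV := rscAmb x L T 0 H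

/-- THE WINDOW: the box `rswRect A B c d` and its neighbourhood lie in the fundamental domain, away from the seam, from the cone and from the top row -/
structure RsgWin (L H : ℕ) (A B c d : ℤ) : Prop where
  cd : c < d
  lo : d + 8 ≤ A
  hi : B - c + 12 ≤ 2 * L
  bot : 2 ≤ c
  top : d + 3 ≤ H

/-- the open-plus cells (lifted indices) -/
def rsgP (x : ℝ) (L H : ℕ) (T : Bool) (ω : ClCfg TV TV) : Set TV := rsrY (rsgT x L H T) (sdRed L) ω

/-- THE RECORD of the two explorations -/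
noncomputable def rsgRec (x : ℝ) (L H : ℕ) (T : Bool) (c d w σ m e : ℤ) (ω₀ : ClCfg TV TV) : ClCon TV TV :=
  rsrRec (rsgT x L H T) (rscK L 0 H) (rsrQ2 (rsgT x L H T) (sdRed L) c d w σ m e) ω₀

/-- the strip data of the record -/
def rsgDr (x : ℝ) (L H : ℕ) (T : Bool) (c d w σ m e : ℤ) (ω₀ : ClCfg TV TV) : RsgDat :=
  rsgD T (m - e) (m + σ + e) c d w m (m + σ) (rsgP x L H T ω₀)

theorem rsg_eqns_cite3 : True := by
  have := @rsgT.eq_1
  have := @rsgP.eq_1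
  have := @rsgRec.eq_1
  have := @rsgDr.eq_1
  trivial

/-- (W) THE CHART: inside the window the ambient is the planar lattice.      OWNER 269. -/
theorem rsg_chart (x : ℝ) {L H : ℕ} (T : Bool) {A B c d : ℤ} (hW : RsgWin L H A B c d) {z : TV} (hz : z ∈ rswRect (A - 4) (B + 4) (c - 2) (d + 2)) :
    sdRed L z = z ∧ z ∈ (rsgT x L H T).C ∧ (rsgT x L H T).sv z = rsgCs T z ∧ (rsgT x L H T).q z = x ^ 2 := by
  obtain ⟨h1, h2, h3, h4⟩ := hz
  obtain ⟨w1, w2, w3, w4, w5⟩ := hW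
  unfold rswX at h1 h2
  have a0 : 0 ≤ z.1 := by omega
  have a1 : z.1 + 1 < L := by omega
  have a1' : z.1 < L := by omega
  refine ⟨rsc_red_id a0 a1', (rsc_amb_mem_C x L T 0 H).2 ⟨⟨a0, a1'⟩, by omega, by omega⟩, ?_, rfl⟩
  unfold rsgT
  rw [rsc_amb_sv1 x L T 0 H (by omega)]
  have hn : rscNx L z.1 = z.1 + 1 := by unfold rscNx; rw [if_neg (by omega)]
  obtain ⟨i, j⟩ := z
  cases T
  · rw [rsc_cell_dn a0 a1', hn]
    simp [rsgCs, cellD]
  · rw [rsc_cell_up a0 a1', hn]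
    simp [rsgCs, cellV]

/-- (W') a cell of the ambient which meets a cell of the box has its index in the neighbourhood of the box.      OWNER 269. -/
theorem rsg_chart_nb (x : ℝ) {L H : ℕ} (T : Bool) {A B c d : ℤ} (hW : RsgWin L H A B c d) {z y : TV} (hz : z ∈ rswRect A B c d)
    (hy : y ∈ (rsgT x L H T).C) {v : TV} (h1 : v ∈ rsgCs T z) (h2 : v ∈ (rsgT x L H T).sv y) : y = z ∨ tscG.Adj z y := by
  obtain ⟨g1, g2, g3, g4⟩ := hz
  obtain ⟨w1, w2, w3, w4, w5⟩ := hW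
  unfold rswX at g1 g2
  obtain ⟨⟨b0, b1⟩, b2, b3⟩ := (rsc_amb_mem_C x L T 0 H).1 hy
  rw [rsg_mem_cs] at h1
  unfold rsgT at h2
  have hv1 : 1 ≤ v.1 ∧ v.1 + 1 < L ∧ 2 ≤ v.2 := by
    rcases h1 with ⟨_, h | h | h⟩ | ⟨_, h | h | h⟩ <;> omega
  by_cases hc : y.2 = 0 - 1
  · rw [rsc_amb_sv0 x L T 0 H hc] at h2
    simp only [Finset.mem_insert, Finset.mem_singleton, Prod.ext_iff] at h2
    omega
  · rw [rsc_amb_sv1 x L T 0 H hc] at h2
    rw [tsc_G_adj, tsc_adj_iff, Prod.ext_iff]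
    have hn : rscNx L y.1 = y.1 + 1 ∨ (rscNx L y.1 = 0 ∧ y.1 + 1 = L) := by
      unfold rscNx
      split_ifs with h
      · exact Or.inr ⟨rfl, h⟩
      · exact Or.inl rfl
    cases T
    · rw [rsc_cell_dn b0 b1] at h2
      simp only [Finset.mem_insert, Finset.mem_singleton, Prod.ext_iff] at h2
      rcases h1 with ⟨h, _⟩ | ⟨_, h1⟩
      · exact absurd h (by simp)
      rcases hn with hn | ⟨hn, hn'⟩
      · rw [hn] at h2
        rcases h1 with h | h | h <;> rcases h2 with h' | h' | h' <;> omega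
      · rw [hn] at h2
        rcases h2 with h' | h' | h' <;> omega
    · rw [rsc_cell_up b0 b1] at h2
      simp only [Finset.mem_insert, Finset.mem_singleton, Prod.ext_iff] at h2
      rcases h1 with ⟨_, h1⟩ | ⟨h, _⟩
      swap
      · exact absurd h (by simp)
      rcases hn with hn | ⟨hn, hn'⟩
      · rw [hn] at h2
        rcases h1 with h | h | h <;> rcases h2 with h' | h' | h' <;> omega
      · rw [hn] at h2
        rcases h2 with h' | h' | h' <;> omega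

/-! ### (E) the entrance data: the core -/

/-- two cells of one class which share a site have equal or adjacent indices -/
theorem rsg_share {T : Bool} {z y v : TV} (h1 : v ∈ rsgCs T z) (h2 : v ∈ rsgCs T y) : y = z ∨ tscG.Adj z y := by
  rw [rsg_mem_cs] at h1 h2
  rw [tsc_G_adj, tsc_adj_iff, Prod.ext_iff]
  rcases h1 with ⟨rfl, h1⟩ | ⟨rfl, h1⟩
  · rcases h2 with ⟨_, h2⟩ | ⟨h, _⟩
    · omega
    · exact absurd h (by simp)
  · rcases h2 with ⟨h, _⟩ | ⟨_, h2⟩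
    · exact absurd h (by simp)
    · omega

/-- a neighbour of a cell of the box -/
theorem rsg_nb_rect {A B c d : ℤ} {z y : TV} (hz : z ∈ rswRect A B c d) (h : y = z ∨ tscG.Adj z y) : y ∈ rswRect (A - 2) (B + 2) (c - 1) (d + 1) := by
  obtain ⟨h1, h2, h3, h4⟩ := hz
  unfold rswX at h1 h2
  rw [tsc_G_adj, tsc_adj_iff, Prod.ext_iff] at h
  refine ⟨?_, ?_, ?_, ?_⟩ <;> (try unfold rswX) <;> omega

/-- the basic history sees only the rows `a - 1`, `a`, `b` -/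
theorem rsg_K_off (L : ℕ) (a b : ℤ) :
    (∀ v ∈ (rscK L a b).Bp, v.2 = b) ∧ (∀ v ∈ (rscK L a b).Bm, v.2 = a - 1 ∨ v.2 = a) ∧ (rscK L a b).Eq = ∅ ∧ (rscK L a b).Op = ∅ ∧
      (∀ y ∈ (rscK L a b).Om, y.2 = a - 1) ∧ (rscK L a b).Cl = ∅ := by
  refine ⟨fun v hv => (rsc_mem_row.1 hv).2, fun v hv => ?_, rfl, rfl, fun y hy => (rsc_mem_row.1 hy).2, rfl⟩
  rcases Finset.mem_insert.1 hv with h | h
  · rw [h]; exact Or.inl rfl
  · exact Or.inr (rsc_mem_row.1 h).2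

theorem rsg_mem_cells {T : Bool} {Q : Finset TV} {y : TV} : y ∈ rsgCells T Q ↔ ∃ v ∈ rsgCs T y, v ∈ Q := by
  cases T
  · simp only [rsgCells, rsgCs, cellD, Finset.mem_union, Finset.mem_image, Finset.mem_insert, Finset.mem_singleton, exists_eq_or_imp, exists_eq_left,
      Bool.false_eq_true, if_false]
    constructor
    · rintro ((⟨u, hu, rfl⟩ | ⟨u, hu, rfl⟩) | ⟨u, hu, rfl⟩)
      · left; simpa using hu
      · right; left; simpa using hu
      · right; right; simpa using hu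
    · rintro (h | h | h)
      · exact Or.inl (Or.inl ⟨_, h, by simp⟩)
      · exact Or.inl (Or.inr ⟨_, h, by simp⟩)
      · exact Or.inr ⟨_, h, by simp⟩
  · exact lat_mem_cells

theorem rsg_cs_card (T : Bool) (z : TV) : (rsgCs T z).card = 3 := by
  obtain ⟨i, j⟩ := z
  cases T
  · simp only [rsgCs, cellD, Bool.false_eq_true, if_false]
    rw [Finset.card_insert_of_notMem, Finset.card_insert_of_notMem, Finset.card_singleton]
    · simp [Prod.ext_iff]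
    · simp [Prod.ext_iff]
  · simp only [rsgCs, cellV, if_true]
    rw [Finset.card_insert_of_notMem, Finset.card_insert_of_notMem, Finset.card_singleton]
    · simp [Prod.ext_iff]
    · simp [Prod.ext_iff]

theorem rsg_mem_Q {D : RsgDat} {v : TV} : v ∈ rsgQ D ↔ ∃ z ∈ rsgM D, v ∈ rsgCs D.T z := by
  unfold rsgQ; exact Finset.mem_biUnion

theorem rsg_mem_side {T : Bool} {Q : Finset TV} {Z : Set TV} {v : TV} : v ∈ rsgSide T Q Z ↔ v ∈ Q ∧ ∃ z ∈ Z, v ∈ rsgCs T z := by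
  classical
  unfold rsgSide; exact Finset.mem_filter

/-- **(E), the core**: ambient disc, closed strip system, a record `lenObs` whose cells lie in the two solid sides and contain the two layers, open-plus -/
theorem rsg_ent_core (x : ℝ) (hx0 : 0 < x) (hx1 : x ≤ 1) {L H : ℕ} (T : Bool) {A B c d : ℤ} (hW : RsgWin L H A B c d) {a cc : Set TV} {pa qa pc qc : TV}
    (hP : HxrPair c d A B a cc pa qa pc qc) (Qc : Finset TV) (ω₀ : ClCfg TV TV) (hQC : Qc ⊆ (rsgT x L H T).C)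
    (hlook : ∀ y ∈ Qc, y ∈ hxrAA c d B a ∨ y ∈ hxrCC c d A cc)
    (hlay : ∀ z, z ∈ a ∨ z ∈ cc → z ∈ Qc ∧ clTau (rsgT x L H T) ω₀ z = 1)
    (hZ : 0 < (rsgT x L H T).Z ((lenObs (rsgT x L H T) (rscK L 0 H) Qc ω₀).Holds (rsgT x L H T))) :
    EntGeo (rsgT x L H T) (rsgS x ⟨T, c, d, A, B, a, cc⟩) (lenObs (rsgT x L H T) (rscK L 0 H) Qc ω₀) (rsgQ ⟨T, c, d, A, B, a, cc⟩)
      (rsgM ⟨T, c, d, A, B, a, cc⟩) (rsgCb ⟨T, c, d, A, B, a, cc⟩) (rsgLa ⟨T, c, d, A, B, a, cc⟩) (rsgLc ⟨T, c, d, A, B, a, cc⟩)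
      (rsgLd ⟨T, c, d, A, B, a, cc⟩) (rsgLb ⟨T, c, d, A, B, a, cc⟩)
      (lenObs (rsgT x L H T) (rscK L 0 H) Qc ω₀).Bp (lenObs (rsgT x L H T) (rscK L 0 H) Qc ω₀).Op := by
  classical
  set D : RsgDat := ⟨T, c, d, A, B, a, cc⟩ with hD
  set Tm := rsgT x L H T with hTm
  have hAB : A ≤ B := (hP.A.box pa hP.A.pa).1.trans (hP.A.box pa hP.A.pa).2
  have hL : 1 ≤ L := by have := hW.lo; have := hW.hi; have := hW.cd; omega
  have hOk : ClOk Tm := rsc_amb_ok x hx0 hx1 L T 0 H (by positivity)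
  obtain ⟨k1, k2, k3, k4, k5, k6⟩ := rsg_K_off L 0 H
  -- the free cells
  have hMQ : ∀ z, z ∈ rsgM D ↔ z ∈ hxrQ c d A B a cc := fun z =>
    ⟨fun h => (Finset.mem_filter.1 h).2, fun h => Finset.mem_filter.2 ⟨rsg_box_mem ⟨(hxr_Q_box hP z h).1, (hxr_Q_box hP z h).2, h.1.1, h.1.2⟩, h⟩⟩
  have hMR : ∀ z ∈ rsgM D, z ∈ rswRect A B c d := fun z h => by
    have h' := (hMQ z).1 h
    exact ⟨(hxr_Q_box hP z h').1, (hxr_Q_box hP z h').2, h'.1.1, h'.1.2⟩
  have hnb : ∀ z ∈ rswRect A B c d, ∀ y, (y = z ∨ tscG.Adj z y) → y ∈ rswRect (A - 4) (B + 4) (c - 2) (d + 2) := fun z hz y h => by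
    obtain ⟨h1, h2, h3, h4⟩ := rsg_nb_rect hz h
    exact ⟨by omega, by omega, by omega, by omega⟩
  have hch : ∀ z ∈ rswRect A B c d, ∀ y, (y = z ∨ tscG.Adj z y) → y ∈ Tm.C ∧ Tm.sv y = rsgCs T y ∧ Tm.q y = x ^ 2 := fun z hz y h =>
    (rsg_chart x T hW (hnb z hz y h)).2
  have hchM : ∀ z ∈ rsgM D, z ∈ Tm.C ∧ Tm.sv z = rsgCs T z ∧ Tm.q z = x ^ 2 := fun z hz => hch z (hMR z hz) z (Or.inl rfl)
  have hcellQ : ∀ z ∈ rsgM D, rsgCs T z ⊆ rsgQ D := fun z hz v hv => rsg_mem_Q.2 ⟨z, hz, hv⟩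
  have hrow : ∀ v ∈ rsgQ D, c ≤ v.2 ∧ v.2 ≤ d + 1 := fun v hv => by
    obtain ⟨z, hz, hvz⟩ := rsg_mem_Q.1 hv
    have h1 := hMR z hz
    have h2 := h1.2.2.1
    have h3 := h1.2.2.2
    have h4 := rsg_mem_cs.1 hvz
    omega
  -- a solid neighbour of a free cell lies on a layer
  have hfree : ∀ z ∈ rsgM D, ∀ y, tscG.Adj z y → (y ∈ hxrAA c d B a ∨ y ∈ hxrCC c d A cc) → y ∈ a ∨ y ∈ cc := fun z hz y hzy h => by
    have hz' := (hMQ z).1 hz
    rcases h with h | h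
    · exact Or.inl (hxr_AA_bd hP.A hz'.1 (fun h0 => hz'.2 (Or.inl h0)) h hzy)
    · exact Or.inr (hxr_CC_bd hP.C hz'.1 (fun h0 => hz'.2 (Or.inr h0)) h hzy)
  have hsolid : ∀ y, (y ∈ hxrAA c d B a ∨ y ∈ hxrCC c d A cc) → y ∉ rsgM D := fun y h hM => ((hMQ y).1 hM).2 h
  have hlayS : ∀ y, y ∈ a ∨ y ∈ cc → (y ∈ hxrAA c d B a ∨ y ∈ hxrCC c d A cc) := fun y h => by
    rcases h with h | h
    · exact Or.inl (hxr_a_sub_AA hP.A h)
    · exact Or.inr (hxr_c_sub_CC hP.C h)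
  have hlayR : ∀ y, y ∈ a ∨ y ∈ cc → y ∈ rswRect A B c d := fun y h => by
    rcases h with h | h
    · exact ⟨(hP.A.box y h).1, (hP.A.box y h).2, (hP.A.sub h).1, (hP.A.sub h).2⟩
    · exact ⟨(hP.C.box y h).1, (hP.C.box y h).2, (hP.C.sub h).1, (hP.C.sub h).2⟩
  -- (LAY), planar form
  have hLAY : ∀ z ∈ rsgM D, ∀ y, y ∉ rsgM D → ∀ v, v ∈ rsgCs T z → v ∈ rsgCs T y → v ∈ rsgLa D ∪ rsgLc D ∪ rsgLd D ∪ rsgLb D := fun z hz y hy v hvz hvy => by
    have hvQ : v ∈ rsgQ D := hcellQ z hz hvz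
    have hadj : tscG.Adj z y := by
      rcases rsg_share (T := T) hvz hvy with h | h
      · exact absurd (h ▸ hz) hy
      · exact h
    have hzR := hMR z hz
    have hz3 := hzR.2.2.1
    have hz4 := hzR.2.2.2
    have e1 := rsg_mem_cs.1 hvz
    have e2 := rsg_mem_cs.1 hvy
    by_cases hb : y ∈ plsBand c d
    · have hs : y ∈ hxrAA c d B a ∨ y ∈ hxrCC c d A cc := by
        by_contra hc
        exact hy ((hMQ y).2 ⟨hb, hc⟩)
      rcases hfree z hz y hadj hs with h | h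
      · exact Finset.mem_union_left _ (Finset.mem_union_left _ (Finset.mem_union_left _ (rsg_mem_side.2 ⟨hvQ, y, h, hvy⟩)))
      · exact Finset.mem_union_left _ (Finset.mem_union_left _ (Finset.mem_union_right _ (rsg_mem_side.2 ⟨hvQ, y, h, hvy⟩)))
    · have hb' : y.2 < c ∨ d < y.2 := by
        by_contra hc
        push Not at hc
        exact hb ⟨hc.1, hc.2⟩
      rcases hb' with h | h
      · refine Finset.mem_union_left _ (Finset.mem_union_right _ (Finset.mem_filter.2 ⟨hvQ, ?_⟩))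
        show v.2 = c
        omega
      · refine Finset.mem_union_right _ (Finset.mem_filter.2 ⟨hvQ, ?_⟩)
        show v.2 = d + 1
        omega
  -- a cell of the ambient through a site of the strip
  have hamb : ∀ v ∈ rsgQ D, ∀ y ∈ Tm.C, v ∈ Tm.sv y → ∃ z ∈ rsgM D, v ∈ rsgCs T z ∧ (y = z ∨ tscG.Adj z y) ∧ v ∈ rsgCs T y := fun v hv y hy hvy => by
    obtain ⟨z, hz, hvz⟩ := rsg_mem_Q.1 hv
    have h1 := rsg_chart_nb x T hW (hMR z hz) hy hvz hvy
    refine ⟨z, hz, hvz, h1, ?_⟩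
    rw [← (hch z (hMR z hz) y h1).2.1]
    exact hvy
  have hlayEq : entLay Tm (rsgQ D) (rsgM D) = rsgLa D ∪ rsgLc D ∪ rsgLd D ∪ rsgLb D := by
    ext v
    rw [ent_mem_lay]
    constructor
    · rintro ⟨hvQ, y, hy, hvy⟩
      obtain ⟨hyC, hyM⟩ := Finset.mem_sdiff.1 hy
      obtain ⟨z, hz, hvz, _, hvy'⟩ := hamb v hvQ y hyC hvy
      exact hLAY z hz y hyM v hvz hvy'
    · intro hv
      simp only [Finset.mem_union] at hv
      rcases hv with ((hv | hv) | hv) | hv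
      · obtain ⟨hvQ, y, hy, hvy⟩ := rsg_mem_side.1 hv
        have h1 := hch y (hlayR y (Or.inl hy)) y (Or.inl rfl)
        exact ⟨hvQ, y, Finset.mem_sdiff.2 ⟨h1.1, hsolid y (hlayS y (Or.inl hy))⟩, by rw [h1.2.1]; exact hvy⟩
      · obtain ⟨hvQ, y, hy, hvy⟩ := rsg_mem_side.1 hv
        have h1 := hch y (hlayR y (Or.inr hy)) y (Or.inl rfl)
        exact ⟨hvQ, y, Finset.mem_sdiff.2 ⟨h1.1, hsolid y (hlayS y (Or.inr hy))⟩, by rw [h1.2.1]; exact hvy⟩
      · obtain ⟨hvQ, hv2⟩ := Finset.mem_filter.1 hv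
        have hv2 : v.2 = c := hv2
        obtain ⟨z, hz, hvz⟩ := rsg_mem_Q.1 hvQ
        -- the cell below
        obtain ⟨y, hy2, hvy⟩ : ∃ y : TV, y.2 = c - 1 ∧ v ∈ rsgCs T y := by
          cases T
          · exact ⟨(v.1 - 1, c - 1), rfl, rsg_mem_cs.2 (Or.inr ⟨rfl, by simp; omega⟩)⟩
          · exact ⟨(v.1, c - 1), rfl, rsg_mem_cs.2 (Or.inl ⟨rfl, by simp; omega⟩)⟩
        have h1 := hch z (hMR z hz) y (rsg_share (T := T) hvz hvy)
        refine ⟨hvQ, y, Finset.mem_sdiff.2 ⟨h1.1, fun hM => ?_⟩, by rw [h1.2.1]; exact hvy⟩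
        have := (hMR y hM).2.2.1
        omega
      · obtain ⟨hvQ, hv2⟩ := Finset.mem_filter.1 hv
        have hv2 : v.2 = d + 1 := hv2
        obtain ⟨z, hz, hvz⟩ := rsg_mem_Q.1 hvQ
        obtain ⟨y, hy2, hvy⟩ : ∃ y : TV, y.2 = d + 1 ∧ v ∈ rsgCs T y := by
          cases T
          · exact ⟨(v.1 - 1, d + 1), rfl, rsg_mem_cs.2 (Or.inr ⟨rfl, by simp; omega⟩)⟩
          · exact ⟨(v.1, d + 1), rfl, rsg_mem_cs.2 (Or.inl ⟨rfl, by simp; omega⟩)⟩
        have h1 := hch z (hMR z hz) y (rsg_share (T := T) hvz hvy)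
        refine ⟨hvQ, y, Finset.mem_sdiff.2 ⟨h1.1, fun hM => ?_⟩, by rw [h1.2.1]; exact hvy⟩
        have := (hMR y hM).2.2.2
        omega
  have hSsv : ∀ y, (rsgS x D).sv y = rsgCs T y ∩ rsgQ D := fun y => rfl
  have hSC : (rsgS x D).C = rsgCells T (rsgQ D) := rfl
  have hinter : ∀ z ∈ rsgM D, rsgCs T z ∩ rsgQ D = rsgCs T z := fun z hz => Finset.inter_eq_left.2 (hcellQ z hz)
  refine
    { okT := hOk
      okS := ⟨fun y _ => Finset.inter_subset_right, fun y hy => ?_, fun y _ => ?_, fun y _ => ?_⟩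
      legal := len_obs_legal Tm _ (rsc_K_legal x L hL T 0 H (by positivity)) Qc ω₀
      feas := hZ
      QA := fun v hv => ?_
      SA := rfl
      YT := fun z hz => (hchM z hz).1
      YS := fun z hz => ?_
      cb := fun y hy hyM => Finset.mem_sdiff.2 ⟨hy, hyM⟩
      cbC := Finset.sdiff_subset
      cbY := fun y hy => (Finset.mem_sdiff.1 hy).2
      cellR := fun z hz => by rw [(hchM z hz).2.1]; exact hcellQ z hz
      sv := fun z hz => by rw [(hchM z hz).2.1, hSsv, hinter z hz]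
      q := fun z hz => ?_
      pl := subset_rfl
      rib := subset_rfl
      ribS := fun y hy v hv => ?_
      bm := fun v hv hvQ => ?_
      obs := fun z hz => ?_
      eq := fun e he => ?_
      plQ := ?_
      lay := hlayEq
      cbL := fun y hy v hv => ?_ }
  · obtain ⟨v, h1, h2⟩ := rsg_mem_cells.1 hy
    exact ⟨v, Finset.mem_inter.2 ⟨h1, h2⟩⟩
  · show 0 < (if (rsgCs T y ∩ rsgQ D).card = 3 then x ^ 2 else x)
    split_ifs
    · positivity
    · exact hx0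
  · show (if (rsgCs T y ∩ rsgQ D).card = 3 then x ^ 2 else x) ≤ 1
    split_ifs
    · exact pow_le_one₀ hx0.le hx1
    · exact hx1
  · obtain ⟨z, hz, hvz⟩ := rsg_mem_Q.1 hv
    refine hOk.sub z (hchM z hz).1 ?_
    rw [(hchM z hz).2.1]
    exact hvz
  · obtain ⟨v, hv⟩ : (rsgCs T z).Nonempty := Finset.card_pos.1 (by rw [rsg_cs_card]; norm_num)
    exact rsg_mem_cells.2 ⟨v, hv, hcellQ z hz hv⟩
  · rw [(hchM z hz).2.2]
    show (if (rsgCs T z ∩ rsgQ D).card = 3 then x ^ 2 else x) = x ^ 2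
    rw [hinter z hz, rsg_cs_card, if_pos rfl]
  · -- ribS
    rcases Finset.mem_union.1 hy with h | h
    · rw [k4] at h; exact absurd h (Finset.notMem_empty _)
    · obtain ⟨h1, h2⟩ := Finset.mem_filter.1 h
      exact Finset.mem_union_right _ (Finset.mem_filter.2 ⟨Finset.mem_biUnion.2 ⟨y, h1, hv⟩, ((amo_tau_pos Tm ω₀ y).1 h2).2 hv⟩)
  · -- bm
    rcases Finset.mem_union.1 hv with h | h
    · have := k2 v h
      have := hrow v hvQ
      have := hW.bot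
      omega
    · obtain ⟨y, hy, hvy⟩ := Finset.mem_biUnion.1 (Finset.mem_filter.1 h).1
      exact ent_mem_lay.2 ⟨hvQ, y, Finset.mem_sdiff.2 ⟨hQC hy, hsolid y (hlook y hy)⟩, hvy⟩
  · -- obs
    have hq : z ∉ Qc := fun h => hsolid z (hlook z h) hz
    refine ⟨fun h => ?_, fun h => ?_, fun h => ?_⟩
    · rcases Finset.mem_union.1 h with h | h
      · rw [k4] at h; exact absurd h (Finset.notMem_empty _)
      · exact hq (Finset.mem_filter.1 h).1
    · rcases Finset.mem_union.1 h with h | h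
      · have := k5 z h
        have := (hMR z hz).2.2.1
        have := hW.bot
        omega
      · exact hq (Finset.mem_filter.1 h).1
    · rcases Finset.mem_union.1 h with h | h
      · rw [k6] at h; exact absurd h (Finset.notMem_empty _)
      · exact hq (Finset.mem_filter.1 h).1
  · have he' : e ∈ (rscK L 0 H).Eq := he
    rw [k3] at he'
    exact absurd he' (Finset.notMem_empty _)
  · -- plQ
    ext v
    rw [Finset.mem_inter, Finset.mem_union]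
    constructor
    · rintro ⟨hv, hvQ⟩
      rcases Finset.mem_union.1 hv with h | h
      · have := k1 v h
        have := hrow v hvQ
        have := hW.top
        omega
      · obtain ⟨y, hy, hvy⟩ := Finset.mem_biUnion.1 (Finset.mem_filter.1 h).1
        obtain ⟨z, hz, hvz, hzy, hvy'⟩ := hamb v hvQ y (hQC hy) hvy
        have hadj : tscG.Adj z y := by
          rcases hzy with h | h
          · exact absurd (h ▸ hz) (hsolid y (hlook y hy))
          · exact h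
        rcases hfree z hz y hadj (hlook y hy) with h | h
        · exact Or.inl (rsg_mem_side.2 ⟨hvQ, y, h, hvy'⟩)
        · exact Or.inr (rsg_mem_side.2 ⟨hvQ, y, h, hvy'⟩)
    · intro hv
      have key : ∀ y, y ∈ a ∨ y ∈ cc → v ∈ rsgCs T y → v ∈ (lenObs Tm (rscK L 0 H) Qc ω₀).Bp := fun y hy hvy => by
        obtain ⟨h1, h2⟩ := hlay y hy
        have h3 := hch y (hlayR y hy) y (Or.inl rfl)
        have hvy' : v ∈ Tm.sv y := by rw [h3.2.1]; exact hvy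
        exact Finset.mem_union_right _ (Finset.mem_filter.2 ⟨Finset.mem_biUnion.2 ⟨y, h1, hvy'⟩, ((amo_tau_pos Tm ω₀ y).1 h2).2 hvy'⟩)
      rcases hv with hv | hv
      · obtain ⟨hvQ, y, hy, hvy⟩ := rsg_mem_side.1 hv
        exact ⟨key y (Or.inl hy) hvy, hvQ⟩
      · obtain ⟨hvQ, y, hy, hvy⟩ := rsg_mem_side.1 hv
        exact ⟨key y (Or.inr hy) hvy, hvQ⟩
  · -- cbL
    obtain ⟨_, hyM⟩ := Finset.mem_sdiff.1 hy
    obtain ⟨hvy, hvQ⟩ := Finset.mem_inter.1 (show v ∈ rsgCs T y ∩ rsgQ D from hv)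
    obtain ⟨z, hz, hvz⟩ := rsg_mem_Q.1 hvQ
    exact hLAY z hz y hyM v hvz hvy

section record

variable (x : ℝ) (L H : ℕ) (T : Bool) {c d w σ m e : ℤ}

/-- **(C) PATCH**: a free cell of the box all of whose observed neighbours are open-plus is open-plus with conditional probability at least `κ (x)`.      OWNER 16 (`Ann/RswClose.lean`, `rcl_`). -/
theorem rsg_patch (hx1 : 1 / Real.sqrt 2 ≤ x) (hx2 : x ≤ 1) : ∃ κ : ℝ, 0 < κ ∧ ∀ (L H : ℕ) (T : Bool) (c d w σ m e : ℤ), RsgWin L H (m - e) (m + σ + e) c d →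
    ∀ ω₀ : ClCfg TV TV, ∀ y ∈ rswRect (m - e) (m + σ + e) c d, y ∉ rsrQ2 (rsgT x L H T) (sdRed L) c d w σ m e ω₀ →
      (∀ y' ∈ rsrQ2 (rsgT x L H T) (sdRed L) c d w σ m e ω₀, tscG.Adj y y' → clTau (rsgT x L H T) ω₀ y' = 1) →
      κ * (rsgT x L H T).Z ((rsgRec x L H T c d w σ m e ω₀).Holds (rsgT x L H T)) ≤
        (rsgT x L H T).N ((rsgRec x L H T c d w σ m e ω₀).Holds (rsgT x L H T)) (lenInd (fun ω => clTau (rsgT x L H T) ω y = 1)) := by
  have hx0 : 0 < x := lt_of_lt_of_le (by positivity) hx1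
  exact ⟨rclKap (x ^ 2) 9, rcl_kap_pos (by positivity) 9, fun L H T c d w σ m e hW ω₀ y hy h1 h2 =>
    rcl_patch_amb x hx0 hx2 L H T c d w σ m e hW.cd hW.lo hW.hi hW.bot hW.top ω₀ y hy h1 h2⟩

/-- **(E) the entrance data**: ambient disc, closed strip system, record.   All the plus pins and all the open-plus cells of the record are kept.      PROVED (255: `rsg_ent_core`). -/
theorem rsg_ent (hx0 : 0 < x) (hx1 : x ≤ 1) (hW : RsgWin L H (m - e) (m + σ + e) c d) (hw : 1 ≤ w) (hσ : 2 * w < σ) (he : w + 4 ≤ e) (ω₀ : ClCfg TV TV)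
    (hZ : 0 < (rsgT x L H T).Z ((rsgRec x L H T c d w σ m e ω₀).Holds (rsgT x L H T)))
    (hG : RsgG0 (m - e) (m + σ + e) c d w m (m + σ) (rsgP x L H T ω₀)) {pa qa pc qc : TV}
    (hP : HxrPair c d (m - e) (m + σ + e) (rsgDr x L H T c d w σ m e ω₀).a (rsgDr x L H T c d w σ m e ω₀).c pa qa pc qc) :
    EntGeo (rsgT x L H T) (rsgS x (rsgDr x L H T c d w σ m e ω₀)) (rsgRec x L H T c d w σ m e ω₀) (rsgQ (rsgDr x L H T c d w σ m e ω₀))
      (rsgM (rsgDr x L H T c d w σ m e ω₀)) (rsgCb (rsgDr x L H T c d w σ m e ω₀)) (rsgLa (rsgDr x L H T c d w σ m e ω₀))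
      (rsgLc (rsgDr x L H T c d w σ m e ω₀)) (rsgLd (rsgDr x L H T c d w σ m e ω₀)) (rsgLb (rsgDr x L H T c d w σ m e ω₀))
      (rsgRec x L H T c d w σ m e ω₀).Bp (rsgRec x L H T c d w σ m e ω₀).Op := by
  classical
  have hbig : ∀ z ∈ rswRect (m - e) (m + σ + e) c d, z ∈ rswRect (m - e - 4) (m + σ + e + 4) (c - 2) (d + 2) := by
    rintro z ⟨h1, h2, h3, h4⟩
    exact ⟨by omega, by omega, by omega, by omega⟩
  refine rsg_ent_core x hx0 hx1 T hW hP (rsrQ2 (rsgT x L H T) (sdRed L) c d w σ m e ω₀) ω₀ (Finset.filter_subset _ _) (fun y hy => ?_) (fun z hz => ?_) hZ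
  · obtain ⟨_, z, hz, rfl⟩ := Finset.mem_filter.1 hy
    rw [(rsg_chart x T hW (hbig z hz.1)).1]
    exact rsg_look hW.cd hw (by omega) (by omega) (by omega) hG hz
  · obtain ⟨h1, h2⟩ := rsg_layer z hz
    have h3 := rsg_chart x T hW (hbig z h2.1)
    have h4 : clTau (rsgT x L H T) ω₀ (sdRed L z) = 1 := h1.2
    rw [h3.1] at h4
    exact ⟨Finset.mem_filter.2 ⟨h3.2.1, z, h2, h3.1⟩, h4⟩

/-- **the ambient disc and the record of the two explorations satisfy the contract of `Ann/RswEnt`** (164) -/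
theorem rsg_amb (hW : RsgWin L H (m - e) (m + σ + e) c d) (hw : 1 ≤ w) (hσ : 2 * w < σ) (he : w + 4 ≤ e) (ω₀ : ClCfg TV TV)
    (hG : RsgG0 (m - e) (m + σ + e) c d w m (m + σ) (rsgP x L H T ω₀)) :
    RseAmb x (rsgT x L H T) (rsgRec x L H T c d w σ m e ω₀) (rsgDr x L H T c d w σ m e ω₀) := by
  classical
  obtain ⟨k1, k2, k3, k4, k5, k6⟩ := rsg_K_off L 0 H
  have hbig : ∀ z ∈ rswRect (m - e) (m + σ + e) c d, z ∈ rswRect (m - e - 4) (m + σ + e + 4) (c - 2) (d + 2) := by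
    rintro z ⟨h1, h2, h3, h4⟩
    exact ⟨by omega, by omega, by omega, by omega⟩
  -- the cells looked at
  have hQ : ∀ y ∈ rsrQ2 (rsgT x L H T) (sdRed L) c d w σ m e ω₀, y ∈ rswRect (m - e) (m + σ + e) c d ∧
      (y ∈ hxrAA c d (m + σ + e) (rsgDr x L H T c d w σ m e ω₀).a ∨ y ∈ hxrCC c d (m - e) (rsgDr x L H T c d w σ m e ω₀).c) := fun y hy => by
    obtain ⟨_, z, hz, rfl⟩ := Finset.mem_filter.1 hy
    rw [(rsg_chart x T hW (hbig z hz.1)).1]
    exact ⟨hz.1, rsg_look hW.cd hw (by omega) (by omega) (by omega) hG hz⟩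
  have hoff : ∀ y ∈ rsrQ2 (rsgT x L H T) (sdRed L) c d w σ m e ω₀, y ∉ hxrQ c d (m - e) (m + σ + e) (rsgDr x L H T c d w σ m e ω₀).a (rsgDr x L H T c d w σ m e ω₀).c :=
    fun y hy h => h.2 (hQ y hy).2
  refine ⟨(rsc_amb_ok 1 one_pos le_rfl L T 0 H (by positivity)).sub, fun z hz => (rsg_chart x T hW hz).2, fun z hz y hy v h1 h2 => rsg_chart_nb x T hW hz hy h1 h2, rfl,
    fun y hy v hv => ?_, fun z hz => ?_, fun y hy => ?_, fun v hv h1 h2 => ?_⟩
  · rcases Finset.mem_union.1 hy with h | h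
    · rw [k4] at h; exact absurd h (Finset.notMem_empty _)
    · obtain ⟨h1, h2⟩ := Finset.mem_filter.1 h
      exact Finset.mem_union_right _ (Finset.mem_filter.2 ⟨Finset.mem_biUnion.2 ⟨y, h1, hv⟩, ((amo_tau_pos _ ω₀ y).1 h2).2 hv⟩)
  · obtain ⟨h1, h2⟩ := rsg_layer z hz
    have h3 := rsg_chart x T hW (hbig z h2.1)
    have h4 : clTau (rsgT x L H T) ω₀ (sdRed L z) = 1 := h1.2
    rw [h3.1] at h4
    exact Finset.mem_union_right _ (Finset.mem_filter.2 ⟨Finset.mem_filter.2 ⟨h3.2.1, z, h2, h3.1⟩, h4⟩)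
  · rcases hy with h | h | h
    · rcases Finset.mem_union.1 h with h | h
      · rw [k4] at h; exact absurd h (Finset.notMem_empty _)
      · exact hoff y (Finset.mem_filter.1 h).1
    · rcases Finset.mem_union.1 h with h | h
      · intro hq
        have := k5 y h
        have : c ≤ y.2 := hq.1.1
        have := hW.bot
        omega
      · exact hoff y (Finset.mem_filter.1 h).1
    · rcases Finset.mem_union.1 h with h | h
      · rw [k6] at h; exact absurd h (Finset.notMem_empty _)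
      · exact hoff y (Finset.mem_filter.1 h).1
  · have h1 : c - 1 ≤ v.2 := h1
    have h2 : v.2 ≤ d + 2 := h2
    have key : v ∈ (rsrQ2 (rsgT x L H T) (sdRed L) c d w σ m e ω₀).biUnion (rsgT x L H T).sv →
        ∃ y ∈ rswRect (m - e) (m + σ + e) c d, v ∈ rsgCs T y ∧
          (y ∈ hxrAA c d (m + σ + e) (rsgDr x L H T c d w σ m e ω₀).a ∨ y ∈ hxrCC c d (m - e) (rsgDr x L H T c d w σ m e ω₀).c) := fun h => by
      obtain ⟨y, hy, hvy⟩ := Finset.mem_biUnion.1 h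
      refine ⟨y, (hQ y hy).1, ?_, (hQ y hy).2⟩
      rw [← (rsg_chart x T hW (hbig y (hQ y hy).1)).2.2.1]
      exact hvy
    rcases hv with hv | hv
    · rcases Finset.mem_union.1 hv with h | h
      · have := k1 v h
        have := hW.top
        omega
      · exact key (Finset.mem_filter.1 h).1
    · rcases Finset.mem_union.1 hv with h | h
      · have := k2 v h
        have := hW.bot
        omega
      · exact key (Finset.mem_filter.1 h).1

/-- (E1) the ports of the ambient: the junction cells lie on the index rows `c - 1`, `d + 1`, next to the feet and the heads of `a`, `c` (the free cells of an extreme row form an interval).      OWNERS 63 + 182. -/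
theorem rsg_P1 (hW : RsgWin L H (m - e) (m + σ + e) c d) (hw : 1 ≤ w) (hσ : 2 * w < σ) (he : w + 4 ≤ e) (ω₀ : ClCfg TV TV)
    (hG : RsgG0 (m - e) (m + σ + e) c d w m (m + σ) (rsgP x L H T ω₀)) {pa qa pc qc : TV}
    (hP : HxrPair c d (m - e) (m + σ + e) (rsgDr x L H T c d w σ m e ω₀).a (rsgDr x L H T c d w σ m e ω₀).c pa qa pc qc) :
    (entP1 (rsgT x L H T) (rsgRec x L H T c d w σ m e ω₀) (rsgQ (rsgDr x L H T c d w σ m e ω₀)) (rsgM (rsgDr x L H T c d w σ m e ω₀))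
      (rsgRec x L H T c d w σ m e ω₀).Bp (rsgRec x L H T c d w σ m e ω₀).Op).card ≤ 8 :=
  rse_P1 (rsg_amb x L H T hW hw hσ he ω₀ hG) hP

end record

/-! ## §5 the assembly under one record -/

/-- from an event to a weaker one -/
theorem rsg_N_of {V Y : Type} [DecidableEq V] [DecidableEq Y] (S : ClSys V Y) (hS : ClOk S) (K : ClCfg V Y → Prop) {c : ℝ} {E F : ClCfg V Y → Prop}
    (h : c * S.Z K ≤ S.N K (lenInd E)) (hEF : ∀ ω, K ω → E ω → F ω) : c * S.Z K ≤ S.N K (lenInd F) := by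
  classical
  refine h.trans (len_N_mono S hS K _ _ fun ω hω => ?_)
  unfold lenInd
  by_cases hE : E ω
  · rw [if_pos hE, if_pos (hEF ω hω hE)]
  · rw [if_neg hE]
    split_ifs
    · exact zero_le_one
    · exact le_rfl

/-- a sure event -/
theorem rsg_N_sure {V Y : Type} [DecidableEq V] [DecidableEq Y] (S : ClSys V Y) (hS : ClOk S) (K : ClCfg V Y → Prop) {c : ℝ} (hc : c ≤ 1) {F : ClCfg V Y → Prop}
    (hF : ∀ ω, K ω → F ω) : c * S.Z K ≤ S.N K (lenInd F) := by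
  classical
  have h1 : c * S.Z K ≤ S.Z K := by
    have := len_Z_nonneg S hS K
    nlinarith
  refine h1.trans ?_
  rw [dis_Z_eq]
  refine len_N_mono S hS K _ _ fun ω hω => ?_
  unfold lenInd
  rw [if_pos (hF ω hω)]

section idx2

variable {A B c d : ℤ} {a cc : Set TV} {pa qa pc qc : TV}

/-- a cell of the band next to `a` and to `c` is free -/
theorem rsg_T2_free (H : HxrPair c d A B a cc pa qa pc qc) {y : TV} (hy : y ∈ plsBand c d) (hu : ∃ u ∈ a, tscG.Adj y u) (hv : ∃ v ∈ cc, tscG.Adj y v) :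
    y ∈ hxrQ c d A B a cc := by
  obtain ⟨u, hu, hyu⟩ := hu
  obtain ⟨v, hv, hyv⟩ := hv
  refine ⟨hy, ?_⟩
  rintro (h | h)
  · have := hxr_AA_bd H.A (H.C.sub hv) (hxr_c_off H v hv) h hyv.symm
    exact (H.sep y this v hv).2 hyv
  · have := hxr_CC_bd H.C (H.A.sub hu) (hxr_a_off H u hu) h hyu.symm
    exact (H.sep u hu y this).2 hyu.symm

/-- a neighbour of a free cell in a solid side lies on the layer -/
theorem rsg_free_nb (H : HxrPair c d A B a cc pa qa pc qc) {y y' : TV} (hy : y ∈ hxrQ c d A B a cc)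
    (hy' : y' ∈ hxrAA c d B a ∨ y' ∈ hxrCC c d A cc) (h : tscG.Adj y y') : y' ∈ a ∨ y' ∈ cc := by
  rcases hy' with h' | h'
  · exact Or.inl (hxr_AA_bd H.A hy.1 (fun h0 => hy.2 (Or.inl h0)) h' h)
  · exact Or.inr (hxr_CC_bd H.C hy.1 (fun h0 => hy.2 (Or.inr h0)) h' h)

/-- the free cells lie in the box -/
theorem rsg_Q_rect (H : HxrPair c d A B a cc pa qa pc qc) {y : TV} (hy : y ∈ hxrQ c d A B a cc) : y ∈ rswRect A B c d := by
  have h1 := hxr_Q_box H y hy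
  exact ⟨h1.1, h1.2, hy.1.1, hy.1.2⟩

end idx2

theorem rsg_mem_M {D : RsgDat} {z : TV} (h : z ∈ rsgM D) : z ∈ hxrQ D.y0 D.y1 D.xm D.xM D.a D.c := by
  classical
  exact (Finset.mem_filter.1 h).2

section assembly

variable (x : ℝ) (L H : ℕ) (T : Bool) {c d w σ m e : ℤ}

/-- a cell of the box looked at, as a cell of the ambient -/
theorem rsg_Q2_look (hW : RsgWin L H (m - e) (m + σ + e) c d) (ω₀ : ClCfg TV TV) {y : TV} (hy : y ∈ rsrQ2 (rsgT x L H T) (sdRed L) c d w σ m e ω₀) :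
    y ∈ rsrLook (rswRect (m - e) (m + σ + e) c d) (rsrSgL (m - e) c d m w ∪ rsrSgR (m + σ + e) c d (m + σ) w) (rsgP x L H T ω₀) := by
  classical
  obtain ⟨_, z, hz, rfl⟩ := Finset.mem_filter.1 hy
  have hzR : z ∈ rswRect (m - e) (m + σ + e) c d := hz.1
  have := (rsg_chart x T hW (z := z) ⟨by have := hzR.1; omega, by have := hzR.2.1; omega, by have := hzR.2.2.1; omega, by have := hzR.2.2.2; omega⟩).1
  rw [this]
  exact hz

/-- on the fibre of the record the two layers stay open-plus -/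
theorem rsg_fibre (ω₀ ω : ClCfg TV TV) (h : (rsgRec x L H T c d w σ m e ω₀).Holds (rsgT x L H T) ω) {z : TV}
    (hz : z ∈ (rsgDr x L H T c d w σ m e ω₀).a ∨ z ∈ (rsgDr x L H T c d w σ m e ω₀).c) : z ∈ rsgP x L H T ω := by
  have h2 := ((rsr_rec_holds _ _ _ ω₀ ω).1 h).2
  have h3 := rsg_layer z hz
  exact (rsr_agr_P _ _ _ _ ω₀ ω h2 z h3.2).1 h3.1

/-- (J) the event of the glue machine gives a path of open-plus cells of the band from `a` to `c` -/
theorem rsg_join_link (hW : RsgWin L H (m - e) (m + σ + e) c d) (ω₀ ω : ClCfg TV TV) {pa qa pc qc : TV}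
    (hP : HxrPair c d (m - e) (m + σ + e) (rsgDr x L H T c d w σ m e ω₀).a (rsgDr x L H T c d w σ m e ω₀).c pa qa pc qc)
    (hfib : ∀ z, z ∈ (rsgDr x L H T c d w σ m e ω₀).a ∨ z ∈ (rsgDr x L H T c d w σ m e ω₀).c → z ∈ rsgP x L H T ω)
    {Kc : Finset TV} (hKc : Kc ⊆ rsgM (rsgDr x L H T c d w σ m e ω₀))
    (hj : GlJoinC (rsgT x L H T) (↑Kc ∩ glOn (rsgT x L H T) 1 ω) (rsgLa (rsgDr x L H T c d w σ m e ω₀)) (rsgLc (rsgDr x L H T c d w σ m e ω₀))) :
    ∃ u ∈ (rsgDr x L H T c d w σ m e ω₀).a, ∃ v ∈ (rsgDr x L H T c d w σ m e ω₀).c, TscR tscG (rsgP x L H T ω ∩ plsBand c d) u v := by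
  classical
  set D := rsgDr x L H T c d w σ m e ω₀ with hD
  have hbig : ∀ z ∈ rswRect (m - e) (m + σ + e) c d, z ∈ rswRect (m - e - 4) (m + σ + e + 4) (c - 2) (d + 2) := by
    rintro z ⟨h1, h2, h3, h4⟩
    exact ⟨by omega, by omega, by omega, by omega⟩
  have hin : ∀ y ∈ (↑Kc ∩ glOn (rsgT x L H T) 1 ω : Set TV), y ∈ rswRect (m - e) (m + σ + e) c d ∧ y ∈ rsgP x L H T ω ∩ plsBand c d := by
    rintro y ⟨h1, h2⟩
    have h3 : y ∈ hxrQ c d (m - e) (m + σ + e) D.a D.c := rsg_mem_M (hKc h1)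
    have h4 := rsg_Q_rect hP h3
    have h5 := rsg_chart x T hW (hbig y h4)
    refine ⟨h4, ⟨?_, h3.1⟩⟩
    show sdRed L y ∈ _ ∧ clTau _ ω (sdRed L y) = 1
    rw [h5.1]
    exact h2
  obtain ⟨y, y', hy, hy', ⟨a0, ha0, hay⟩, ⟨c0, hc0, hcy⟩, hpath⟩ := hj
  have hpath' : TscR tscG (rsgP x L H T ω ∩ plsBand c d) y y' := by
    clear hcy hy'
    induction hpath with
    | refl => exact ReflTransGen.refl
    | @tail b b' _ hbb ih =>
      refine ih.tail ⟨?_, (hin b hbb.2.1).2, (hin b' hbb.2.2).2⟩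
      obtain ⟨hne, v, hv1, hv2⟩ := hbb.1
      rw [(rsg_chart x T hW (hbig b (hin b hbb.2.1).1)).2.2.1] at hv1
      rcases rsg_chart_nb x T hW (hin b hbb.2.1).1 hbb.2.2.2.1 hv1 hv2 with h | h
      · exact absurd h.symm hne
      · exact h
  obtain ⟨_, u, hu, hau⟩ := Finset.mem_filter.1 ha0
  obtain ⟨_, v, hv, hcv⟩ := Finset.mem_filter.1 hc0
  have huR : u ∈ rswRect (m - e) (m + σ + e) c d := ⟨(hP.A.box u hu).1, (hP.A.box u hu).2, (hP.A.sub hu).1, (hP.A.sub hu).2⟩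
  have hvR : v ∈ rswRect (m - e) (m + σ + e) c d := ⟨(hP.C.box v hv).1, (hP.C.box v hv).2, (hP.C.sub hv).1, (hP.C.sub hv).2⟩
  refine ⟨u, hu, v, hv, ?_⟩
  have h1 : TscR tscG (rsgP x L H T ω ∩ plsBand c d) u y := by
    rcases rsg_chart_nb x T hW huR hy.2.1 hau hay with h | h
    · rw [h]; exact ReflTransGen.refl
    · exact tsc_R_step h ⟨hfib u (Or.inl hu), hP.A.sub hu⟩ (hin y hy).2
  have h2 : TscR tscG (rsgP x L H T ω ∩ plsBand c d) v y' := by
    rcases rsg_chart_nb x T hW hvR hy'.2.1 hcv hcy with h | h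
    · rw [h]; exact ReflTransGen.refl
    · exact tsc_R_step h ⟨hfib v (Or.inr hv), hP.C.sub hv⟩ (hin y' hy').2
  exact tsc_R_trans h1 (tsc_R_trans hpath' (tsc_R_symm h2))

/-- **THE ESTIMATE UNDER ONE RECORD**: trichotomy T1 (sure) / T2 (patch) / T3 (strip: `ent_join` + the estimate in the closed strip system). -/
theorem rsg_one (hx1 : 1 / Real.sqrt 2 ≤ x) (hx2 : x ≤ 1) (hL : 2 ≤ L) (hH : 1 ≤ H) {κ : ℝ}
    (hκ : ∀ ω₀ : ClCfg TV TV, ∀ y ∈ rswRect (m - e) (m + σ + e) c d, y ∉ rsrQ2 (rsgT x L H T) (sdRed L) c d w σ m e ω₀ →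
      (∀ y' ∈ rsrQ2 (rsgT x L H T) (sdRed L) c d w σ m e ω₀, tscG.Adj y y' → clTau (rsgT x L H T) ω₀ y' = 1) →
      κ * (rsgT x L H T).Z ((rsgRec x L H T c d w σ m e ω₀).Holds (rsgT x L H T)) ≤
        (rsgT x L H T).N ((rsgRec x L H T c d w σ m e ω₀).Holds (rsgT x L H T)) (lenInd (fun ω => clTau (rsgT x L H T) ω y = 1)))
    (hW : RsgWin L H (m - e) (m + σ + e) c d) (hw : 1 ≤ w) (hσ : 2 * w < σ) (he : w + 4 ≤ e) (ω₀ : ClCfg TV TV)
    (hG : RsgG0 (m - e) (m + σ + e) c d w m (m + σ) (rsgP x L H T ω₀))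
    (hest : ¬ RsgT1 (rsgDr x L H T c d w σ m e ω₀).a (rsgDr x L H T c d w σ m e ω₀).c →
      ¬ RsgT2 c d (rsgDr x L H T c d w σ m e ω₀).a (rsgDr x L H T c d w σ m e ω₀).c → RsgEst x (rsgDr x L H T c d w σ m e ω₀)) :
    min κ (1 / 2 ^ 20) * (rsgT x L H T).Z ((rsgRec x L H T c d w σ m e ω₀).Holds (rsgT x L H T)) ≤
      (rsgT x L H T).N ((rsgRec x L H T c d w σ m e ω₀).Holds (rsgT x L H T)) (lenInd (fun ω => RswF c d w σ m (rsrY (rsgT x L H T) (sdRed L) ω))) := by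
  classical
  have hx0 : 0 < x := lt_of_lt_of_le (by positivity) hx1
  have hH' : (0 : ℤ) < H := by exact_mod_cast hH
  have hOk : ClOk (rsgT x L H T) := rsc_amb_ok x hx0 hx2 L T 0 H hH'.le
  have hdisk : ClDisk (rsgT x L H T) := rsc_amb_disk x hx0 hx2 L hL T 0 H hH'
  set Tm := rsgT x L H T with hTm
  set rec := rsgRec x L H T c d w σ m e ω₀ with hrec
  set D := rsgDr x L H T c d w σ m e ω₀ with hD
  have hZ0 := len_Z_nonneg Tm hOk (rec.Holds Tm)
  have hcg1 : min κ (1 / 2 ^ 20 : ℝ) ≤ 1 := (min_le_right _ _).trans (by norm_num)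
  have hbig : ∀ z ∈ rswRect (m - e) (m + σ + e) c d, z ∈ rswRect (m - e - 4) (m + σ + e + 4) (c - 2) (d + 2) := by
    rintro z ⟨h1, h2, h3, h4⟩
    exact ⟨by omega, by omega, by omega, by omega⟩
  have hfib : ∀ ω, rec.Holds Tm ω → ∀ z, z ∈ D.a ∨ z ∈ D.c → z ∈ rsgP x L H T ω := fun ω hω z hz => rsg_fibre x L H T ω₀ ω hω hz
  have hlink : ∀ ω, rec.Holds Tm ω → ∀ u ∈ D.a, ∀ v ∈ D.c, TscR tscG (rsgP x L H T ω ∩ plsBand c d) u v → RswF c d w σ m (rsgP x L H T ω) :=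
    fun ω hω u hu v hv h => rsg_F_link hW.cd hw (by omega) hσ (by omega) hG (fun z hz => hfib ω hω z (Or.inl hz)) (fun z hz => hfib ω hω z (Or.inr hz)) hu hv h
  have hsubA : ∀ z ∈ D.a, z ∈ plsBand c d := fun z hz => by
    have := (ple_gam_sub hz).1
    exact ⟨this.2.2.1, this.2.2.2⟩
  have hsubC : ∀ z ∈ D.c, z ∈ plsBand c d := fun z hz => by
    have := (ple_gam_sub hz).1
    exact ⟨this.2.2.1, this.2.2.2⟩
  -- T1
  by_cases h1 : RsgT1 D.a D.c
  · obtain ⟨u, hu, v, hv, huv⟩ := h1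
    refine rsg_N_sure Tm hOk _ hcg1 fun ω hω => hlink ω hω u hu v hv ?_
    rcases huv with rfl | huv
    · exact ReflTransGen.refl
    · exact tsc_R_step huv ⟨hfib ω hω u (Or.inl hu), hsubA u hu⟩ ⟨hfib ω hω v (Or.inr hv), hsubC v hv⟩
  obtain ⟨pa, qa, pc, qc, hP, f1, f2, f3, f4⟩ := rsg_pair hW.cd hw (by omega) (by omega) (by omega) hG h1
  have hlook : ∀ y ∈ rsrQ2 Tm (sdRed L) c d w σ m e ω₀, y ∈ hxrAA c d (m + σ + e) D.a ∨ y ∈ hxrCC c d (m - e) D.c := fun y hy =>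
    rsg_look hW.cd hw (by omega) (by omega) (by omega) hG (rsg_Q2_look x L H T hW ω₀ hy)
  -- T2
  by_cases h2 : RsgT2 c d D.a D.c
  · obtain ⟨y, hy, ⟨u, hu, hyu⟩, ⟨v, hv, hyv⟩⟩ := h2
    have hyQ := rsg_T2_free hP hy ⟨u, hu, hyu⟩ ⟨v, hv, hyv⟩
    have hyR := rsg_Q_rect hP hyQ
    have hp := hκ ω₀ y hyR (fun h => hyQ.2 (hlook y h)) (fun y' hy' hadj => by
      have h3 := rsg_free_nb hP hyQ (hlook y' hy') hadj
      have h4 : y' ∈ rsgP x L H T ω₀ := (rsg_layer y' h3).1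
      have h5 := (rsg_Q2_look x L H T hW ω₀ hy').1
      have h6 := (rsg_chart x T hW (hbig y' h5)).1
      have h7 : clTau Tm ω₀ (sdRed L y') = 1 := h4.2
      rwa [h6] at h7)
    have hp' : min κ (1 / 2 ^ 20 : ℝ) * Tm.Z (rec.Holds Tm) ≤ Tm.N (rec.Holds Tm) (lenInd (fun ω => clTau Tm ω y = 1)) :=
      (mul_le_mul_of_nonneg_right (min_le_left _ _) hZ0).trans hp
    refine rsg_N_of Tm hOk _ hp' fun ω hω hτ => hlink ω hω u hu v hv ?_
    have hc := rsg_chart x T hW (hbig y hyR)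
    have hyP : y ∈ rsgP x L H T ω := by
      show sdRed L y ∈ _ ∧ clTau _ ω (sdRed L y) = 1
      rw [hc.1]
      exact ⟨hc.2.1, hτ⟩
    exact tsc_R_trans (tsc_R_step hyu.symm ⟨hfib ω hω u (Or.inl hu), hsubA u hu⟩ ⟨hyP, hy⟩) (tsc_R_step hyv ⟨hyP, hy⟩ ⟨hfib ω hω v (Or.inr hv), hsubC v hv⟩)
  -- T3
  rcases hZ0.eq_or_lt with hZ | hZ
  · rw [← hZ, mul_zero]
    exact len_N_nonneg Tm hOk _ _ fun ω _ => by unfold lenInd; split_ifs <;> norm_num
  obtain ⟨Kc, hKc, hE⟩ := hest h1 h2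
  have g := rsg_ent x L H T hx0 hx2 hW hw hσ he ω₀ hZ hG hP
  have hj := ent_join g (fun F hF => dis_order Tm hdisk _ _ (ent_sea_legal g) g.legal (ent_sea_le g) F hF) hKc hE
  have hp1 : (entP1 Tm rec (rsgQ D) (rsgM D) rec.Bp rec.Op).card ≤ 8 := rsg_P1 x L H T hW hw hσ he ω₀ hG hP
  have hp2 := rsg_P2 x D (pa := pa) (qa := qa) (pc := pc) (qc := qc) hP h2
  have hN0 : 0 ≤ Tm.N (rec.Holds Tm) (glInd (fun ω => GlJoinC Tm (↑Kc ∩ glOn Tm 1 ω) (rsgLa D) (rsgLc D))) :=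
    len_N_nonneg Tm hOk _ _ fun ω _ => gl_ind_nonneg _ ω
  have hpow : (2 : ℝ) ^ (((entP2 (rsgS x D) (rsgCb D) (rsgLa D) (rsgLc D) (rsgLd D) (rsgLb D)).card - 1) +
      ((entP1 Tm rec (rsgQ D) (rsgM D) rec.Bp rec.Op).card - 1)) ≤ 2 ^ 14 := pow_le_pow_right₀ (by norm_num) (by omega)
  have hj2 : 1 / 64 * Tm.Z (rec.Holds Tm) ≤ 2 ^ 14 * Tm.N (rec.Holds Tm) (glInd (fun ω => GlJoinC Tm (↑Kc ∩ glOn Tm 1 ω) (rsgLa D) (rsgLc D))) :=
    hj.trans (mul_le_mul_of_nonneg_right hpow hN0)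
  have hj3 : min κ (1 / 2 ^ 20 : ℝ) * Tm.Z (rec.Holds Tm) ≤ Tm.N (rec.Holds Tm) (lenInd (fun ω => GlJoinC Tm (↑Kc ∩ glOn Tm 1 ω) (rsgLa D) (rsgLc D))) := by
    refine (mul_le_mul_of_nonneg_right (min_le_right _ _) hZ0).trans ?_
    have : Tm.N (rec.Holds Tm) (lenInd (fun ω => GlJoinC Tm (↑Kc ∩ glOn Tm 1 ω) (rsgLa D) (rsgLc D))) =
        Tm.N (rec.Holds Tm) (glInd (fun ω => GlJoinC Tm (↑Kc ∩ glOn Tm 1 ω) (rsgLa D) (rsgLc D))) := rfl
    rw [this]
    norm_num at hj2 ⊢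
    linarith
  refine rsg_N_of Tm hOk _ hj3 fun ω hω hjoin => ?_
  obtain ⟨u, hu, v, hv, huv⟩ := rsg_join_link x L H T hW ω₀ ω hP (hfib ω hω) hKc hjoin
  exact hlink ω hω u hu v hv huv

end assembly

/-! ## §6 (SE-TIP), (SE-TUBE) inside the window -/

section se

variable (x : ℝ) (L H : ℕ) (T : Bool) {c d w σ m e : ℤ}

/-- the property of the constant of the patch -/
def RsgKap (x κ : ℝ) : Prop :=
  ∀ (L H : ℕ) (T : Bool) (c d w σ m e : ℤ), RsgWin L H (m - e) (m + σ + e) c d →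
    ∀ ω₀ : ClCfg TV TV, ∀ y ∈ rswRect (m - e) (m + σ + e) c d, y ∉ rsrQ2 (rsgT x L H T) (sdRed L) c d w σ m e ω₀ →
      (∀ y' ∈ rsrQ2 (rsgT x L H T) (sdRed L) c d w σ m e ω₀, tscG.Adj y y' → clTau (rsgT x L H T) ω₀ y' = 1) →
      κ * (rsgT x L H T).Z ((rsgRec x L H T c d w σ m e ω₀).Holds (rsgT x L H T)) ≤
        (rsgT x L H T).N ((rsgRec x L H T c d w σ m e ω₀).Holds (rsgT x L H T)) (lenInd (fun ω => clTau (rsgT x L H T) ω y = 1))

theorem rsg_eqns_cite4 : True := by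
  have := @RsgKap.eq_1
  trivial

/-- **(SE-TUBE)** inside the window -/
theorem rsg_se_tube (hx1 : 1 / Real.sqrt 2 ≤ x) (hx2 : x ≤ 1) (hL : 2 ≤ L) (hH : 1 ≤ H) {κ : ℝ} (hκ : RsgKap x κ)
    (hW : RsgWin L H (m - e) (m + σ + e) c d) (hw : 1 ≤ w) (hσ : 2 * w < σ) (he : w + 4 ≤ e) (hnar : 12 * (σ + 2 * e) + 64 ≤ d - c) :
    RsrSETube (rsgT x L H T) (rscK L 0 H) (sdRed L) (min κ (1 / 2 ^ 20)) c d w σ m e := by
  intro ω₀ _ _ hG
  exact rsg_one x L H T hx1 hx2 hL hH (hκ L H T c d w σ m e hW) hW hw hσ he ω₀ hG fun h1 h2 =>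
    rsg_est_tube x hx1 hx2 T hW.cd hw hσ he hnar hG h1 h2

/-- **(SE-TIP)** inside the window -/
theorem rsg_se_tip {e2 : ℤ} (hx1 : 1 / Real.sqrt 2 ≤ x) (hx2 : x ≤ 1) (hL : 2 ≤ L) (hH : 1 ≤ H) {κ : ℝ} (hκ : RsgKap x κ)
    (hW : RsgWin L H (m - e) (m + σ + e) c d) (hw : 1 ≤ w) (hσ : 2 * w < σ) (he : w + 4 ≤ e) (h21 : e2 ≤ e) (h22 : e + 3 * σ + w + 8 ≤ 2 * e2) :
    RsrSETip (rsgT x L H T) (rscK L 0 H) (sdRed L) (min κ (1 / 2 ^ 20)) c d w σ m e e2 := by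
  intro ω₀ _ _ hG
  obtain ⟨hG0, ⟨za, hza, hza'⟩, ⟨zc, hzc, hzc'⟩⟩ := hG
  exact rsg_one x L H T hx1 hx2 hL hH (hκ L H T c d w σ m e hW) hW hw hσ he ω₀ hG0 fun h1 h2 =>
    rsg_est_tip x hx1 hx2 T hW.cd hw hσ he h21 h22 hG0 h1 h2 ⟨za, hza, hza'⟩ ⟨zc, hzc, hzc'⟩

end se

/-! ## §7 no seam: the shift of the law -/

theorem rsg_E_sh (t c d w m l ρ : ℤ) (Y : Set TV) : RswE c d w (m + 2 * t) l ρ (rswSh t Y) ↔ RswE c d w m l ρ Y := by
  unfold RswE
  have h := rsw_cr_sh t (m - l) (m + ρ) c d m m w Y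
  have e1 : m - l + 2 * t = m + 2 * t - l := by ring
  have e2 : m + ρ + 2 * t = m + 2 * t + ρ := by ring
  rwa [e1, e2] at h

/-- (N) TIP: only the centres `m₀`, `m₀ + 1` -/
theorem rsg_norm_tip (𝔏 : RswLaw) (cg : ℝ) (c d w σ e e2 m₀ : ℤ)
    (h : ∀ m : ℤ, m₀ ≤ m → m ≤ m₀ + 1 → cg * 𝔏.P (fun Y => RswE c d w m e e Y ∧ RswE c d w (m + σ) e e Y ∧ ¬ RswE c d w m e e2 Y ∧ ¬ RswE c d w m e2 e Y ∧
      ¬ RswE c d w (m + σ) e e2 Y ∧ ¬ RswE c d w (m + σ) e2 e Y) ≤ 𝔏.P (RswF c d w σ m)) : RswTip 𝔏 cg c d w σ e e2 := by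
  intro m
  obtain ⟨t, m1, hm, h1, h2⟩ : ∃ t m1 : ℤ, m = m1 + 2 * t ∧ m₀ ≤ m1 ∧ m1 ≤ m₀ + 1 := ⟨(m - m₀) / 2, m - 2 * ((m - m₀) / 2), by ring, by omega, by omega⟩
  have key := h m1 h1 h2
  have e3 : m1 + 2 * t + σ = m1 + σ + 2 * t := by ring
  rw [← 𝔏.shift t (RswF c d w σ m), ← 𝔏.shift t (fun Y => RswE c d w m e e Y ∧ RswE c d w (m + σ) e e Y ∧ ¬ RswE c d w m e e2 Y ∧ ¬ RswE c d w m e2 e Y ∧
      ¬ RswE c d w (m + σ) e e2 Y ∧ ¬ RswE c d w (m + σ) e2 e Y)]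
  subst hm
  simp only [e3, rsg_E_sh, rsw_F_sh]
  exact key

/-- (N) TUBE -/
theorem rsg_norm_tube (𝔏 : RswLaw) (cg : ℝ) (c d w σ e m₀ : ℤ)
    (h : ∀ m : ℤ, m₀ ≤ m → m ≤ m₀ + 1 → cg * 𝔏.P (fun Y => RswE c d w m e e Y ∧ RswE c d w (m + σ) e e Y) ≤ 𝔏.P (RswF c d w σ m)) : RswTube 𝔏 cg c d w σ e := by
  intro m
  obtain ⟨t, m1, hm, h1, h2⟩ : ∃ t m1 : ℤ, m = m1 + 2 * t ∧ m₀ ≤ m1 ∧ m1 ≤ m₀ + 1 := ⟨(m - m₀) / 2, m - 2 * ((m - m₀) / 2), by ring, by omega, by omega⟩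
  have key := h m1 h1 h2
  have e3 : m1 + 2 * t + σ = m1 + σ + 2 * t := by ring
  rw [← 𝔏.shift t (RswF c d w σ m), ← 𝔏.shift t (fun Y => RswE c d w m e e Y ∧ RswE c d w (m + σ) e e Y)]
  subst hm
  simp only [e3, rsg_E_sh, rsw_F_sh]
  exact key

/-! ## §8 the exit -/

/-- **PART II: THE GLUING CONTRACT OF `rsw_main` ON THE MIXED CYLINDER** -/
theorem rsg_rsc_glue (x : ℝ) (hx1 : 1 / Real.sqrt 2 ≤ x) (hx2 : x ≤ 1) : RscGlue x (lt_of_lt_of_le (by positivity) hx1) hx2 := by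
  have hx0 : 0 < x := lt_of_lt_of_le (by positivity) hx1
  obtain ⟨κ, hκ0, hκ⟩ := rsg_patch x hx1 hx2
  have hcg : 0 < min κ (1 / 2 ^ 20 : ℝ) := lt_min hκ0 (by norm_num)
  refine ⟨min κ (1 / 2 ^ 20), hcg, fun L H hL hH T c r w hw h1 h2 h3 h4 h5 => ?_⟩
  have hH' : (0 : ℤ) < H := by exact_mod_cast hH
  have hOk : ClOk (rsgT x L H T) := rsc_amb_ok x hx0 hx2 L T 0 H hH'.le
  have h𝔏 : ∀ E, (rscLaw x hx0 hx2 L H hL hH T).P E = (rsgT x L H T).P ((rscK L 0 H).Holds (rsgT x L H T)) (fun ω => E (rsrY (rsgT x L H T) (sdRed L) ω)) :=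
    fun E => rsc_law_real x hx0 hx2 L H hL hH T E
  constructor
  · intro e e2 g1 g2 g3
    refine rsg_norm_tip _ _ _ _ _ _ _ _ (e + (c + r) + 8) fun m hm1 hm2 => ?_
    rw [h𝔏, h𝔏]
    refine rsr_tip _ hOk _ _ hcg.le (by omega) (by omega) (by omega) (by omega) ?_
    exact rsg_se_tip x L H T hx1 hx2 hL hH hκ ⟨by omega, by omega, by omega, by omega, by omega⟩ (by omega) (by omega) (by omega) g1 g2
  · intro e g1
    refine rsg_norm_tube _ _ _ _ _ _ _ (max e (5 * w + 1 + 4) + (c + r) + 8) fun m hm1 hm2 => ?_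
    have hmax1 := le_max_left e (5 * w + 1 + 4)
    have hmax2 := le_max_right e (5 * w + 1 + 4)
    have hmax3 : max e (5 * w + 1 + 4) ≤ 20 * (20 * w + 8) := max_le g1 (by omega)
    have key := rsr_tube _ hOk (rscK L 0 H) (sdRed L) hcg.le (c := c) (d := c + r) (w := 5 * w + 1) (σ := 20 * w + 8) (m := m) (e := max e (5 * w + 1 + 4))
      (by omega) (by omega) (by omega) hmax2
      (rsg_se_tube x L H T hx1 hx2 hL hH hκ ⟨by omega, by omega, by omega, by omega, by omega⟩ (by omega) (by omega) hmax2 (by omega))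
    rw [← h𝔏 (fun Y => RswE c (c + r) (5 * w + 1) m (max e (5 * w + 1 + 4)) (max e (5 * w + 1 + 4)) Y ∧
      RswE c (c + r) (5 * w + 1) (m + (20 * w + 8)) (max e (5 * w + 1 + 4)) (max e (5 * w + 1 + 4)) Y), ← h𝔏 (RswF c (c + r) (5 * w + 1) (20 * w + 8) m)] at key
    refine le_trans (mul_le_mul_of_nonneg_left ((rscLaw x hx0 hx2 L H hL hH T).mono _ _ fun Y hY => ?_) hcg.le) key
    have hsub : ∀ m' : ℤ, rswRect (m' - e) (m' + e) c (c + r) ⊆ rswRect (m' - max e (5 * w + 1 + 4)) (m' + max e (5 * w + 1 + 4)) c (c + r) := by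
      rintro m' z ⟨g1, g2, g3, g4⟩
      exact ⟨by omega, by omega, g3, g4⟩
    exact ⟨rsw_cr_mono (hsub m) hY.1, rsw_cr_mono (hsub _) hY.2⟩

end Claimed.Agent.R291
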