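import Claimed.Agent.R291.Ann.CylInst
import Claimed.Agent.R291.Ann.CylMain
import Claimed.Agent.R291.Ann.Seed
import Claimed.Agent.R291.Exit.AnnLen
import Claimed.Agent.R291.Exit.AnnRsw

/-!
# Row 291 (S0539), Ann/CylBridge : A4, THE BRIDGE `cyP` (diagonal) = `sdP`, THE HARD FIELDS OF THE KIT, THE INSTANCE      (owner helper83, co-head of ANN:A4 with helper5; prefix `cyb_`)

`Exit/AnnCyl` = `cy_to_sd` (`Ann/CylMain`) applied to `cyb_inst`.   The instance has three parts: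
* soft fields: `cy_law` (`Ann/CylInst`: 5 + 147 + 22)
* **BRIDGE** `cyb_diag` : `cyP x L H T T {τ | E (cyOn (±1) τ)} = sdP x L H T s E` (`CuIso` between `sdSys x L T 0 H` and `cyM x L H T T`: sites `id`, cells `cyT T`), and the dictionary of the events `cyb_ev_*`
* hard fields: `cyb_rswl` from `SdRsw` (A3: 187, 255) + `SdLen` (A2: 193, 20), `cyb_glue` from `SdGlue` (A1/A2: 55, 193, 20); the three contracts are `Prop`s of `Defs/Seed`; `cyb_in_*` = their proofs (LINKS to the exits of the owners).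
OFF BY ONE.  The kit uses bands of `r` slabs (index rows `k..k+r-1`) and boxes of width `6 r`, `4 r`; the producers use `r' = r - 1`: rows `c..c+r'`, widths `6 r'`, `4 r'`.   `cyb_V_split`: a vertical crossing of a box of width `6 r' + 6` lies in
one of two boxes of width `6 r'` or contains a horizontal crossing of width `6 r' - 6 ≥ 4 r'`.   Lengthening is used with `κ + 1`: `(κ + 1) r' ≥ κ r` for `r ≥ κ + 1`.
-/

set_option autoImplicit false
set_option linter.unusedSectionVars false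
set_option linter.unusedVariables false

namespace Claimed.Agent.R291

open Claims Claims.C0467 Relation

/-! ## 1. dictionary of the events -/

/-- the sign of a `Bool` -/
def cybSg (s : Bool) : SignType := if s then 1 else -1

theorem cyb_eqns_cite : True := by
  have := @cybSg.eq_1
  trivial

theorem cyb_ev_Blk (σ : SignType) (c d : ℤ) : cyBlk σ c d = {τ | SdBlk c d (cyOn σ τ)} := rfl

theorem cyb_ev_H (σ : SignType) (a b c d : ℤ) : cyH σ a b c d = {τ | SdH a b c d (cyOn σ τ)} := rfl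

/-- `cyV` is the PATH form, `SdV` the DUAL form: `sd_V_iff` -/
theorem cyb_ev_V (σ : SignType) {a b c d : ℤ} (hab : a ≤ b) (hcd : c ≤ d) : cyV σ a b c d = {τ | SdV a b c d (cyOn σ τ)} := by
  ext τ
  exact pls_box_iff' hab hcd (cyOn σ τ)

/-! ## 2. the bridge -/

theorem cyq_rows {L : ℕ} (hL : 0 < L) {k : CyK} {y : TV} {r0 r1 : ℤ} (h : cySv L (k, y) ⊆ sdSites L r0 r1) :
    r0 ≤ y.2 ∧ y.2 ≤ r1 ∧ (k ≠ CyK.eh → k ≠ CyK.sn → k ≠ CyK.ss → y.2 + 1 ≤ r1) := by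
  cases k
  · have h1 : sdRed L y ∈ sdSites L r0 r1 := h (by simp [cySv, cellV])
    have h2 : sdRed L (y + (0, 1)) ∈ sdSites L r0 r1 := h (by simp [cySv, cellV])
    rw [cy_red_mem hL] at h1 h2
    simp only [Prod.snd_add] at h2
    exact ⟨h1.1, h1.2, fun _ _ _ => h2.2⟩
  · have h1 : sdRed L (y + (1, 0)) ∈ sdSites L r0 r1 := h (by simp [cySv, cellD])
    have h2 : sdRed L (y + (0, 1)) ∈ sdSites L r0 r1 := h (by simp [cySv, cellD])
    rw [cy_red_mem hL] at h1 h2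
    simp only [Prod.snd_add, add_zero] at h1 h2
    exact ⟨h1.1, h1.2, fun _ _ _ => h2.2⟩
  · have h1 : sdRed L y ∈ sdSites L r0 r1 := h (by simp [cySv])
    rw [cy_red_mem hL] at h1
    exact ⟨h1.1, h1.2, fun h _ _ => (h rfl).elim⟩
  · have h1 : sdRed L y ∈ sdSites L r0 r1 := h (by simp [cySv])
    have h2 : sdRed L (y + (0, 1)) ∈ sdSites L r0 r1 := h (by simp [cySv])
    rw [cy_red_mem hL] at h1 h2
    simp only [Prod.snd_add] at h2
    exact ⟨h1.1, h1.2, fun _ _ _ => h2.2⟩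
  · have h1 : sdRed L y ∈ sdSites L r0 r1 := h (by simp [cySv])
    have h2 : sdRed L (y + (-1, 1)) ∈ sdSites L r0 r1 := h (by simp [cySv])
    rw [cy_red_mem hL] at h1 h2
    simp only [Prod.snd_add] at h2
    exact ⟨h1.1, h1.2, fun _ _ _ => h2.2⟩
  · have h1 : sdRed L y ∈ sdSites L r0 r1 := h (by simp [cySv])
    rw [cy_red_mem hL] at h1
    exact ⟨h1.1, h1.2, fun _ h _ => (h rfl).elim⟩
  · have h1 : sdRed L y ∈ sdSites L r0 r1 := h (by simp [cySv])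
    rw [cy_red_mem hL] at h1
    exact ⟨h1.1, h1.2, fun _ _ h => (h rfl).elim⟩

theorem cyq_mem_band {L : ℕ} {T : Bool} {c d : ℤ} {y : TV} : cyT T y ∈ cyBand L T c d ↔ 0 ≤ y.1 ∧ y.1 < L ∧ c ≤ y.2 ∧ y.2 ≤ d := by
  unfold cyBand
  rw [Finset.mem_image]
  constructor
  · rintro ⟨z, hz, e⟩
    have : z = y := congrArg Prod.snd e
    subst this
    rw [cy_mem_cells] at hz
    omega
  · intro h
    exact ⟨y, cy_mem_cells.2 (by omega), rfl⟩

theorem cyq_mem_Q {L H : ℕ} {T : Bool} {y : TV} : cyT T y ∈ cyQ L H T T ↔ 0 ≤ y.1 ∧ y.1 < L ∧ -1 ≤ y.2 ∧ y.2 ≤ H := by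
  unfold cyQ
  rw [if_pos rfl, Finset.mem_union, Finset.mem_union, cyq_mem_band, cyq_mem_band, cyq_mem_band]
  omega

theorem cyq_Q_form {L H : ℕ} {T : Bool} {c : CyY} (hc : c ∈ cyQ L H T T) : c = cyT T c.2 := by
  unfold cyQ at hc
  rw [if_pos rfl, Finset.mem_union, Finset.mem_union] at hc
  unfold cyBand at hc
  simp only [Finset.mem_image] at hc
  rcases hc with (⟨z, _, rfl⟩ | ⟨z, _, rfl⟩) | ⟨z, _, rfl⟩ <;> rfl

/-- the cells of `cyM x L H T T` are the triangles of class `T` in the slabs `0..H-1`.   PLAN: `cy_mem_C`, `ClSys.inn`, `ClSys.cin`: an edge inside the rows `0..H` is covered by a triangle of `cyQ L H T T` (slabs `-1..H`); the spokes and the cut cells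
are not inside the rows `0..H`. -/
theorem cyb_M_C (x : ℝ) {L H : ℕ} (hL : 3 ≤ L) (hH : 1 ≤ H) (T : Bool) : (cyM x L H T T).C = (sdCells L 0 H).image (cyT T) := by
  have hL0 : 0 < L := by omega
  have hLz : (0 : ℤ) < L := by exact_mod_cast hL0
  ext c
  show c ∈ (cyS x L (-3) ((H : ℤ) + 3) (cyQ L H T T) ∅).C.filter (fun y => cySv L y ⊆ sdSites L 0 H) ↔ _
  rw [Finset.mem_filter, cy_mem_C, Finset.mem_image]
  constructor
  · rintro ⟨hc, hsub⟩
    obtain ⟨k, y⟩ := c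
    obtain ⟨r1, r2, r3⟩ := cyq_rows hL0 hsub
    rcases hc with hc | ⟨he, hTa, hTb⟩ | hs
    · have e := cyq_Q_form hc
      simp only at e
      rw [e] at hc
      have hk : k = if T then CyK.up else CyK.dn := congrArg Prod.fst e
      have r4 : y.2 + 1 ≤ H := r3 (by rw [hk]; cases T <;> simp) (by rw [hk]; cases T <;> simp) (by rw [hk]; cases T <;> simp)
      rw [cyq_mem_Q] at hc
      exact ⟨y, cy_mem_cells.2 (by omega), e.symm⟩
    · exfalso
      rcases cy_mem_edges.1 he with ⟨hk, hy⟩ | ⟨hk, hy⟩ | ⟨hk, hy⟩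
      · simp only at hk hy
        subst hk
        rw [cy_mem_sites] at hy
        cases T
        · exact hTb ((cyq_mem_Q (T := false) (y := y - (0, 1))).2 (by simp only [Prod.fst_sub, Prod.snd_sub]; omega))
        · exact hTa ((cyq_mem_Q (T := true) (y := y)).2 (by omega))
      · simp only at hk hy
        subst hk
        rw [cy_mem_cells] at hy
        have r4 := r3 (by simp) (by simp) (by simp)
        cases T
        · refine hTb ((cyq_mem_Q (T := false) (y := sdRed L (y - (1, 0)))).2 ?_)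
          exact ⟨Int.emod_nonneg _ hLz.ne', Int.emod_lt_of_pos _ hLz, by show -1 ≤ (y - (1, 0)).2; simp only [Prod.snd_sub]; omega,
            by show (y - (1, 0)).2 ≤ (H : ℤ); simp only [Prod.snd_sub]; omega⟩
        · exact hTa ((cyq_mem_Q (T := true) (y := y)).2 (by omega))
      · simp only at hk hy
        subst hk
        rw [cy_mem_cells] at hy
        have r4 := r3 (by simp) (by simp) (by simp)
        cases T
        · refine hTb ((cyq_mem_Q (T := false) (y := sdRed L (y - (1, 0)))).2 ?_)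
          exact ⟨Int.emod_nonneg _ hLz.ne', Int.emod_lt_of_pos _ hLz, by show -1 ≤ (y - (1, 0)).2; simp only [Prod.snd_sub]; omega,
            by show (y - (1, 0)).2 ≤ (H : ℤ); simp only [Prod.snd_sub]; omega⟩
        · refine hTa ((cyq_mem_Q (T := true) (y := sdRed L (y - (1, 0)))).2 ?_)
          exact ⟨Int.emod_nonneg _ hLz.ne', Int.emod_lt_of_pos _ hLz, by show -1 ≤ (y - (1, 0)).2; simp only [Prod.snd_sub]; omega,
            by show (y - (1, 0)).2 ≤ (H : ℤ); simp only [Prod.snd_sub]; omega⟩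
    · exfalso
      rcases cy_mem_spokes.1 hs with ⟨_, hy⟩ | ⟨_, hy⟩
      · simp only at hy
        rw [cy_mem_row] at hy
        omega
      · simp only at hy
        rw [cy_mem_row] at hy
        omega
  · rintro ⟨y, hy, rfl⟩
    have hy' := cy_mem_cells.1 hy
    refine ⟨Or.inl (cyq_mem_Q.2 (by omega)), cy_tri_sub hL0 (cy_mem_tris.2 ⟨?_, hy⟩)⟩
    cases T
    · exact Or.inr rfl
    · exact Or.inl rfl

theorem cyq_sv_T (L : ℕ) (T : Bool) (y : TV) : cySv L (cyT T y) = sdCell L T y := by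
  cases T <;> rfl

theorem cyq_T_inj (T : Bool) : Function.Injective (cyT T) := fun _ _ e => congrArg Prod.snd e

/-- the isomorphism -/
theorem cyb_iso (x : ℝ) {L H : ℕ} (hL : 3 ≤ L) (hH : 1 ≤ H) (T : Bool) : CuIso (sdSys x L T 0 H) (cyM x L H T T) id (cyT T) := by
  refine
    { injV := Function.injective_id.injOn
      injY := (cyq_T_inj T).injOn
      A := ?_
      C := (cyb_M_C x hL hH T).symm
      sv := fun y _ => ?_
      q := fun y _ => ?_ }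
  · rw [Finset.image_id]
    rfl
  · rw [Finset.image_id]
    exact cyq_sv_T L T y
  · show (if cyT T y ∈ (∅ : Finset CyY) then (1 : ℝ) else if (cyT T y).1 = CyK.up ∨ (cyT T y).1 = CyK.dn then x ^ 2 else x) = x ^ 2
    rw [if_neg (by simp), if_pos (by cases T <;> simp [cyT])]

/-- the field of the transported configuration.   PLAN: `am_iso_tau`, `cyb_M_C`. -/
theorem cyb_fld (x : ℝ) {L H : ℕ} (hL : 3 ≤ L) (hH : 1 ≤ H) (T s : Bool) (ω : ClCfg TV TV) (hω : ω ∈ (sdSys x L T 0 H).cfgs) :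
    cyOn (cybSg s) (cyFld (cyM x L H T T) L T (ω.map id (cyT T))) = sdSet (sdSys x L T 0 H) L (clSg s) ω := by
  have hiso := cyb_iso x hL hH T
  have hsub : ∀ y ∈ (sdSys x L T 0 H).C, (sdSys x L T 0 H).sv y ⊆ (sdSys x L T 0 H).A := by
    intro y hy
    have h1 : cySv L (cyT T y) ⊆ sdSites L 0 H := by
      refine cy_tri_sub (by omega) (cy_mem_tris.2 ⟨?_, hy⟩)
      cases T
      · exact Or.inr rfl
      · exact Or.inl rfl
    rw [cyq_sv_T] at h1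
    exact h1
  ext p
  have hC : cyT T (sdRed L p) ∈ (cyM x L H T T).C ↔ sdRed L p ∈ (sdSys x L T 0 H).C := by
    rw [cyb_M_C x hL hH T, Finset.mem_image]
    constructor
    · rintro ⟨z, hz, e⟩
      rw [← cyq_T_inj T e]
      exact hz
    · intro h
      exact ⟨_, h, rfl⟩
  simp only [cyOn, cyFld, sdSet, Set.mem_ofPred_eq]
  by_cases hp : sdRed L p ∈ (sdSys x L T 0 H).C
  · rw [if_pos (hC.2 hp), am_iso_tau _ _ _ _ hiso hsub ω hω _ hp]
    rcases dis_tau_cases (sdSys x L T 0 H) ω (sdRed L p) with h | h | h <;> cases s <;> simp [h, hp, cySg, cybSg, clSg]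
  · rw [if_neg (fun h => hp (hC.1 h))]
    cases s <;> simp [hp, cybSg]

/-- **THE BRIDGE**.   PLAN: `am_iso` (numerator and denominator of `ClSys.P`), `cyb_iso`, `cyb_fld`, `CyMix` of the transported configuration = `SdMix`. -/
theorem cyb_diag (x : ℝ) {L H : ℕ} (hL : 3 ≤ L) (hH : 1 ≤ H) (T s : Bool) (E : Set TV → Prop) :
    cyP x L H T T {τ | E (cyOn (cybSg s) τ)} = sdP x L H T s E := by
  have iso := cyb_iso x hL hH T
  have hsub : ∀ y ∈ (sdSys x L T 0 H).C, (sdSys x L T 0 H).sv y ⊆ (sdSys x L T 0 H).A :=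
    (sd_sys_ok 1 one_pos le_rfl L (by omega) T 0 H).sub
  have hK : (fun ω : ClCfg TV TV => CyMix L 0 H (ω.map id (cyT T))) = SdMix L 0 H := by
    funext ω
    have e : (ω.map id (cyT T)).B = ω.B := Finset.image_id
    refine propext ?_
    show ((∀ v ∈ sdRow L 0, (v ∈ (ω.map id (cyT T)).B ↔ false = true)) ∧ (∀ v ∈ sdRow L H, (v ∈ (ω.map id (cyT T)).B ↔ true = true))) ↔ _
    rw [e]
    exact Iff.rfl
  show (cyM x L H T T).P (CyMix L 0 H) (fun ω => cyFld (cyM x L H T T) L T ω ∈ {τ | E (cyOn (cybSg s) τ)}) =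
    (sdSys x L T 0 H).P (SdMix L 0 H) (fun ω => E (sdSet (sdSys x L T 0 H) L (clSg s) ω))
  unfold ClSys.P
  rw [dis_E_eq, dis_E_eq, dis_Z_eq, dis_Z_eq, am_iso _ _ id (cyT T) iso hsub, am_iso _ _ id (cyT T) iso hsub, hK]
  congr 1
  unfold ClSys.N
  refine Finset.sum_congr rfl fun ω hω => ?_
  have h1 : (cyFld (cyM x L H T T) L T (ω.map id (cyT T)) ∈ {τ | E (cyOn (cybSg s) τ)}) ↔ E (sdSet (sdSys x L T 0 H) L (clSg s) ω) := by
    show E (cyOn (cybSg s) (cyFld (cyM x L H T T) L T (ω.map id (cyT T)))) ↔ _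
    rw [cyb_fld x hL hH T s ω hω]
  beta_reduce
  by_cases h : E (sdSet (sdSys x L T 0 H) L (clSg s) ω)
  · rw [if_pos (h1.2 h), if_pos h]
  · rw [if_neg (fun h' => h (h1.1 h')), if_neg h]

theorem cyb_P_Blk (x : ℝ) {L H : ℕ} (hL : 3 ≤ L) (hH : 1 ≤ H) (T s : Bool) (c d : ℤ) : cyP x L H T T (cyBlk (cybSg s) c d) = sdP x L H T s (SdBlk c d) := by
  rw [cyb_ev_Blk, cyb_diag x hL hH]

theorem cyb_P_H (x : ℝ) {L H : ℕ} (hL : 3 ≤ L) (hH : 1 ≤ H) (T : Bool) (a b c d : ℤ) : cyP x L H T T (cyH 1 a b c d) = sdP x L H T true (SdH a b c d) := by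
  rw [cyb_ev_H]
  exact cyb_diag x hL hH T true _

theorem cyb_P_V (x : ℝ) {L H : ℕ} (hL : 3 ≤ L) (hH : 1 ≤ H) (T : Bool) {a b c d : ℤ} (hab : a ≤ b) (hcd : c ≤ d) :
    cyP x L H T T (cyV 1 a b c d) = sdP x L H T true (SdV a b c d) := by
  rw [cyb_ev_V 1 hab hcd]
  exact cyb_diag x hL hH T true _

/-! ## 3. off by one -/

/-- deterministic: PLAN: `cy_win` twice (windows `0..6r'` and `6..6r'+6`), `cy_hx_gen`, `cy_Xh_H`, `cy_H_narrow`. -/
theorem cyb_V_split_det (s : SignType) {r c d : ℤ} (hr : 3 ≤ r) (hcd : c ≤ d) :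
    cyV s 0 (6 * r + 6) c d ⊆ cyV s 0 (6 * r) c d ∪ cyV s 6 (6 + 6 * r) c d ∪ cyH s 6 (6 + 4 * r) c d := by
  rintro τ ⟨u, v, hu, huc, hvd, huv⟩
  set P : Set (ℤ × ℤ) := cyOn s τ ∩ {z | 0 ≤ z.1 ∧ z.1 ≤ 6 * r + 6} with hP
  have hsub : tscBox 0 (6 * r + 6) c d ∩ cyOn s τ ⊆ plsBand c d ∩ P := fun z hz => ⟨⟨hz.1.2.2.1, hz.1.2.2.2⟩, hz.2, hz.1.1, hz.1.2.1⟩
  have hu' : u ∈ plsBand c d ∩ P := hsub hu
  have huv' : TscR tscG (plsBand c d ∩ P) u v := tsc_R_mono hsub huv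
  have hbox : ∀ a b : ℤ, tscBox a b c d ∩ P ⊆ tscBox a b c d ∩ cyOn s τ := fun a b z hz => ⟨hz.1, hz.2.1⟩
  -- first window
  have w1 : τ ∈ cyV s 0 (6 * r) c d ∨ ∃ z : ℤ × ℤ, 6 * r < z.1 ∧ TscR tscG (plsBand c d ∩ P) u z := by
    by_cases h : u.1 ≤ 6 * r
    · rcases cy_win (a := 0) (b := 6 * r) hu.1.1 h huv' with h1 | ⟨z, hz, hr1⟩
      · exact Or.inl ⟨u, v, ⟨⟨hu.1.1, h, hu.1.2.2.1, hu.1.2.2.2⟩, hu.2⟩, huc, hvd, tsc_R_mono (hbox _ _) h1⟩
      · have hz0 := (tsc_R_mem hr1 hu').2.2.1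
        exact Or.inr ⟨z, by omega, hr1⟩
    · exact Or.inr ⟨u, by omega, tsc_R_refl _⟩
  have w2 : τ ∈ cyV s 6 (6 + 6 * r) c d ∨ ∃ z : ℤ × ℤ, z.1 < 6 ∧ TscR tscG (plsBand c d ∩ P) u z := by
    by_cases h : 6 ≤ u.1
    · have hu2 : u.1 ≤ 6 + 6 * r := by have := hu.1.2.1; omega
      rcases cy_win (a := 6) (b := 6 + 6 * r) h hu2 huv' with h1 | ⟨z, hz, hr1⟩
      · exact Or.inl ⟨u, v, ⟨⟨h, hu2, hu.1.2.2.1, hu.1.2.2.2⟩, hu.2⟩, huc, hvd, tsc_R_mono (hbox _ _) h1⟩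
      · have hz0 := (tsc_R_mem hr1 hu').2.2.2
        exact Or.inr ⟨z, by omega, hr1⟩
    · exact Or.inr ⟨u, by omega, tsc_R_refl _⟩
  rcases w1 with h | ⟨z1, hz1, hr1⟩
  · exact Or.inl (Or.inl h)
  rcases w2 with h | ⟨z2, hz2, hr2⟩
  · exact Or.inl (Or.inr h)
  refine Or.inr (cy_Xh_H s (by omega) hcd (cy_Xh_mono (hbox _ _) ?_))
  exact cy_hx_gen (by omega) (tsc_R_mem hr2 hu') (tsc_R_trans (tsc_R_symm hr2) hr1) (by omega) (by omega)

/-- PLAN: `cyb_V_split_det`, `cy_sub`, `union`, `cy_mv_V`, `cy_mv_H` + `shift` by `(6, 0)`. -/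
theorem cyb_V_split {L H : ℕ} {Q : Bool → Bool → Set CyF → ℝ} (h : CyLaw L H Q) (S T : Bool) {r c d : ℤ} (hr : 3 ≤ r) (hcd : c ≤ d) :
    Q S T (cyV 1 0 (6 * r + 6) c d) ≤ 2 * Q S T (cyV 1 0 (6 * r) c d) + Q S T (cyH 1 0 (4 * r) c d) := by
  have h1 := h.mono S T _ _ (fun τ _ hτ => cyb_V_split_det 1 hr hcd hτ)
  have h2 := h.union S T (cyV 1 0 (6 * r) c d ∪ cyV 1 6 (6 + 6 * r) c d) (cyH 1 6 (6 + 4 * r) c d)
  have h3 := h.union S T (cyV 1 0 (6 * r) c d) (cyV 1 6 (6 + 6 * r) c d)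
  have e1 : cyV 1 6 (6 + 6 * r) c d = cyMv (6, 0) (cyV 1 0 (6 * r) c d) := by
    rw [cy_mv_V]
    simp only [zero_add, add_zero, add_comm]
  have e2 : cyH 1 6 (6 + 4 * r) c d = cyMv (6, 0) (cyH 1 0 (4 * r) c d) := by
    rw [cy_mv_H]
    simp only [zero_add, add_zero, add_comm]
  have s1 : Q S T (cyV 1 6 (6 + 6 * r) c d) = Q S T (cyV 1 0 (6 * r) c d) := by rw [e1, h.shift]
  have s2 : Q S T (cyH 1 6 (6 + 4 * r) c d) = Q S T (cyH 1 0 (4 * r) c d) := by rw [e2, h.shift]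
  linarith

/-! ## 4. the hard fields -/

/-- the field `rswl`.   PLAN: `r' = r - 1`; `(ψ, r₁)` = `SdRsw` at `δ/3`; `(δ', r₂)` = `SdLen` at `κ + 1`, `min (δ/3) ψ`; `r₀ = max (r₁ + 1) (max (r₂ + 1) (κ + 4))`.
`H`-case: `cy_H_narrow`.   `V`-case: `cyb_V_split`: `P(V(6r')) ≥ δ/3` (then `SdRsw`) or `P(H(4r')) ≥ δ/3`.   End: `SdLen`, `cy_H_narrow` (`κ r ≤ (κ + 1) r'`).   Translation by `cyb_P_H`, `cyb_P_V`. -/
theorem cyb_rswl (x : ℝ) (hx : 1 / Real.sqrt 2 ≤ x) (hx1 : x ≤ 1) (hR : SdRsw x) (hLen : SdLen x) (κ : ℕ) (δ : ℝ) (hδ : 0 < δ) :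
    ∃ δ' : ℝ, 0 < δ' ∧ ∃ r0 : ℕ, ∀ (L H : ℕ) (T : Bool) (k r : ℤ),
      20 ≤ H → H ≤ L → (r0 : ℤ) ≤ r → ((κ : ℤ) + 20) * r ≤ L → 3 + r ≤ k → k + 2 * r ≤ (H : ℤ) - 4 →
      (δ ≤ cyP x L H T T (cyV 1 0 (6 * r) k (k + r - 1)) ∨ δ ≤ cyP x L H T T (cyH 1 0 (4 * r) k (k + r - 1))) →
      δ' ≤ cyP x L H T T (cyH 1 0 (κ * r) k (k + r - 1)) := by
  obtain ⟨ψ, hψ, r₁, hR'⟩ := hR (δ / 3) (by positivity)
  obtain ⟨δ', hδ', r₂, hL'⟩ := hLen (κ + 1) (min (δ / 3) ψ) (lt_min (by positivity) hψ)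
  refine ⟨δ', hδ', max (r₁ + 1) (max (r₂ + 1) (κ + 4)), ?_⟩
  intro L H T k r hH hHL hr hκL hk hkH hor
  have hr1 : ((r₁ : ℤ) + 1) ≤ r := by
    have : ((r₁ + 1 : ℕ) : ℤ) ≤ ((max (r₁ + 1) (max (r₂ + 1) (κ + 4)) : ℕ) : ℤ) := by exact_mod_cast le_max_left _ _
    push_cast at this hr ⊢
    omega
  have hr2 : ((r₂ : ℤ) + 1) ≤ r := by
    have : ((r₂ + 1 : ℕ) : ℤ) ≤ ((max (r₁ + 1) (max (r₂ + 1) (κ + 4)) : ℕ) : ℤ) := by
      exact_mod_cast (le_max_left _ _).trans (le_max_right _ _)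
    push_cast at this hr ⊢
    omega
  have hr3 : ((κ : ℤ) + 4) ≤ r := by
    have : ((κ + 4 : ℕ) : ℤ) ≤ ((max (r₁ + 1) (max (r₂ + 1) (κ + 4)) : ℕ) : ℤ) := by
      exact_mod_cast (le_max_right _ _).trans (le_max_right _ _)
    push_cast at this hr ⊢
    omega
  have hκ0 : (0 : ℤ) ≤ κ := Int.natCast_nonneg κ
  have law := cy_law hx hx1 hH hHL
  have hL3 : 3 ≤ L := by omega
  have hH1 : 1 ≤ H := by omega
  obtain ⟨q, hq⟩ : ∃ q : ℤ, r = q + 1 := ⟨r - 1, by ring⟩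
  subst hq
  have eband : k + (q + 1) - 1 = k + q := by ring
  rw [eband] at hor ⊢
  have hq3 : 3 ≤ q := by omega
  have hκq : (κ : ℤ) * q ≥ 0 := mul_nonneg hκ0 (by omega)
  have hκL' : (κ : ℤ) * q + κ + 20 * q + 20 ≤ L := by
    have : ((κ : ℤ) + 20) * (q + 1) = (κ : ℤ) * q + κ + 20 * q + 20 := by ring
    omega
  -- the horizontal seed at the scale `q`
  have seed : min (δ / 3) ψ ≤ sdP x L H T true (SdH 0 (4 * q) k (k + q)) := by
    rcases hor with hV | hHh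
    · have e6 : 6 * (q + 1) = 6 * q + 6 := by ring
      rw [e6] at hV
      have hs := cyb_V_split law T T (r := q) (c := k) (d := k + q) hq3 (by omega)
      by_cases hc : δ / 3 ≤ cyP x L H T T (cyV 1 0 (6 * q) k (k + q))
      · rw [cyb_P_V x hL3 hH1 T (by omega) (by omega)] at hc
        exact (min_le_right _ _).trans (hR' L H T k q (by omega) (by omega) (by omega) (by omega) hc)
      · push Not at hc
        rw [← cyb_P_H x hL3 hH1]
        refine (min_le_left _ _).trans ?_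
        linarith
    · rw [← cyb_P_H x hL3 hH1]
      refine (min_le_left _ _).trans ?_
      have := law.mono T T _ _ (fun τ _ hτ => cy_H_narrow 1 (a := 0) (b := 4 * (q + 1)) (a' := 0) (b' := 4 * q) k (k + q) le_rfl (by omega) hτ)
      linarith
  have long := hL' L H T k q (by omega) (by push_cast; nlinarith) (by omega) (by omega) seed
  rw [← cyb_P_H x hL3 hH1] at long
  have hnar : (κ : ℤ) * (q + 1) ≤ ((κ + 1 : ℕ) : ℤ) * q := by
    push_cast
    nlinarith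
  exact long.trans (law.mono T T _ _ (fun τ _ hτ => cy_H_narrow 1 (a := 0) (b := ((κ + 1 : ℕ) : ℤ) * q) (a' := 0) (b' := (κ : ℤ) * (q + 1))
    k (k + q) le_rfl hnar hτ))

/-- the field `glue`.   PLAN: `cyb_ev_H` (intersection = conjunction), `cyb_diag`, `cyb_P_V`. -/
theorem cyb_glue (x : ℝ) (hG : SdGlue x) :
    ∃ cG : ℝ, 0 < cG ∧ ∃ r0 : ℕ, ∀ (L H : ℕ) (T : Bool) (k m : ℤ),
      20 ≤ H → H ≤ L → (r0 : ℤ) ≤ m → 100 * m ≤ L → 3 + 3 * m ≤ k → k + 13 * m ≤ (H : ℤ) - 4 →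
      cG * cyP x L H T T (cyH 1 0 (60 * m) (k + 8 * m) (k + 10 * m - 1) ∩ cyH 1 (10 * m) (70 * m) k (k + 2 * m - 1))
        ≤ cyP x L H T T (cyV 1 (12 * m) (58 * m) (k + 3 * m) (k + 7 * m)) := by
  obtain ⟨cG, hc, r₀, h⟩ := hG
  refine ⟨cG, hc, r₀, fun L H T k m hH hHL hm h1 h2 h3 => ?_⟩
  have hm0 : 0 ≤ m := (Int.natCast_nonneg r₀).trans hm
  rw [cyb_P_V x (by omega) (by omega) T (by omega) (by omega)]
  have e := cyb_diag x (L := L) (H := H) (by omega) (by omega) T true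
    (fun X => SdH 0 (60 * m) (k + 8 * m) (k + 10 * m - 1) X ∧ SdH (10 * m) (70 * m) k (k + 2 * m - 1) X)
  have es : cyH 1 0 (60 * m) (k + 8 * m) (k + 10 * m - 1) ∩ cyH 1 (10 * m) (70 * m) k (k + 2 * m - 1) =
      {τ | (fun X => SdH 0 (60 * m) (k + 8 * m) (k + 10 * m - 1) X ∧ SdH (10 * m) (70 * m) k (k + 2 * m - 1) X) (cyOn (cybSg true) τ)} := by
    ext τ
    exact Iff.rfl
  rw [es, e]
  exact h L H T k m hH hHL hm h1 h2 h3

/-! ## 5. the three inputs (LINKS) -/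

/-- OWNER A3 (187, 255).   LINK: `rsc_exit` (`Ann/RswCyl`) + `RscGlue`. -/
theorem cyb_in_rsw (x : ℝ) (hx : 1 / Real.sqrt 2 ≤ x) (hx1 : x ≤ 1) : SdRsw x :=
  exit_ann_rsw x hx hx1

/-- OWNER A2 (193, 20). -/
theorem cyb_in_len (x : ℝ) (hx : 1 / Real.sqrt 2 ≤ x) (hx1 : x ≤ 1) : SdLen x :=
  exit_ann_len x hx hx1

/-- OWNER A1/A2 (55, 193, 20): (SE) in the box `[12m, 58m] × [k, k+10m-1]`: for increasing `A ⊆ H⁺(box)`: `c' P(A) ≤ P(A ∩ E3(box))`; then `sd_e3_vert` (`Ann/SeedDet`). -/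
theorem cyb_in_glue (x : ℝ) (hx : 1 / Real.sqrt 2 ≤ x) (hx1 : x ≤ 1) : SdGlue x :=
  exit_ann_glue x hx hx1

/-! ## 6. the instance -/

theorem cyb_kit (x : ℝ) (hx : 1 / Real.sqrt 2 ≤ x) (hx1 : x ≤ 1) : CyKit (cyP x) where
  law := fun L H hH hHL => cy_law hx hx1 hH hHL
  rswl := fun κ δ hδ => cyb_rswl x hx hx1 (cyb_in_rsw x hx hx1) (cyb_in_len x hx hx1) κ δ hδ
  glue := cyb_glue x (cyb_in_glue x hx hx1)

end Claimed.Agent.R291
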