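import Claimed.Agent.R291.Pl.SetForm

/-!
# Row 291 (S0539), ANN block A4 = SEEDS ON THE MIXED CYLINDER ⟹ (CYL)      (architect helper5, with helper147; leaves of sec. 3 proved by helper91; prefix `cy` / `Cy`)      0 sorry

TEX 09-annulus.tex Sec. 9.1, 9.3, 9.4 (annulus:slide, search, duality, first-seed, winding, seed); chain of 121 (`T23_CHAIN.md`, A4).
Design note: `origin/helper5:notes/R291/ann_A4_5.md`.

THE CUT.  A4 = (i) `cy_main : CyKit P → (CYL)`   [THIS FILE + `Ann/CylGeo`: NO model, only planar set facts of PLA and arithmetic]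
               (ii) the instance `CyKit cyP` for the mixed cylinder laws (unit `Ann/CylInst`, on A0 = `Defs/Cut`, `Ann/Model`; fields `rswl` = A2 + A3, `glue` = A1).

LANGUAGE.  The cylinder of circumference `L` = `(L,0)`-periodic objects on `ℤ × ℤ` (`PlsPer` of `Pl/SetForm`).
A cell of class `T` (`true` = `Y` up-triangles, `false` = `Z` down-triangles) is named by its index `(a, b)`, `b` = its SLAB (rows `b`, `b+1`);
two cells of one class share a site iff their indices are `triAdj`.   A STATUS FIELD `τ : CyF = ℤ × ℤ → SignType` gives `τ_y ∈ {-1, 0, 1}` (`0` = closed).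
* `CyX S c d`  : `S` contains a path from row `c` to row `d`;   `CyXh S a b` : from column `a` to column `b`
* `cyVP s c d` : a path of cells of sign `s` crosses the band of slabs `c..d` vertically            (ARM: path form)
* `cyBlk s c d`: NO path of cells of sign `≠ s` crosses the band vertically = "winding of sign `s`"  (DUAL form, 121 L3)
* `cyV s a b c d`, `cyH s a b c d` : the same two events in the parallelogram `tscBox a b c d` (`cyH` = hard/horizontal crossing in dual form)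
* `cyMv w E` translate of an event, `cyRf H o E` its image under (reflection of the rows `b ↦ H-1-b`) ∘ (flip), `CyInc`, `CySup c d`.
* `P L H S T E` = probability, under the mixed law of class `S` (`B = -` on row `0`, `B = +` on row `H`, boundary convention of class `S`) on the cylinder of
  circumference `L` and height `H`, that the status field of the cells of class `T` (fresh augmentation if `T ≠ S`) lies in `E`.
-/

set_option autoImplicit false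

namespace Claimed.Agent.R291

open Claims Claims.C0467 Relation

/-! ## 1. events -/

/-- status field of one class of cells on the cover of the cylinder -/
abbrev CyF : Type := ℤ × ℤ → SignType

/-- periodic fields = fields on the cylinder of circumference `L` -/
def CyPer (L : ℤ) (τ : CyF) : Prop := ∀ u : ℤ × ℤ, τ (u + (L, 0)) = τ u

/-- `S` contains a path from row `c` to row `d` -/
def CyX (S : Set (ℤ × ℤ)) (c d : ℤ) : Prop := ∃ u v : ℤ × ℤ, u ∈ S ∧ u.2 = c ∧ v.2 = d ∧ TscR tscG S u v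

/-- `S` contains a path from column `a` to column `b` -/
def CyXh (S : Set (ℤ × ℤ)) (a b : ℤ) : Prop := ∃ l r : ℤ × ℤ, l ∈ S ∧ l.1 = a ∧ r.1 = b ∧ TscR tscG S l r

/-- the cells of sign `s` -/
def cyOn (s : SignType) (τ : CyF) : Set (ℤ × ℤ) := {u | τ u = s}

/-- vertical crossing of the band `c..d` by cells of sign `s` -/
def cyVP (s : SignType) (c d : ℤ) : Set CyF := {τ | CyX (plsBand c d ∩ cyOn s τ) c d}

/-- the band `c..d` is blocked by the cells of sign `s` -/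
def cyBlk (s : SignType) (c d : ℤ) : Set CyF := {τ | ¬ CyX (plsBand c d \ cyOn s τ) c d}

/-- vertical crossing of the parallelogram by cells of sign `s` -/
def cyV (s : SignType) (a b c d : ℤ) : Set CyF := {τ | CyX (tscBox a b c d ∩ cyOn s τ) c d}

/-- the parallelogram is blocked (bottom to top) by the cells of sign `s` = horizontal crossing, dual form -/
def cyH (s : SignType) (a b c d : ℤ) : Set CyF := {τ | ¬ CyX (tscBox a b c d \ cyOn s τ) c d}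

/-- translate of an event by `w` -/
def cyMv (w : ℤ × ℤ) (E : Set CyF) : Set CyF := {τ | (fun u : ℤ × ℤ => τ (u + w)) ∈ E}

/-- image of an event under the reflection of the slabs `b ↦ H - 1 - b` and the flip of the signs -/
def cyRf (H o : ℤ) (E : Set CyF) : Set CyF := {τ | (fun u : ℤ × ℤ => - τ (u.1 + u.2 + o, H - 1 - u.2)) ∈ E}

/-- increasing event -/
def CyInc (E : Set CyF) : Prop := ∀ τ τ' : CyF, (∀ u, τ u ≤ τ' u) → τ ∈ E → τ' ∈ E

/-- the event reads the slabs `c..d` only -/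
def CySup (c d : ℤ) (E : Set CyF) : Prop :=
  ∀ τ τ' : CyF, (∀ u : ℤ × ℤ, c ≤ u.2 → u.2 ≤ d → τ u = τ' u) → (τ ∈ E ↔ τ' ∈ E)

/-! ## 2. the kit -/

/-- the SOFT properties of the mixed laws on one cylinder (circumference `L`, height `H`).      PRODUCER: `Ann/CylInst` (A4 on A0). -/
structure CyLaw (L H : ℕ) (P : Bool → Bool → Set CyF → ℝ) : Prop where
  nonneg : ∀ S T E, 0 ≤ P S T E
  one : ∀ S T, P S T Set.univ = 1
  zero : ∀ S T, P S T ∅ = 0
  /-- the law lives on periodic fields -/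
  mono : ∀ S T (E E' : Set CyF), (∀ τ, CyPer L τ → τ ∈ E → τ ∈ E') → P S T E ≤ P S T E'
  union : ∀ S T (E E' : Set CyF), P S T (E ∪ E') ≤ P S T E + P S T E'
  /-- T1 (TEX[annulus:ambient]) -/
  fkg : ∀ S T (E E' : Set CyF), CyInc E → CyInc E' → CySup 3 ((H : ℤ) - 4) E → CySup 3 ((H : ℤ) - 4) E' →
    P S T E * P S T E' ≤ P S T (E ∩ E')
  /-- T5, horizontal translations -/
  shift : ∀ S T (a : ℤ) (E : Set CyF), P S T (cyMv (a, 0) E) = P S T E
  /-- TEX[annulus:slide] (annulus:slide-tests): an increasing test moves UP, the class of the boundary convention may change -/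
  slide : ∀ S S' T (c d t : ℤ) (E : Set CyF), CyInc E → CySup c d E → 3 ≤ c → 3 ≤ t → d + t ≤ (H : ℤ) - 4 →
    P S T E ≤ P S' T (cyMv (0, t) E)
  /-- T5: reflection in the horizontal middle line + flip of `B`: exchanges the two classes -/
  refl : ∀ S T, ∃ o : ℤ, ∀ E : Set CyF, P S T E = P (!S) (!T) (cyRf H o E)
  /-- TEX[annulus:duality] + TEX[annulus:search] + TEX[annulus:one-white] + the symmetric domain of TEX[annulus:first-seed]:
  band `k..k+m-1` low, band `κ..κ+m-1` so high that the mirror image of the low band in the middle line of the high band lies above the cylinder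
  (ruling of 83, 07:30Z: room `m + 7`, so that the field follows from the TWO-BAND form `cy_sym2` + `slide`) -/
  sym : ∀ (T : Bool) (k m κ : ℤ), 1 ≤ m → 3 ≤ k → k + m + 3 ≤ κ → κ + m - 1 ≤ (H : ℤ) - 4 → (H : ℤ) + k + m + 7 ≤ 2 * κ →
    1 ≤ P T T (cyVP 1 k (k + m - 1)) + P T T (cyVP (-1) k (k + m - 1))
      + 4 * (P T T (cyVP 1 κ (κ + m - 1)) + P T (!T) (cyBlk 1 κ (κ + m - 1)))
  /-- TEX[annulus:seed]: above a plus winding of class `T` the law dominates a law which is symmetric under both flips and the colour swap -/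
  recov : ∀ (T T1 : Bool) (c d κ m : ℤ), 3 ≤ c → c ≤ d → d + 3 ≤ κ → 1 ≤ m → κ + m - 1 ≤ (H : ℤ) - 4 →
    P T T (cyBlk 1 c d) ≤ 2 * (P T T1 (cyVP 1 κ (κ + m - 1)) + P T T1 (cyBlk 1 κ (κ + m - 1)))

/-- THE KIT: soft properties + the three crossing inputs, with constants uniform in the cylinder. -/
structure CyKit (P : ℕ → ℕ → Bool → Bool → Set CyF → ℝ) : Prop where
  law : ∀ L H : ℕ, 20 ≤ H → H ≤ L → CyLaw L H (P L H)
  /-- A3 (56) + A2 lengthening, matching class, same band -/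
  rswl : ∀ (κ : ℕ) (δ : ℝ), 0 < δ → ∃ δ' : ℝ, 0 < δ' ∧ ∃ r0 : ℕ, ∀ (L H : ℕ) (T : Bool) (k r : ℤ),
    20 ≤ H → H ≤ L → (r0 : ℤ) ≤ r → ((κ : ℤ) + 20) * r ≤ L → 3 + r ≤ k → k + 2 * r ≤ (H : ℤ) - 4 →
    (δ ≤ P L H T T (cyV 1 0 (6 * r) k (k + r - 1)) ∨ δ ≤ P L H T T (cyH 1 0 (4 * r) k (k + r - 1))) →
    δ' ≤ P L H T T (cyH 1 0 (κ * r) k (k + r - 1))
  /-- A1, TEX[annulus:gluing] with `ℓ = 10 m`, averaged over the extremal pair -/
  glue : ∃ cG : ℝ, 0 < cG ∧ ∃ r0 : ℕ, ∀ (L H : ℕ) (T : Bool) (k m : ℤ),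
    20 ≤ H → H ≤ L → (r0 : ℤ) ≤ m → 100 * m ≤ L → 3 + 3 * m ≤ k → k + 13 * m ≤ (H : ℤ) - 4 →
    cG * P L H T T (cyH 1 0 (60 * m) (k + 8 * m) (k + 10 * m - 1) ∩ cyH 1 (10 * m) (70 * m) k (k + 2 * m - 1))
      ≤ P L H T T (cyV 1 (12 * m) (58 * m) (k + 3 * m) (k + 7 * m))

/-! ## 3. deterministic leaves (planar set facts; engines: `Pl/SetForm`, `Tool/TriSCLat`)      PROVED by helper91 -/

theorem cy_mem_band {u : ℤ × ℤ} {c d : ℤ} : u ∈ plsBand c d ↔ c ≤ u.2 ∧ u.2 ≤ d := Iff.rfl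

theorem cy_mem_box {u : ℤ × ℤ} {a b c d : ℤ} : u ∈ tscBox a b c d ↔ a ≤ u.1 ∧ u.1 ≤ b ∧ c ≤ u.2 ∧ u.2 ≤ d := Iff.rfl

theorem cy_mem_on {s : SignType} {τ : CyF} {u : ℤ × ℤ} : u ∈ cyOn s τ ↔ τ u = s := Iff.rfl

/-- SUB-CROSSING for a height function which moves by at most one along the edges -/
theorem cy_sub_gen (f : ℤ × ℤ → ℤ) (hf : ∀ a b : ℤ × ℤ, triAdj a b → f b ≤ f a + 1 ∧ f a ≤ f b + 1) {S : Set (ℤ × ℤ)} {w1 w2 : ℤ × ℤ} {c d : ℤ}
    (hw : w1 ∈ S) (h : TscR tscG S w1 w2) (h1 : f w1 ≤ c) (hcd : c ≤ d) (h2 : d ≤ f w2) :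
    ∃ u v : ℤ × ℤ, u ∈ S ∩ {p | c ≤ f p ∧ f p ≤ d} ∧ f u = c ∧ f v = d ∧ TscR tscG (S ∩ {p | c ≤ f p ∧ f p ≤ d}) u v := by
  set T : Set (ℤ × ℤ) := S ∩ {p | c ≤ f p ∧ f p ≤ d} with hT
  have key : ∀ b : ℤ × ℤ, TscR tscG S w1 b →
      (f b < c ∨ (∃ u, u ∈ T ∧ f u = c ∧ TscR tscG T u b) ∨ ∃ u v : ℤ × ℤ, u ∈ T ∧ f u = c ∧ f v = d ∧ TscR tscG T u v) := by
    intro b hb
    induction hb with
    | refl =>
      rcases lt_or_eq_of_le h1 with h | h
      · exact Or.inl h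
      · exact Or.inr (Or.inl ⟨w1, ⟨hw, h.ge, h.le.trans hcd⟩, h, tsc_R_refl _⟩)
    | @tail b b' _ hbc ih =>
      have hs := hf b b' hbc.1
      rcases ih with h | ⟨u, hu, huc, hub⟩ | h
      · by_cases hb' : f b' < c
        · exact Or.inl hb'
        · have e : f b' = c := by omega
          exact Or.inr (Or.inl ⟨b', ⟨hbc.2.2, e.ge, e.le.trans hcd⟩, e, tsc_R_refl _⟩)
      · have hbT : b ∈ T := tsc_R_mem hub hu
        by_cases hb' : f b' < c
        · exact Or.inl hb'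
        · by_cases hb'' : f b' ≤ d
          · exact Or.inr (Or.inl ⟨u, hu, huc, hub.tail ⟨hbc.1, hbT, ⟨hbc.2.2, not_lt.1 hb', hb''⟩⟩⟩)
          · have hbd := hbT.2.2
            exact Or.inr (Or.inr ⟨u, b, hu, huc, by omega, hub⟩)
      · exact Or.inr (Or.inr h)
  rcases key w2 h with h | ⟨u, hu, huc, hub⟩ | h
  · omega
  · have := (tsc_R_mem hub hu).2.2
    exact ⟨u, w2, hu, huc, le_antisymm this h2, hub⟩
  · exact h

/-- SUB-CROSSING, vertical: a path from row `c` to row `d` contains a crossing of every sub-band. -/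
theorem cy_sub_v {S : Set (ℤ × ℤ)} {w1 w2 : ℤ × ℤ} {c d : ℤ} (hw : w1 ∈ S) (h : TscR tscG S w1 w2) (h1 : w1.2 ≤ c) (hcd : c ≤ d)
    (h2 : d ≤ w2.2) : CyX (S ∩ plsBand c d) c d :=
  cy_sub_gen (fun p => p.2) (fun _ _ hab => tsc_adj_snd hab) hw h h1 hcd h2

/-- SUB-CROSSING, horizontal. -/
theorem cy_sub_h {S : Set (ℤ × ℤ)} {w1 w2 : ℤ × ℤ} {a b : ℤ} (hw : w1 ∈ S) (h : TscR tscG S w1 w2) (h1 : w1.1 ≤ a) (hab : a ≤ b)
    (h2 : b ≤ w2.1) : CyXh (S ∩ {u | a ≤ u.1 ∧ u.1 ≤ b}) a b :=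
  cy_sub_gen (fun p => p.1) (fun _ _ hab => tsc_adj_fst hab) hw h h1 hab h2

/-- a path which does not stay in `W` leaves it -/
theorem cy_leave {S W : Set (ℤ × ℤ)} {u v : ℤ × ℤ} (hu : u ∈ W) (h : TscR tscG S u v) (hn : ¬ TscR tscG (S ∩ W) u v) :
    ∃ z, z ∉ W ∧ TscR tscG S u z := by
  by_contra hc
  push Not at hc
  apply hn
  clear hn
  induction h with
  | refl => exact tsc_R_refl _
  | @tail b b' hub hbc ih =>
    have hb : b ∈ W := by
      by_contra hb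
      exact hc b hb hub
    have hb' : b' ∈ W := by
      by_contra hb'
      exact hc b' hb' (hub.tail hbc)
    exact ih.tail ⟨hbc.1, ⟨hbc.2.1, hb⟩, ⟨hbc.2.2, hb'⟩⟩

theorem cy_X_mono {S S' : Set (ℤ × ℤ)} (h : S ⊆ S') {c d : ℤ} (hx : CyX S c d) : CyX S' c d := by
  obtain ⟨u, v, hu, h1, h2, h3⟩ := hx
  exact ⟨u, v, h hu, h1, h2, tsc_R_mono h h3⟩

theorem cy_Xh_mono {S S' : Set (ℤ × ℤ)} (h : S ⊆ S') {a b : ℤ} (hx : CyXh S a b) : CyXh S' a b := by
  obtain ⟨u, v, hu, h1, h2, h3⟩ := hx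
  exact ⟨u, v, h hu, h1, h2, tsc_R_mono h h3⟩

/-- image of a path under a map which respects adjacency, with a target set given by a membership rule -/
theorem cy_R_map (e : ℤ × ℤ → ℤ × ℤ) (he : ∀ a b, triAdj a b → triAdj (e a) (e b)) {S S' : Set (ℤ × ℤ)} (hS : ∀ z ∈ S, e z ∈ S')
    {u v : ℤ × ℤ} (h : TscR tscG S u v) : TscR tscG S' (e u) (e v) := by
  induction h with
  | refl => exact tsc_R_refl _
  | tail _ hbc ih => exact ih.tail ⟨he _ _ hbc.1, hS _ hbc.2.1, hS _ hbc.2.2⟩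

theorem cy_adj_add (w a b : ℤ × ℤ) (h : triAdj a b) : triAdj (a + w) (b + w) := by
  rw [tsc_adj_iff] at h ⊢
  simp only [Prod.fst_add, Prod.snd_add]
  omega

/-- translation of a crossing -/
theorem cy_X_mv {S : Set (ℤ × ℤ)} (w : ℤ × ℤ) {c d : ℤ} (hx : CyX S c d) : CyX {u | u - w ∈ S} (c + w.2) (d + w.2) := by
  obtain ⟨u, v, hu, h1, h2, h3⟩ := hx
  have hS : ∀ z ∈ S, z + w ∈ {u | u - w ∈ S} := fun z hz => by
    show z + w - w ∈ S
    rwa [add_sub_cancel_right]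
  exact ⟨u + w, v + w, hS u hu, by simp [h1], by simp [h2], cy_R_map (fun z => z + w) (cy_adj_add w) hS h3⟩

/-- translation of a crossing, as an equivalence, with the translated set given by a membership rule -/
theorem cy_X_mv_iff {S S' : Set (ℤ × ℤ)} (w : ℤ × ℤ) (h : ∀ z, z + w ∈ S' ↔ z ∈ S) (c d : ℤ) : CyX S c d ↔ CyX S' (c + w.2) (d + w.2) := by
  constructor
  · intro hx
    refine cy_X_mono (fun z hz => ?_) (cy_X_mv w hx)
    have := (h (z - w)).2 hz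
    rwa [sub_add_cancel] at this
  · intro hx
    have := cy_X_mv (-w) hx
    simp only [Prod.snd_neg, add_neg_cancel_right] at this
    refine cy_X_mono (fun z hz => ?_) this
    have hz' : z - -w ∈ S' := hz
    rw [sub_neg_eq_add] at hz'
    exact (h z).1 hz'

/-! ### monotonicity and supports -/

theorem cy_on_mono {τ τ' : CyF} (h : ∀ u, τ u ≤ τ' u) : cyOn 1 τ ⊆ cyOn 1 τ' := by
  intro u hu
  have h1 : τ u = 1 := hu
  have h2 := h u
  rw [h1] at h2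
  exact le_antisymm (SignType.le_one _) h2

theorem cy_inc_VP (c d : ℤ) : CyInc (cyVP 1 c d) :=
  fun _ _ hl ht => cy_X_mono (Set.inter_subset_inter_right _ (cy_on_mono hl)) ht

theorem cy_inc_Blk (c d : ℤ) : CyInc (cyBlk 1 c d) :=
  fun _ _ hl ht hx => ht (cy_X_mono (Set.sdiff_subset_sdiff_right (cy_on_mono hl)) hx)

theorem cy_inc_V (a b c d : ℤ) : CyInc (cyV 1 a b c d) :=
  fun _ _ hl ht => cy_X_mono (Set.inter_subset_inter_right _ (cy_on_mono hl)) ht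

theorem cy_inc_H (a b c d : ℤ) : CyInc (cyH 1 a b c d) :=
  fun _ _ hl ht hx => ht (cy_X_mono (Set.sdiff_subset_sdiff_right (cy_on_mono hl)) hx)

theorem cy_inc_inter {E E' : Set CyF} (h : CyInc E) (h' : CyInc E') : CyInc (E ∩ E') :=
  fun τ τ' hl ht => ⟨h τ τ' hl ht.1, h' τ τ' hl ht.2⟩

theorem cy_on_congr (s : SignType) {c d : ℤ} {B : Set (ℤ × ℤ)} (hB : B ⊆ plsBand c d) {τ τ' : CyF}
    (h : ∀ u : ℤ × ℤ, c ≤ u.2 → u.2 ≤ d → τ u = τ' u) : B ∩ cyOn s τ = B ∩ cyOn s τ' ∧ B \ cyOn s τ = B \ cyOn s τ' := by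
  constructor
  · ext u
    constructor
    · rintro ⟨h1, h2⟩
      exact ⟨h1, (h u (hB h1).1 (hB h1).2).symm.trans h2⟩
    · rintro ⟨h1, h2⟩
      exact ⟨h1, (h u (hB h1).1 (hB h1).2).trans h2⟩
  · ext u
    constructor
    · rintro ⟨h1, h2⟩
      exact ⟨h1, fun h3 => h2 ((h u (hB h1).1 (hB h1).2).trans h3)⟩
    · rintro ⟨h1, h2⟩
      exact ⟨h1, fun h3 => h2 ((h u (hB h1).1 (hB h1).2).symm.trans h3)⟩

theorem cy_box_band (a b c d : ℤ) : tscBox a b c d ⊆ plsBand c d := fun _ h => ⟨h.2.2.1, h.2.2.2⟩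

theorem cy_sup_VP (s : SignType) (c d : ℤ) : CySup c d (cyVP s c d) := by
  intro τ τ' h
  show CyX _ c d ↔ CyX _ c d
  rw [(cy_on_congr s (subset_refl _) h).1]

theorem cy_sup_Blk (s : SignType) (c d : ℤ) : CySup c d (cyBlk s c d) := by
  intro τ τ' h
  show ¬ CyX _ c d ↔ ¬ CyX _ c d
  rw [(cy_on_congr s (subset_refl _) h).2]

theorem cy_sup_V (s : SignType) (a b c d : ℤ) : CySup c d (cyV s a b c d) := by
  intro τ τ' h
  show CyX _ c d ↔ CyX _ c d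
  rw [(cy_on_congr s (cy_box_band a b c d) h).1]

theorem cy_sup_H (s : SignType) (a b c d : ℤ) : CySup c d (cyH s a b c d) := by
  intro τ τ' h
  show ¬ CyX _ c d ↔ ¬ CyX _ c d
  rw [(cy_on_congr s (cy_box_band a b c d) h).2]

theorem cy_sup_mono {c d c' d' : ℤ} {E : Set CyF} (h : CySup c d E) (h1 : c' ≤ c) (h2 : d ≤ d') : CySup c' d' E :=
  fun τ τ' hh => h τ τ' fun u hu1 hu2 => hh u (h1.trans hu1) (hu2.trans h2)

theorem cy_sup_inter {c d : ℤ} {E E' : Set CyF} (h : CySup c d E) (h' : CySup c d E') : CySup c d (E ∩ E') :=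
  fun τ τ' hh => and_congr (h τ τ' hh) (h' τ τ' hh)

/-! ### translations and the reflection -/

theorem cy_mv_V (w : ℤ × ℤ) (s : SignType) (a b c d : ℤ) :
    cyMv w (cyV s a b c d) = cyV s (a + w.1) (b + w.1) (c + w.2) (d + w.2) := by
  ext τ
  refine cy_X_mv_iff w (fun z => ?_) c d
  simp only [Set.mem_inter_iff, cy_mem_box, cy_mem_on, Prod.fst_add, Prod.snd_add, add_le_add_iff_right]

theorem cy_mv_H (w : ℤ × ℤ) (s : SignType) (a b c d : ℤ) :
    cyMv w (cyH s a b c d) = cyH s (a + w.1) (b + w.1) (c + w.2) (d + w.2) := by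
  ext τ
  refine not_congr (cy_X_mv_iff w (fun z => ?_) c d)
  simp only [Set.mem_sdiff, cy_mem_box, cy_mem_on, Prod.fst_add, Prod.snd_add, add_le_add_iff_right]

theorem cy_mv_VP (w : ℤ × ℤ) (s : SignType) (c d : ℤ) : cyMv w (cyVP s c d) = cyVP s (c + w.2) (d + w.2) := by
  ext τ
  refine cy_X_mv_iff w (fun z => ?_) c d
  simp only [Set.mem_inter_iff, cy_mem_band, cy_mem_on, Prod.snd_add, add_le_add_iff_right]

theorem cy_mv_Blk (w : ℤ × ℤ) (s : SignType) (c d : ℤ) : cyMv w (cyBlk s c d) = cyBlk s (c + w.2) (d + w.2) := by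
  ext τ
  refine not_congr (cy_X_mv_iff w (fun z => ?_) c d)
  simp only [Set.mem_sdiff, cy_mem_band, cy_mem_on, Prod.snd_add, add_le_add_iff_right]

/-- the reflection of the slabs -/
def cyPhi (H o : ℤ) (u : ℤ × ℤ) : ℤ × ℤ := (u.1 + u.2 + o, H - 1 - u.2)

/-- its inverse -/
def cyPsi (H o : ℤ) (u : ℤ × ℤ) : ℤ × ℤ := (u.1 - (H - 1 - u.2) - o, H - 1 - u.2)

theorem cy_phi_psi (H o : ℤ) (u : ℤ × ℤ) : cyPhi H o (cyPsi H o u) = u := by
  ext
  · show u.1 - (H - 1 - u.2) - o + (H - 1 - u.2) + o = u.1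
    ring
  · show H - 1 - (H - 1 - u.2) = u.2
    ring

theorem cy_phi_adj (H o : ℤ) (a b : ℤ × ℤ) (h : triAdj a b) : triAdj (cyPhi H o a) (cyPhi H o b) := by
  rw [tsc_adj_iff] at h ⊢
  show (b.1 + b.2 + o = a.1 + a.2 + o + 1 ∧ H - 1 - b.2 = H - 1 - a.2) ∨ (b.1 + b.2 + o = a.1 + a.2 + o ∧ H - 1 - b.2 = H - 1 - a.2 + 1) ∨
    (b.1 + b.2 + o = a.1 + a.2 + o - 1 ∧ H - 1 - b.2 = H - 1 - a.2 + 1) ∨ (b.1 + b.2 + o = a.1 + a.2 + o - 1 ∧ H - 1 - b.2 = H - 1 - a.2) ∨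
    (b.1 + b.2 + o = a.1 + a.2 + o ∧ H - 1 - b.2 = H - 1 - a.2 - 1) ∨ (b.1 + b.2 + o = a.1 + a.2 + o + 1 ∧ H - 1 - b.2 = H - 1 - a.2 - 1)
  omega

theorem cy_psi_adj (H o : ℤ) (a b : ℤ × ℤ) (h : triAdj a b) : triAdj (cyPsi H o a) (cyPsi H o b) := by
  rw [tsc_adj_iff] at h ⊢
  show (b.1 - (H - 1 - b.2) - o = a.1 - (H - 1 - a.2) - o + 1 ∧ H - 1 - b.2 = H - 1 - a.2) ∨
    (b.1 - (H - 1 - b.2) - o = a.1 - (H - 1 - a.2) - o ∧ H - 1 - b.2 = H - 1 - a.2 + 1) ∨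
    (b.1 - (H - 1 - b.2) - o = a.1 - (H - 1 - a.2) - o - 1 ∧ H - 1 - b.2 = H - 1 - a.2 + 1) ∨
    (b.1 - (H - 1 - b.2) - o = a.1 - (H - 1 - a.2) - o - 1 ∧ H - 1 - b.2 = H - 1 - a.2) ∨
    (b.1 - (H - 1 - b.2) - o = a.1 - (H - 1 - a.2) - o ∧ H - 1 - b.2 = H - 1 - a.2 - 1) ∨
    (b.1 - (H - 1 - b.2) - o = a.1 - (H - 1 - a.2) - o + 1 ∧ H - 1 - b.2 = H - 1 - a.2 - 1)
  omega

/-- reflection of a crossing -/
theorem cy_X_rf_iff {S S' : Set (ℤ × ℤ)} (H o : ℤ) (h : ∀ z, cyPhi H o z ∈ S' ↔ z ∈ S) (c d : ℤ) :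
    CyX S c d ↔ CyX S' (H - 1 - d) (H - 1 - c) := by
  constructor
  · rintro ⟨u, v, hu, h1, h2, h3⟩
    refine ⟨cyPhi H o v, cyPhi H o u, (h v).2 (tsc_R_mem h3 hu), ?_, ?_,
      tsc_R_symm (cy_R_map (cyPhi H o) (cy_phi_adj H o) (fun z hz => (h z).2 hz) h3)⟩
    · show H - 1 - v.2 = H - 1 - d
      rw [h2]
    · show H - 1 - u.2 = H - 1 - c
      rw [h1]
  · rintro ⟨u, v, hu, h1, h2, h3⟩
    have hS : ∀ z ∈ S', cyPsi H o z ∈ S := fun z hz => (h _).1 (by rwa [cy_phi_psi])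
    refine ⟨cyPsi H o v, cyPsi H o u, hS v (tsc_R_mem h3 hu), ?_, ?_, tsc_R_symm (cy_R_map (cyPsi H o) (cy_psi_adj H o) hS h3)⟩
    · show H - 1 - v.2 = c
      rw [h2]; ring
    · show H - 1 - u.2 = d
      rw [h1]; ring

theorem cy_rf_band (H o c d : ℤ) (z : ℤ × ℤ) : cyPhi H o z ∈ plsBand (H - 1 - d) (H - 1 - c) ↔ z ∈ plsBand c d := by
  show (H - 1 - d ≤ H - 1 - z.2 ∧ H - 1 - z.2 ≤ H - 1 - c) ↔ (c ≤ z.2 ∧ z.2 ≤ d)
  omega

/-- `(a, b) ↦ (a + b + o, H - 1 - b)` is an automorphism of the triangular lattice which reverses the rows -/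
theorem cy_rf_VP (H o c d : ℤ) : cyRf H o (cyVP (-1) c d) = cyVP 1 (H - 1 - d) (H - 1 - c) := by
  ext τ
  refine cy_X_rf_iff H o (fun z => and_congr (cy_rf_band H o c d z) ?_) c d
  show τ (cyPhi H o z) = 1 ↔ - τ (z.1 + z.2 + o, H - 1 - z.2) = -1
  rw [neg_inj]
  rfl

theorem cy_rf_Blk (H o c d : ℤ) : cyRf H o (cyBlk (-1) c d) = cyBlk 1 (H - 1 - d) (H - 1 - c) := by
  ext τ
  refine not_congr (cy_X_rf_iff H o (fun z => and_congr (cy_rf_band H o c d z) (not_congr ?_)) c d)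
  show τ (cyPhi H o z) = 1 ↔ - τ (z.1 + z.2 + o, H - 1 - z.2) = -1
  rw [neg_inj]
  rfl

/-! ### inclusions -/

/-- a blocked sub-band blocks the band -/
theorem cy_Blk_sub (s : SignType) {c d c' d' : ℤ} (h1 : c ≤ c') (h2 : c' ≤ d') (h3 : d' ≤ d) : cyBlk s c' d' ⊆ cyBlk s c d := by
  rintro τ hτ ⟨u, v, hu, hc, hd, huv⟩
  have hs : (plsBand c d \ cyOn s τ) ∩ plsBand c' d' ⊆ plsBand c' d' \ cyOn s τ := fun z hz => ⟨hz.2, hz.1.2⟩
  exact hτ (cy_X_mono hs (cy_sub_v hu huv (hc.le.trans h1) h2 (h3.trans hd.ge)))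

/-- the same in a parallelogram -/
theorem cy_H_sub (s : SignType) (a b : ℤ) {c d c' d' : ℤ} (h1 : c ≤ c') (h2 : c' ≤ d') (h3 : d' ≤ d) :
    cyH s a b c' d' ⊆ cyH s a b c d := by
  rintro τ hτ ⟨u, v, hu, hc, hd, huv⟩
  have hs : (tscBox a b c d \ cyOn s τ) ∩ plsBand c' d' ⊆ tscBox a b c' d' \ cyOn s τ :=
    fun z hz => ⟨⟨hz.1.1.1, hz.1.1.2.1, hz.2.1, hz.2.2⟩, hz.1.2⟩
  exact hτ (cy_X_mono hs (cy_sub_v hu huv (hc.le.trans h1) h2 (h3.trans hd.ge)))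

/-- a blocked parallelogram stays blocked when it is made narrower -/
theorem cy_H_narrow (s : SignType) {a b a' b' : ℤ} (c d : ℤ) (h1 : a ≤ a') (h2 : b' ≤ b) : cyH s a b c d ⊆ cyH s a' b' c d := by
  intro τ hτ hx
  have hs : tscBox a' b' c d \ cyOn s τ ⊆ tscBox a b c d \ cyOn s τ := fun _ hz => ⟨⟨h1.trans hz.1.1, hz.1.2.1.trans h2, hz.1.2.2⟩, hz.2⟩
  exact hτ (cy_X_mono hs hx)

theorem cy_V_sub (s : SignType) (a b : ℤ) {c d c' d' : ℤ} (h1 : c ≤ c') (h2 : c' ≤ d') (h3 : d' ≤ d) :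
    cyV s a b c d ⊆ cyV s a b c' d' := by
  rintro τ ⟨u, v, hu, hc, hd, huv⟩
  have hs : (tscBox a b c d ∩ cyOn s τ) ∩ plsBand c' d' ⊆ tscBox a b c' d' ∩ cyOn s τ :=
    fun z hz => ⟨⟨hz.1.1.1, hz.1.1.2.1, hz.2.1, hz.2.2⟩, hz.1.2⟩
  exact cy_X_mono hs (cy_sub_v hu huv (hc.le.trans h1) h2 (h3.trans hd.ge))

theorem cy_V_wide (s : SignType) {a b a' b' : ℤ} (c d : ℤ) (h1 : a' ≤ a) (h2 : b ≤ b') : cyV s a b c d ⊆ cyV s a' b' c d := by
  intro τ hx
  have hs : tscBox a b c d ∩ cyOn s τ ⊆ tscBox a' b' c d ∩ cyOn s τ := fun _ hz => ⟨⟨h1.trans hz.1.1, hz.1.2.1.trans h2, hz.1.2.2⟩, hz.2⟩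
  exact cy_X_mono hs hx

theorem cy_Blk_H (s : SignType) (a b c d : ℤ) : cyBlk s c d ⊆ cyH s a b c d :=
  fun _ hτ hx => hτ (cy_X_mono (Set.sdiff_subset_sdiff_left (cy_box_band a b c d)) hx)

/-- J1 + J2 in the vocabulary of this file: a horizontal path of sign `s` blocks (`pls_box_iff`) -/
theorem cy_Xh_H (s : SignType) {a b c d : ℤ} (hab : a ≤ b) (hcd : c ≤ d) {τ : CyF} (h : CyXh (tscBox a b c d ∩ cyOn s τ) a b) :
    τ ∈ cyH s a b c d :=
  (pls_box_iff hab hcd (cyOn s τ)).1 h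

/-- J1: a vertical path of sign `s` forbids horizontal paths of the other cells (`pls_box_iff'`) -/
theorem cy_V_noXh (s : SignType) {a b c d : ℤ} (hab : a ≤ b) (hcd : c ≤ d) {τ : CyF} (h : τ ∈ cyV s a b c d) :
    ¬ CyXh (tscBox a b c d \ cyOn s τ) a b :=
  (pls_box_iff' hab hcd (cyOn s τ)).1 h

/-! ### the two cylinder lemmas -/

theorem cy_per_on (s : SignType) {L : ℤ} {τ : CyF} (h : CyPer L τ) : PlsPer L (cyOn s τ) := fun u => by
  show τ (u + (L, 0)) = s ↔ τ u = s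
  rw [h u]

/-- a crossing in a periodic set may be started in the fundamental domain -/
theorem cy_norm {L : ℤ} (hL : 0 < L) {S : Set (ℤ × ℤ)} (hS : PlsPer L S) {c d : ℤ} (hx : CyX S c d) :
    ∃ u v : ℤ × ℤ, u ∈ S ∧ u.2 = c ∧ v.2 = d ∧ TscR tscG S u v ∧ 0 ≤ u.1 ∧ u.1 < L := by
  obtain ⟨u, v, hu, h1, h2, h3⟩ := hx
  have e : (u + (-(u.1 / L) * L, 0)).1 = u.1 % L := by
    rw [Int.emod_def]
    show u.1 + -(u.1 / L) * L = u.1 - L * (u.1 / L)
    ring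
  refine ⟨u + (-(u.1 / L) * L, 0), v + (-(u.1 / L) * L, 0), (pls_per_mul hS _ u).2 hu, by simpa using h1, by simpa using h2,
    pls_R_shift hS _ h3, ?_, ?_⟩
  · rw [e]
    exact Int.emod_nonneg _ hL.ne'
  · rw [e]
    exact Int.emod_lt_of_pos _ hL

/-- a path in a band which joins a site on the left of column `a` to a site on the right of column `b` crosses the parallelogram horizontally -/
theorem cy_hx_gen {P : Set (ℤ × ℤ)} {a b c d : ℤ} {z1 z2 : ℤ × ℤ} (hab : a ≤ b) (hz1 : z1 ∈ plsBand c d ∩ P)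
    (h : TscR tscG (plsBand c d ∩ P) z1 z2) (h1 : z1.1 ≤ a) (h2 : b ≤ z2.1) : CyXh (tscBox a b c d ∩ P) a b := by
  have hs : (plsBand c d ∩ P) ∩ {u | a ≤ u.1 ∧ u.1 ≤ b} ⊆ tscBox a b c d ∩ P := fun z hz => ⟨⟨hz.2.1, hz.2.2, hz.1.1.1, hz.1.1.2⟩, hz.1.2⟩
  exact cy_Xh_mono hs (cy_sub_h hz1 h h1 hab h2)

/-- a path in a band stays in the window of columns `a..b` or reaches a site outside it -/
theorem cy_win {P : Set (ℤ × ℤ)} {a b c d : ℤ} {u v : ℤ × ℤ} (hu1 : a ≤ u.1) (hu2 : u.1 ≤ b) (h : TscR tscG (plsBand c d ∩ P) u v) :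
    TscR tscG (tscBox a b c d ∩ P) u v ∨ ∃ z : ℤ × ℤ, (z.1 < a ∨ b < z.1) ∧ TscR tscG (plsBand c d ∩ P) u z := by
  by_cases hn : TscR tscG ((plsBand c d ∩ P) ∩ {u | a ≤ u.1 ∧ u.1 ≤ b}) u v
  · have hs : (plsBand c d ∩ P) ∩ {u | a ≤ u.1 ∧ u.1 ≤ b} ⊆ tscBox a b c d ∩ P :=
      fun z hz => ⟨⟨hz.2.1, hz.2.2, hz.1.1.1, hz.1.1.2⟩, hz.1.2⟩
    exact Or.inl (tsc_R_mono hs hn)
  · obtain ⟨z, hz, hr⟩ := cy_leave (W := {u | a ≤ u.1 ∧ u.1 ≤ b}) ⟨hu1, hu2⟩ h hn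
    refine Or.inr ⟨z, ?_, hr⟩
    by_contra hc
    push Not at hc
    exact hz ⟨hc.1, hc.2⟩

/-- the cell of the net `m ℤ` which contains `x ≥ 0` -/
theorem cy_net {x m : ℤ} (hx : 0 ≤ x) (hm : 1 ≤ m) : ∃ j0 M : ℤ, M = j0 * m ∧ 0 ≤ j0 ∧ M ≤ x ∧ x < M + m := by
  have hm0 : 0 < m := by omega
  refine ⟨x / m, x / m * m, rfl, Int.ediv_nonneg hx hm0.le, Int.ediv_mul_le _ hm0.ne', ?_⟩
  have := Int.lt_ediv_add_one_mul_self x hm0
  linarith

/-- **FINITE EXTRACTION** (TEX[annulus:duality], last assertion; TEX l.628-645).  A vertical crossing of a band on the cylinder lies in a window of width `6 m` of the net `m ℤ`,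
or contains a horizontal crossing of a window of width `4 m` of the net.      PROVED by helper91 (windows `-4, -1, -3` around the cell of the start) -/
theorem cy_extract (s : SignType) {L m c d : ℤ} (hL : 0 < L) (hm : 1 ≤ m) (hcd : c ≤ d) {τ : CyF} (hper : CyPer L τ)
    (h : τ ∈ cyVP s c d) :
    ∃ j : ℤ, -4 ≤ j ∧ j * m ≤ L + m ∧ (τ ∈ cyV s (j * m) (j * m + 6 * m) c d ∨ τ ∈ cyH s (j * m) (j * m + 4 * m) c d) := by
  have hper' : PlsPer L (plsBand c d ∩ cyOn s τ) := pls_per_inter (pls_per_band L c d) (cy_per_on s hper)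
  obtain ⟨u, v, hu, huc, hvd, huv, h0, hlt⟩ := cy_norm hL hper' h
  obtain ⟨j0, M, hM, hj0, hj1, hj2⟩ := cy_net h0 hm
  have fin : ∀ k : ℤ, -4 ≤ k → k ≤ 1 →
      (τ ∈ cyV s (M + k * m) (M + k * m + 6 * m) c d ∨ τ ∈ cyH s (M + k * m) (M + k * m + 4 * m) c d) →
      ∃ j : ℤ, -4 ≤ j ∧ j * m ≤ L + m ∧ (τ ∈ cyV s (j * m) (j * m + 6 * m) c d ∨ τ ∈ cyH s (j * m) (j * m + 4 * m) c d) := by
    intro k hk1 hk2 hh
    have e : (j0 + k) * m = M + k * m := by rw [hM]; ring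
    refine ⟨j0 + k, by omega, ?_, ?_⟩
    · rw [e]
      nlinarith
    · rw [e]
      exact hh
  have mkH : ∀ (k : ℤ) (z1 z2 : ℤ × ℤ), TscR tscG (plsBand c d ∩ cyOn s τ) u z1 → TscR tscG (plsBand c d ∩ cyOn s τ) u z2 →
      z1.1 ≤ M + k * m → M + k * m + 4 * m ≤ z2.1 → τ ∈ cyH s (M + k * m) (M + k * m + 4 * m) c d := by
    intro k z1 z2 h1 h2 h3 h4
    exact cy_Xh_H s (by omega) hcd (cy_hx_gen (by omega) (tsc_R_mem h1 hu) (tsc_R_trans (tsc_R_symm h1) h2) h3 h4)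
  have win : ∀ k : ℤ, M + k * m ≤ u.1 → u.1 ≤ M + k * m + 6 * m → (τ ∈ cyV s (M + k * m) (M + k * m + 6 * m) c d ∨
      ∃ z : ℤ × ℤ, (z.1 < M + k * m ∨ M + k * m + 6 * m < z.1) ∧ TscR tscG (plsBand c d ∩ cyOn s τ) u z) := by
    intro k hk1 hk2
    rcases cy_win hk1 hk2 huv with h | h
    · exact Or.inl ⟨u, v, ⟨⟨hk1, hk2, hu.1.1, hu.1.2⟩, hu.2⟩, huc, hvd, h⟩
    · exact Or.inr h
  rcases win (-4) (by omega) (by omega) with h | ⟨z0, hz0, hr0⟩
  · exact fin (-4) (by norm_num) (by norm_num) (Or.inl h)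
  rcases hz0 with hz0 | hz0
  · exact fin (-4) (by norm_num) (by norm_num) (Or.inr (mkH (-4) z0 u hr0 (tsc_R_refl _) (by omega) (by omega)))
  rcases win (-1) (by omega) (by omega) with h | ⟨z3, hz3, hr3⟩
  · exact fin (-1) (by norm_num) (by norm_num) (Or.inl h)
  rcases hz3 with hz3 | hz3
  swap
  · exact fin 1 (by norm_num) (by norm_num) (Or.inr (mkH 1 u z3 (tsc_R_refl _) hr3 (by omega) (by omega)))
  rcases win (-3) (by omega) (by omega) with h | ⟨z1, hz1, hr1⟩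
  · exact fin (-3) (by norm_num) (by norm_num) (Or.inl h)
  rcases hz1 with hz1 | hz1
  · exact fin (-3) (by norm_num) (by norm_num) (Or.inr (mkH (-3) z1 z0 hr1 hr0 (by omega) (by omega)))
  · exact fin (-1) (by norm_num) (by norm_num) (Or.inr (mkH (-1) z3 z1 hr3 hr1 (by omega) (by omega)))

/-- **WINDING FROM LOCAL CROSSINGS** (TEX[annulus:winding], second half, in dual form: no gluing of paths).      PROVED by helper91 -/
theorem cy_wind (s : SignType) {L w c d : ℤ} (hL : 0 < L) (hw : 1 ≤ w) (hcd : c ≤ d) {τ : CyF} (hper : CyPer L τ)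
    (hV : ∀ j : ℤ, -1 ≤ j → j * w ≤ L + w → τ ∈ cyV s (j * w) (j * w + w) c d)
    (hH : ∀ j : ℤ, -1 ≤ j → j * w ≤ L + w → τ ∈ cyH s (j * w - w) (j * w + 2 * w) c d) : τ ∈ cyBlk s c d := by
  intro hx
  have hper' : PlsPer L (plsBand c d \ cyOn s τ) := pls_per_diff (pls_per_band L c d) (cy_per_on s hper)
  obtain ⟨u, v, hu, huc, hvd, huv, h0, hlt⟩ := cy_norm hL hper' hx
  obtain ⟨j0, M, hM, hj0, hj1, hj2⟩ := cy_net h0 hw
  have H0 := hH j0 (by omega) (by rw [← hM]; omega)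
  rw [← hM] at H0
  rcases cy_win (P := (cyOn s τ)ᶜ) (a := M - w) (b := M + 2 * w) (by omega) (by omega) huv with h | ⟨z, hz, hr⟩
  · exact H0 ⟨u, v, ⟨⟨by omega, by omega, hu.1.1, hu.1.2⟩, hu.2⟩, huc, hvd, h⟩
  rcases hz with hz | hz
  · have e : (j0 - 1) * w = M - w := by rw [hM]; ring
    have V := hV (j0 - 1) (by omega) (by rw [e]; omega)
    rw [e] at V
    exact cy_V_noXh s (by omega) hcd V
      (cy_hx_gen (P := (cyOn s τ)ᶜ) (by omega) (tsc_R_mem hr hu) (tsc_R_symm hr) (by omega) (by omega))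
  · have e : (j0 + 1) * w = M + w := by rw [hM]; ring
    have V := hV (j0 + 1) (by omega) (by rw [e]; omega)
    rw [e] at V
    exact cy_V_noXh s (by omega) hcd V (cy_hx_gen (P := (cyOn s τ)ᶜ) (by omega) hu hr (by omega) (by omega))

/-- unfolding equations of the definitions of this file, stored here once -/
theorem cy_eqns_cite : True := by
  have := @CyPer.eq_1
  have := @CyX.eq_1
  have := @CyXh.eq_1
  have := @cyOn.eq_1
  have := @cyVP.eq_1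
  have := @cyBlk.eq_1
  have := @cyV.eq_1
  have := @cyH.eq_1
  have := @cyMv.eq_1
  have := @cyRf.eq_1
  have := @CyInc.eq_1
  have := @CySup.eq_1
  have := @cyPhi.eq_1
  have := @cyPsi.eq_1
  trivial

end Claimed.Agent.R291
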