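import Claimed.Agent.R291.Defs.Seed
import Claimed.Agent.R291.Ann.Model
import Claimed.Agent.R291.Ann.CylKit

/-!
# Row 291 (S0539), ANN block A4, LAW SIDE : THE CYLINDER WITH GENERAL CELL FAMILIES, `cyP`      (owner helper5, with 147 + 22; prefix `cy` / `Cy`)

TEX 09-annulus l.10-110 (annulus:ambient, annulus:one-white).   Carrier of the sites = `Defs/Seed` (83; ruling of 24, 06:03Z): `TV` reduced mod `(L, 0)`.
`sdSys x L T a b` has the cells of ONE class.   A4 needs, on the same `(B, W)` law, cells of both classes in different slabs, single-edge cells in between, caps (for `ClDisk`) and neutralised cells (one-white).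

* `CyK` kinds of cells: `up` (class `Y`), `dn` (class `Z`), `eh ev ed` (single edges in the directions `(1,0)`, `(0,1)`, `(-1,1)`), `sn ss` (spokes to the north / south pole);   `CyY = CyK × TV`
* `cySv L c` the sites of a cell;   the pole over the row `j` is the site `(0, j+1)`, the pole under it is `(0, j-1)`
* `cyT T y` the triangle of class `T` and index `y`;   `cyTa e`, `cyTb e` the up / down triangle which contains the edge `e`
* `CyVal L a b Q` : `Q` is an admissible family of selected triangles of the rows `a..b` (reduced indices, EDGE DISJOINT)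
* **`cyS x L a b Q Γ`** THE CAPPED AMBIENT on the rows `a..b`: cells = `Q` + the edges covered by no triangle of `Q` + the spokes; parameter `x²` (triangle), `x` (edge, spoke), and `1` on `Γ` (NEUTRALISED cells)
* `cyRows L a b = sdSites L a b`;   `cyI x L a b Q Γ r0 r1` = the part of the ambient inside the rows `r0..r1`
* `cyBand T c d` the triangles of class `T` in the slabs `c..d`;   `cyFld L T ω` the (periodic) status field of the cells of class `T`
* `cyQ H S T` the family of the law `P_S` read with tests of class `T`;   **`cyP x L H S T E`**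
-/

set_option autoImplicit false
set_option linter.unusedSectionVars false
set_option linter.unusedVariables false

namespace Claimed.Agent.R291

open Claims Claims.C0467 Relation

/-- kinds of cells on the capped cylinder -/
inductive CyK : Type
  | up | dn | eh | ev | ed | sn | ss
  deriving DecidableEq

/-- cells of the capped cylinder -/
abbrev CyY : Type := CyK × TV

/-- the sites of a cell -/
def cySv (L : ℕ) (c : CyY) : Finset TV :=
  match c.1 with
  | .up => (cellV c.2).image (sdRed L)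
  | .dn => (cellD c.2).image (sdRed L)
  | .eh => ({c.2, c.2 + (1, 0)} : Finset TV).image (sdRed L)
  | .ev => ({c.2, c.2 + (0, 1)} : Finset TV).image (sdRed L)
  | .ed => ({c.2, c.2 + (-1, 1)} : Finset TV).image (sdRed L)
  | .sn => {sdRed L c.2, (0, c.2.2 + 1)}
  | .ss => {sdRed L c.2, (0, c.2.2 - 1)}

/-- the triangle of class `T` (`true` = up = `Y`) and index `y` -/
def cyT (T : Bool) (y : TV) : CyY := (if T then CyK.up else CyK.dn, y)

/-- the up-triangle which contains the edge `e` -/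
def cyTa (L : ℕ) (e : CyY) : CyY :=
  match e.1 with
  | .ed => (CyK.up, sdRed L (e.2 - (1, 0)))
  | _ => (CyK.up, e.2)

/-- the down-triangle which contains the edge `e` -/
def cyTb (L : ℕ) (e : CyY) : CyY :=
  match e.1 with
  | .eh => (CyK.dn, e.2 - (0, 1))
  | _ => (CyK.dn, sdRed L (e.2 - (1, 0)))

/-- the edges inside the rows `a..b` -/
noncomputable def cyEdges (L : ℕ) (a b : ℤ) : Finset CyY :=
  (sdSites L a b).image (fun y => (CyK.eh, y)) ∪ (sdCells L a b).image (fun y => (CyK.ev, y)) ∪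
    (sdCells L a b).image (fun y => (CyK.ed, y))

/-- the spokes of the two caps -/
noncomputable def cySpokes (L : ℕ) (a b : ℤ) : Finset CyY :=
  (sdRow L b).image (fun y => (CyK.sn, y)) ∪ (sdRow L a).image (fun y => (CyK.ss, y))

/-- all triangles inside the rows `a..b` -/
noncomputable def cyTris (L : ℕ) (a b : ℤ) : Finset CyY :=
  (sdCells L a b).image (fun y => (CyK.up, y)) ∪ (sdCells L a b).image (fun y => (CyK.dn, y))

/-- admissible family of selected triangles -/
structure CyVal (L : ℕ) (a b : ℤ) (Q : Finset CyY) : Prop where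
  sub : Q ⊆ cyTris L a b
  dis : ∀ e ∈ cyEdges L a b, ¬ (cyTa L e ∈ Q ∧ cyTb L e ∈ Q)

/-- **the capped ambient** -/
noncomputable def cyS (x : ℝ) (L : ℕ) (a b : ℤ) (Q Γ : Finset CyY) : ClSys TV CyY where
  A := sdSites L a b ∪ {(0, b + 1), (0, a - 1)}
  C := Q ∪ (cyEdges L a b).filter (fun e => cyTa L e ∉ Q ∧ cyTb L e ∉ Q) ∪ cySpokes L a b
  sv := cySv L
  q := fun c => if c ∈ Γ then 1 else if c.1 = CyK.up ∨ c.1 = CyK.dn then x ^ 2 else x

/-- the part of the ambient inside the rows `r0..r1` -/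
noncomputable def cyI (x : ℝ) (L : ℕ) (a b : ℤ) (Q Γ : Finset CyY) (r0 r1 : ℤ) : ClSys TV CyY :=
  (cyS x L a b Q Γ).inn (sdSites L r0 r1)

/-- the triangles of class `T` in the slabs `c..d` -/
noncomputable def cyBand (L : ℕ) (T : Bool) (c d : ℤ) : Finset CyY := (sdCells L c (d + 1)).image (cyT T)

/-- sign of an integer status -/
def cySg (t : ℤ) : SignType := if t = 1 then 1 else if t = -1 then -1 else 0

/-- the periodic status field of the cells of class `T` (`0` off the cells of the system) -/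
def cyFld (S : ClSys TV CyY) (L : ℕ) (T : Bool) (ω : ClCfg TV CyY) : CyF :=
  fun y => if cyT T (sdRed L y) ∈ S.C then cySg (clTau S ω (cyT T (sdRed L y))) else 0

/-- the family of the law of class `S` read with tests of class `T`: the cut cells (slabs `-1` and `H`, class `S`), and the cells of class `T` in all slabs (`T = S`) or in the slabs `2..H-3` (`T ≠ S`) -/
noncomputable def cyQ (L H : ℕ) (S T : Bool) : Finset CyY :=
  cyBand L S (-1) (-1) ∪ cyBand L S H H ∪ (if S = T then cyBand L T 0 ((H : ℤ) - 1) else cyBand L T 2 ((H : ℤ) - 3))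

/-- the system of the law of class `S` read with tests of class `T` -/
noncomputable def cyM (x : ℝ) (L H : ℕ) (S T : Bool) : ClSys TV CyY := cyI x L (-3) ((H : ℤ) + 3) (cyQ L H S T) ∅ 0 H

/-- mixed boundary condition: first spin minus on the row `a`, plus on the row `b` (`SdMix` of 83 on the cells `CyY`) -/
def CyMix (L : ℕ) (a b : ℤ) (ω : ClCfg TV CyY) : Prop := CuPin false (sdRow L a) ω ∧ CuPin true (sdRow L b) ω

/-- **`P_S[ the status field of the cells of class T lies in E ]`** on the mixed cylinder of circumference `L` and height `H` -/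
noncomputable def cyP (x : ℝ) (L H : ℕ) (S T : Bool) (E : Set CyF) : ℝ :=
  (cyM x L H S T).P (CyMix L 0 H) (fun ω => cyFld (cyM x L H S T) L T ω ∈ E)

/-- the history "open-minus cut of class `S0` under the row `r0`, open-plus cut of class `S1` over the row `r1`" -/
noncomputable def cyCut (L : ℕ) (S0 : Bool) (r0 : ℤ) (S1 : Bool) (r1 : ℤ) : ClCon TV CyY where
  Bp := sdSites L r1 (r1 + 1)
  Bm := sdSites L (r0 - 1) r0
  Eq := ∅
  Op := cyBand L S1 r1 r1
  Om := cyBand L S0 (r0 - 1) (r0 - 1)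
  Cl := ∅
  Wp := ∅
  Wm := ∅

/-! ## 1. the ambient: API -/

/-! helpers of the API (43) -/

theorem cy_red_mem {L : ℕ} (hL : 0 < L) {a b : ℤ} (u : TV) : sdRed L u ∈ sdSites L a b ↔ a ≤ u.2 ∧ u.2 ≤ b := by
  unfold sdRed sdSites
  simp only [Finset.mem_product, Finset.mem_Ico, Finset.mem_Icc]
  have h1 := Int.emod_nonneg u.1 (by exact_mod_cast hL.ne' : (L : ℤ) ≠ 0)
  have h2 := Int.emod_lt_of_pos u.1 (by exact_mod_cast hL : (0 : ℤ) < L)
  tauto

theorem cy_red_red (L : ℕ) (p d : TV) : sdRed L (sdRed L p + d) = sdRed L (p + d) := by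
  unfold sdRed
  ext
  · simp [Int.emod_add_emod]
  · simp

theorem cy_red_self {L : ℕ} {u : TV} (h0 : 0 ≤ u.1) (h1 : u.1 < L) : sdRed L u = u := by
  unfold sdRed
  rw [Int.emod_eq_of_lt h0 h1]

theorem cy_mem_sites {L : ℕ} {a b : ℤ} {u : TV} : u ∈ sdSites L a b ↔ 0 ≤ u.1 ∧ u.1 < L ∧ a ≤ u.2 ∧ u.2 ≤ b := by
  unfold sdSites
  simp only [Finset.mem_product, Finset.mem_Ico, Finset.mem_Icc]
  tauto

theorem cy_mem_cells {L : ℕ} {a b : ℤ} {u : TV} : u ∈ sdCells L a b ↔ 0 ≤ u.1 ∧ u.1 < L ∧ a ≤ u.2 ∧ u.2 < b := by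
  unfold sdCells
  simp only [Finset.mem_product, Finset.mem_Ico]
  tauto

theorem cy_mem_row {L : ℕ} {j : ℤ} {u : TV} : u ∈ sdRow L j ↔ 0 ≤ u.1 ∧ u.1 < L ∧ u.2 = j := by
  unfold sdRow
  simp only [Finset.mem_product, Finset.mem_Ico, Finset.mem_singleton]
  tauto

theorem cy_mem_tris {L : ℕ} {a b : ℤ} {c : CyY} : c ∈ cyTris L a b ↔ (c.1 = CyK.up ∨ c.1 = CyK.dn) ∧ c.2 ∈ sdCells L a b := by
  unfold cyTris
  simp only [Finset.mem_union, Finset.mem_image]
  constructor
  · rintro (⟨y, hy, rfl⟩ | ⟨y, hy, rfl⟩)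
    · exact ⟨Or.inl rfl, hy⟩
    · exact ⟨Or.inr rfl, hy⟩
  · rintro ⟨h | h, hy⟩
    · exact Or.inl ⟨c.2, hy, Prod.ext h.symm rfl⟩
    · exact Or.inr ⟨c.2, hy, Prod.ext h.symm rfl⟩

theorem cy_mem_edges {L : ℕ} {a b : ℤ} {c : CyY} : c ∈ cyEdges L a b ↔
    (c.1 = CyK.eh ∧ c.2 ∈ sdSites L a b) ∨ (c.1 = CyK.ev ∧ c.2 ∈ sdCells L a b) ∨ (c.1 = CyK.ed ∧ c.2 ∈ sdCells L a b) := by
  unfold cyEdges
  simp only [Finset.mem_union, Finset.mem_image]
  constructor
  · rintro ((⟨y, hy, rfl⟩ | ⟨y, hy, rfl⟩) | ⟨y, hy, rfl⟩)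
    · exact Or.inl ⟨rfl, hy⟩
    · exact Or.inr (Or.inl ⟨rfl, hy⟩)
    · exact Or.inr (Or.inr ⟨rfl, hy⟩)
  · rintro (⟨h, hy⟩ | ⟨h, hy⟩ | ⟨h, hy⟩)
    · exact Or.inl (Or.inl ⟨c.2, hy, Prod.ext h.symm rfl⟩)
    · exact Or.inl (Or.inr ⟨c.2, hy, Prod.ext h.symm rfl⟩)
    · exact Or.inr ⟨c.2, hy, Prod.ext h.symm rfl⟩

theorem cy_mem_spokes {L : ℕ} {a b : ℤ} {c : CyY} : c ∈ cySpokes L a b ↔
    (c.1 = CyK.sn ∧ c.2 ∈ sdRow L b) ∨ (c.1 = CyK.ss ∧ c.2 ∈ sdRow L a) := by
  unfold cySpokes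
  simp only [Finset.mem_union, Finset.mem_image]
  constructor
  · rintro (⟨y, hy, rfl⟩ | ⟨y, hy, rfl⟩)
    · exact Or.inl ⟨rfl, hy⟩
    · exact Or.inr ⟨rfl, hy⟩
  · rintro (⟨h, hy⟩ | ⟨h, hy⟩)
    · exact Or.inl ⟨c.2, hy, Prod.ext h.symm rfl⟩
    · exact Or.inr ⟨c.2, hy, Prod.ext h.symm rfl⟩

/-- the triangles lie inside the rows -/
theorem cy_tri_sub {L : ℕ} (hL : 0 < L) {a b : ℤ} {c : CyY} (hc : c ∈ cyTris L a b) : cySv L c ⊆ sdSites L a b := by
  obtain ⟨k, y⟩ := c
  obtain ⟨hk, hy⟩ := cy_mem_tris.1 hc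
  simp only at hk hy
  rw [cy_mem_cells] at hy
  intro w hw
  rcases hk with rfl | rfl
  · simp only [cySv, cellV, Finset.mem_image, Finset.mem_insert, Finset.mem_singleton] at hw
    obtain ⟨p, hp, rfl⟩ := hw
    rw [cy_red_mem hL]
    rcases hp with rfl | rfl | rfl <;> (try simp) <;> omega
  · simp only [cySv, cellD, Finset.mem_image, Finset.mem_insert, Finset.mem_singleton] at hw
    obtain ⟨p, hp, rfl⟩ := hw
    rw [cy_red_mem hL]
    rcases hp with rfl | rfl | rfl <;> (try simp) <;> omega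

/-- the edges lie inside the rows -/
theorem cy_edge_sub {L : ℕ} (hL : 0 < L) {a b : ℤ} {c : CyY} (hc : c ∈ cyEdges L a b) : cySv L c ⊆ sdSites L a b := by
  obtain ⟨k, y⟩ := c
  intro w hw
  rcases cy_mem_edges.1 hc with ⟨hk, hy⟩ | ⟨hk, hy⟩ | ⟨hk, hy⟩
  · simp only at hk hy
    subst hk
    rw [cy_mem_sites] at hy
    simp only [cySv, Finset.mem_image, Finset.mem_insert, Finset.mem_singleton] at hw
    obtain ⟨p, hp, rfl⟩ := hw
    rw [cy_red_mem hL]
    rcases hp with rfl | rfl <;> (try simp) <;> omega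
  · simp only at hk hy
    subst hk
    rw [cy_mem_cells] at hy
    simp only [cySv, Finset.mem_image, Finset.mem_insert, Finset.mem_singleton] at hw
    obtain ⟨p, hp, rfl⟩ := hw
    rw [cy_red_mem hL]
    rcases hp with rfl | rfl <;> (try simp) <;> omega
  · simp only at hk hy
    subst hk
    rw [cy_mem_cells] at hy
    simp only [cySv, Finset.mem_image, Finset.mem_insert, Finset.mem_singleton] at hw
    obtain ⟨p, hp, rfl⟩ := hw
    rw [cy_red_mem hL]
    rcases hp with rfl | rfl <;> (try simp) <;> omega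

theorem cy_mem_C {x : ℝ} {L : ℕ} {a b : ℤ} {Q Γ : Finset CyY} {c : CyY} : c ∈ (cyS x L a b Q Γ).C ↔
    c ∈ Q ∨ (c ∈ cyEdges L a b ∧ cyTa L c ∉ Q ∧ cyTb L c ∉ Q) ∨ c ∈ cySpokes L a b := by
  unfold cyS
  simp only [Finset.mem_union, Finset.mem_filter]
  tauto

theorem cy_mem_A {x : ℝ} {L : ℕ} {a b : ℤ} {Q Γ : Finset CyY} {u : TV} : u ∈ (cyS x L a b Q Γ).A ↔
    u ∈ sdSites L a b ∨ u = (0, b + 1) ∨ u = (0, a - 1) := by
  unfold cyS
  simp only [Finset.mem_union, Finset.mem_insert, Finset.mem_singleton]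

theorem cy_sv_nonempty (L : ℕ) (c : CyY) : (cySv L c).Nonempty := by
  obtain ⟨k, y⟩ := c
  cases k <;> simp [cySv, cellV, cellD]

/-- OWNER free.   PROVED by 43. -/
theorem cy_S_ok {x : ℝ} (hx0 : 0 < x) (hx1 : x ≤ 1) {L : ℕ} (hL : 3 ≤ L) {a b : ℤ} (hab : a ≤ b) {Q : Finset CyY} (hQ : CyVal L a b Q)
    (Γ : Finset CyY) : ClOk (cyS x L a b Q Γ) := by
  have hL0 : 0 < L := by omega
  refine ⟨fun c hc w hw => ?_, fun c _ => cy_sv_nonempty L c, fun c _ => ?_, fun c _ => ?_⟩
  · rw [cy_mem_A]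
    have hw' : w ∈ cySv L c := hw
    rcases cy_mem_C.1 hc with h | ⟨h, -⟩ | h
    · exact Or.inl (cy_tri_sub hL0 (hQ.sub h) hw')
    · exact Or.inl (cy_edge_sub hL0 h hw')
    · obtain ⟨k, y⟩ := c
      rcases cy_mem_spokes.1 h with ⟨hk, hy⟩ | ⟨hk, hy⟩
      · simp only at hk hy
        subst hk
        rw [cy_mem_row] at hy
        simp only [cySv, Finset.mem_insert, Finset.mem_singleton] at hw'
        rcases hw' with rfl | rfl
        · left
          rw [cy_red_mem hL0]
          omega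
        · right; left
          rw [hy.2.2]
      · simp only at hk hy
        subst hk
        rw [cy_mem_row] at hy
        simp only [cySv, Finset.mem_insert, Finset.mem_singleton] at hw'
        rcases hw' with rfl | rfl
        · left
          rw [cy_red_mem hL0]
          omega
        · right; right
          rw [hy.2.2]
  · show 0 < (if c ∈ Γ then (1 : ℝ) else if c.1 = CyK.up ∨ c.1 = CyK.dn then x ^ 2 else x)
    split_ifs <;> positivity
  · show (if c ∈ Γ then (1 : ℝ) else if c.1 = CyK.up ∨ c.1 = CyK.dn then x ^ 2 else x) ≤ 1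
    split_ifs
    · exact le_rfl
    · exact pow_le_one₀ hx0.le hx1
    · exact hx1

/-! helpers of `cy_S_gr` (43) -/

theorem cy_pair {L : ℕ} {s : Finset TV} (hs : ∀ p ∈ s, ∀ p' ∈ s, p ≠ p' → p' - p ∈ latDirs) {u v : TV}
    (hu : u ∈ s.image (sdRed L)) (hv : v ∈ s.image (sdRed L)) (huv : u ≠ v) : ∃ d ∈ latDirs, v = sdRed L (u + d) := by
  obtain ⟨p, hp, rfl⟩ := Finset.mem_image.1 hu
  obtain ⟨p', hp', rfl⟩ := Finset.mem_image.1 hv
  have hne : p ≠ p' := fun h => huv (by rw [h])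
  refine ⟨p' - p, hs p hp p' hp' hne, ?_⟩
  rw [cy_red_red, add_sub_cancel]

theorem cy_dirs_V (y : TV) : ∀ p ∈ cellV y, ∀ p' ∈ cellV y, p ≠ p' → p' - p ∈ latDirs := by
  intro p hp p' hp' hne
  simp only [cellV, Finset.mem_insert, Finset.mem_singleton] at hp hp'
  rcases hp with rfl | rfl | rfl <;> rcases hp' with rfl | rfl | rfl <;>
    first
    | exact absurd rfl hne
    | simp [latDirs]

theorem cy_dirs_D (y : TV) : ∀ p ∈ cellD y, ∀ p' ∈ cellD y, p ≠ p' → p' - p ∈ latDirs := by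
  intro p hp p' hp' hne
  simp only [cellD, Finset.mem_insert, Finset.mem_singleton] at hp hp'
  rcases hp with rfl | rfl | rfl <;> rcases hp' with rfl | rfl | rfl <;>
    first
    | exact absurd rfl hne
    | simp [latDirs]

theorem cy_dirs_E (y d : TV) (hd : d ∈ latDirs) (hd' : -d ∈ latDirs) :
    ∀ p ∈ ({y, y + d} : Finset TV), ∀ p' ∈ ({y, y + d} : Finset TV), p ≠ p' → p' - p ∈ latDirs := by
  intro p hp p' hp' hne
  simp only [Finset.mem_insert, Finset.mem_singleton] at hp hp'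
  rcases hp with rfl | rfl <;> rcases hp' with rfl | rfl
  · exact absurd rfl hne
  · rwa [add_sub_cancel_left]
  · rwa [sub_add_cancel_left]
  · exact absurd rfl hne

/-- the edge is contained in its up-triangle -/
theorem cy_sv_Ta {L : ℕ} {a b : ℤ} {e : CyY} (he : e ∈ cyEdges L a b) : cySv L e ⊆ cySv L (cyTa L e) := by
  obtain ⟨k, y⟩ := e
  rcases cy_mem_edges.1 he with ⟨hk, hy⟩ | ⟨hk, hy⟩ | ⟨hk, hy⟩
  · simp only at hk hy
    subst hk
    simp only [cySv, cyTa, cellV]
    refine Finset.image_subset_image ?_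
    intro w hw
    simp only [Finset.mem_insert, Finset.mem_singleton] at hw ⊢
    tauto
  · simp only at hk hy
    subst hk
    simp only [cySv, cyTa, cellV]
    refine Finset.image_subset_image ?_
    intro w hw
    simp only [Finset.mem_insert, Finset.mem_singleton] at hw ⊢
    tauto
  · simp only at hk hy
    subst hk
    simp only [cySv, cyTa, cellV]
    intro w hw
    simp only [Finset.mem_image, Finset.mem_insert, Finset.mem_singleton] at hw ⊢
    obtain ⟨p, hp, rfl⟩ := hw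
    rcases hp with rfl | rfl
    · refine ⟨_, Or.inr (Or.inl rfl), ?_⟩
      rw [cy_red_red, sub_add_cancel]
    · refine ⟨_, Or.inr (Or.inr rfl), ?_⟩
      rw [cy_red_red]
      congr 1
      ext <;> simp <;> ring

/-- the edge is contained in its down-triangle -/
theorem cy_sv_Tb {L : ℕ} {a b : ℤ} {e : CyY} (he : e ∈ cyEdges L a b) : cySv L e ⊆ cySv L (cyTb L e) := by
  obtain ⟨k, y⟩ := e
  rcases cy_mem_edges.1 he with ⟨hk, hy⟩ | ⟨hk, hy⟩ | ⟨hk, hy⟩
  · simp only at hk hy
    subst hk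
    simp only [cySv, cyTb, cellD]
    refine Finset.image_subset_image ?_
    intro w hw
    simp only [Finset.mem_insert, Finset.mem_singleton] at hw ⊢
    rcases hw with rfl | rfl
    · right; left
      rw [sub_add_cancel]
    · right; right
      ext <;> simp
  · simp only at hk hy
    subst hk
    simp only [cySv, cyTb, cellD]
    intro w hw
    simp only [Finset.mem_image, Finset.mem_insert, Finset.mem_singleton] at hw ⊢
    obtain ⟨p, hp, rfl⟩ := hw
    rcases hp with rfl | rfl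
    · refine ⟨_, Or.inl rfl, ?_⟩
      rw [cy_red_red, sub_add_cancel]
    · refine ⟨_, Or.inr (Or.inr rfl), ?_⟩
      rw [cy_red_red]
      congr 1
      ext <;> simp
  · simp only at hk hy
    subst hk
    simp only [cySv, cyTb, cellD]
    intro w hw
    simp only [Finset.mem_image, Finset.mem_insert, Finset.mem_singleton] at hw ⊢
    obtain ⟨p, hp, rfl⟩ := hw
    rcases hp with rfl | rfl
    · refine ⟨_, Or.inl rfl, ?_⟩
      rw [cy_red_red, sub_add_cancel]
    · refine ⟨_, Or.inr (Or.inl rfl), ?_⟩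
      rw [cy_red_red]
      congr 1
      ext <;> simp <;> ring

/-- the two ends of an edge lie in a common cell of the ambient -/
theorem cy_edge_cell {x : ℝ} {L : ℕ} {a b : ℤ} {Q Γ : Finset CyY} {e : CyY} (he : e ∈ cyEdges L a b) {u v : TV}
    (hu : u ∈ cySv L e) (hv : v ∈ cySv L e) : ∃ c ∈ (cyS x L a b Q Γ).C, u ∈ cySv L c ∧ v ∈ cySv L c := by
  by_cases h1 : cyTa L e ∈ Q
  · exact ⟨_, cy_mem_C.2 (Or.inl h1), cy_sv_Ta he hu, cy_sv_Ta he hv⟩
  · by_cases h2 : cyTb L e ∈ Q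
    · exact ⟨_, cy_mem_C.2 (Or.inl h2), cy_sv_Tb he hu, cy_sv_Tb he hv⟩
    · exact ⟨e, cy_mem_C.2 (Or.inr (Or.inl ⟨he, h1, h2⟩)), hu, hv⟩

/-- lattice neighbours in one of the three positive directions lie in a common cell -/
theorem cy_nb_cell {x : ℝ} {L : ℕ} {a b : ℤ} {Q Γ : Finset CyY} {u v d : TV} (hu : u ∈ sdSites L a b) (hv : v ∈ sdSites L a b)
    (hd : d = (1, 0) ∨ d = (0, 1) ∨ d = (-1, 1)) (h : v = sdRed L (u + d)) :
    ∃ c ∈ (cyS x L a b Q Γ).C, u ∈ cySv L c ∧ v ∈ cySv L c := by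
  have hu' := cy_mem_sites.1 hu
  have hv' := cy_mem_sites.1 hv
  have hus : sdRed L u = u := cy_red_self hu'.1 hu'.2.1
  have hv2 : v.2 = u.2 + d.2 := by rw [h]; simp [sdRed]
  rcases hd with rfl | rfl | rfl
  · refine cy_edge_cell (e := (CyK.eh, u)) (cy_mem_edges.2 (Or.inl ⟨rfl, hu⟩)) ?_ ?_
    · simp only [cySv, Finset.mem_image, Finset.mem_insert, Finset.mem_singleton]
      exact ⟨u, Or.inl rfl, hus⟩
    · simp only [cySv, Finset.mem_image, Finset.mem_insert, Finset.mem_singleton]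
      exact ⟨_, Or.inr rfl, h.symm⟩
  · have hc : u ∈ sdCells L a b := by
      rw [cy_mem_cells]
      simp only at hv2
      omega
    refine cy_edge_cell (e := (CyK.ev, u)) (cy_mem_edges.2 (Or.inr (Or.inl ⟨rfl, hc⟩))) ?_ ?_
    · simp only [cySv, Finset.mem_image, Finset.mem_insert, Finset.mem_singleton]
      exact ⟨u, Or.inl rfl, hus⟩
    · simp only [cySv, Finset.mem_image, Finset.mem_insert, Finset.mem_singleton]
      exact ⟨_, Or.inr rfl, h.symm⟩
  · have hc : u ∈ sdCells L a b := by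
      rw [cy_mem_cells]
      simp only at hv2
      omega
    refine cy_edge_cell (e := (CyK.ed, u)) (cy_mem_edges.2 (Or.inr (Or.inr ⟨rfl, hc⟩))) ?_ ?_
    · simp only [cySv, Finset.mem_image, Finset.mem_insert, Finset.mem_singleton]
      exact ⟨u, Or.inl rfl, hus⟩
    · simp only [cySv, Finset.mem_image, Finset.mem_insert, Finset.mem_singleton]
      exact ⟨_, Or.inr rfl, h.symm⟩

/-- the graph of the ambient does not depend on the family: two sites are adjacent iff they are lattice neighbours mod `(L,0)` or a pole and a site of its end row.   PROVED by 43. -/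
theorem cy_S_gr {x : ℝ} {L : ℕ} (hL : 3 ≤ L) {a b : ℤ} (hab : a ≤ b) {Q : Finset CyY} (hQ : CyVal L a b Q) (Γ : Finset CyY) (u v : TV)
    (hu : u ∈ (cyS x L a b Q Γ).A) (hv : v ∈ (cyS x L a b Q Γ).A) :
    (cyS x L a b Q Γ).gr.Adj u v ↔ u ≠ v ∧
      ((u ∈ sdSites L a b ∧ v ∈ sdSites L a b ∧ ∃ d ∈ latDirs, v = sdRed L (u + d)) ∨
        (u = (0, b + 1) ∧ v ∈ sdRow L b) ∨ (v = (0, b + 1) ∧ u ∈ sdRow L b) ∨
        (u = (0, a - 1) ∧ v ∈ sdRow L a) ∨ (v = (0, a - 1) ∧ u ∈ sdRow L a)) := by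
  have hL0 : 0 < L := by omega
  show (u ≠ v ∧ ∃ c ∈ (cyS x L a b Q Γ).C, u ∈ cySv L c ∧ v ∈ cySv L c) ↔ _
  refine and_congr_right fun huv => ⟨?_, ?_⟩
  · rintro ⟨c, hc, h1, h2⟩
    rcases cy_mem_C.1 hc with h | ⟨h, -⟩ | h
    · left
      refine ⟨cy_tri_sub hL0 (hQ.sub h) h1, cy_tri_sub hL0 (hQ.sub h) h2, ?_⟩
      obtain ⟨k, y⟩ := c
      obtain ⟨hk, -⟩ := cy_mem_tris.1 (hQ.sub h)
      simp only at hk
      rcases hk with rfl | rfl
      · exact cy_pair (cy_dirs_V y) h1 h2 huv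
      · exact cy_pair (cy_dirs_D y) h1 h2 huv
    · left
      refine ⟨cy_edge_sub hL0 h h1, cy_edge_sub hL0 h h2, ?_⟩
      obtain ⟨k, y⟩ := c
      rcases cy_mem_edges.1 h with ⟨hk, -⟩ | ⟨hk, -⟩ | ⟨hk, -⟩
      · simp only at hk
        subst hk
        exact cy_pair (cy_dirs_E y (1, 0) (by decide) (by decide)) h1 h2 huv
      · simp only at hk
        subst hk
        exact cy_pair (cy_dirs_E y (0, 1) (by decide) (by decide)) h1 h2 huv
      · simp only at hk
        subst hk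
        exact cy_pair (cy_dirs_E y (-1, 1) (by decide) (by decide)) h1 h2 huv
    · right
      obtain ⟨k, y⟩ := c
      rcases cy_mem_spokes.1 h with ⟨hk, hy⟩ | ⟨hk, hy⟩
      · simp only at hk hy
        subst hk
        have hy' := cy_mem_row.1 hy
        have hys : sdRed L y = y := cy_red_self hy'.1 hy'.2.1
        simp only [cySv, Finset.mem_insert, Finset.mem_singleton, hys, hy'.2.2] at h1 h2
        rcases h1 with rfl | rfl <;> rcases h2 with rfl | rfl
        · exact absurd rfl huv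
        · exact Or.inr (Or.inl ⟨rfl, hy⟩)
        · exact Or.inl ⟨rfl, hy⟩
        · exact absurd rfl huv
      · simp only at hk hy
        subst hk
        have hy' := cy_mem_row.1 hy
        have hys : sdRed L y = y := cy_red_self hy'.1 hy'.2.1
        simp only [cySv, Finset.mem_insert, Finset.mem_singleton, hys, hy'.2.2] at h1 h2
        rcases h1 with rfl | rfl <;> rcases h2 with rfl | rfl
        · exact absurd rfl huv
        · exact Or.inr (Or.inr (Or.inr ⟨rfl, hy⟩))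
        · exact Or.inr (Or.inr (Or.inl ⟨rfl, hy⟩))
        · exact absurd rfl huv
  · rintro (⟨h1, h2, d, hd, h⟩ | ⟨rfl, h⟩ | ⟨rfl, h⟩ | ⟨rfl, h⟩ | ⟨rfl, h⟩)
    · have hu' := cy_mem_sites.1 h1
      have hback : u = sdRed L (v + -d) := by
        rw [h, cy_red_red, add_neg_cancel_right, cy_red_self hu'.1 hu'.2.1]
      simp only [latDirs, Finset.mem_insert, Finset.mem_singleton] at hd
      rcases hd with rfl | rfl | rfl | rfl | rfl | rfl
      · exact cy_nb_cell h1 h2 (Or.inl rfl) h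
      · exact cy_nb_cell h1 h2 (Or.inr (Or.inl rfl)) h
      · exact cy_nb_cell h1 h2 (Or.inr (Or.inr rfl)) h
      · obtain ⟨c, hc, k1, k2⟩ := cy_nb_cell (x := x) (Q := Q) (Γ := Γ) h2 h1 (d := -(-1, 0)) (Or.inl (by simp)) hback
        exact ⟨c, hc, k2, k1⟩
      · obtain ⟨c, hc, k1, k2⟩ := cy_nb_cell (x := x) (Q := Q) (Γ := Γ) h2 h1 (d := -(0, -1)) (Or.inr (Or.inl (by simp))) hback
        exact ⟨c, hc, k2, k1⟩
      · obtain ⟨c, hc, k1, k2⟩ := cy_nb_cell (x := x) (Q := Q) (Γ := Γ) h2 h1 (d := -(1, -1)) (Or.inr (Or.inr (by simp))) hback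
        exact ⟨c, hc, k2, k1⟩
    · have hy' := cy_mem_row.1 h
      refine ⟨(CyK.sn, v), cy_mem_C.2 (Or.inr (Or.inr (cy_mem_spokes.2 (Or.inl ⟨rfl, h⟩)))), ?_, ?_⟩
      · simp only [cySv, Finset.mem_insert, Finset.mem_singleton, hy'.2.2]
        exact Or.inr trivial
      · simp only [cySv, Finset.mem_insert, Finset.mem_singleton]
        exact Or.inl (cy_red_self hy'.1 hy'.2.1).symm
    · have hy' := cy_mem_row.1 h
      refine ⟨(CyK.sn, u), cy_mem_C.2 (Or.inr (Or.inr (cy_mem_spokes.2 (Or.inl ⟨rfl, h⟩)))), ?_, ?_⟩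
      · simp only [cySv, Finset.mem_insert, Finset.mem_singleton]
        exact Or.inl (cy_red_self hy'.1 hy'.2.1).symm
      · simp only [cySv, Finset.mem_insert, Finset.mem_singleton, hy'.2.2]
        exact Or.inr trivial
    · have hy' := cy_mem_row.1 h
      refine ⟨(CyK.ss, v), cy_mem_C.2 (Or.inr (Or.inr (cy_mem_spokes.2 (Or.inr ⟨rfl, h⟩)))), ?_, ?_⟩
      · simp only [cySv, Finset.mem_insert, Finset.mem_singleton, hy'.2.2]
        exact Or.inr trivial
      · simp only [cySv, Finset.mem_insert, Finset.mem_singleton]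
        exact Or.inl (cy_red_self hy'.1 hy'.2.1).symm
    · have hy' := cy_mem_row.1 h
      refine ⟨(CyK.ss, u), cy_mem_C.2 (Or.inr (Or.inr (cy_mem_spokes.2 (Or.inr ⟨rfl, h⟩)))), ?_, ?_⟩
      · simp only [cySv, Finset.mem_insert, Finset.mem_singleton]
        exact Or.inl (cy_red_self hy'.1 hy'.2.1).symm
      · simp only [cySv, Finset.mem_insert, Finset.mem_singleton, hy'.2.2]
        exact Or.inr trivial

/-! helpers of `cy_S_sc` (43): the sites are inserted in the order south pole, row `a` from the left to the right, row `a + 1`, ..., north pole -/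

/-- the south pole and the sites inserted before `(i, a + n)` -/
def cyFill (L : ℕ) (a : ℤ) (n i : ℕ) : Set TV :=
  {w | w = (0, a - 1) ∨ (0 ≤ w.1 ∧ w.1 < L ∧ a ≤ w.2 ∧ (w.2 < a + n ∨ (w.2 = a + n ∧ w.1 < i)))}

theorem cy_fill_eqns_cite : True := by
  have := @cyFill.eq_1
  trivial

theorem cy_mem_fill {L : ℕ} {a : ℤ} {n i : ℕ} {w : TV} : w ∈ cyFill L a n i ↔
    w = (0, a - 1) ∨ (0 ≤ w.1 ∧ w.1 < L ∧ a ≤ w.2 ∧ (w.2 < a + n ∨ (w.2 = a + n ∧ w.1 < i))) := Iff.rfl

theorem cy_hub {G : SimpleGraph TV} {N : Set TV} {h : TV} (H : ∀ u ∈ N, TscR G N u h) : TscConn G N :=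
  fun u hu w hw => tsc_R_trans (H u hu) (tsc_R_symm (H w hw))

theorem cy_conn_insert {G : SimpleGraph TV} {s : Set TV} (hs : TscConn G s) {u v : TV} (hu : u ∈ s) (h : G.Adj u v) :
    TscConn G (insert v s) := by
  have h1 : TscConn G ({v} : Set TV) := by
    intro p hp q hq
    rw [Set.mem_singleton_iff] at hp hq
    rw [hp, hq]
    exact tsc_R_refl _
  have := tsc_conn_union hs h1 hu (Set.mem_singleton v) (Or.inr h)
  rwa [Set.union_singleton] at this

theorem cy_adj_nb {x : ℝ} {L : ℕ} (hL : 3 ≤ L) {a b : ℤ} (hab : a ≤ b) {Q : Finset CyY} (hQ : CyVal L a b Q) (Γ : Finset CyY) {u v : TV}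
    (hu : u ∈ sdSites L a b) (hv : v ∈ sdSites L a b) (huv : u ≠ v) (d : TV) (hd : d ∈ latDirs) (h : v = sdRed L (u + d)) :
    (cyS x L a b Q Γ).gr.Adj u v :=
  (cy_S_gr hL hab hQ Γ u v (cy_mem_A.2 (Or.inl hu)) (cy_mem_A.2 (Or.inl hv))).2 ⟨huv, Or.inl ⟨hu, hv, d, hd, h⟩⟩

theorem cy_adj_south {x : ℝ} {L : ℕ} (hL : 3 ≤ L) {a b : ℤ} (hab : a ≤ b) {Q : Finset CyY} (hQ : CyVal L a b Q) (Γ : Finset CyY) {v : TV}
    (hv : v ∈ sdRow L a) : (cyS x L a b Q Γ).gr.Adj (0, a - 1) v := by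
  have hv' := cy_mem_row.1 hv
  refine (cy_S_gr hL hab hQ Γ _ v (cy_mem_A.2 (Or.inr (Or.inr rfl))) (cy_mem_A.2 (Or.inl (cy_mem_sites.2 (by omega))))).2
    ⟨fun h => ?_, Or.inr (Or.inr (Or.inr (Or.inl ⟨rfl, hv⟩)))⟩
  have : v.2 = a - 1 := by rw [← h]
  omega

theorem cy_adj_north {x : ℝ} {L : ℕ} (hL : 3 ≤ L) {a b : ℤ} (hab : a ≤ b) {Q : Finset CyY} (hQ : CyVal L a b Q) (Γ : Finset CyY) {v : TV}
    (hv : v ∈ sdRow L b) : (cyS x L a b Q Γ).gr.Adj v (0, b + 1) := by
  have hv' := cy_mem_row.1 hv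
  refine (cy_S_gr hL hab hQ Γ v _ (cy_mem_A.2 (Or.inl (cy_mem_sites.2 (by omega)))) (cy_mem_A.2 (Or.inr (Or.inl rfl)))).2
    ⟨fun h => ?_, Or.inr (Or.inr (Or.inl ⟨rfl, hv⟩))⟩
  have : v.2 = b + 1 := by rw [h]
  omega

theorem cy_fill_sub {x : ℝ} {L : ℕ} {a b : ℤ} {Q Γ : Finset CyY} {n i : ℕ} (hn : a + n ≤ b) {w : TV} (hw : w ∈ cyFill L a n i) :
    w ∈ (cyS x L a b Q Γ).A := by
  rw [cy_mem_A]
  rcases cy_mem_fill.1 hw with h | h
  · exact Or.inr (Or.inr h)
  · exact Or.inl (cy_mem_sites.2 (by omega))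

theorem cy_fill_succ {L : ℕ} {a : ℤ} {n i : ℕ} (hi : i < L) : cyFill L a n (i + 1) = insert ((i : ℤ), a + (n : ℤ)) (cyFill L a n i) := by
  ext w
  have key : w = ((i : ℤ), a + (n : ℤ)) ↔ w.1 = i ∧ w.2 = a + n := Prod.ext_iff
  rw [Set.mem_insert_iff, cy_mem_fill, cy_mem_fill, key]
  push_cast
  constructor
  · rintro (h | h)
    · exact Or.inr (Or.inl h)
    · by_cases hw : w.1 = i ∧ w.2 = a + n
      · exact Or.inl hw
      · right; right
        omega
  · rintro (h | h | h)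
    · right
      omega
    · exact Or.inl h
    · right
      omega

theorem cy_fill_row {L : ℕ} {a : ℤ} {n : ℕ} : cyFill L a (n + 1) 0 = cyFill L a n L := by
  ext w
  rw [cy_mem_fill, cy_mem_fill]
  push_cast
  constructor
  · rintro (h | h)
    · exact Or.inl h
    · right
      omega
  · rintro (h | h)
    · exact Or.inl h
    · right
      omega

/-- old neighbours of a site of the first row -/
theorem cy_N0 {x : ℝ} {L : ℕ} (hL : 3 ≤ L) {a b : ℤ} (hab : a ≤ b) {Q : Finset CyY} (hQ : CyVal L a b Q) (Γ : Finset CyY) {i : ℕ} (hi : i < L) :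
    TscConn (cyS x L a b Q Γ).gr {u | u ∈ cyFill L a 0 i ∧ (cyS x L a b Q Γ).gr.Adj u ((i : ℤ), a + ((0 : ℕ) : ℤ))} := by
  have hp : ((0 : ℤ), a - 1) ∈ {u | u ∈ cyFill L a 0 i ∧ (cyS x L a b Q Γ).gr.Adj u ((i : ℤ), a + ((0 : ℕ) : ℤ))} :=
    ⟨Or.inl rfl, cy_adj_south hL hab hQ Γ (cy_mem_row.2 ⟨by simp, by simp; omega, by simp⟩)⟩
  refine cy_hub (h := (0, a - 1)) fun u hu => ?_
  rcases cy_mem_fill.1 hu.1 with h | h
  · rw [h]
    exact tsc_R_refl _
  · refine tsc_R_step (cy_adj_south hL hab hQ Γ (cy_mem_row.2 ⟨h.1, h.2.1, ?_⟩)).symm hu hp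
    push_cast at h
    omega

/-- old neighbours of a site of a higher row -/
theorem cy_N1 {x : ℝ} {L : ℕ} (hL : 3 ≤ L) {a b : ℤ} (hab : a ≤ b) {Q : Finset CyY} (hQ : CyVal L a b Q) (Γ : Finset CyY) {n i : ℕ}
    (hn : a + ((n + 1 : ℕ) : ℤ) ≤ b) (hi : i < L) :
    TscConn (cyS x L a b Q Γ).gr {u | u ∈ cyFill L a (n + 1) i ∧ (cyS x L a b Q Γ).gr.Adj u ((i : ℤ), a + ((n + 1 : ℕ) : ℤ))} ∧
      ((i : ℤ), a + (n : ℤ)) ∈ {u | u ∈ cyFill L a (n + 1) i ∧ (cyS x L a b Q Γ).gr.Adj u ((i : ℤ), a + ((n + 1 : ℕ) : ℤ))} := by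
  have hL0 : 0 < L := by omega
  push_cast at hn
  obtain ⟨v, hv⟩ : ∃ v : TV, v = ((i : ℤ), a + ((n + 1 : ℕ) : ℤ)) := ⟨_, rfl⟩
  obtain ⟨h, hh⟩ : ∃ h : TV, h = ((i : ℤ), a + (n : ℤ)) := ⟨_, rfl⟩
  obtain ⟨h', hh'⟩ : ∃ h' : TV, h' = sdRed L (h + (1, 0)) := ⟨_, rfl⟩
  rw [← hv, ← hh]
  have hv1 : v.1 = i := by rw [hv]
  have hv2 : v.2 = a + n + 1 := by rw [hv]; push_cast; ring
  have hh1 : h.1 = i := by rw [hh]
  have hh2 : h.2 = a + n := by rw [hh]
  have hh'2 : h'.2 = a + n := by rw [hh']; simp [sdRed, hh2]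
  have hvS : v ∈ sdSites L a b := cy_mem_sites.2 (by omega)
  have hhS : h ∈ sdSites L a b := cy_mem_sites.2 (by omega)
  have hh'S : h' ∈ sdSites L a b := by
    rw [hh', cy_red_mem hL0]
    simp only [Prod.snd_add, add_zero]
    omega
  have hh'' := cy_mem_sites.1 hh'S
  have hvs : sdRed L v = v := cy_red_self (by omega) (by omega)
  have hhs : sdRed L h = h := cy_red_self (by omega) (by omega)
  have e1 : h + (0, 1) = v := by ext <;> simp [hv1, hv2, hh1, hh2]
  have e2 : h + (1, 0) + (-1, 1) = v := by ext <;> simp [hv1, hv2, hh1, hh2]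
  have hne' : h ≠ h' := by
    intro e
    have e3 : h.1 = (h.1 + 1) % (L : ℤ) := by
      conv_lhs => rw [e, hh']
      simp [sdRed]
    rw [hh1] at e3
    rcases Nat.lt_or_ge (i + 1) L with hlt | hge
    · rw [Int.emod_eq_of_lt (by omega) (by omega)] at e3
      omega
    · have : (i : ℤ) + 1 = L := by omega
      rw [this, Int.emod_self] at e3
      omega
  have ahv : (cyS x L a b Q Γ).gr.Adj h v :=
    cy_adj_nb hL hab hQ Γ hhS hvS (fun e => by rw [e] at hh2; omega) (0, 1) (by decide) (by rw [e1, hvs])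
  have ah'v : (cyS x L a b Q Γ).gr.Adj h' v :=
    cy_adj_nb hL hab hQ Γ hh'S hvS (fun e => by rw [e] at hh'2; omega) (-1, 1) (by decide) (by rw [hh', cy_red_red, e2, hvs])
  have ahh' : (cyS x L a b Q Γ).gr.Adj h h' := cy_adj_nb hL hab hQ Γ hhS hh'S hne' (1, 0) (by decide) hh'
  have hhN : h ∈ {u | u ∈ cyFill L a (n + 1) i ∧ (cyS x L a b Q Γ).gr.Adj u v} :=
    ⟨cy_mem_fill.2 (Or.inr (by push_cast; omega)), ahv⟩
  have hh'N : h' ∈ {u | u ∈ cyFill L a (n + 1) i ∧ (cyS x L a b Q Γ).gr.Adj u v} :=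
    ⟨cy_mem_fill.2 (Or.inr (by push_cast; omega)), ah'v⟩
  refine ⟨cy_hub (h := h) fun u hu => ?_, hhN⟩
  obtain ⟨huF, huA⟩ := hu
  have huF' := cy_mem_fill.1 huF
  push_cast at huF'
  obtain ⟨hne, hc⟩ := (cy_S_gr hL hab hQ Γ u v (cy_fill_sub (by push_cast; omega) huF) (cy_mem_A.2 (Or.inl hvS))).1 huA
  rcases hc with ⟨huS, -, d, hd, hvd⟩ | ⟨rfl, -⟩ | ⟨e, -⟩ | ⟨-, e⟩ | ⟨e, -⟩
  · have hu' := cy_mem_sites.1 huS
    have hback : u = sdRed L (v + -d) := by
      rw [hvd, cy_red_red, add_neg_cancel_right, cy_red_self hu'.1 hu'.2.1]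
    have hrow : v.2 = u.2 + d.2 := by rw [hvd]; simp [sdRed]
    have hupole : u ≠ (0, a - 1) := fun e => by rw [e] at hu'; simp only at hu'; omega
    simp only [latDirs, Finset.mem_insert, Finset.mem_singleton] at hd
    rcases hd with rfl | rfl | rfl | rfl | rfl | rfl
    · -- `u` is the left neighbour
      refine tsc_R_step (cy_adj_nb hL hab hQ Γ huS hhS (fun e => ?_) (1, -1) (by decide) ?_) ⟨huF, huA⟩ hhN
      · rw [e] at hrow
        simp only at hrow
        omega
      · rw [hback, cy_red_red]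
        have : v + -(1, 0) + (1, -1) = h := by ext <;> simp [hv1, hv2, hh1, hh2]
        rw [this, hhs]
    · have : u = h := by
        rw [hback]
        have : v + -(0, 1) = h := by ext <;> simp [hv1, hv2, hh1, hh2]
        rw [this, hhs]
      rw [this]
      exact tsc_R_refl _
    · have : u = h' := by
        rw [hback, hh']
        congr 1
        ext <;> simp [hv1, hv2, hh1, hh2]
      rw [this]
      exact tsc_R_step ahh'.symm hh'N hhN
    · -- `u` is the right neighbour (wrapped)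
      refine tsc_R_trans (tsc_R_step (cy_adj_nb hL hab hQ Γ huS hh'S (fun e => ?_) (0, -1) (by decide) ?_) ⟨huF, huA⟩ hh'N)
        (tsc_R_step ahh'.symm hh'N hhN)
      · rw [e] at hrow
        simp only at hrow
        omega
      · rw [hback, cy_red_red, hh']
        congr 1
        ext <;> simp [hv1, hv2, hh1, hh2]
    · exfalso
      simp only at hrow
      rcases huF' with e | e
      · exact hupole e
      · omega
    · exfalso
      simp only at hrow
      rcases huF' with e | e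
      · exact hupole e
      · omega
  · exfalso
    rcases huF' with e | e
    · have := congrArg Prod.snd e
      simp only at this
      omega
    · simp only at e
      omega
  · exfalso
    rw [e] at hv2
    simp only at hv2
    omega
  · exfalso
    have := (cy_mem_row.1 e).2.2
    omega
  · exfalso
    rw [e] at hv2
    simp only at hv2
    omega

/-- all partial fillings are simply connected and connected -/
theorem cy_fill_sc {x : ℝ} {L : ℕ} (hL : 3 ≤ L) {a b : ℤ} (hab : a ≤ b) {Q : Finset CyY} (hQ : CyVal L a b Q) (Γ : Finset CyY) :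
    ∀ n : ℕ, a + (n : ℤ) ≤ b → ∀ i : ℕ, i ≤ L →
      TriSCOn (ZMod 2) (cyS x L a b Q Γ).gr (cyFill L a n i) ∧ TscConn (cyS x L a b Q Γ).gr (cyFill L a n i) := by
  have hnot : ∀ n i : ℕ, ((i : ℤ), a + (n : ℤ)) ∉ cyFill L a n i := by
    intro n i h
    rcases cy_mem_fill.1 h with e | e
    · have := congrArg Prod.snd e
      simp only at this
      omega
    · simp only at e
      omega
  intro n
  induction n with
  | zero =>
    intro hn i
    induction i with
    | zero =>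
      intro _
      have e : cyFill L a 0 0 = insert ((0 : ℤ), a - 1) (∅ : Set TV) := by
        ext w
        rw [cy_mem_fill]
        simp only [insert_empty_eq, Set.mem_singleton_iff]
        push_cast
        constructor
        · rintro (h | h)
          · exact h
          · omega
        · exact Or.inl
      rw [e]
      refine ⟨tsc_insert tsc_empty (Set.notMem_empty _) (fun u hu => hu.1.elim), ?_⟩
      intro p hp q hq
      simp only [insert_empty_eq, Set.mem_singleton_iff] at hp hq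
      rw [hp, hq]
      exact tsc_R_refl _
    | succ i ih =>
      intro hi
      obtain ⟨h1, h2⟩ := ih (by omega)
      rw [cy_fill_succ (by omega)]
      refine ⟨tsc_insert h1 (hnot 0 i) (cy_N0 hL hab hQ Γ (by omega)), ?_⟩
      exact cy_conn_insert h2 (u := (0, a - 1)) (Or.inl rfl)
        (cy_adj_south hL hab hQ Γ (cy_mem_row.2 ⟨by simp, by simp; omega, by simp⟩))
  | succ n ihn =>
    intro hn i
    induction i with
    | zero =>
      intro _
      rw [cy_fill_row]
      exact ihn (by push_cast at hn; omega) L le_rfl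
    | succ i ih =>
      intro hi
      obtain ⟨h1, h2⟩ := ih (by omega)
      obtain ⟨k1, k2⟩ := cy_N1 (x := x) hL hab hQ Γ hn (i := i) (by omega)
      rw [cy_fill_succ (by omega)]
      exact ⟨tsc_insert h1 (hnot (n + 1) i) k1, cy_conn_insert h2 k2.1 k2.2⟩

/-- **the capped cylinder is simply connected (mod 2)**.   PROVED by 43 (plan of 147).
`tsc_insert`, vertices in the order: south pole, row `a` from `i = 0` to `L-1`, row `a+1`, ..., north pole.  Back neighbours of `(i, j+1)`: `(i,j), (i+1,j), (i-1,j+1)` (and `(0,j+1)` for `i = L-1`): a path. -/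
theorem cy_S_sc {x : ℝ} {L : ℕ} (hL : 3 ≤ L) {a b : ℤ} (hab : a ≤ b) {Q : Finset CyY} (hQ : CyVal L a b Q) (Γ : Finset CyY) :
    (cyS x L a b Q Γ).SC ∧ TscConn (cyS x L a b Q Γ).gr (↑(cyS x L a b Q Γ).A : Set TV) := by
  obtain ⟨n, hn⟩ : ∃ n : ℕ, a + (n : ℤ) = b := ⟨(b - a).toNat, by omega⟩
  obtain ⟨h1, h2⟩ := cy_fill_sc (x := x) hL hab hQ Γ n hn.le L le_rfl
  have eA : (↑(cyS x L a b Q Γ).A : Set TV) = insert ((0 : ℤ), b + 1) (cyFill L a n L) := by
    ext w
    rw [Finset.mem_coe, cy_mem_A, Set.mem_insert_iff, cy_mem_fill, cy_mem_sites]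
    constructor
    · rintro (h | h | h)
      · right; right
        omega
      · exact Or.inl h
      · exact Or.inr (Or.inl h)
    · rintro (h | h | h)
      · exact Or.inr (Or.inl h)
      · exact Or.inr (Or.inr h)
      · left
        omega
  have hnot : ((0 : ℤ), b + 1) ∉ cyFill L a n L := by
    intro h
    rcases cy_mem_fill.1 h with e | e
    · have := congrArg Prod.snd e
      simp only at this
      omega
    · simp only at e
      omega
  have hrowN : ∀ k : ℕ, k < L → ((k : ℤ), b) ∈ {u | u ∈ cyFill L a n L ∧ (cyS x L a b Q Γ).gr.Adj u (0, b + 1)} := fun k hk =>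
    ⟨cy_mem_fill.2 (Or.inr (by simp only; omega)), cy_adj_north hL hab hQ Γ (cy_mem_row.2 ⟨Int.natCast_nonneg k, Int.ofNat_lt.2 hk, rfl⟩)⟩
  have hpath : ∀ k : ℕ, k < L → TscR (cyS x L a b Q Γ).gr {u | u ∈ cyFill L a n L ∧ (cyS x L a b Q Γ).gr.Adj u (0, b + 1)}
      ((k : ℤ), b) (((0 : ℕ) : ℤ), b) := by
    intro k
    induction k with
    | zero => intro _; exact tsc_R_refl _
    | succ k ih =>
      intro hk
      refine tsc_R_trans (tsc_R_step ?_ (hrowN (k + 1) hk) (hrowN k (by omega))) (ih (by omega))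
      refine cy_adj_nb hL hab hQ Γ (cy_mem_sites.2 (by simp only; push_cast; omega)) (cy_mem_sites.2 (by simp only; omega)) ?_ (-1, 0)
        (by decide) ?_
      · intro e
        have := congrArg Prod.fst e
        simp only at this
        push_cast at this
        omega
      · have : (((k + 1 : ℕ) : ℤ), b) + ((-1 : ℤ), (0 : ℤ)) = ((k : ℤ), b) := by ext <;> simp
        rw [this, cy_red_self (by simp only; omega) (by simp only; omega)]
  have hN : TscConn (cyS x L a b Q Γ).gr {u | u ∈ cyFill L a n L ∧ (cyS x L a b Q Γ).gr.Adj u (0, b + 1)} := by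
    refine cy_hub (h := (((0 : ℕ) : ℤ), b)) fun u hu => ?_
    obtain ⟨huF, huA⟩ := hu
    obtain ⟨hne, hc⟩ := (cy_S_gr hL hab hQ Γ u _ (cy_fill_sub hn.le huF) (cy_mem_A.2 (Or.inr (Or.inl rfl)))).1 huA
    have hur : u ∈ sdRow L b := by
      rcases hc with ⟨-, e, -⟩ | ⟨e, -⟩ | ⟨-, e⟩ | ⟨-, e⟩ | ⟨e, -⟩
      · have := cy_mem_sites.1 e
        simp only at this
        omega
      · exact absurd e hne
      · exact e
      · have := cy_mem_row.1 e
        simp only at this
        omega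
      · have := congrArg Prod.snd e
        simp only at this
        omega
    have hur' := cy_mem_row.1 hur
    have : u = ((u.1.toNat : ℤ), b) := by
      ext
      · simp only
        omega
      · exact hur'.2.2
    rw [this]
    exact hpath _ (by omega)
  unfold ClSys.SC
  rw [eA]
  exact ⟨tsc_insert h1 hnot hN, cy_conn_insert h2 (hrowN 0 (by omega)).1 (hrowN 0 (by omega)).2⟩

/-- T0 for the capped cylinder -/
theorem cy_S_disk {x : ℝ} (hx0 : 0 < x) (hx1 : x ≤ 1) {L : ℕ} (hL : 3 ≤ L) {a b : ℤ} (hab : a ≤ b) {Q : Finset CyY} (hQ : CyVal L a b Q)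
    (Γ : Finset CyY) (hc : ∀ y ∈ (cyS x L a b Q Γ).C, ((cyS x L a b Q Γ).sv y).card ≤ 3) : ClDisk (cyS x L a b Q Γ) :=
  am_disk _ (cy_S_ok hx0 hx1 hL hab hQ Γ) hc (cy_S_sc hL hab hQ Γ).1 (cy_S_sc hL hab hQ Γ).2

/-- cells have at most three sites -/
theorem cy_S_card (x : ℝ) (L : ℕ) (a b : ℤ) (Q Γ : Finset CyY) : ∀ y ∈ (cyS x L a b Q Γ).C, ((cyS x L a b Q Γ).sv y).card ≤ 3 := by
  intro c _
  show (cySv L c).card ≤ 3
  obtain ⟨k, y⟩ := c
  cases k
  · exact Finset.card_image_le.trans Finset.card_le_three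
  · exact Finset.card_image_le.trans Finset.card_le_three
  · exact Finset.card_image_le.trans (Finset.card_le_two.trans (by norm_num))
  · exact Finset.card_image_le.trans (Finset.card_le_two.trans (by norm_num))
  · exact Finset.card_image_le.trans (Finset.card_le_two.trans (by norm_num))
  · exact Finset.card_le_two.trans (by norm_num)
  · exact Finset.card_le_two.trans (by norm_num)

/-! helpers of `cy_rc` (43) -/

/-- subsets of `C` = subsets of `R` times subsets of `C \ R` -/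
theorem cy_sum_split {α : Type} [DecidableEq α] {C R : Finset α} (hR : R ⊆ C) (g : Finset α → ℝ) :
    ∑ O ∈ C.powerset, g O = ∑ O₁ ∈ R.powerset, ∑ O₂ ∈ (C \ R).powerset, g (O₁ ∪ O₂) := by
  rw [← Finset.sum_product']
  refine Finset.sum_nbij' (fun O => (O ∩ R, O \ R)) (fun p => p.1 ∪ p.2) ?_ ?_ ?_ ?_ ?_
  · intro O hO
    rw [Finset.mem_powerset] at hO
    simp only [Finset.mem_product, Finset.mem_powerset]
    exact ⟨Finset.inter_subset_right, Finset.sdiff_subset_sdiff hO le_rfl⟩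
  · rintro ⟨O₁, O₂⟩ h
    simp only [Finset.mem_product, Finset.mem_powerset] at h
    rw [Finset.mem_powerset]
    exact Finset.union_subset (h.1.trans hR) (h.2.trans Finset.sdiff_subset)
  · intro O _
    simp only
    rw [Finset.union_comm, Finset.sdiff_union_inter]
  · rintro ⟨O₁, O₂⟩ h
    simp only [Finset.mem_product, Finset.mem_powerset] at h
    simp only [Prod.mk.injEq]
    constructor
    · ext y
      simp only [Finset.mem_inter, Finset.mem_union]
      constructor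
      · rintro ⟨h1 | h1, h2⟩
        · exact h1
        · exact absurd h2 (Finset.mem_sdiff.1 (h.2 h1)).2
      · intro h1
        exact ⟨Or.inl h1, h.1 h1⟩
    · ext y
      simp only [Finset.mem_sdiff, Finset.mem_union]
      constructor
      · rintro ⟨h1 | h1, h2⟩
        · exact absurd (h.1 h1) h2
        · exact h1
      · intro h1
        exact ⟨Or.inr h1, (Finset.mem_sdiff.1 (h.2 h1)).2⟩
  · intro O _
    simp only
    rw [Finset.union_comm, Finset.sdiff_union_inter]

/-- summing out the statuses -/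
theorem cy_sum_status {α : Type} [DecidableEq α] (X : Finset α) (o c : α → ℝ) :
    ∑ O ∈ X.powerset, ∏ y ∈ X, (if y ∈ O then o y else c y) = ∏ y ∈ X, (o y + c y) := by
  rw [Finset.prod_add]
  refine Finset.sum_congr rfl fun O hO => ?_
  have hO' := Finset.mem_powerset.1 hO
  rw [← Finset.prod_sdiff hO', mul_comm]
  congr 1
  · exact Finset.prod_congr rfl fun y hy => if_pos hy
  · exact Finset.prod_congr rfl fun y hy => if_neg (Finset.mem_sdiff.1 hy).2

open Classical in
/-- **(a) of (RC), abstract**: the statuses of the cells which nobody reads are summed out: their factor becomes the pair weight -/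
theorem cy_N_read {V Y : Type} [DecidableEq V] [DecidableEq Y] (S : ClSys V Y) {R : Finset Y} (hR : R ⊆ S.C) (T : Finset V)
    (K : ClCfg V Y → Prop) (F : ClCfg V Y → ℝ) (hK : ClLocP T R K) (hF : ClLoc T R F) :
    S.N K F = ∑ B ∈ S.A.powerset, ∑ W ∈ S.A.powerset,
      (∏ y ∈ S.C \ R, ((if ClConst B (S.sv y) then S.q y else 0)
          + (if ClConst W (S.sv y) then (if ClConst B (S.sv y) then 1 - S.q y else S.q y) else 0))) *
        ∑ O ∈ R.powerset, (if K ⟨B, W, O⟩ then
          (∏ y ∈ R, clCellW (S.q y) (ClConst B (S.sv y)) (ClConst W (S.sv y)) (y ∈ O)) * F ⟨B, W, O⟩ else 0) := by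
  unfold ClSys.N
  rw [cl_sum_cfgs]
  refine Finset.sum_congr rfl fun B _ => Finset.sum_congr rfl fun W _ => ?_
  rw [cy_sum_split hR, Finset.mul_sum]
  refine Finset.sum_congr rfl fun O₁ hO₁ => ?_
  have hO₁' := Finset.mem_powerset.1 hO₁
  have hin : ∀ O₂ ∈ (S.C \ R).powerset, ∀ y ∈ R, (y ∈ O₁ ∪ O₂ ↔ y ∈ O₁) := by
    intro O₂ h y hy
    rw [Finset.mem_union]
    exact ⟨fun h1 => h1.elim id fun h2 => absurd hy (Finset.mem_sdiff.1 (Finset.mem_powerset.1 h h2)).2, Or.inl⟩
  have hout : ∀ O₂ : Finset Y, ∀ y ∈ S.C \ R, (y ∈ O₁ ∪ O₂ ↔ y ∈ O₂) := by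
    intro O₂ y hy
    rw [Finset.mem_union]
    exact ⟨fun h1 => h1.elim (fun h2 => absurd (hO₁' h2) (Finset.mem_sdiff.1 hy).2) id, Or.inr⟩
  have hcap : ∀ O₂ ∈ (S.C \ R).powerset, (O₁ ∪ O₂) ∩ R = O₁ ∩ R := by
    intro O₂ h
    ext y
    simp only [Finset.mem_inter]
    exact ⟨fun h1 => ⟨(hin O₂ h y h1.2).1 h1.1, h1.2⟩, fun h1 => ⟨(hin O₂ h y h1.2).2 h1.1, h1.2⟩⟩
  have hKe : ∀ O₂ ∈ (S.C \ R).powerset, (K ⟨B, W, O₁ ∪ O₂⟩ ↔ K ⟨B, W, O₁⟩) := fun O₂ h => hK _ _ rfl rfl (hcap O₂ h)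
  have hFe : ∀ O₂ ∈ (S.C \ R).powerset, F ⟨B, W, O₁ ∪ O₂⟩ = F ⟨B, W, O₁⟩ := fun O₂ h => hF _ _ rfl rfl (hcap O₂ h)
  have hwt : ∀ O₂ ∈ (S.C \ R).powerset, S.wt ⟨B, W, O₁ ∪ O₂⟩ =
      (∏ y ∈ S.C \ R, (if y ∈ O₂ then (if ClConst B (S.sv y) then S.q y else 0)
          else (if ClConst W (S.sv y) then (if ClConst B (S.sv y) then 1 - S.q y else S.q y) else 0))) *
        ∏ y ∈ R, clCellW (S.q y) (ClConst B (S.sv y)) (ClConst W (S.sv y)) (y ∈ O₁) := by
    intro O₂ h
    unfold ClSys.wt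
    rw [← Finset.prod_sdiff hR]
    congr 1
    · refine Finset.prod_congr rfl fun y hy => ?_
      rw [am_t5_cellW _ Iff.rfl Iff.rfl (hout O₂ y hy)]
      rfl
    · exact Finset.prod_congr rfl fun y hy => am_t5_cellW _ Iff.rfl Iff.rfl (hin O₂ h y hy)
  by_cases hk : K ⟨B, W, O₁⟩
  · rw [if_pos hk, ← cy_sum_status, Finset.sum_mul]
    refine Finset.sum_congr rfl fun O₂ h => ?_
    rw [if_pos ((hKe O₂ h).2 hk), hwt O₂ h, hFe O₂ h]
    ring
  · rw [if_neg hk, mul_zero]
    exact Finset.sum_eq_zero fun O₂ h => if_neg fun h1 => hk ((hKe O₂ h).1 h1)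

/-- **abstract re-celling**: two systems with the same sites, the same read cells and the same product of the pair weights of the other cells -/
theorem cy_recell {V Y : Type} [DecidableEq V] [DecidableEq Y] (S S' : ClSys V Y) (hA : S'.A = S.A) (hsv : S'.sv = S.sv) (hq : S'.q = S.q)
    {R : Finset Y} (hR : R ⊆ S.C) (hR' : R ⊆ S'.C) (T : Finset V) (K : ClCfg V Y → Prop) (F : ClCfg V Y → ℝ) (hK : ClLocP T R K)
    (hF : ClLoc T R F)
    (hP : ∀ B W : Finset V, ∏ y ∈ S'.C \ R, ((if ClConst B (S.sv y) then S.q y else 0)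
          + (if ClConst W (S.sv y) then (if ClConst B (S.sv y) then 1 - S.q y else S.q y) else 0))
        = ∏ y ∈ S.C \ R, ((if ClConst B (S.sv y) then S.q y else 0)
          + (if ClConst W (S.sv y) then (if ClConst B (S.sv y) then 1 - S.q y else S.q y) else 0))) :
    S'.N K F = S.N K F := by
  rw [cy_N_read S hR T K F hK hF, cy_N_read S' hR' T K F hK hF, hA, hsv, hq]
  exact Finset.sum_congr rfl fun B _ => Finset.sum_congr rfl fun W _ => by rw [hP B W]

/-- constancy on a pair / a triple of sites -/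
theorem cy_const2 (P : Finset TV) (p q : TV) : ClConst P {p, q} ↔ (p ∈ P ↔ q ∈ P) := by
  unfold ClConst
  by_cases h1 : p ∈ P <;> by_cases h2 : q ∈ P <;> simp [Finset.insert_subset_iff, h1, h2]

theorem cy_const3 (P : Finset TV) (p q r : TV) : ClConst P {p, q, r} ↔ ((p ∈ P ↔ q ∈ P) ∧ (p ∈ P ↔ r ∈ P)) := by
  unfold ClConst
  by_cases h1 : p ∈ P <;> by_cases h2 : q ∈ P <;> by_cases h3 : r ∈ P <;> simp [Finset.insert_subset_iff, h1, h2, h3]

/-- **(b) of (RC)**: the pair weight of a triangle of parameter `x²` is the product of the pair weights of its three edges of parameter `x` -/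
theorem cy_pw_tri (x : ℝ) (B W : Finset TV) (p q r : TV) :
    ((if ClConst B {p, q, r} then x ^ 2 else 0) + (if ClConst W {p, q, r} then (if ClConst B {p, q, r} then 1 - x ^ 2 else x ^ 2) else 0))
      = ((if ClConst B {p, q} then x else 0) + (if ClConst W {p, q} then (if ClConst B {p, q} then 1 - x else x) else 0)) *
        ((if ClConst B {p, r} then x else 0) + (if ClConst W {p, r} then (if ClConst B {p, r} then 1 - x else x) else 0)) *
        ((if ClConst B {q, r} then x else 0) + (if ClConst W {q, r} then (if ClConst B {q, r} then 1 - x else x) else 0)) := by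
  simp only [cy_const2, cy_const3]
  by_cases h1 : p ∈ B <;> by_cases h2 : q ∈ B <;> by_cases h3 : r ∈ B <;> by_cases h4 : p ∈ W <;> by_cases h5 : q ∈ W <;>
    by_cases h6 : r ∈ W <;> simp [h1, h2, h3, h4, h5, h6] <;> ring

theorem cy_Ta_kind (L : ℕ) (e : CyY) : (cyTa L e).1 = CyK.up := by
  obtain ⟨k, z⟩ := e
  cases k <;> rfl

theorem cy_Tb_kind (L : ℕ) (e : CyY) : (cyTb L e).1 = CyK.dn := by
  obtain ⟨k, z⟩ := e
  cases k <;> rfl

/-- the three edges of an up-triangle -/
theorem cy_fib_up {L : ℕ} (hL : 0 < L) {a b : ℤ} {y : TV} (hy : y ∈ sdCells L a b) (e : CyY) :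
    (e ∈ cyEdges L a b ∧ cyTa L e = (CyK.up, y)) ↔ e = (CyK.eh, y) ∨ e = (CyK.ev, y) ∨ e = (CyK.ed, sdRed L (y + (1, 0))) := by
  have hy' := cy_mem_cells.1 hy
  constructor
  · rintro ⟨he, h⟩
    obtain ⟨k, z⟩ := e
    rcases cy_mem_edges.1 he with ⟨hk, hz⟩ | ⟨hk, hz⟩ | ⟨hk, hz⟩
    · simp only at hk hz
      subst hk
      have : z = y := congrArg Prod.snd h
      exact Or.inl (by rw [this])
    · simp only at hk hz
      subst hk
      have : z = y := congrArg Prod.snd h
      exact Or.inr (Or.inl (by rw [this]))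
    · simp only at hk hz
      subst hk
      have hz' := cy_mem_cells.1 hz
      have : sdRed L (z - (1, 0)) = y := congrArg Prod.snd h
      refine Or.inr (Or.inr ?_)
      rw [← this, cy_red_red, sub_add_cancel, cy_red_self hz'.1 hz'.2.1]
  · rintro (rfl | rfl | rfl)
    · exact ⟨cy_mem_edges.2 (Or.inl ⟨rfl, (cy_mem_sites (u := y)).2 (by omega)⟩), rfl⟩
    · exact ⟨cy_mem_edges.2 (Or.inr (Or.inl ⟨rfl, hy⟩)), rfl⟩
    · refine ⟨cy_mem_edges.2 (Or.inr (Or.inr ⟨rfl, ?_⟩)), ?_⟩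
      · have h1 := (cy_red_mem hL (a := a) (b := b - 1) (y + (1, 0))).2 (by simp only [Prod.snd_add, add_zero]; omega)
        have h2 := cy_mem_sites.1 h1
        exact (cy_mem_cells (u := sdRed L (y + (1, 0)))).2 (by omega)
      · show (CyK.up, sdRed L (sdRed L (y + (1, 0)) - (1, 0))) = (CyK.up, y)
        rw [sub_eq_add_neg, cy_red_red, add_neg_cancel_right, cy_red_self hy'.1 hy'.2.1]

/-- the three edges of a down-triangle -/
theorem cy_fib_dn {L : ℕ} (hL : 0 < L) {a b : ℤ} {y : TV} (hy : y ∈ sdCells L a b) (e : CyY) :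
    (e ∈ cyEdges L a b ∧ cyTb L e = (CyK.dn, y)) ↔
      e = (CyK.eh, y + (0, 1)) ∨ e = (CyK.ev, sdRed L (y + (1, 0))) ∨ e = (CyK.ed, sdRed L (y + (1, 0))) := by
  have hy' := cy_mem_cells.1 hy
  have hz0 : sdRed L (y + (1, 0)) ∈ sdCells L a b := by
    have h1 := (cy_red_mem hL (a := a) (b := b - 1) (y + (1, 0))).2 (by simp only [Prod.snd_add, add_zero]; omega)
    have h2 := cy_mem_sites.1 h1
    exact cy_mem_cells.2 (by omega)
  have hback : sdRed L (sdRed L (y + (1, 0)) - (1, 0)) = y := by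
    rw [sub_eq_add_neg, cy_red_red, add_neg_cancel_right, cy_red_self hy'.1 hy'.2.1]
  constructor
  · rintro ⟨he, h⟩
    obtain ⟨k, z⟩ := e
    rcases cy_mem_edges.1 he with ⟨hk, hz⟩ | ⟨hk, hz⟩ | ⟨hk, hz⟩
    · simp only at hk hz
      subst hk
      have : z - (0, 1) = y := congrArg Prod.snd h
      refine Or.inl ?_
      rw [← this, sub_add_cancel]
    · simp only at hk hz
      subst hk
      have hz' := cy_mem_cells.1 hz
      have : sdRed L (z - (1, 0)) = y := congrArg Prod.snd h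
      refine Or.inr (Or.inl ?_)
      rw [← this, cy_red_red, sub_add_cancel, cy_red_self hz'.1 hz'.2.1]
    · simp only at hk hz
      subst hk
      have hz' := cy_mem_cells.1 hz
      have : sdRed L (z - (1, 0)) = y := congrArg Prod.snd h
      refine Or.inr (Or.inr ?_)
      rw [← this, cy_red_red, sub_add_cancel, cy_red_self hz'.1 hz'.2.1]
  · rintro (rfl | rfl | rfl)
    · refine ⟨cy_mem_edges.2 (Or.inl ⟨rfl, cy_mem_sites.2 (by simp only [Prod.fst_add, Prod.snd_add, add_zero]; omega)⟩), ?_⟩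
      show (CyK.dn, y + (0, 1) - (0, 1)) = (CyK.dn, y)
      rw [add_sub_cancel_right]
    · refine ⟨cy_mem_edges.2 (Or.inr (Or.inl ⟨rfl, hz0⟩)), ?_⟩
      show (CyK.dn, sdRed L (sdRed L (y + (1, 0)) - (1, 0))) = (CyK.dn, y)
      rw [hback]
    · refine ⟨cy_mem_edges.2 (Or.inr (Or.inr ⟨rfl, hz0⟩)), ?_⟩
      show (CyK.dn, sdRed L (sdRed L (y + (1, 0)) - (1, 0))) = (CyK.dn, y)
      rw [hback]

/-- **(c) of (RC)**: the product over the unread cells does not change if triangles are dissolved into their edges -/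
theorem cy_prod_recell {x : ℝ} {L : ℕ} (hL : 0 < L) {a b : ℤ} {Q Q' Γ : Finset CyY} (hQ : CyVal L a b Q) (hQ' : CyVal L a b Q') (hsub : Q ⊆ Q')
    (f : CyY → ℝ)
    (hup : ∀ y ∈ sdCells L a b, (CyK.up, y) ∉ Q → f (CyK.up, y) = f (CyK.eh, y) * f (CyK.ev, y) * f (CyK.ed, sdRed L (y + (1, 0))))
    (hdn : ∀ y ∈ sdCells L a b, (CyK.dn, y) ∉ Q →
      f (CyK.dn, y) = f (CyK.eh, y + (0, 1)) * f (CyK.ev, sdRed L (y + (1, 0))) * f (CyK.ed, sdRed L (y + (1, 0)))) :
    ∏ c ∈ (cyS x L a b Q' Γ).C \ Q, f c = ∏ c ∈ (cyS x L a b Q Γ).C \ Q, f c := by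
  classical
  -- kinds
  have kT : ∀ c ∈ Q', c.1 = CyK.up ∨ c.1 = CyK.dn := fun c hc => (cy_mem_tris.1 (hQ'.sub hc)).1
  have kE : ∀ c ∈ cyEdges L a b, c.1 = CyK.eh ∨ c.1 = CyK.ev ∨ c.1 = CyK.ed := fun c hc => by
    rcases cy_mem_edges.1 hc with h | h | h
    · exact Or.inl h.1
    · exact Or.inr (Or.inl h.1)
    · exact Or.inr (Or.inr h.1)
  have kS : ∀ c ∈ cySpokes L a b, c.1 = CyK.sn ∨ c.1 = CyK.ss := fun c hc => by
    rcases cy_mem_spokes.1 hc with h | h
    · exact Or.inl h.1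
    · exact Or.inr h.1
  have nTE : ∀ c ∈ Q', c ∉ cyEdges L a b := fun c hc hc' => by
    rcases kT c hc with h | h <;> rcases kE c hc' with h' | h' | h' <;> rw [h] at h' <;> cases h'
  have nTS : ∀ c ∈ Q', c ∉ cySpokes L a b := fun c hc hc' => by
    rcases kT c hc with h | h <;> rcases kS c hc' with h' | h' <;> rw [h] at h' <;> cases h'
  have nES : ∀ c ∈ cyEdges L a b, c ∉ cySpokes L a b := fun c hc hc' => by
    rcases kE c hc with h | h | h <;> rcases kS c hc' with h' | h' <;> rw [h] at h' <;> cases h'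
  -- the common part `M`, the dissolved edges `D`
  set M : Finset CyY := (cyEdges L a b).filter (fun e => cyTa L e ∉ Q' ∧ cyTb L e ∉ Q') ∪ cySpokes L a b with hM
  set D : Finset CyY := (cyEdges L a b).filter (fun e => (cyTa L e ∉ Q ∧ cyTb L e ∉ Q) ∧ (cyTa L e ∈ Q' ∨ cyTb L e ∈ Q')) with hD
  have mM : ∀ c, c ∈ M ↔ (c ∈ cyEdges L a b ∧ cyTa L c ∉ Q' ∧ cyTb L c ∉ Q') ∨ c ∈ cySpokes L a b := fun c => by
    rw [hM, Finset.mem_union, Finset.mem_filter]
  have mD : ∀ c, c ∈ D ↔ c ∈ cyEdges L a b ∧ (cyTa L c ∉ Q ∧ cyTb L c ∉ Q) ∧ (cyTa L c ∈ Q' ∨ cyTb L c ∈ Q') := fun c => by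
    rw [hD, Finset.mem_filter]
  have h1 : (cyS x L a b Q' Γ).C \ Q = (Q' \ Q) ∪ M := by
    ext c
    rw [Finset.mem_sdiff, cy_mem_C, Finset.mem_union, Finset.mem_sdiff, mM]
    constructor
    · rintro ⟨h | h | h, hc⟩
      · exact Or.inl ⟨h, hc⟩
      · exact Or.inr (Or.inl h)
      · exact Or.inr (Or.inr h)
    · rintro (h | h | h)
      · exact ⟨Or.inl h.1, h.2⟩
      · exact ⟨Or.inr (Or.inl h), fun hc => nTE c (hsub hc) h.1⟩
      · exact ⟨Or.inr (Or.inr h), fun hc => nTS c (hsub hc) h⟩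
  have h2 : (cyS x L a b Q Γ).C \ Q = D ∪ M := by
    ext c
    rw [Finset.mem_sdiff, cy_mem_C, Finset.mem_union, mD, mM]
    constructor
    · rintro ⟨h | h | h, hc⟩
      · exact absurd h hc
      · by_cases h' : cyTa L c ∈ Q' ∨ cyTb L c ∈ Q'
        · exact Or.inl ⟨h.1, h.2, h'⟩
        · rw [not_or] at h'
          exact Or.inr (Or.inl ⟨h.1, h'⟩)
      · exact Or.inr (Or.inr h)
    · rintro (h | h | h)
      · exact ⟨Or.inr (Or.inl ⟨h.1, h.2.1⟩), fun hc => nTE c (hsub hc) h.1⟩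
      · exact ⟨Or.inr (Or.inl ⟨h.1, fun k => h.2.1 (hsub k), fun k => h.2.2 (hsub k)⟩), fun hc => nTE c (hsub hc) h.1⟩
      · exact ⟨Or.inr (Or.inr h), fun hc => nTS c (hsub hc) h⟩
  have d1 : Disjoint (Q' \ Q) M := by
    rw [Finset.disjoint_left]
    intro c hc hc'
    rcases (mM c).1 hc' with h | h
    · exact nTE c (Finset.mem_sdiff.1 hc).1 h.1
    · exact nTS c (Finset.mem_sdiff.1 hc).1 h
  have d2 : Disjoint D M := by
    rw [Finset.disjoint_left]
    intro c hc hc'
    have hc1 := (mD c).1 hc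
    rcases (mM c).1 hc' with h | h
    · rcases hc1.2.2 with k | k
      · exact h.2.1 k
      · exact h.2.2 k
    · exact nES c hc1.1 h
  rw [h1, h2, Finset.prod_union d1, Finset.prod_union d2]
  congr 1
  -- fibres
  have hmaps : ∀ e ∈ D, (if cyTa L e ∈ Q' then cyTa L e else cyTb L e) ∈ Q' \ Q := by
    intro e he
    have he1 := (mD e).1 he
    by_cases k : cyTa L e ∈ Q'
    · rw [if_pos k]
      exact Finset.mem_sdiff.2 ⟨k, he1.2.1.1⟩
    · rw [if_neg k]
      exact Finset.mem_sdiff.2 ⟨he1.2.2.resolve_left k, he1.2.1.2⟩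
  rw [← Finset.prod_fiberwise_of_maps_to hmaps f]
  refine Finset.prod_congr rfl fun t ht => ?_
  obtain ⟨htQ', htQ⟩ := Finset.mem_sdiff.1 ht
  obtain ⟨k, y⟩ := t
  obtain ⟨hk, hy⟩ := cy_mem_tris.1 (hQ'.sub htQ')
  simp only at hk hy
  rcases hk with rfl | rfl
  · have hfib : D.filter (fun e => (if cyTa L e ∈ Q' then cyTa L e else cyTb L e) = (CyK.up, y))
        = {(CyK.eh, y), (CyK.ev, y), (CyK.ed, sdRed L (y + (1, 0)))} := by
      ext e
      rw [Finset.mem_filter, mD]
      simp only [Finset.mem_insert, Finset.mem_singleton]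
      rw [← cy_fib_up hL hy e]
      constructor
      · rintro ⟨⟨he, -, -⟩, hg⟩
        by_cases k : cyTa L e ∈ Q'
        · rw [if_pos k] at hg
          exact ⟨he, hg⟩
        · rw [if_neg k] at hg
          have := cy_Tb_kind L e
          rw [hg] at this
          cases this
      · rintro ⟨he, hTa⟩
        have k : cyTa L e ∈ Q' := by rw [hTa]; exact htQ'
        have k2 : cyTb L e ∉ Q' := fun k2 => hQ'.dis e he ⟨k, k2⟩
        refine ⟨⟨he, ⟨by rw [hTa]; exact htQ, fun k3 => k2 (hsub k3)⟩, Or.inl k⟩, ?_⟩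
        rw [if_pos k, hTa]
    rw [hfib, Finset.prod_insert (by simp), Finset.prod_insert (by simp), Finset.prod_singleton, hup y hy htQ, mul_assoc]
  · have hfib : D.filter (fun e => (if cyTa L e ∈ Q' then cyTa L e else cyTb L e) = (CyK.dn, y))
        = {(CyK.eh, y + (0, 1)), (CyK.ev, sdRed L (y + (1, 0))), (CyK.ed, sdRed L (y + (1, 0)))} := by
      ext e
      rw [Finset.mem_filter, mD]
      simp only [Finset.mem_insert, Finset.mem_singleton]
      rw [← cy_fib_dn hL hy e]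
      constructor
      · rintro ⟨⟨he, -, -⟩, hg⟩
        by_cases k : cyTa L e ∈ Q'
        · rw [if_pos k] at hg
          have := cy_Ta_kind L e
          rw [hg] at this
          cases this
        · rw [if_neg k] at hg
          exact ⟨he, hg⟩
      · rintro ⟨he, hTb⟩
        have k : cyTb L e ∈ Q' := by rw [hTb]; exact htQ'
        have k2 : cyTa L e ∉ Q' := fun k2 => hQ'.dis e he ⟨k2, k⟩
        refine ⟨⟨he, ⟨fun k3 => k2 (hsub k3), by rw [hTb]; exact htQ⟩, Or.inr k⟩, ?_⟩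
        rw [if_neg k2, hTb]
    rw [hfib, Finset.prod_insert (by simp), Finset.prod_insert (by simp), Finset.prod_singleton, hdn y hy htQ, mul_assoc]

theorem cy_red_idem (L : ℕ) (p : TV) : sdRed L (sdRed L p) = sdRed L p := by
  have := cy_red_red L p 0
  rwa [add_zero, add_zero] at this

/-- **(RC) RE-CELLING** (147 S6, N1; TEX l.86-90 "unused augmentations are marginalized"): selected triangles which nobody reads may be dissolved into their three edges.
`K`, `F` read the spins and the statuses of the triangles of `Q` only.   PROVED by 43.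
(a) abstract `cy_N_read`, `cy_recell`: summing out the status of a cell which is not read replaces its factor by the pair weight (`1`, `q`, `q`, `0`);  (b) `cy_pw_tri`: pair weight of a triangle of parameter `x²` = product of the pair weights of its 3 edges of parameter `x`;
(c) `cy_prod_recell`: fibres of the dissolved edges over `Q' \ Q`. -/
theorem cy_rc (x : ℝ) {L : ℕ} (hL : 3 ≤ L) {a b : ℤ} {Q Q' Γ : Finset CyY} (hQ : CyVal L a b Q) (hQ' : CyVal L a b Q') (hsub : Q ⊆ Q') (hΓ : Γ ⊆ Q)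
    (K : ClCfg TV CyY → Prop) (F : ClCfg TV CyY → ℝ) (hK : ClLocP (cyS x L a b Q Γ).A Q K) (hF : ClLoc (cyS x L a b Q Γ).A Q F) :
    (cyS x L a b Q' Γ).N K F = (cyS x L a b Q Γ).N K F := by
  have hL0 : 0 < L := by omega
  have hqT : ∀ c : CyY, c ∉ Q → (c.1 = CyK.up ∨ c.1 = CyK.dn) → (cyS x L a b Q Γ).q c = x ^ 2 := by
    intro c hc hk
    show (if c ∈ Γ then (1 : ℝ) else if c.1 = CyK.up ∨ c.1 = CyK.dn then x ^ 2 else x) = x ^ 2
    rw [if_neg (fun h => hc (hΓ h)), if_pos hk]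
  have hqE : ∀ c : CyY, (c.1 = CyK.eh ∨ c.1 = CyK.ev ∨ c.1 = CyK.ed) → (cyS x L a b Q Γ).q c = x := by
    intro c hk
    show (if c ∈ Γ then (1 : ℝ) else if c.1 = CyK.up ∨ c.1 = CyK.dn then x ^ 2 else x) = x
    have h0 : ¬ (c.1 = CyK.up ∨ c.1 = CyK.dn) := by
      rintro (h | h) <;> rcases hk with h' | h' | h' <;> rw [h] at h' <;> cases h'
    rw [if_neg (fun h => h0 (cy_mem_tris.1 (hQ.sub (hΓ h))).1), if_neg h0]
  refine cy_recell (cyS x L a b Q Γ) (cyS x L a b Q' Γ) rfl rfl rfl (R := Q) (fun c hc => cy_mem_C.2 (Or.inl hc))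
    (fun c hc => cy_mem_C.2 (Or.inl (hsub hc))) _ K F hK hF fun B W => ?_
  refine cy_prod_recell hL0 hQ hQ' hsub _ ?_ ?_
  · intro y hy hyQ
    rw [hqT _ hyQ (Or.inl rfl), hqE (CyK.eh, y) (Or.inl rfl), hqE (CyK.ev, y) (Or.inr (Or.inl rfl)),
      hqE (CyK.ed, sdRed L (y + (1, 0))) (Or.inr (Or.inr rfl))]
    have s0 : (cyS x L a b Q Γ).sv (CyK.up, y) = {sdRed L y, sdRed L (y + (1, 0)), sdRed L (y + (0, 1))} := by
      show cySv L (CyK.up, y) = _
      simp only [cySv, cellV, Finset.image_insert, Finset.image_singleton]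
    have s1 : (cyS x L a b Q Γ).sv (CyK.eh, y) = {sdRed L y, sdRed L (y + (1, 0))} := by
      show cySv L (CyK.eh, y) = _
      simp only [cySv, Finset.image_insert, Finset.image_singleton]
    have s2 : (cyS x L a b Q Γ).sv (CyK.ev, y) = {sdRed L y, sdRed L (y + (0, 1))} := by
      show cySv L (CyK.ev, y) = _
      simp only [cySv, Finset.image_insert, Finset.image_singleton]
    have s3 : (cyS x L a b Q Γ).sv (CyK.ed, sdRed L (y + (1, 0))) = {sdRed L (y + (1, 0)), sdRed L (y + (0, 1))} := by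
      show cySv L (CyK.ed, sdRed L (y + (1, 0))) = _
      simp only [cySv, Finset.image_insert, Finset.image_singleton]
      rw [cy_red_idem, cy_red_red]
      have : y + (1, 0) + (-1, 1) = y + (0, 1) := by ext <;> simp
      rw [this]
    rw [s0, s1, s2, s3]
    exact cy_pw_tri x B W _ _ _
  · intro y hy hyQ
    rw [hqT _ hyQ (Or.inr rfl), hqE (CyK.eh, y + (0, 1)) (Or.inl rfl), hqE (CyK.ev, sdRed L (y + (1, 0))) (Or.inr (Or.inl rfl)),
      hqE (CyK.ed, sdRed L (y + (1, 0))) (Or.inr (Or.inr rfl))]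
    have s0 : (cyS x L a b Q Γ).sv (CyK.dn, y) = {sdRed L (y + (1, 0)), sdRed L (y + (0, 1)), sdRed L (y + (1, 1))} := by
      show cySv L (CyK.dn, y) = _
      simp only [cySv, cellD, Finset.image_insert, Finset.image_singleton]
    have s1 : (cyS x L a b Q Γ).sv (CyK.eh, y + (0, 1)) = {sdRed L (y + (0, 1)), sdRed L (y + (1, 1))} := by
      show cySv L (CyK.eh, y + (0, 1)) = _
      simp only [cySv, Finset.image_insert, Finset.image_singleton]
      have : y + (0, 1) + (1, 0) = y + (1, 1) := by ext <;> simp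
      rw [this]
    have s2 : (cyS x L a b Q Γ).sv (CyK.ev, sdRed L (y + (1, 0))) = {sdRed L (y + (1, 0)), sdRed L (y + (1, 1))} := by
      show cySv L (CyK.ev, sdRed L (y + (1, 0))) = _
      simp only [cySv, Finset.image_insert, Finset.image_singleton]
      rw [cy_red_idem, cy_red_red]
      have : y + (1, 0) + (0, 1) = y + (1, 1) := by ext <;> simp
      rw [this]
    have s3 : (cyS x L a b Q Γ).sv (CyK.ed, sdRed L (y + (1, 0))) = {sdRed L (y + (1, 0)), sdRed L (y + (0, 1))} := by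
      show cySv L (CyK.ed, sdRed L (y + (1, 0))) = _
      simp only [cySv, Finset.image_insert, Finset.image_singleton]
      rw [cy_red_idem, cy_red_red]
      have : y + (1, 0) + (-1, 1) = y + (0, 1) := by ext <;> simp
      rw [this]
    rw [s0, s1, s2, s3, cy_pw_tri x B W _ _ _]
    ring

end Claimed.Agent.R291
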