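import Claimed.Agent.R291.Ann.ModelW

/-!
# Row 291 (S0539), ANN block A4, LAW SIDE : ABSTRACT TOOLS (ONE WHITE CUT, WHITE SEARCH, BAND ALTERNATIVE, RE-CELLING)      (architect helper5; prefix `cyo_` / `cyo` / `Cyo`)

TEX 09-annulus: TEX[annulus:one-white], TEX[annulus:search] (colours interchanged), TEX[annulus:duality] (probabilistic half), l.86-90 ("unused augmentations are marginalized").
Any cell system `ClSys V Y`; NO geometry.   Engines: `Ann/Model` (22, 46, 43, 62: `am_cut2`, `am_inv_iff`, `am_N2_fst`, `am_N2_snd`, `am_flipW_N`, `am_wt2_nonneg`, `am_powerset_marg`), `Dis/Amb` (`dam_` kit).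

* `S.neu Γ`        the cells of `Γ` get the parameter `1` (NEUTRALISED)
* `cyoTie S Γ`     the history "the second spin is constant on every cell of `Γ`" (LEGAL: the ties lie inside cells)
* **`cyo_white_N`**  ONE WHITE CUT.  `J` = a hole inside the domain `D`.  The law on `D \ J` with `W = +` on the layer towards `J` (and `B = s` on the layer of `D`)  =  the cut law `cuE (S.neu Γ) s D (ties)`, `Γ` = cells meeting `J`.
                   So `am_order`, `am_dom_plus`, `am_fkg` (PROVED, `Ann/Model`) apply VERBATIM to laws with one white cut.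
* **`cyo_wsearch`**  WHITE SEARCH: if every law above a white cut gives `F` the mean `≥ c`, then `c · P[the white invasion from O stops in 𝒥] ≤ E[F]`.   The two-colour law is hidden inside the proof.
* **`cyo_alt`**      union bound for a four-way alternative (two events of the `B`-statuses, two events of the `W`-statuses)
* **`cyo_marg`**     RE-CELLING: cells which nobody reads enter only through their pair weights `clPw`
CONVENTION for the colours: a constraint on the two spins is `K : Finset V → Finset V → Prop` (`K B W`).   `S.N (fun ω => K ω.B ω.W) F` reads the `B`-statuses; `S.N (fun η => K η.W η.B) F` reads the `W`-statuses (the first spin of `η` is `W`).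
-/

set_option autoImplicit false
set_option linter.unusedSectionVars false
set_option linter.unusedVariables false

namespace Claimed.Agent.R291

open Relation Claims Claims.C0467

section abstract

variable {V Y : Type} [DecidableEq V] [DecidableEq Y]

/-! `S.neu Γ` (the cells of `Γ` neutralised) = `ClSys.neu` of `Ann/ModelW` (22);   `clPw` (pair weight of a cell, status summed out) = `clPw` of `Ann/CylPair` (147) -/

/-- the history "the second spin is constant on every cell of `Γ`" -/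
def cyoTie (S : ClSys V Y) (Γ : Finset Y) : ClCon V Y := ⟨∅, ∅, Γ.biUnion (fun y => S.sv y ×ˢ S.sv y), ∅, ∅, ∅, ∅, ∅⟩

open Classical in
/-- indicator -/
noncomputable def cyoInd (L : ClCfg V Y → Prop) : ClCfg V Y → ℝ := fun ω => if L ω then 1 else 0

/-- a HOLE `J` of the domain `D`: the cells meeting `J` lie inside `D`, cover `J`, and their union is connected through them -/
structure CyoHole (S : ClSys V Y) (D J : Finset V) : Prop where
  subD : D ⊆ S.A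
  sub : J ⊆ D
  ne : J.Nonempty
  ins : ∀ y ∈ S.cmt J, S.sv y ⊆ D
  cov : J ⊆ (S.cmt J).biUnion S.sv
  con : ∀ U : Finset V, (∀ y ∈ S.cmt J, ClConst U (S.sv y)) → ClConst U ((S.cmt J).biUnion S.sv)

theorem cyo_eqns_cite : True := by
  have := @cyoTie.eq_1
  have := @cyoInd.eq_1
  trivial

/-! ## 1. neutralised systems, ties -/

theorem cyo_neu_ok (S : ClSys V Y) (hS : ClOk S) (Γ : Finset Y) : ClOk (S.neu Γ) := by
  refine ⟨hS.sub, hS.ne, fun y hy => ?_, fun y hy => ?_⟩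
  · show 0 < if y ∈ Γ then 1 else S.q y
    split_ifs
    · exact one_pos
    · exact hS.q0 y hy
  · show (if y ∈ Γ then 1 else S.q y) ≤ 1
    split_ifs
    · exact le_rfl
    · exact hS.q1 y hy

/-- the topological hypothesis does not see the parameters -/
theorem cyo_neu_disk (S : ClSys V Y) (hS : ClDisk S) (Γ : Finset Y) : ClDisk (S.neu Γ) :=
  { cyo_neu_ok S hS.toClOk Γ with
    card := hS.card
    conn := hS.conn
    split := hS.split }

theorem cyo_tie_legal (S : ClSys V Y) (Γ Γ' : Finset Y) (hΓ : Γ ⊆ S.C) : ClLegal (S.neu Γ') (cyoTie S Γ) := by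
  refine ⟨rfl, rfl, fun y _ ho => by simp [cyoTie] at ho, fun e he => ?_⟩
  obtain ⟨y, hy, hey⟩ := Finset.mem_biUnion.1 he
  obtain ⟨h1, h2⟩ := Finset.mem_product.1 hey
  exact ⟨y, hΓ hy, h1, h2⟩

theorem cyo_tie_in (S : ClSys V Y) (Γ Γ' : Finset Y) (D : Finset V) (h : ∀ y ∈ Γ, S.sv y ⊆ D) : (cyoTie S Γ).In (S.neu Γ') D := by
  refine ⟨Finset.empty_subset _, Finset.empty_subset _, fun e he => ?_, Finset.empty_subset _, Finset.empty_subset _,
    Finset.empty_subset _, Finset.empty_subset _, Finset.empty_subset _⟩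
  obtain ⟨y, hy, hey⟩ := Finset.mem_biUnion.1 he
  obtain ⟨h1, h2⟩ := Finset.mem_product.1 hey
  exact ⟨h y hy h1, h y hy h2⟩

theorem cyo_tie_holds (S S' : ClSys V Y) (Γ : Finset Y) (ω : ClCfg V Y) : (cyoTie S Γ).Holds S' ω ↔ ∀ y ∈ Γ, ClConst ω.W (S.sv y) := by
  have e : (cyoTie S Γ).Holds S' ω ↔ ∀ e ∈ Γ.biUnion (fun y => S.sv y ×ˢ S.sv y), (e.1 ∈ ω.W ↔ e.2 ∈ ω.W) := by
    simp [cyoTie, ClCon.Holds]
  rw [e]
  constructor
  · intro h y hy
    by_cases hc : S.sv y ⊆ ω.W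
    · exact Or.inl hc
    · obtain ⟨u, hu, huW⟩ := Finset.not_subset.1 hc
      refine Or.inr fun v hv hvW => huW ?_
      exact (h (v, u) (Finset.mem_biUnion.2 ⟨y, hy, Finset.mem_product.2 ⟨hv, hu⟩⟩)).1 hvW
  · intro h e he
    obtain ⟨y, hy, hey⟩ := Finset.mem_biUnion.1 he
    obtain ⟨h1, h2⟩ := Finset.mem_product.1 hey
    exact dis_const_iff (h y hy) h1 h2

theorem cyo_neu_mono (S : ClSys V Y) (Γ : Finset Y) (F : ClCfg V Y → ℝ) (hF : ClMono S F) : ClMono (S.neu Γ) F := hF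

theorem cyo_neu_cin (S : ClSys V Y) (Γ : Finset Y) (I : Finset V) : (S.neu Γ).cin I = S.cin I := rfl

theorem cyo_neu_lay (S : ClSys V Y) (Γ : Finset Y) (I : Finset V) : cuLay (S.neu Γ) I = cuLay S I := rfl

/-! ## 2. ONE WHITE CUT -/

/-- a cell which meets `J` lies in `J` + the layer towards `J` -/
theorem cyo_cmt_sub (S : ClSys V Y) (D J : Finset V) (hin : ∀ y ∈ S.cmt J, S.sv y ⊆ D) {y : Y} (hy : y ∈ S.cmt J) :
    S.sv y ⊆ J ∪ cuLay (S.inn D) (D \ J) := by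
  intro v hv
  by_cases hvJ : v ∈ J
  · exact Finset.mem_union_left _ hvJ
  · refine Finset.mem_union_right _ ((am_mem_lay _ _ _).2 ⟨Finset.mem_sdiff.2 ⟨hin y hy hv, hvJ⟩, y, ?_, hv, ?_⟩)
    · exact (am_mem_cin S D y).2 ⟨(Finset.mem_filter.1 hy).1, hin y hy⟩
    · intro hs
      obtain ⟨u, hu, huJ⟩ := (Finset.mem_filter.1 hy).2
      exact (Finset.mem_sdiff.1 (hs hu)).2 huJ

/-- (W1) all the cells meeting `J` are neutralised and `W = +` on them: `B` is free on `J`, the statuses of these cells are determined by `B`, nothing is felt on `D \ J`.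
PLAN: `X = S.inn D`.  Fibre the configurations of `X.neu Γ` over those of `S.inn (D \ J)`: `B = B₁ ∪ B₂` (`B₂ ⊆ J` free: `2^|J|`), `W = W₁ ∪ J`, `O = O₁ ∪ {y ∈ Γ | ClConst B (sv y)}` (every other choice on `Γ` has weight `0`:
`clCellW 1 bc True o = 1` iff `(o ↔ bc)`).   The cells inside `D` = (cells inside `D \ J`) ⊔ `Γ`.   Kit: `damRes`, `damMix` (`Dis/Amb`), `am_sum_powerset_split`. -/
theorem cyo_white_plus (S : ClSys V Y) (hS : ClOk S) (D J : Finset V) (hD : D ⊆ S.A) (hJ : J ⊆ D) (hin : ∀ y ∈ S.cmt J, S.sv y ⊆ D)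
    (K : ClCfg V Y → Prop) (hK : ClLocP (D \ J) (S.cin (D \ J)) K) (F : ClCfg V Y → ℝ) (hF : ClLoc (D \ J) (S.cin (D \ J)) F) :
    ((S.neu (S.cmt J)).inn D).N (fun ω => K ω ∧ J ∪ cuLay (S.inn D) (D \ J) ⊆ ω.W) F =
      2 ^ J.card * (S.inn (D \ J)).N (fun ω => cuLay (S.inn D) (D \ J) ⊆ ω.W ∧ K ω) F := by
  classical
  have hLsub : cuLay (S.inn D) (D \ J) ⊆ D \ J := Finset.filter_subset _ _
  have hcm : ∀ y ∈ S.cmt J, S.sv y ⊆ J ∪ cuLay (S.inn D) (D \ J) := fun y hy => cyo_cmt_sub S D J hin hy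
  generalize cuLay (S.inn D) (D \ J) = L at hLsub hcm ⊢
  have hT : S.cin (D \ J) ⊆ S.cin D := dde_cin_mono S Finset.sdiff_subset
  -- Step 1: the neutral cells are removed
  have h1 : ((S.neu (S.cmt J)).inn D).N (fun ω => K ω ∧ J ∪ L ⊆ ω.W) F
      = (⟨D, S.cin (D \ J), S.sv, S.q⟩ : ClSys V Y).N (fun ω => K ω ∧ J ∪ L ⊆ ω.W) F := by
    refine cp_rc ((S.neu (S.cmt J)).inn D) (⟨D, S.cin (D \ J), S.sv, S.q⟩ : ClSys V Y) rfl (S.cin (D \ J)) hT (Finset.Subset.refl _) (fun _ _ => rfl)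
      (fun y hy => ?_) _ F ?_ ?_ ?_
    · show (if y ∈ S.cmt J then 1 else S.q y) = S.q y
      refine if_neg fun hm => ?_
      obtain ⟨u, hu, huJ⟩ := (Finset.mem_filter.1 hm).2
      exact (Finset.mem_sdiff.1 (((am_mem_cin S _ y).1 hy).2 hu)).2 huJ
    · intro ω ω' e1 e2 e3
      refine and_congr (amw_locP_mono Finset.sdiff_subset (Finset.Subset.refl _) hK ω ω' e1 e2 e3) ?_
      have hsub : J ∪ L ⊆ D := Finset.union_subset hJ (hLsub.trans Finset.sdiff_subset)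
      exact ⟨fun h v hv => (amw_mem_of_inter e2 (hsub hv)).1 (h hv), fun h v hv => (amw_mem_of_inter e2 (hsub hv)).2 (h hv)⟩
    · exact dde_loc_mono Finset.sdiff_subset (Finset.Subset.refl _) hF
    · intro ω _ _ hω
      have e2 : (⟨D, S.cin (D \ J), S.sv, S.q⟩ : ClSys V Y).C \ S.cin (D \ J) = ∅ := Finset.sdiff_self _
      rw [e2, Finset.prod_empty]
      refine Finset.prod_eq_one fun y hy => ?_
      obtain ⟨hy1, hy2⟩ := Finset.mem_sdiff.1 hy
      obtain ⟨hyC, hyD⟩ := (am_mem_cin S D y).1 hy1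
      have hym : y ∈ S.cmt J := by
        by_contra hn
        exact hy2 ((am_mem_cin S _ y).2 ⟨hyC, fun v hv =>
          Finset.mem_sdiff.2 ⟨hyD hv, fun hvJ => hn (Finset.mem_filter.2 ⟨hyC, v, hv, hvJ⟩)⟩⟩)
      show clPw (if y ∈ S.cmt J then 1 else S.q y) (ClConst ω.B (S.sv y)) (ClConst ω.W (S.sv y)) = 1
      rw [if_pos hym]
      exact cp_pw_neutral _ _ (Or.inl ((hcm y hym).trans hω.2))
  rw [h1]
  -- Step 2: the sites of `J` carry no cell
  generalize hP : (fun ω : ClCfg V Y => K ω ∧ J ∪ L ⊆ ω.W) = P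
  generalize hQ : (fun ω : ClCfg V Y => L ⊆ ω.W ∧ K ω) = Q
  have hP' : ∀ ω, P ω ↔ (K ω ∧ J ∪ L ⊆ ω.W) := fun ω => by rw [← hP]
  have hQ' : ∀ ω, Q ω ↔ (L ⊆ ω.W ∧ K ω) := fun ω => by rw [← hQ]
  unfold ClSys.N
  rw [cl_sum_cfgs, cl_sum_cfgs]
  dsimp only [ClSys.inn]
  rw [am_sum_powerset_split D J hJ, Finset.mul_sum]
  refine Finset.sum_congr rfl fun B₁ hB₁ => ?_
  have key : ∀ B₂ ∈ J.powerset, (∑ W ∈ D.powerset, ∑ O ∈ (S.cin (D \ J)).powerset,
      if P ⟨B₁ ∪ B₂, W, O⟩ then (⟨D, S.cin (D \ J), S.sv, S.q⟩ : ClSys V Y).wt ⟨B₁ ∪ B₂, W, O⟩ * F ⟨B₁ ∪ B₂, W, O⟩ else 0)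
      = ∑ W ∈ (D \ J).powerset, ∑ O ∈ (S.cin (D \ J)).powerset,
      if Q ⟨B₁, W, O⟩ then (⟨D \ J, S.cin (D \ J), S.sv, S.q⟩ : ClSys V Y).wt ⟨B₁, W, O⟩ * F ⟨B₁, W, O⟩ else 0 := by
    intro B₂ hB₂
    have hB₂' := Finset.mem_powerset.1 hB₂
    rw [am_sum_powerset_split D J hJ]
    refine Finset.sum_congr rfl fun W₁ hW₁ => ?_
    have hW₁' := Finset.mem_powerset.1 hW₁
    rw [Finset.sum_eq_single J]
    · refine Finset.sum_congr rfl fun O _ => ?_
      have eB : (B₁ ∪ B₂) ∩ (D \ J) = B₁ ∩ (D \ J) := by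
        ext v
        have a2 := @hB₂' v
        simp only [Finset.mem_inter, Finset.mem_union, Finset.mem_sdiff]
        tauto
      have eW : (W₁ ∪ J) ∩ (D \ J) = W₁ ∩ (D \ J) := by
        ext v
        simp only [Finset.mem_inter, Finset.mem_union, Finset.mem_sdiff]
        tauto
      have eK : K ⟨B₁ ∪ B₂, W₁ ∪ J, O⟩ ↔ K ⟨B₁, W₁, O⟩ := hK _ _ eB eW rfl
      have eF : F ⟨B₁ ∪ B₂, W₁ ∪ J, O⟩ = F ⟨B₁, W₁, O⟩ := hF _ _ eB eW rfl
      have eL : J ∪ L ⊆ W₁ ∪ J ↔ L ⊆ W₁ := by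
        constructor
        · intro h v hv
          rcases Finset.mem_union.1 (h (Finset.mem_union_right _ hv)) with h3 | h3
          · exact h3
          · exact absurd h3 (Finset.mem_sdiff.1 (hLsub hv)).2
        · intro h
          exact Finset.union_subset Finset.subset_union_right (h.trans Finset.subset_union_left)
      have ewt : (⟨D, S.cin (D \ J), S.sv, S.q⟩ : ClSys V Y).wt ⟨B₁ ∪ B₂, W₁ ∪ J, O⟩
          = (⟨D \ J, S.cin (D \ J), S.sv, S.q⟩ : ClSys V Y).wt ⟨B₁, W₁, O⟩ := by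
        unfold ClSys.wt
        refine Finset.prod_congr rfl fun y hy => ?_
        have hsv : S.sv y ⊆ D \ J := ((am_mem_cin S _ y).1 hy).2
        have c1 : ClConst (B₁ ∪ B₂) (S.sv y) ↔ ClConst B₁ (S.sv y) := dam_const_congr fun v hv => amw_mem_of_inter eB (hsv hv)
        have c2 : ClConst (W₁ ∪ J) (S.sv y) ↔ ClConst W₁ (S.sv y) := dam_const_congr fun v hv => amw_mem_of_inter eW (hsv hv)
        unfold clCellW
        simp only [c1, c2]
      rw [eF, ewt]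
      exact if_congr (by rw [hP', hQ', eK]; show _ ∧ J ∪ L ⊆ W₁ ∪ J ↔ L ⊆ W₁ ∧ _; rw [eL]; exact and_comm) rfl rfl
    · intro W₂ hW₂ hne
      refine Finset.sum_eq_zero fun O _ => if_neg fun h0 => hne ?_
      have h := (hP' _).1 h0
      refine Finset.Subset.antisymm (Finset.mem_powerset.1 hW₂) fun v hv => ?_
      rcases Finset.mem_union.1 (h.2 (Finset.mem_union_left _ hv)) with h3 | h3
      · exact absurd hv (Finset.mem_sdiff.1 (hW₁' h3)).2
      · exact h3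
    · intro h
      exact absurd (Finset.mem_powerset.2 (Finset.Subset.refl _)) h
  rw [Finset.sum_congr rfl key, Finset.sum_const, Finset.card_powerset, nsmul_eq_mul]
  push_cast
  rfl

/-- (W2) a constraint which forces `W` to be constant on `Λ ≠ ∅`: the two labels have the same mass (global flip of `W`).   PLAN: `am_flipW_N`; `ClConst ω.W Λ` = `Λ ⊆ ω.W` or `Λ ∩ ω.W = ∅`, exclusive. -/
theorem cyo_label (S : ClSys V Y) (hS : ∀ y ∈ S.C, S.sv y ⊆ S.A) (Λ : Finset V) (hΛ : Λ ⊆ S.A) (hne : Λ.Nonempty) (K : ClCfg V Y → Prop)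
    (hKf : ∀ ω, K (ω.flipW S.A) ↔ K ω) (hKc : ∀ ω, K ω → ClConst ω.W Λ) (F : ClCfg V Y → ℝ) (hFf : ∀ ω, F (ω.flipW S.A) = F ω) :
    S.N K F = 2 * S.N (fun ω => K ω ∧ Λ ⊆ ω.W) F := by
  classical
  obtain ⟨c, hc⟩ := hne
  have hsplit : S.N K F = S.N (fun ω => K ω ∧ Λ ⊆ ω.W) F + S.N (fun ω => K ω ∧ ∀ v ∈ Λ, v ∉ ω.W) F := by
    unfold ClSys.N
    rw [← Finset.sum_add_distrib]
    refine Finset.sum_congr rfl fun ω _ => ?_
    by_cases hk : K ω
    · rcases hKc ω hk with h | h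
      · rw [if_pos hk, if_pos ⟨hk, h⟩, if_neg (fun h' => h'.2 c hc (h hc)), add_zero]
      · rw [if_pos hk, if_neg (fun h' => h c hc (h'.2 hc)), if_pos ⟨hk, h⟩, zero_add]
    · rw [if_neg hk, if_neg (fun h => hk h.1), if_neg (fun h => hk h.1), add_zero]
  have hflip : S.N (fun ω => K ω ∧ ∀ v ∈ Λ, v ∉ ω.W) F = S.N (fun ω => K ω ∧ Λ ⊆ ω.W) F := by
    rw [am_flipW_N S hS]
    congr 1
    · funext ω
      apply propext
      refine and_congr (hKf ω) ?_
      show (∀ v ∈ Λ, v ∉ S.A \ ω.W) ↔ _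
      constructor
      · intro h v hv
        by_contra hn
        exact h v hv (Finset.mem_sdiff.2 ⟨hΛ hv, hn⟩)
      · intro h v hv hm
        exact (Finset.mem_sdiff.1 hm).2 (h hv)
    · funext ω
      exact hFf ω
  rw [hsplit, hflip]
  ring

/-- the union of the cells meeting `J` = `J` + the layer towards `J` -/
theorem cyo_hole_union (S : ClSys V Y) (D J : Finset V) (h : CyoHole S D J) : (S.cmt J).biUnion S.sv = J ∪ cuLay (S.inn D) (D \ J) := by
  refine Finset.Subset.antisymm ?_ ?_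
  · intro v hv
    obtain ⟨y, hy, hvy⟩ := Finset.mem_biUnion.1 hv
    exact cyo_cmt_sub S D J h.ins hy hvy
  · intro v hv
    rcases Finset.mem_union.1 hv with hvJ | hvL
    · exact h.cov hvJ
    · obtain ⟨_, y, hy, hvy, hn⟩ := (am_mem_lay _ _ _).1 hvL
      obtain ⟨hyC, hyD⟩ := (am_mem_cin S D y).1 hy
      obtain ⟨u, hu, hun⟩ := Finset.not_subset.1 hn
      have huJ : u ∈ J := by
        by_contra hc
        exact hun (Finset.mem_sdiff.2 ⟨hyD hu, hc⟩)
      exact Finset.mem_biUnion.2 ⟨y, Finset.mem_filter.2 ⟨hyC, u, hu, huJ⟩, hvy⟩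

/-- the layer of `D` does not meet the hole -/
theorem cyo_hole_lay (S : ClSys V Y) (D J : Finset V) (h : CyoHole S D J) : cuLay S D ⊆ D \ J := by
  intro u hu
  obtain ⟨huD, y, hy, huy, hn⟩ := (am_mem_lay _ _ _).1 hu
  refine Finset.mem_sdiff.2 ⟨huD, fun huJ => hn (h.ins y (Finset.mem_filter.2 ⟨hy, u, huy, huJ⟩))⟩

/-! ### PRODUCERS of `CyoHole`      (typed + proved by helper47, instance marshal, 07:40Z; consumer: `Ann/CylSym` of helper5, with the `J` of `cyo_wsearch`) -/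

/-- a domain whose layer does not meet `J` contains the cells meeting `J` (field `ins`) -/
theorem cyo_ins_of_lay (S : ClSys V Y) (D J : Finset V) (hJ : J ⊆ D) (hl : Disjoint J (cuLay S D)) : ∀ y ∈ S.cmt J, S.sv y ⊆ D := by
  intro y hy
  obtain ⟨hyC, u, hu, huJ⟩ := Finset.mem_filter.1 hy
  by_contra hn
  exact Finset.disjoint_left.1 hl huJ ((am_mem_lay _ _ _).2 ⟨hJ huJ, y, hyC, hu, hn⟩)

/-- `CyoHole` from: `J` is covered by cells and TIED by the cells which meet it -/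
theorem cyo_hole_of_tied (S : ClSys V Y) (D J : Finset V) (hD : D ⊆ S.A) (hne : J.Nonempty) (hcov : ∀ v ∈ J, ∃ y ∈ S.C, v ∈ S.sv y)
    (hins : ∀ y ∈ S.cmt J, S.sv y ⊆ D) (hJc : ∀ U : Finset V, (∀ y ∈ S.cmt J, ClConst U (S.sv y)) → ClConst U J) : CyoHole S D J := by
  have hcell : ∀ v ∈ J, ∃ y ∈ S.cmt J, v ∈ S.sv y := fun v hv => by
    obtain ⟨y, hy, hvy⟩ := hcov v hv
    exact ⟨y, Finset.mem_filter.2 ⟨hy, v, hvy, hv⟩, hvy⟩
  refine ⟨hD, fun v hv => ?_, hne, hins, fun v hv => ?_, fun U hU => ?_⟩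
  · obtain ⟨y, hy, hvy⟩ := hcell v hv
    exact hins y hy hvy
  · obtain ⟨y, hy, hvy⟩ := hcell v hv
    exact Finset.mem_biUnion.2 ⟨y, hy, hvy⟩
  · obtain ⟨o, ho⟩ := hne
    have hJU := hJc U hU
    have hall : ∀ w ∈ (S.cmt J).biUnion S.sv, (w ∈ U ↔ o ∈ U) := fun w hw => by
      obtain ⟨y, hy, hwy⟩ := Finset.mem_biUnion.1 hw
      obtain ⟨-, u, hu, huJ⟩ := Finset.mem_filter.1 hy
      rw [← dis_const_iff hJU huJ ho]
      exact dis_const_iff (hU y hy) hwy hu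
    by_cases hoU : o ∈ U
    · exact Or.inl fun w hw => (hall w hw).2 hoU
    · exact Or.inr fun w hw h => hoU ((hall w hw).1 h)

/-- an invaded set is tied by the cells which meet it, as soon as its start is -/
theorem cyo_inv_tied (X : ClSys V Y) (hX : ∀ y ∈ X.C, X.sv y ⊆ X.A) (O : Finset V) (hO : O ⊆ X.A) (s : Bool) (η : ClCfg V Y) (U : Finset V)
    (hUO : ClConst U O) (hU : ∀ y ∈ X.cmt (clInv X s ∅ η O), ClConst U (X.sv y)) : ClConst U (clInv X s ∅ η O) := by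
  classical
  set J := clInv X s ∅ η O with hJ
  have hmem : ∀ v, v ∈ J ↔ v ∈ X.A ∧ ∃ u ∈ O, ReflTransGen (clStep X s ∅ η) u v := fun v => by
    rw [hJ]; unfold clInv; exact Finset.mem_filter
  have hOJ : O ⊆ J := fun u hu => (hmem u).2 ⟨hO hu, u, hu, ReflTransGen.refl⟩
  rcases O.eq_empty_or_nonempty with rfl | ⟨o, ho⟩
  · exact Or.inr fun v hv => by
      obtain ⟨-, u, hu, -⟩ := (hmem v).1 hv
      exact absurd hu (Finset.notMem_empty u)
  have key : ∀ u ∈ O, ∀ v, ReflTransGen (clStep X s ∅ η) u v → v ∈ J ∧ (v ∈ U ↔ o ∈ U) := by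
    intro u hu v huv
    induction huv with
    | refl => exact ⟨hOJ hu, dis_const_iff hUO hu ho⟩
    | tail hab hbc ih =>
      rename_i b c
      rcases hbc with ⟨y, hy, hby, hcy, hτ⟩ | h | h
      · refine ⟨(hmem c).2 ⟨hX y hy hcy, u, hu, hab.tail (Or.inl ⟨y, hy, hby, hcy, hτ⟩)⟩, ?_⟩
        rw [← ih.2]
        exact dis_const_iff (hU y (Finset.mem_filter.2 ⟨hy, b, hby, ih.1⟩)) hcy hby
      · exact absurd h (Finset.notMem_empty _)
      · exact absurd h (Finset.notMem_empty _)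
  have hJU : ∀ v ∈ J, (v ∈ U ↔ o ∈ U) := fun v hv => by
    obtain ⟨-, u, hu, huv⟩ := (hmem v).1 hv
    exact (key u hu v huv).2
  by_cases hoU : o ∈ U
  · exact Or.inl fun w hw => (hJU w hw).2 hoU
  · exact Or.inr fun w hw h => hoU ((hJU w hw).1 h)

/-- the start of an invasion is invaded -/
theorem cyo_inv_start (X : ClSys V Y) (O : Finset V) (hO : O ⊆ X.A) (s : Bool) (η : ClCfg V Y) : O ⊆ clInv X s ∅ η O := by
  classical
  intro u hu
  unfold clInv
  exact Finset.mem_filter.2 ⟨hO hu, u, hu, ReflTransGen.refl⟩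

/-- **PRODUCER of `CyoHole`, invasion INSIDE the domain** (`X = S.inn D`: the system of `cyo_wsearch` when the search runs in `D`): the set invaded from a start `O` tied by its cells, if it stays off the layer of `D`. -/
theorem cyo_hole_inv (S : ClSys V Y) (D O : Finset V) (hD : D ⊆ S.A) (hO : O ⊆ D) (hne : O.Nonempty) (hcov : ∀ v ∈ D, ∃ y ∈ S.C, v ∈ S.sv y)
    (hOc : ∀ U : Finset V, (∀ y ∈ S.cmt O, ClConst U (S.sv y)) → ClConst U O) (s : Bool) (η : ClCfg V Y)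
    (hl : Disjoint (clInv (S.inn D) s ∅ η O) (cuLay S D)) : CyoHole S D (clInv (S.inn D) s ∅ η O) := by
  classical
  have hJD : clInv (S.inn D) s ∅ η O ⊆ D := fun v hv => by
    unfold clInv at hv
    exact (Finset.mem_filter.1 hv).1
  have hOJ := cyo_inv_start (S.inn D) O hO s η
  refine cyo_hole_of_tied S D _ hD (hne.mono hOJ) (fun v hv => hcov v (hJD hv)) (cyo_ins_of_lay S D _ hJD hl) fun U hU => ?_
  refine cyo_inv_tied (S.inn D) (fun y hy => ((am_mem_cin S D y).1 hy).2) O hO s η U (hOc U fun y hy => ?_) fun y hy => ?_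
  · obtain ⟨hyC, u, hu, huO⟩ := Finset.mem_filter.1 hy
    exact hU y (Finset.mem_filter.2 ⟨hyC, u, hu, hOJ huO⟩)
  · obtain ⟨hyC, u, hu, huJ⟩ := Finset.mem_filter.1 hy
    exact hU y (Finset.mem_filter.2 ⟨((am_mem_cin S D y).1 hyC).1, u, hu, huJ⟩)

/-- **PRODUCER of `CyoHole`, `D` = the whole system**: exactly the `J` of `cyo_wsearch` (`hc` there gives `∃ η, clInv S true ∅ η O = J`). -/
theorem cyo_hole_inv_top (S : ClSys V Y) (hS : ClOk S) (O : Finset V) (hO : O ⊆ S.A) (hne : O.Nonempty) (hcov : ∀ v ∈ S.A, ∃ y ∈ S.C, v ∈ S.sv y)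
    (hOc : ∀ U : Finset V, (∀ y ∈ S.cmt O, ClConst U (S.sv y)) → ClConst U O) (s : Bool) (η : ClCfg V Y) : CyoHole S S.A (clInv S s ∅ η O) := by
  classical
  have hJA : clInv S s ∅ η O ⊆ S.A := fun v hv => by
    unfold clInv at hv
    exact (Finset.mem_filter.1 hv).1
  have hOJ := cyo_inv_start S O hO s η
  refine cyo_hole_of_tied S S.A _ (Finset.Subset.refl _) (hne.mono hOJ) (fun v hv => hcov v (hJA hv))
    (fun y hy => hS.sub y (Finset.mem_filter.1 hy).1) fun U hU => ?_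
  refine cyo_inv_tied S hS.sub O hO s η U (hOc U fun y hy => ?_) hU
  obtain ⟨hyC, u, hu, huO⟩ := Finset.mem_filter.1 hy
  exact hU y (Finset.mem_filter.2 ⟨hyC, u, hu, hOJ huO⟩)

/-- **ONE WHITE CUT**, unnormalised.   `F` does not read `W`.
PLAN: `cyo_label` in `(S.neu Γ).inn D` with `Λ = ⋃ Γ` (`cyo_tie_holds`, `h.con`), then `cyo_white_plus` with `K = CuPin s (cuLay S D)` (`cyo_hole_lay`), `cyo_hole_union`. -/
theorem cyo_white_N (S : ClSys V Y) (hS : ClOk S) (D J : Finset V) (h : CyoHole S D J) (s : Bool) (F : ClCfg V Y → ℝ)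
    (hF : ClLoc (D \ J) (S.cin (D \ J)) F) (hFW : ∀ ω ω' : ClCfg V Y, ω.B = ω'.B → ω.O = ω'.O → F ω = F ω') :
    ((S.neu (S.cmt J)).inn D).N (fun ω => CuPin s (cuLay (S.neu (S.cmt J)) D) ω ∧ (cyoTie S (S.cmt J)).Holds (S.neu (S.cmt J)) ω) F =
      2 ^ (J.card + 1) * (S.inn (D \ J)).N (fun ω => cuLay (S.inn D) (D \ J) ⊆ ω.W ∧ CuPin s (cuLay S D) ω) F := by
  classical
  have hU := cyo_hole_union S D J h
  have hΛD : (S.cmt J).biUnion S.sv ⊆ D := fun v hv => by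
    obtain ⟨y, hy, hvy⟩ := Finset.mem_biUnion.1 hv
    exact h.ins y hy hvy
  have hne : ((S.cmt J).biUnion S.sv).Nonempty := by
    obtain ⟨j, hj⟩ := h.ne
    exact ⟨j, h.cov hj⟩
  have hsub : ∀ y ∈ ((S.neu (S.cmt J)).inn D).C, ((S.neu (S.cmt J)).inn D).sv y ⊆ ((S.neu (S.cmt J)).inn D).A :=
    fun y hy => ((am_mem_cin S D y).1 hy).2
  have h1 := cyo_label ((S.neu (S.cmt J)).inn D) hsub ((S.cmt J).biUnion S.sv) hΛD hne
    (fun ω => CuPin s (cuLay (S.neu (S.cmt J)) D) ω ∧ (cyoTie S (S.cmt J)).Holds (S.neu (S.cmt J)) ω)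
    (fun ω => by
      refine and_congr Iff.rfl ?_
      rw [cyo_tie_holds, cyo_tie_holds]
      refine forall_congr' fun y => forall_congr' fun hy => ?_
      exact am_const_flip (h.ins y hy))
    (fun ω hω => h.con ω.W ((cyo_tie_holds _ _ _ _).1 hω.2))
    F (fun ω => hFW _ _ rfl rfl)
  rw [h1]
  have hev : (fun ω : ClCfg V Y => (CuPin s (cuLay (S.neu (S.cmt J)) D) ω ∧ (cyoTie S (S.cmt J)).Holds (S.neu (S.cmt J)) ω) ∧
      (S.cmt J).biUnion S.sv ⊆ ω.W) = fun ω => CuPin s (cuLay S D) ω ∧ J ∪ cuLay (S.inn D) (D \ J) ⊆ ω.W := by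
    funext ω
    apply propext
    rw [hU]
    constructor
    · rintro ⟨⟨a, -⟩, b⟩
      exact ⟨a, b⟩
    · rintro ⟨a, b⟩
      refine ⟨⟨a, (cyo_tie_holds _ _ _ _).2 fun y hy => Or.inl fun v hv => b ?_⟩, b⟩
      rw [← hU]
      exact Finset.mem_biUnion.2 ⟨y, hy, hv⟩
  rw [hev]
  have hKl : ClLocP (D \ J) (S.cin (D \ J)) (fun ω : ClCfg V Y => CuPin s (cuLay S D) ω) := by
    intro ω ω' e1 _ _
    unfold CuPin
    exact forall_congr' fun v => forall_congr' fun hv => by rw [amw_mem_of_inter e1 (cyo_hole_lay S D J h hv)]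
  rw [cyo_white_plus S hS D J h.subD h.sub h.ins _ hKl F hF, pow_succ]
  ring

/-- **ONE WHITE CUT** -/
theorem cyo_white (S : ClSys V Y) (hS : ClOk S) (D J : Finset V) (h : CyoHole S D J) (s : Bool) (F : ClCfg V Y → ℝ)
    (hF : ClLoc (D \ J) (S.cin (D \ J)) F) (hFW : ∀ ω ω' : ClCfg V Y, ω.B = ω'.B → ω.O = ω'.O → F ω = F ω') :
    cuE (S.neu (S.cmt J)) s D ((cyoTie S (S.cmt J)).Holds (S.neu (S.cmt J))) F =
      (S.inn (D \ J)).E (fun ω => cuLay (S.inn D) (D \ J) ⊆ ω.W ∧ CuPin s (cuLay S D) ω) F := by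
  have h1 := cyo_white_N S hS D J h s F hF hFW
  have h2 := cyo_white_N S hS D J h s (fun _ => 1) (fun _ _ _ _ _ => rfl) (fun _ _ _ _ => rfl)
  unfold cuE
  rw [dis_E_eq, dis_E_eq, dis_Z_eq, dis_Z_eq, h1, h2]
  have hp : (2 : ℝ) ^ (J.card + 1) ≠ 0 := by positivity
  rw [mul_div_mul_left _ _ hp]

/-- feasibility is transported -/
theorem cyo_white_Z (S : ClSys V Y) (hS : ClOk S) (D J : Finset V) (h : CyoHole S D J) (s : Bool)
    (hf : 0 < (S.inn (D \ J)).Z (fun ω => cuLay (S.inn D) (D \ J) ⊆ ω.W ∧ CuPin s (cuLay S D) ω)) :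
    0 < ((S.neu (S.cmt J)).inn D).Z (fun ω => CuPin s (cuLay (S.neu (S.cmt J)) D) ω ∧ (cyoTie S (S.cmt J)).Holds (S.neu (S.cmt J)) ω) := by
  have h2 := cyo_white_N S hS D J h s (fun _ => 1) (fun _ _ _ _ _ => rfl) (fun _ _ _ _ => rfl)
  rw [dis_Z_eq] at hf ⊢
  rw [h2]
  positivity

/-- the constant configuration: a constraint which holds at `B = B₀` (`∅` or everything), `W` = everything, all cells open, is feasible -/
theorem cyo_feas_const (S : ClSys V Y) (hS : ClOk S) (s : Bool) (K : ClCfg V Y → Prop) (hK : K ⟨if s then S.A else ∅, S.A, S.C⟩) : 0 < S.Z K := by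
  classical
  have hnn : ∀ ω : ClCfg V Y, 0 ≤ S.wt ω := dam_wt_nonneg S (fun y hy => ⟨(hS.q0 y hy).le, hS.q1 y hy⟩)
  have hmem : (⟨if s then S.A else ∅, S.A, S.C⟩ : ClCfg V Y) ∈ S.cfgs := by
    rw [cl_mem_cfgs]
    refine ⟨?_, Finset.Subset.refl _, Finset.Subset.refl _⟩
    show (if s then S.A else ∅) ⊆ S.A
    split_ifs
    · exact Finset.Subset.refl _
    · exact Finset.empty_subset _
  have hpos : 0 < S.wt ⟨if s then S.A else ∅, S.A, S.C⟩ := by
    unfold ClSys.wt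
    refine Finset.prod_pos fun y hy => ?_
    have hc : ClConst (if s then S.A else ∅) (S.sv y) := by
      split_ifs
      · exact Or.inl (hS.sub y hy)
      · exact Or.inr fun v _ => Finset.notMem_empty v
    show 0 < clCellW (S.q y) (ClConst (if s then S.A else ∅) (S.sv y)) (ClConst S.A (S.sv y)) (y ∈ S.C)
    unfold clCellW
    rw [if_pos hy, if_pos hc]
    exact hS.q0 y hy
  unfold ClSys.Z
  refine lt_of_lt_of_le ?_ (Finset.single_le_sum (f := fun ω => if K ω then S.wt ω else 0) (fun ω _ => ?_) hmem)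
  · show 0 < if K _ then _ else _
    rw [if_pos hK]
    exact hpos
  · show 0 ≤ if K ω then S.wt ω else 0
    split_ifs
    · exact hnn ω
    · exact le_rfl

/-! ## 3. WHITE SEARCH -/

/-- the white cut law with both statuses, read in the first colour -/
theorem cyo_ws_E2 (S : ClSys V Y) (I : Finset V) (Kin : Finset V → Finset V → Prop) (F : ClCfg V Y → ℝ) :
    cuE2 S false true I (fun ω => Kin ω.B ω.W) (fun ω => F ω.fst) = (S.inn I).E (fun ω => cuLay S I ⊆ ω.W ∧ Kin ω.B ω.W) F := by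
  have e : (fun ω : ClCfg2 V Y => CuPin true (cuLay S I) (ω.col false) ∧ Kin ω.B ω.W) =
      fun ω : ClCfg2 V Y => (fun η : ClCfg V Y => cuLay S I ⊆ η.W ∧ Kin η.B η.W) ω.fst := by
    funext ω
    apply propext
    have e1 : CuPin true (cuLay S I) (ω.col false) ↔ cuLay S I ⊆ ω.W :=
      ⟨fun h v hv => (h v hv).2 rfl, fun h v hv => ⟨fun _ => rfl, fun _ => h hv⟩⟩
    exact and_congr_left fun _ => e1
  unfold cuE2 ClSys.E2 ClSys.Z2
  rw [dis_E_eq, dis_Z_eq, e, am_N2_fst (S.inn I) (fun η => cuLay S I ⊆ η.W ∧ Kin η.B η.W) F,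
    ← am_N2_fst (S.inn I) (fun η => cuLay S I ⊆ η.W ∧ Kin η.B η.W) (fun _ => 1)]

/-- **WHITE SEARCH**.   `O` = start of the invasion, `𝒥` = the admissible values of the invaded set, `Dn` = a far region which no `J ∈ 𝒥` meets; `Kin` reads the spins on `Dn`, `Kout` the spins on `O`, `F ≥ 0` the `B`-statuses and spins in `Dn`.
PLAN: (1) `am_N2_fst`: RHS `= S.N2 (K ω.B ω.W) (F ω.fst)`; (2) weights `≥ 0` (`am_wt2_nonneg`), the events `{clInv S true ∅ ω.snd O = J}`, `J ∈ 𝒥`, are disjoint: RHS `≥ ∑ J ∈ 𝒥, S.N2 (K ∧ inv = J) (F ω.fst)`;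
(3) `am_inv_iff` (`E = ∅`) + `am_cut2` (`c = false`, `s = true`, `I = S.A \ J`, `Kout' = Kout ∧ clInv (S.inn J) true ∅ ω.snd O = J`, `G = 1`): the `J`-th term `= p_J * cuE2 S false true I Kin F`;
(4) `am_N2_fst` in `S.inn I` (numerator and denominator): `cuE2 … = (S.inn I).E (lay ⊆ W ∧ Kin) F`; if the inner `Z` vanishes then `p_J = 0` (take `F = 1` in (3)); (5) `∑ p_J` = LHS by `am_N2_snd`. -/
theorem cyo_wsearch (S : ClSys V Y) (hS : ClOk S) (h12 : ∀ y ∈ S.C, 1 / 2 ≤ S.q y) (O Dn : Finset V) (𝒥 : Finset (Finset V))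
    (h𝒥 : ∀ J ∈ 𝒥, O ⊆ J ∧ J ⊆ S.A ∧ Disjoint J Dn) (hDn : Dn ⊆ S.A) (Kin Kout : Finset V → Finset V → Prop)
    (hin : ∀ B W B' W' : Finset V, B ∩ Dn = B' ∩ Dn → W ∩ Dn = W' ∩ Dn → (Kin B W ↔ Kin B' W'))
    (hout : ∀ B W B' W' : Finset V, B ∩ O = B' ∩ O → W ∩ O = W' ∩ O → (Kout B W ↔ Kout B' W'))
    (F : ClCfg V Y → ℝ) (hF : ClLoc Dn (S.cin Dn) F) (hF0 : ∀ ω, 0 ≤ F ω) (c : ℝ)
    (hc : ∀ J ∈ 𝒥, (∃ η : ClCfg V Y, clInv S true ∅ η O = J) →
      c ≤ (S.inn (S.A \ J)).E (fun ω => cuLay S (S.A \ J) ⊆ ω.W ∧ Kin ω.B ω.W) F) :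
    c * S.Z (fun η => (Kin η.W η.B ∧ Kout η.W η.B) ∧ clInv S true ∅ η O ∈ 𝒥) ≤ S.N (fun ω => Kin ω.B ω.W ∧ Kout ω.B ω.W) F := by
  classical
  have hw : ∀ ω : ClCfg2 V Y, 0 ≤ S.wt2 ω := am_wt2_nonneg S h12 hS.q1
  set K2 : ClCfg2 V Y → Prop := fun ω => Kin ω.B ω.W ∧ Kout ω.B ω.W with hK2
  set a : Finset V → ℝ := fun J => S.N2 K2 (fun ω => if clInv S true ∅ (ω.col false) O = J then (1 : ℝ) else 0) with ha
  set b : Finset V → ℝ := fun J => S.N2 K2 (fun ω => if clInv S true ∅ (ω.col false) O = J then (1 : ℝ) * F ω.fst else 0) with hb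
  -- the search
  have hs : ∀ J ∈ 𝒥, b J = a J * (S.inn (S.A \ J)).E (fun ω => cuLay S (S.A \ J) ⊆ ω.W ∧ Kin ω.B ω.W) F := by
    intro J hJ
    obtain ⟨hOJ, hJA, hJD⟩ := h𝒥 J hJ
    have hDI : Dn ⊆ S.A \ J := fun v hv => Finset.mem_sdiff.2 ⟨hDn hv, fun h => Finset.disjoint_left.1 hJD h hv⟩
    rw [← cyo_ws_E2]
    exact amw_search2 S hS h12 false true O J hOJ hJA (fun ω => Kin ω.B ω.W) (fun ω => Kout ω.B ω.W)
      (fun ω ω' h1 h2 _ _ => hin _ _ _ _ (dde_inter_mono hDI h1) (dde_inter_mono hDI h2))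
      (fun ω ω' h1 h2 _ _ => hout _ _ _ _ (dde_inter_mono hOJ h1) (dde_inter_mono hOJ h2))
      (fun _ => 1) (fun ω => F ω.fst) (fun _ _ _ _ _ _ => rfl)
      (fun ω ω' h1 h2 h3 _ => hF _ _ (dde_inter_mono hDI h1) (dde_inter_mono hDI h2) (dde_inter_mono (dde_cin_mono S hDI) h3))
  have ha0 : ∀ J, 0 ≤ a J := by
    intro J
    refine Finset.sum_nonneg fun ω _ => ?_
    beta_reduce
    split_ifs
    · exact mul_nonneg (hw ω) zero_le_one
    · exact (mul_zero _).ge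
    · exact le_rfl
  have hJ1 : ∀ J ∈ 𝒥, c * a J ≤ b J := by
    intro J hJ
    rw [hs J hJ, mul_comm]
    by_cases h0 : a J = 0
    · rw [h0, zero_mul, zero_mul]
    · refine mul_le_mul_of_nonneg_left (hc J hJ ?_) (ha0 J)
      by_contra hne
      push Not at hne
      refine h0 (Finset.sum_eq_zero fun ω _ => ?_)
      beta_reduce
      rw [if_neg (hne (ω.col false)), mul_zero, ite_self]
  -- the two sums
  have e1 : S.Z (fun η => (Kin η.W η.B ∧ Kout η.W η.B) ∧ clInv S true ∅ η O ∈ 𝒥) = ∑ J ∈ 𝒥, a J := by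
    rw [dis_Z_eq, ← am_N2_snd S (fun η => (Kin η.W η.B ∧ Kout η.W η.B) ∧ clInv S true ∅ η O ∈ 𝒥) (fun _ => 1)]
    simp only [ha]
    unfold ClSys.N2
    rw [Finset.sum_comm]
    refine Finset.sum_congr rfl fun ω _ => ?_
    have e : ω.col false = ω.snd := rfl
    have e3 : ω.snd.B = ω.W := rfl
    have e4 : ω.snd.W = ω.B := rfl
    beta_reduce
    rw [e, e3, e4]
    by_cases hk : K2 ω
    · simp only [if_pos hk]
      rw [← Finset.mul_sum, Finset.sum_ite_eq]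
      by_cases hm : clInv S true ∅ ω.snd O ∈ 𝒥
      · rw [if_pos ⟨hk, hm⟩, if_pos hm]
      · rw [if_neg (fun h => hm h.2), if_neg hm, mul_zero]
    · simp only [if_neg hk]
      rw [if_neg (fun h => hk h.1), Finset.sum_const_zero]
  have e2 : ∑ J ∈ 𝒥, b J ≤ S.N (fun ω => Kin ω.B ω.W ∧ Kout ω.B ω.W) F := by
    rw [← am_N2_fst S (fun ω => Kin ω.B ω.W ∧ Kout ω.B ω.W) F]
    simp only [hb]
    unfold ClSys.N2
    rw [Finset.sum_comm]
    refine Finset.sum_le_sum fun ω _ => ?_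
    have e3 : ω.fst.B = ω.B := rfl
    have e4 : ω.fst.W = ω.W := rfl
    beta_reduce
    rw [e3, e4]
    by_cases hk : K2 ω
    · simp only [if_pos hk]
      rw [if_pos hk, ← Finset.mul_sum, Finset.sum_ite_eq]
      refine mul_le_mul_of_nonneg_left ?_ (hw ω)
      split_ifs
      · rw [one_mul]
      · exact hF0 _
    · simp only [if_neg hk]
      rw [if_neg hk, Finset.sum_const_zero]
  calc c * S.Z (fun η => (Kin η.W η.B ∧ Kout η.W η.B) ∧ clInv S true ∅ η O ∈ 𝒥) = ∑ J ∈ 𝒥, c * a J := by rw [e1, Finset.mul_sum]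
    _ ≤ ∑ J ∈ 𝒥, b J := Finset.sum_le_sum hJ1
    _ ≤ _ := e2

/-! ## 4. the four-way alternative -/

/-- PLAN: `am_N2_fst`, `am_N2_snd`, `am_wt2_nonneg`: `S.Z K = S.N2 K 1 ≤ ∑ S.N2 K 1_{A_i}`. -/
theorem cyo_alt (S : ClSys V Y) (hS : ClOk S) (h12 : ∀ y ∈ S.C, 1 / 2 ≤ S.q y) (K : Finset V → Finset V → Prop) (A₁ A₂ A₃ A₄ : ClCfg V Y → Prop)
    (halt : ∀ ω : ClCfg2 V Y, ω ∈ S.cfgs2 → S.wt2 ω ≠ 0 → A₁ ω.fst ∨ A₂ ω.fst ∨ A₃ ω.snd ∨ A₄ ω.snd) :
    S.Z (fun ω => K ω.B ω.W) ≤ S.N (fun ω => K ω.B ω.W) (cyoInd A₁) + S.N (fun ω => K ω.B ω.W) (cyoInd A₂)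
      + S.N (fun η => K η.W η.B) (cyoInd A₃) + S.N (fun η => K η.W η.B) (cyoInd A₄) :=
  cp_alt S h12 hS.q1 K A₁ A₂ A₃ A₄ halt

/-! ## 5. re-celling -/

/-- **RE-CELLING, abstract**: `X` = the cells which are read.
PLAN: `cl_sum_cfgs`; for fixed `B`, `W` split `O = O₁ ∪ O₂`, `O₁ ⊆ X` (`am_sum_powerset_split`), sum out `O₂` (`am_sum_powerset_prod` / `am_powerset_marg`): `∑_o clCellW q bc wc o = clPw q bc wc`. -/
theorem cyo_marg (S S' : ClSys V Y) (hA : S.A = S'.A) (X : Finset Y) (hX : X ⊆ S.C) (hX' : X ⊆ S'.C) (hsv : ∀ y ∈ X, S.sv y = S'.sv y)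
    (hq : ∀ y ∈ X, S.q y = S'.q y)
    (hw : ∀ B ⊆ S.A, ∀ W ⊆ S.A, ∏ y ∈ S.C \ X, clPw (S.q y) (ClConst B (S.sv y)) (ClConst W (S.sv y)) =
      ∏ y ∈ S'.C \ X, clPw (S'.q y) (ClConst B (S'.sv y)) (ClConst W (S'.sv y)))
    (K : ClCfg V Y → Prop) (F : ClCfg V Y → ℝ) (hK : ClLocP S.A X K) (hF : ClLoc S.A X F) : S.N K F = S'.N K F :=
  cp_rc S S' hA X hX hX' hsv hq K F hK hF fun ω hB hW _ => hw ω.B hB ω.W hW

/-- the pair weight of a triangle of parameter `x²` is the product of the pair weights of its three edges of parameter `x` -/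
theorem cyo_pw_tri (x : ℝ) (B W : Finset V) (a b c : V) (hab : a ≠ b) (hac : a ≠ c) (hbc : b ≠ c) :
    clPw (x ^ 2) (ClConst B {a, b, c}) (ClConst W {a, b, c}) =
      clPw x (ClConst B {a, b}) (ClConst W {a, b}) * clPw x (ClConst B {a, c}) (ClConst W {a, c}) * clPw x (ClConst B {b, c}) (ClConst W {b, c}) := by
  have h3 : ∀ P : Finset V, ClConst P {a, b, c} ↔ ((a ∈ P ∧ b ∈ P ∧ c ∈ P) ∨ (a ∉ P ∧ b ∉ P ∧ c ∉ P)) := by
    intro P
    unfold ClConst
    simp [Finset.insert_subset_iff]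
  have h2 : ∀ (P : Finset V) (u v : V), ClConst P {u, v} ↔ ((u ∈ P ∧ v ∈ P) ∨ (u ∉ P ∧ v ∉ P)) := by
    intro P u v
    unfold ClConst
    simp [Finset.insert_subset_iff]
  unfold clPw
  simp only [h3, h2]
  by_cases a1 : a ∈ B <;> by_cases a2 : b ∈ B <;> by_cases a3 : c ∈ B <;> by_cases b1 : a ∈ W <;> by_cases b2 : b ∈ W <;>
    by_cases b3 : c ∈ W <;> simp [a1, a2, a3, b1, b2, b3, sq]

/-! ## 6. isomorphisms and sub-systems -/

theorem cyo_img_sub {V' : Type} [DecidableEq V'] {φ : V → V'} {A s t : Finset V} (hinj : Set.InjOn φ ↑A) (hs : s ⊆ A) (ht : t ⊆ A) :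
    s.image φ ⊆ t.image φ ↔ s ⊆ t := by
  refine ⟨fun h u hu => ?_, Finset.image_subset_image⟩
  obtain ⟨v, hv, hvu⟩ := Finset.mem_image.1 (h (Finset.mem_image_of_mem φ hu))
  rw [← hinj (Finset.mem_coe.2 (ht hv)) (Finset.mem_coe.2 (hs hu)) hvu]
  exact hv

theorem cyo_iso_inn {V' Y' : Type} [DecidableEq V'] [DecidableEq Y'] (S : ClSys V Y) (S' : ClSys V' Y') (φ : V → V') (ψ : Y → Y') (h : CuIso S S' φ ψ)
    (hS : ∀ y ∈ S.C, S.sv y ⊆ S.A) (I : Finset V) (hI : I ⊆ S.A) : CuIso (S.inn I) (S'.inn (I.image φ)) φ ψ := by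
  refine ⟨h.injV.mono (Finset.coe_subset.2 hI), h.injY.mono (Finset.coe_subset.2 (Finset.filter_subset _ _)), rfl, ?_,
    fun y hy => h.sv y ((am_mem_cin S I y).1 hy).1, fun y hy => h.q y ((am_mem_cin S I y).1 hy).1⟩
  show (S.cin I).image ψ = S'.cin (I.image φ)
  ext y'
  rw [Finset.mem_image, am_mem_cin]
  constructor
  · rintro ⟨y, hy, rfl⟩
    obtain ⟨h1, h2⟩ := (am_mem_cin S I y).1 hy
    refine ⟨h.C ▸ Finset.mem_image_of_mem ψ h1, ?_⟩
    rw [h.sv y h1]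
    exact Finset.image_subset_image h2
  · rintro ⟨h1, h2⟩
    rw [← h.C] at h1
    obtain ⟨y, hy, rfl⟩ := Finset.mem_image.1 h1
    rw [h.sv y hy] at h2
    exact ⟨y, (am_mem_cin S I y).2 ⟨hy, (cyo_img_sub h.injV (hS y hy) hI).1 h2⟩, rfl⟩

theorem cyo_iso_lay {V' Y' : Type} [DecidableEq V'] [DecidableEq Y'] (S : ClSys V Y) (S' : ClSys V' Y') (φ : V → V') (ψ : Y → Y') (h : CuIso S S' φ ψ)
    (hS : ∀ y ∈ S.C, S.sv y ⊆ S.A) (I : Finset V) (hI : I ⊆ S.A) : cuLay S' (I.image φ) = (cuLay S I).image φ := by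
  ext u'
  rw [am_mem_lay]
  constructor
  · rintro ⟨hu', y', hy', hu'y, hn⟩
    refine Finset.mem_image.2 ?_
    obtain ⟨u, hu, rfl⟩ := Finset.mem_image.1 hu'
    rw [← h.C] at hy'
    obtain ⟨y, hy, rfl⟩ := Finset.mem_image.1 hy'
    rw [h.sv y hy] at hu'y hn
    obtain ⟨v, hv, hvu⟩ := Finset.mem_image.1 hu'y
    have e : v = u := h.injV (Finset.mem_coe.2 (hS y hy hv)) (Finset.mem_coe.2 (hI hu)) hvu
    refine ⟨u, (am_mem_lay S I u).2 ⟨hu, y, hy, e ▸ hv, fun hs => hn (Finset.image_subset_image hs)⟩, rfl⟩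
  · intro hm
    obtain ⟨u, hu, rfl⟩ := Finset.mem_image.1 hm
    obtain ⟨huI, y, hy, huy, hn⟩ := (am_mem_lay S I u).1 hu
    refine ⟨Finset.mem_image_of_mem φ huI, ψ y, h.C ▸ Finset.mem_image_of_mem ψ hy, ?_, ?_⟩
    · rw [h.sv y hy]
      exact Finset.mem_image_of_mem φ huy
    · rw [h.sv y hy]
      exact fun hs => hn ((cyo_img_sub h.injV (hS y hy) hI).1 hs)

end abstract

end Claimed.Agent.R291
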