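import Claimed.Agent.R291.Ann.Model
import Claimed.Agent.R291.Ann.CylKit

/-!
# Row 291 (S0539), ANN block A4, LAW SIDE : THE PAIR CALCULUS      (owner helper147; prefix `cp_`, defs `clPw`, `clKw`, `clKer`)

ABSTRACT tools (any `ClSys V Y`) which the fields of `CyLaw` (5: `Ann/CylInst`) need on top of A0 (`Ann/Model`, 22):
* (a) MARG / RC   `cp_rc` : two systems on the same sites which share the cells `T` that are READ, and whose other cells have the same product of PAIR WEIGHTS (on the constraint), have the same sums.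
      Contains: summing out unread statuses, re-celling (triangle = 3 edges), dropping neutral cells (`q = 1`, `W` tied).
* (b) NEUT-W      `cp_neutW` : product formula across a set `I` all of whose crossing cells are neutral (`q = 1`) and carry a constant `W`.
* (c) LBL         `cp_lbl` : exact label formula, one tied connected set: `N(K) F = 2 N(K + label) F`.
* (d) KERNEL      `clKer S T G B W` = conditional expectation of a status observable given the pair `(B, W)`; `cp_tower`; `cp_swap` (colour exchange for pair observables):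
      a test which reads `B` statuses enters a search in the colour `W` as the PAIR FUNCTION `clKer` (147 S6).
* (e) ALT         `cp_alt` number form of the four-way alternative (two-colour law of 22/26), `cy_alt_det` the deterministic alternative on periodic status fields (`pls_cyl_set` of 112).
-/

set_option autoImplicit false
set_option linter.unusedSectionVars false
set_option linter.unusedVariables false
set_option linter.unusedSimpArgs false

namespace Claimed.Agent.R291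

open Relation Claims Claims.C0467

/-! ## 0. one cell -/

/-- pair weight of one cell: `1` if both spins are constant, `q` if exactly one is, `0` otherwise -/
def clPw (q : ℝ) (bc wc : Prop) [Decidable bc] [Decidable wc] : ℝ :=
  if bc then (if wc then 1 else q) else (if wc then q else 0)

/-- status kernel of one cell: conditional weight of the status given the pair -/
def clKw (q : ℝ) (bc wc o : Prop) [Decidable bc] [Decidable wc] [Decidable o] : ℝ :=
  if bc then (if wc then (if o then q else 1 - q) else (if o then 1 else 0)) else (if o then 0 else 1)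

theorem cp_cellW (q : ℝ) (bc wc o : Prop) [Decidable bc] [Decidable wc] [Decidable o] :
    clCellW q bc wc o = clPw q bc wc * clKw q bc wc o := by
  unfold clCellW clPw clKw
  split_ifs <;> ring

theorem cp_cellW_sum (q : ℝ) (bc wc : Prop) [Decidable bc] [Decidable wc] :
    clCellW q bc wc True + clCellW q bc wc False = clPw q bc wc := by
  unfold clCellW clPw
  simp only [if_true, if_false]
  split_ifs <;> ring

theorem cp_kw_sum (q : ℝ) (bc wc : Prop) [Decidable bc] [Decidable wc] : clKw q bc wc True + clKw q bc wc False = 1 := by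
  unfold clKw
  simp only [if_true, if_false]
  split_ifs <;> ring

theorem cp_kw_nonneg {q : ℝ} (h0 : 0 ≤ q) (h1 : q ≤ 1) (bc wc o : Prop) [Decidable bc] [Decidable wc] [Decidable o] : 0 ≤ clKw q bc wc o := by
  unfold clKw
  split_ifs <;> linarith

theorem cp_pw_nonneg {q : ℝ} (h0 : 0 ≤ q) (bc wc : Prop) [Decidable bc] [Decidable wc] : 0 ≤ clPw q bc wc := by
  unfold clPw
  split_ifs <;> linarith

theorem cp_pw_comm (q : ℝ) (bc wc : Prop) [Decidable bc] [Decidable wc] : clPw q bc wc = clPw q wc bc := by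
  unfold clPw
  split_ifs <;> rfl

/-- a neutral cell with a constant second spin has pair weight `1` -/
theorem cp_pw_neutral (bc wc : Prop) [Decidable bc] [Decidable wc] (h : wc) : clPw 1 bc wc = 1 := by
  unfold clPw
  split_ifs <;> rfl

/-- the subsets of `T ∪ R`: the factors of `R` are summed out -/
theorem cp_pow_split {α : Type} [DecidableEq α] (T R : Finset α) (hd : Disjoint T R) (c : α → Prop → ℝ) (f : Finset α → ℝ)
    (hf : ∀ O, f O = f (O ∩ T)) :
    ∑ O ∈ (T ∪ R).powerset, (∏ y ∈ T ∪ R, c y (y ∈ O)) * f O =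
      (∏ y ∈ R, (c y True + c y False)) * ∑ O ∈ T.powerset, (∏ y ∈ T, c y (y ∈ O)) * f O := by
  induction R using Finset.induction_on with
  | empty => simp
  | @insert a R ha ih =>
    have hd' : Disjoint T R := hd.mono_right (Finset.subset_insert a R)
    have haT : a ∉ T := fun h => Finset.disjoint_left.1 hd h (Finset.mem_insert_self a R)
    have haU : a ∉ T ∪ R := by
      rw [Finset.mem_union]
      tauto
    rw [Finset.union_insert, Finset.sum_powerset_insert haU, Finset.prod_insert ha, mul_assoc, ← ih hd', add_mul, Finset.mul_sum, Finset.mul_sum,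
      add_comm]
    congr 1
    · refine Finset.sum_congr rfl fun O hO => ?_
      have hO' := Finset.mem_powerset.1 hO
      rw [Finset.prod_insert haU, eq_true (Finset.mem_insert_self a O), mul_assoc]
      congr 1
      congr 1
      · refine Finset.prod_congr rfl fun y hy => ?_
        have hya : y ≠ a := fun h => haU (h ▸ hy)
        rw [Finset.mem_insert, eq_false hya, false_or]
      · rw [hf (insert a O), hf O, Finset.insert_inter_of_notMem haT]
    · refine Finset.sum_congr rfl fun O hO => ?_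
      have hO' := Finset.mem_powerset.1 hO
      rw [Finset.prod_insert haU, eq_false (fun h => haU (hO' h)), mul_assoc]

section abstract

variable {V Y : Type} [DecidableEq V] [DecidableEq Y]

/-- pair weight of the cell `y` -/
def ClSys.pw (S : ClSys V Y) (B W : Finset V) (y : Y) : ℝ := clPw (S.q y) (ClConst B (S.sv y)) (ClConst W (S.sv y))

theorem cp_wtP (S : ClSys V Y) (B W : Finset V) : S.wtP B W = ∏ y ∈ S.C, S.pw B W y := rfl

/-- partial summation over the statuses: the cells off `T` are not read -/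
theorem cp_sum_part (S : ClSys V Y) (T : Finset Y) (hT : T ⊆ S.C) (B W : Finset V) (f : Finset Y → ℝ) (hf : ∀ O, f O = f (O ∩ T)) :
    ∑ O ∈ S.C.powerset, S.wt ⟨B, W, O⟩ * f O =
      (∏ y ∈ S.C \ T, S.pw B W y) * ∑ O ∈ T.powerset, (∏ y ∈ T, S.fac ⟨B, W, O⟩ y) * f O := by
  classical
  have h := cp_pow_split T (S.C \ T) Finset.disjoint_sdiff
    (fun y p => clCellW (S.q y) (ClConst B (S.sv y)) (ClConst W (S.sv y)) p) f hf
  rw [Finset.union_sdiff_of_subset hT] at h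
  unfold ClSys.wt ClSys.fac ClSys.pw
  rw [Finset.prod_congr rfl fun y _ => (cp_cellW_sum (S.q y) (ClConst B (S.sv y)) (ClConst W (S.sv y))).symm]
  convert h using 6


/-! ## (a) MARG / RC -/

/-- **(a) MARG / RC**.   `T` = the cells which are read; the other cells of the two systems have the same product of pair weights, at least on the constraint.
USES: unread statuses are summed out (`S₂` = `S₁` with other cells), re-celling (triangle `x²` = three edges `x`), dropping neutral tied cells. -/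
theorem cp_rc (S₁ S₂ : ClSys V Y) (hA : S₁.A = S₂.A) (T : Finset Y) (h₁ : T ⊆ S₁.C) (h₂ : T ⊆ S₂.C)
    (hsv : ∀ y ∈ T, S₁.sv y = S₂.sv y) (hq : ∀ y ∈ T, S₁.q y = S₂.q y)
    (K : ClCfg V Y → Prop) (F : ClCfg V Y → ℝ) (hK : ClLocP S₁.A T K) (hF : ClLoc S₁.A T F)
    (hw : ∀ ω : ClCfg V Y, ω.B ⊆ S₁.A → ω.W ⊆ S₁.A → K ω →
      ∏ y ∈ S₁.C \ T, S₁.pw ω.B ω.W y = ∏ y ∈ S₂.C \ T, S₂.pw ω.B ω.W y) :
    S₁.N K F = S₂.N K F := by
  classical
  unfold ClSys.N
  rw [cl_sum_cfgs, cl_sum_cfgs, ← hA]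
  refine Finset.sum_congr rfl fun B hB => Finset.sum_congr rfl fun W hW => ?_
  rw [Finset.mem_powerset] at hB hW
  have hf : ∀ O : Finset Y, (if K ⟨B, W, O⟩ then F ⟨B, W, O⟩ else 0) = (if K ⟨B, W, O ∩ T⟩ then F ⟨B, W, O ∩ T⟩ else 0) := by
    intro O
    have e : O ∩ T = O ∩ T ∩ T := by rw [Finset.inter_assoc, Finset.inter_self]
    rw [hF ⟨B, W, O⟩ ⟨B, W, O ∩ T⟩ rfl rfl e]
    exact if_congr (hK ⟨B, W, O⟩ ⟨B, W, O ∩ T⟩ rfl rfl e) rfl rfl
  have e1 := cp_sum_part S₁ T h₁ B W (fun O => if K ⟨B, W, O⟩ then F ⟨B, W, O⟩ else 0) hf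
  have e2 := cp_sum_part S₂ T h₂ B W (fun O => if K ⟨B, W, O⟩ then F ⟨B, W, O⟩ else 0) hf
  simp only [mul_ite, mul_zero] at e1 e2
  rw [e1, e2, Finset.mul_sum, Finset.mul_sum]
  refine Finset.sum_congr rfl fun O _ => ?_
  by_cases hk : K ⟨B, W, O⟩
  · rw [if_pos hk, if_pos hk, hw ⟨B, W, O⟩ hB hW hk]
    congr 2
    refine Finset.prod_congr rfl fun y hy => ?_
    unfold ClSys.fac
    rw [hsv y hy, hq y hy]
  · rw [if_neg hk, if_neg hk, mul_zero, mul_zero]

/-- normalised form of `cp_rc` -/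
theorem cp_rc_E (S₁ S₂ : ClSys V Y) (hA : S₁.A = S₂.A) (T : Finset Y) (h₁ : T ⊆ S₁.C) (h₂ : T ⊆ S₂.C)
    (hsv : ∀ y ∈ T, S₁.sv y = S₂.sv y) (hq : ∀ y ∈ T, S₁.q y = S₂.q y)
    (K : ClCfg V Y → Prop) (F : ClCfg V Y → ℝ) (hK : ClLocP S₁.A T K) (hF : ClLoc S₁.A T F)
    (hw : ∀ ω : ClCfg V Y, ω.B ⊆ S₁.A → ω.W ⊆ S₁.A → K ω →
      ∏ y ∈ S₁.C \ T, S₁.pw ω.B ω.W y = ∏ y ∈ S₂.C \ T, S₂.pw ω.B ω.W y) :
    S₁.E K F = S₂.E K F := by
  rw [dis_E_eq, dis_E_eq, dis_Z_eq, dis_Z_eq, cp_rc S₁ S₂ hA T h₁ h₂ hsv hq K F hK hF hw,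
    cp_rc S₁ S₂ hA T h₁ h₂ hsv hq K (fun _ => 1) hK (fun _ _ _ _ _ => rfl) hw]

/-! ## (d) the kernel -/

/-- conditional expectation of `G` given the pair `(B, W)`: the statuses of the cells `T` are drawn with the kernel of `S` (`S` enters through `sv`, `q` only) -/
def clKer (S : ClSys V Y) (T : Finset Y) (G : ClCfg V Y → ℝ) (B W : Finset V) : ℝ :=
  ∑ O ∈ T.powerset, (∏ y ∈ T, clKw (S.q y) (ClConst B (S.sv y)) (ClConst W (S.sv y)) (y ∈ O)) * G ⟨B, W, O⟩

theorem cp_N_ker_aux (S : ClSys V Y) (T : Finset Y) (hT : T ⊆ S.C) (κ : Finset V → Finset V → Prop) [∀ B W, Decidable (κ B W)] (F : ClCfg V Y → ℝ)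
    (hF : ∀ B W O, F ⟨B, W, O⟩ = F ⟨B, W, O ∩ T⟩) :
    S.N (fun ω => κ ω.B ω.W) F =
      ∑ B ∈ S.A.powerset, ∑ W ∈ S.A.powerset, if κ B W then S.wtP B W * clKer S T F B W else 0 := by
  unfold ClSys.N
  rw [cl_sum_cfgs]
  refine Finset.sum_congr rfl fun B _ => Finset.sum_congr rfl fun W _ => ?_
  by_cases hk : κ B W
  · rw [if_pos hk]
    have e0 : ∑ O ∈ S.C.powerset, (if κ B W then S.wt ⟨B, W, O⟩ * F ⟨B, W, O⟩ else 0) = ∑ O ∈ S.C.powerset, S.wt ⟨B, W, O⟩ * F ⟨B, W, O⟩ :=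
      Finset.sum_congr rfl fun O _ => if_pos hk
    refine Eq.trans ?_ (e0.trans ?_)
    · refine Finset.sum_congr rfl fun O _ => ?_
      rw [if_pos hk, if_pos hk]
    rw [cp_sum_part S T hT B W (fun O => F ⟨B, W, O⟩) (fun O => hF B W O), cp_wtP, ← Finset.prod_sdiff hT, mul_assoc]
    congr 1
    unfold clKer
    rw [Finset.mul_sum]
    refine Finset.sum_congr rfl fun O _ => ?_
    rw [← mul_assoc, ← Finset.prod_mul_distrib]
    congr 1
    refine Finset.prod_congr rfl fun y _ => ?_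
    exact cp_cellW _ _ _ _
  · rw [if_neg hk]
    refine Finset.sum_eq_zero fun O _ => ?_
    exact if_neg hk

/-- sums of pair observables -/
theorem cp_N_pair (S : ClSys V Y) (κ : Finset V → Finset V → Prop) [∀ B W, Decidable (κ B W)] (g : Finset V → Finset V → ℝ) :
    S.N (fun ω => κ ω.B ω.W) (fun ω => g ω.B ω.W) =
      ∑ B ∈ S.A.powerset, ∑ W ∈ S.A.powerset, if κ B W then S.wtP B W * g B W else 0 := by
  rw [cp_N_ker_aux S ∅ (Finset.empty_subset _) κ (fun ω => g ω.B ω.W) (fun _ _ _ => rfl)]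
  refine Finset.sum_congr rfl fun B _ => Finset.sum_congr rfl fun W _ => ?_
  have : clKer S ∅ (fun ω => g ω.B ω.W) B W = g B W := by
    unfold clKer
    simp
  rw [this]

/-- sums of observables which read the statuses of `T` only -/
theorem cp_N_ker (S : ClSys V Y) (T : Finset Y) (hT : T ⊆ S.C) (κ : Finset V → Finset V → Prop) [∀ B W, Decidable (κ B W)] (F : ClCfg V Y → ℝ)
    (hF : ∀ B W O, F ⟨B, W, O⟩ = F ⟨B, W, O ∩ T⟩) :
    S.N (fun ω => κ ω.B ω.W) F =
      ∑ B ∈ S.A.powerset, ∑ W ∈ S.A.powerset, if κ B W then S.wtP B W * clKer S T F B W else 0 := by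
  exact cp_N_ker_aux S T hT κ F hF

/-- **TOWER**: a status observable may be replaced by its kernel -/
theorem cp_tower (S : ClSys V Y) (T : Finset Y) (hT : T ⊆ S.C) (κ : Finset V → Finset V → Prop) (F : ClCfg V Y → ℝ)
    (hF : ∀ B W O, F ⟨B, W, O⟩ = F ⟨B, W, O ∩ T⟩) :
    S.N (fun ω => κ ω.B ω.W) F = S.N (fun ω => κ ω.B ω.W) (fun ω => clKer S T F ω.B ω.W) := by
  classical
  rw [cp_N_ker S T hT κ F hF, cp_N_pair S κ (clKer S T F)]

theorem cp_wtP_comm (S : ClSys V Y) (B W : Finset V) : S.wtP B W = S.wtP W B := by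
  rw [cp_wtP, cp_wtP]
  exact Finset.prod_congr rfl fun y _ => cp_pw_comm _ _ _

/-- **COLOUR EXCHANGE** for pair observables -/
theorem cp_swap (S : ClSys V Y) (κ : Finset V → Finset V → Prop) (g : Finset V → Finset V → ℝ) :
    S.N (fun ω => κ ω.W ω.B) (fun ω => g ω.W ω.B) = S.N (fun ω => κ ω.B ω.W) (fun ω => g ω.B ω.W) := by
  classical
  rw [cp_N_pair S κ g, cp_N_pair S (fun B W => κ W B) (fun B W => g W B), Finset.sum_comm]
  refine Finset.sum_congr rfl fun B _ => Finset.sum_congr rfl fun W _ => ?_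
  rw [cp_wtP_comm]

/-- pair observables only see the sites and the pair weight (the two systems may have different types of cells) -/
theorem cp_pair_congr {Y' : Type} [DecidableEq Y'] (S : ClSys V Y) (S' : ClSys V Y') (hA : S.A = S'.A) (κ : Finset V → Finset V → Prop)
    (g : Finset V → Finset V → ℝ) (hw : ∀ B ⊆ S.A, ∀ W ⊆ S.A, κ B W → S.wtP B W = S'.wtP B W) :
    S.N (fun ω => κ ω.B ω.W) (fun ω => g ω.B ω.W) = S'.N (fun ω => κ ω.B ω.W) (fun ω => g ω.B ω.W) := by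
  classical
  rw [cp_N_pair S κ g, cp_N_pair S' κ g, ← hA]
  refine Finset.sum_congr rfl fun B hB => Finset.sum_congr rfl fun W hW => ?_
  by_cases hk : κ B W
  · rw [if_pos hk, if_pos hk, hw B (Finset.mem_powerset.1 hB) W (Finset.mem_powerset.1 hW) hk]
  · rw [if_neg hk, if_neg hk]

theorem cp_ker_nonneg (S : ClSys V Y) (T : Finset Y) (h0 : ∀ y ∈ T, 0 ≤ S.q y) (h1 : ∀ y ∈ T, S.q y ≤ 1) (G : ClCfg V Y → ℝ) (hG : ∀ ω, 0 ≤ G ω)
    (B W : Finset V) : 0 ≤ clKer S T G B W :=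
  Finset.sum_nonneg fun O _ => mul_nonneg (Finset.prod_nonneg fun y hy => cp_kw_nonneg (h0 y hy) (h1 y hy) _ _ _) (hG _)

theorem cp_ker_res_aux (S : ClSys V Y) (T T' : Finset Y) (hT : T' ⊆ T) (G : ClCfg V Y → ℝ) (hG : ∀ B W O, G ⟨B, W, O⟩ = G ⟨B, W, O ∩ T'⟩)
    (B W : Finset V) : clKer S T G B W = clKer S T' G B W := by
  classical
  have h := cp_pow_split T' (T \ T') Finset.disjoint_sdiff
    (fun y p => clKw (S.q y) (ClConst B (S.sv y)) (ClConst W (S.sv y)) p) (fun O => G ⟨B, W, O⟩) (fun O => hG B W O)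
  rw [Finset.union_sdiff_of_subset hT] at h
  have h1 : ∏ y ∈ T \ T', (clKw (S.q y) (ClConst B (S.sv y)) (ClConst W (S.sv y)) True + clKw (S.q y) (ClConst B (S.sv y)) (ClConst W (S.sv y)) False) = 1 :=
    Finset.prod_eq_one fun y _ => cp_kw_sum _ _ _
  unfold clKer
  have h2 : (1 : ℝ) * ∑ O ∈ T'.powerset, (∏ y ∈ T', clKw (S.q y) (ClConst B (S.sv y)) (ClConst W (S.sv y)) (y ∈ O)) * G ⟨B, W, O⟩ =
      ∑ O ∈ T'.powerset, (∏ y ∈ T', clKw (S.q y) (ClConst B (S.sv y)) (ClConst W (S.sv y)) (y ∈ O)) * G ⟨B, W, O⟩ := one_mul _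
  rw [← h2, ← h1]
  convert h using 6

theorem cp_ker_one (S : ClSys V Y) (T : Finset Y) (B W : Finset V) : clKer S T (fun _ => 1) B W = 1 := by
  rw [cp_ker_res_aux S T ∅ (Finset.empty_subset _) (fun _ => 1) (fun _ _ _ => rfl)]
  unfold clKer
  simp

theorem cp_ker_mono (S : ClSys V Y) (T : Finset Y) (h0 : ∀ y ∈ T, 0 ≤ S.q y) (h1 : ∀ y ∈ T, S.q y ≤ 1) (G G' : ClCfg V Y → ℝ) (hG : ∀ ω, G ω ≤ G' ω)
    (B W : Finset V) : clKer S T G B W ≤ clKer S T G' B W :=
  Finset.sum_le_sum fun O _ => mul_le_mul_of_nonneg_left (hG _) (Finset.prod_nonneg fun y hy => cp_kw_nonneg (h0 y hy) (h1 y hy) _ _ _)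

theorem cp_ker_add (S : ClSys V Y) (T : Finset Y) (G G' : ClCfg V Y → ℝ) (B W : Finset V) :
    clKer S T (fun ω => G ω + G' ω) B W = clKer S T G B W + clKer S T G' B W := by
  unfold clKer
  rw [← Finset.sum_add_distrib]
  exact Finset.sum_congr rfl fun O _ => mul_add _ _ _

/-- the kernel only sees `sv`, `q` on `T` -/
theorem cp_ker_congr (S S' : ClSys V Y) (T : Finset Y) (hsv : ∀ y ∈ T, S.sv y = S'.sv y) (hq : ∀ y ∈ T, S.q y = S'.q y) (G : ClCfg V Y → ℝ)
    (B W : Finset V) : clKer S T G B W = clKer S' T G B W := by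
  unfold clKer
  refine Finset.sum_congr rfl fun O _ => ?_
  congr 1
  exact Finset.prod_congr rfl fun y hy => by rw [hsv y hy, hq y hy]

/-- marginalisation: cells which are not read may be dropped from the kernel -/
theorem cp_ker_res (S : ClSys V Y) (T T' : Finset Y) (hT : T' ⊆ T) (G : ClCfg V Y → ℝ) (hG : ∀ B W O, G ⟨B, W, O⟩ = G ⟨B, W, O ∩ T'⟩)
    (B W : Finset V) : clKer S T G B W = clKer S T' G B W := by
  exact cp_ker_res_aux S T T' hT G hG B W

theorem cp_const_loc {U B B' s : Finset V} (hs : s ⊆ U) (hB : B ∩ U = B' ∩ U) : ClConst B s ↔ ClConst B' s := by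
  apply amo_const_congr
  intro v hv
  have h1 : v ∈ B ∩ U ↔ v ∈ B' ∩ U := by rw [hB]
  simp only [Finset.mem_inter] at h1
  have := hs hv
  tauto

/-- locality of the kernel: it reads the spins on `U` only, if the cells of `T` lie in `U` and `G` reads the spins on `U` only -/
theorem cp_ker_loc (S : ClSys V Y) (T : Finset Y) (U : Finset V) (hU : ∀ y ∈ T, S.sv y ⊆ U) (G : ClCfg V Y → ℝ)
    (hG : ∀ ω ω' : ClCfg V Y, ω.B ∩ U = ω'.B ∩ U → ω.W ∩ U = ω'.W ∩ U → ω.O = ω'.O → G ω = G ω') (B W B' W' : Finset V)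
    (hB : B ∩ U = B' ∩ U) (hW : W ∩ U = W' ∩ U) : clKer S T G B W = clKer S T G B' W' := by
  unfold clKer
  refine Finset.sum_congr rfl fun O _ => ?_
  rw [hG ⟨B, W, O⟩ ⟨B', W', O⟩ hB hW rfl]
  congr 1
  refine Finset.prod_congr rfl fun y hy => ?_
  have e1 := cp_const_loc (hU y hy) hB
  have e2 := cp_const_loc (hU y hy) hW
  unfold clKw
  simp only [e1, e2]

/-! ## (b) NEUT-W -/

/-- the system without the crossing cells of `I` -/
def ClSys.nox (S : ClSys V Y) (I : Finset V) : ClSys V Y := ⟨S.A, S.cin I ∪ S.cout I, S.sv, S.q⟩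

theorem cp_nox_eqns_cite : True := by
  have := @ClSys.nox.eq_1
  trivial

theorem cp_nox_mem (S : ClSys V Y) (I : Finset V) (y : Y) : y ∈ (S.nox I).C ↔ y ∈ S.C ∧ ¬ clCross S I y := by
  show y ∈ S.cin I ∪ S.cout I ↔ _
  rw [Finset.mem_union, am_mem_cin, am_mem_cout]
  constructor
  · rintro (⟨h1, h2⟩ | ⟨h1, _, h3⟩)
    · exact ⟨h1, fun ⟨_, v, hv, hvI⟩ => hvI (h2 hv)⟩
    · exact ⟨h1, h3⟩
  · rintro ⟨h1, h2⟩
    by_cases h3 : S.sv y ⊆ I
    · exact Or.inl ⟨h1, h3⟩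
    · exact Or.inr ⟨h1, h3, h2⟩

theorem cp_nox_cin (S : ClSys V Y) (I : Finset V) : (S.nox I).cin I = S.cin I := by
  ext y
  rw [am_mem_cin, am_mem_cin, cp_nox_mem]
  constructor
  · rintro ⟨⟨h1, _⟩, h2⟩
    exact ⟨h1, h2⟩
  · rintro ⟨h1, h2⟩
    exact ⟨⟨h1, fun ⟨_, v, hv, hvI⟩ => hvI (h2 hv)⟩, h2⟩

theorem cp_nox_cout (S : ClSys V Y) (I : Finset V) : (S.nox I).cout I = S.cout I := by
  ext y
  rw [am_mem_cout, am_mem_cout, cp_nox_mem]
  constructor
  · rintro ⟨⟨h1, _⟩, h2, h3⟩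
    exact ⟨h1, h2, h3⟩
  · rintro ⟨h1, h2, h3⟩
    exact ⟨⟨h1, h3⟩, h2, h3⟩

theorem cp_nox_sdiff (S : ClSys V Y) (I : Finset V) : S.C \ (S.cin I ∪ S.cout I) = S.cx I := by
  ext y
  have h := cp_nox_mem S I y
  change y ∈ S.cin I ∪ S.cout I ↔ _ at h
  rw [Finset.mem_sdiff, h]
  unfold ClSys.cx
  rw [Finset.mem_filter]
  tauto

theorem cp_nox_lay (S : ClSys V Y) (I : Finset V) : cuLay (S.nox I) I = ∅ := by
  rw [Finset.eq_empty_iff_forall_notMem]
  intro u hu
  rw [am_mem_lay] at hu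
  obtain ⟨huI, y, hy, huy, hn⟩ := hu
  apply ((cp_nox_mem S I y).1 hy).2
  refine ⟨⟨u, huy, huI⟩, ?_⟩
  by_contra hc
  push Not at hc
  exact hn hc

theorem cp_inter_sub {α : Type} [DecidableEq α] {P P' A I : Finset α} (hI : I ⊆ A) (h : P ∩ A = P' ∩ A) : P ∩ I = P' ∩ I := by
  ext v
  have h1 : v ∈ P ∩ A ↔ v ∈ P' ∩ A := by rw [h]
  have h2 := @hI v
  simp only [Finset.mem_inter] at h1 ⊢
  tauto

/-- **(b) NEUT-W** (TEX[annulus:one-white], the cut property of a `W` contour): all the crossing cells of `I` are neutral (`q = 1`) and the constraint forces `W` constant on each of them.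
Then the inside is independent of the outside, with the law of `S.inn I` under `Kin`.   No status of a crossing cell is read. -/
theorem cp_neutW (S : ClSys V Y) (hS : ClOk S) (I : Finset V) (hI : I ⊆ S.A) (hq : ∀ y ∈ S.cx I, S.q y = 1)
    (Kin Kout : ClCfg V Y → Prop) (hin : ClLocP I (S.cin I) Kin) (hout : ClLocP (S.A \ I) (S.cout I) Kout)
    (hc : ∀ ω, Kin ω → Kout ω → ∀ y ∈ S.cx I, ClConst ω.W (S.sv y))
    (F G : ClCfg V Y → ℝ) (hF : ClLoc I (S.cin I) F) (hG : ClLoc (S.A \ I) (S.cout I) G) :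
    S.N (fun ω => Kin ω ∧ Kout ω) (fun ω => G ω * F ω) = S.N (fun ω => Kin ω ∧ Kout ω) G * (S.inn I).E Kin F := by
  have hT1 : S.cin I ∪ S.cout I ⊆ S.C := Finset.union_subset (Finset.filter_subset _ _) (Finset.filter_subset _ _)
  have s1 : S.cin I ⊆ S.cin I ∪ S.cout I := Finset.subset_union_left
  have s2 : S.cout I ⊆ S.cin I ∪ S.cout I := Finset.subset_union_right
  have hKloc : ClLocP S.A (S.cin I ∪ S.cout I) (fun ω => Kin ω ∧ Kout ω) := fun ω ω' a b c =>
    and_congr (hin ω ω' (cp_inter_sub hI a) (cp_inter_sub hI b) (cp_inter_sub s1 c))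
      (hout ω ω' (cp_inter_sub Finset.sdiff_subset a) (cp_inter_sub Finset.sdiff_subset b) (cp_inter_sub s2 c))
  have hFloc : ClLoc S.A (S.cin I ∪ S.cout I) F := fun ω ω' a b c => hF ω ω' (cp_inter_sub hI a) (cp_inter_sub hI b) (cp_inter_sub s1 c)
  have hGloc : ClLoc S.A (S.cin I ∪ S.cout I) G := fun ω ω' a b c =>
    hG ω ω' (cp_inter_sub Finset.sdiff_subset a) (cp_inter_sub Finset.sdiff_subset b) (cp_inter_sub s2 c)
  have hw : ∀ ω : ClCfg V Y, ω.B ⊆ S.A → ω.W ⊆ S.A → (Kin ω ∧ Kout ω) →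
      ∏ y ∈ S.C \ (S.cin I ∪ S.cout I), S.pw ω.B ω.W y = ∏ y ∈ (S.nox I).C \ (S.cin I ∪ S.cout I), (S.nox I).pw ω.B ω.W y := by
    intro ω _ _ hk
    have e : (S.nox I).C \ (S.cin I ∪ S.cout I) = ∅ := Finset.sdiff_self _
    rw [e, Finset.prod_empty, cp_nox_sdiff]
    refine Finset.prod_eq_one fun y hy => ?_
    unfold ClSys.pw
    rw [hq y hy]
    exact cp_pw_neutral _ _ (hc ω hk.1 hk.2 y hy)
  have tr : ∀ X : ClCfg V Y → ℝ, ClLoc S.A (S.cin I ∪ S.cout I) X → S.N (fun ω => Kin ω ∧ Kout ω) X = (S.nox I).N (fun ω => Kin ω ∧ Kout ω) X :=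
    fun X hX => cp_rc S (S.nox I) rfl (S.cin I ∪ S.cout I) hT1 (Finset.Subset.refl _) (fun _ _ => rfl) (fun _ _ => rfl) _ X hKloc hX hw
  rw [tr _ (fun ω ω' a b c => by rw [hFloc ω ω' a b c, hGloc ω ω' a b c]), tr _ hGloc]
  have hok : ClOk (S.nox I) := ⟨fun y hy => hS.sub y (hT1 hy), fun y hy => hS.ne y (hT1 hy), fun y hy => hS.q0 y (hT1 hy), fun y hy => hS.q1 y (hT1 hy)⟩
  have hcut := am_cut (S.nox I) hok true I hI Kin Kout (by rw [cp_nox_cin]; exact hin) (by rw [cp_nox_cout]; exact hout) F G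
    (by rw [cp_nox_cin]; exact hF) (by rw [cp_nox_cout]; exact hG)
  have e1 : (fun ω : ClCfg V Y => ClCut (S.nox I) true I ω ∧ Kin ω ∧ Kout ω) = (fun ω => Kin ω ∧ Kout ω) := by
    funext ω
    refine propext ⟨fun h => h.2, fun h => ⟨fun y hy hx => absurd hx ((cp_nox_mem S I y).1 hy).2, h⟩⟩
  have e2 : cuE (S.nox I) true I Kin F = (S.inn I).E Kin F := by
    unfold cuE
    have a1 : (S.nox I).inn I = S.inn I := by
      unfold ClSys.inn
      rw [cp_nox_cin]
      rfl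
    have a2 : (fun ω : ClCfg V Y => CuPin true (cuLay (S.nox I) I) ω ∧ Kin ω) = Kin := by
      funext ω
      rw [cp_nox_lay]
      exact propext ⟨fun h => h.2, fun h => ⟨fun v hv => absurd hv (Finset.notMem_empty v), h⟩⟩
    rw [a1, a2]
  rw [e1, e2] at hcut
  exact hcut

/-- normalised form -/
theorem cp_neutW_E (S : ClSys V Y) (hS : ClOk S) (I : Finset V) (hI : I ⊆ S.A) (hq : ∀ y ∈ S.cx I, S.q y = 1)
    (Kin Kout : ClCfg V Y → Prop) (hin : ClLocP I (S.cin I) Kin) (hout : ClLocP (S.A \ I) (S.cout I) Kout)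
    (hc : ∀ ω, Kin ω → Kout ω → ∀ y ∈ S.cx I, ClConst ω.W (S.sv y)) (hf : S.Z (fun ω => Kin ω ∧ Kout ω) ≠ 0)
    (F : ClCfg V Y → ℝ) (hF : ClLoc I (S.cin I) F) :
    S.E (fun ω => Kin ω ∧ Kout ω) F = (S.inn I).E Kin F := by
  have h := cp_neutW S hS I hI hq Kin Kout hin hout hc F (fun _ => 1) hF (fun _ _ _ _ _ => rfl)
  simp only [one_mul] at h
  rw [dis_E_eq, h, ← dis_Z_eq, mul_div_assoc, mul_comm, div_mul_cancel₀ _ hf]

/-! ## (c) LBL -/

/-- a set tied by equalities is constant -/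
theorem cp_lbl_tie {E : Finset (V × V)} {W : Finset V} (hW : ∀ e ∈ E, (e.1 ∈ W ↔ e.2 ∈ W)) {u v : V}
    (h : ReflTransGen (fun a b => (a, b) ∈ E ∨ (b, a) ∈ E) u v) : u ∈ W ↔ v ∈ W := by
  induction h with
  | refl => exact Iff.rfl
  | tail _ hbc ih =>
    rcases hbc with h | h
    · exact ih.trans (hW _ h)
    · exact ih.trans (hW _ h).symm

/-- **(c) exact LBL** (TEX[annulus:one-white]: "specifying its sign multiplies each marginal weight by 1/2"): one nonempty set `C` tied by the equalities of `K`, no other label. -/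
theorem cp_lbl (S : ClSys V Y) (hS : ∀ y ∈ S.C, S.sv y ⊆ S.A) (K : ClCon V Y) (hwp : K.Wp = ∅) (hwm : K.Wm = ∅)
    (hE : ∀ e ∈ K.Eq, e.1 ∈ S.A ∧ e.2 ∈ S.A) (C : Finset V) (hCA : C ⊆ S.A) (hne : C.Nonempty)
    (hC : ∀ u ∈ C, ∀ v ∈ C, ReflTransGen (fun a b => (a, b) ∈ K.Eq ∨ (b, a) ∈ K.Eq) u v)
    (F : ClCfg V Y → ℝ) (hFW : ∀ ω ω' : ClCfg V Y, ω.B = ω'.B → ω.O = ω'.O → F ω = F ω') :
    S.N (K.Holds S) F = 2 * S.N (({ K with Wp := C } : ClCon V Y).Holds S) F := by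
  classical
  have hplus : ∀ ω : ClCfg V Y, (({ K with Wp := C } : ClCon V Y).Holds S ω ↔ K.Holds S ω ∧ C ⊆ ω.W) := by
    intro ω
    unfold ClCon.Holds
    simp only [hwp, Finset.empty_subset, true_and]
    tauto
  have hflip : ∀ ω : ClCfg V Y, (K.Holds S (ω.flipW S.A) ↔ K.Holds S ω) := by
    intro ω
    unfold ClCon.Holds ClCfg.flipW clTau
    simp only [hwp, hwm, Finset.empty_subset, true_and, Finset.notMem_empty, false_imp_iff, implies_true, and_true]
    have : (∀ e ∈ K.Eq, (e.1 ∈ S.A \ ω.W ↔ e.2 ∈ S.A \ ω.W)) ↔ (∀ e ∈ K.Eq, (e.1 ∈ ω.W ↔ e.2 ∈ ω.W)) := by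
      refine forall_congr' fun e => forall_congr' fun he => ?_
      have := hE e he
      simp only [Finset.mem_sdiff, this.1, this.2, true_and]
      tauto
    rw [this]
  have h2 := am_flipW_N S hS (({ K with Wp := C } : ClCon V Y).Holds S) F
  have h3 : S.N (K.Holds S) F = S.N (({ K with Wp := C } : ClCon V Y).Holds S) F +
      S.N (fun ω => ({ K with Wp := C } : ClCon V Y).Holds S (ω.flipW S.A)) (fun ω => F (ω.flipW S.A)) := by
    unfold ClSys.N
    rw [← Finset.sum_add_distrib]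
    refine Finset.sum_congr rfl fun ω hω => ?_
    rw [cl_mem_cfgs] at hω
    have eF : F (ω.flipW S.A) = F ω := hFW _ _ rfl rfl
    beta_reduce
    rw [eF]
    obtain ⟨z, hz⟩ := hne
    by_cases hk : K.Holds S ω
    · have htie : ∀ v ∈ C, (z ∈ ω.W ↔ v ∈ ω.W) := fun v hv => cp_lbl_tie hk.2.2.1 (hC z hz v hv)
      by_cases hzW : z ∈ ω.W
      · have c1 : ({ K with Wp := C } : ClCon V Y).Holds S ω := (hplus ω).2 ⟨hk, fun v hv => (htie v hv).1 hzW⟩
        have c2 : ¬ ({ K with Wp := C } : ClCon V Y).Holds S (ω.flipW S.A) := by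
          intro hh
          have := ((hplus _).1 hh).2 hz
          exact (Finset.mem_sdiff.1 this).2 hzW
        rw [if_pos hk, if_pos c1, if_neg c2, add_zero]
      · have c1 : ¬ ({ K with Wp := C } : ClCon V Y).Holds S ω := fun hh => hzW (((hplus ω).1 hh).2 hz)
        have c2 : ({ K with Wp := C } : ClCon V Y).Holds S (ω.flipW S.A) :=
          (hplus _).2 ⟨(hflip ω).2 hk, fun v hv => Finset.mem_sdiff.2 ⟨hCA hv, fun hv' => hzW ((htie v hv).2 hv')⟩⟩
        rw [if_pos hk, if_neg c1, if_pos c2, zero_add]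
    · have c1 : ¬ ({ K with Wp := C } : ClCon V Y).Holds S ω := fun hh => hk ((hplus ω).1 hh).1
      have c2 : ¬ ({ K with Wp := C } : ClCon V Y).Holds S (ω.flipW S.A) := fun hh => hk ((hflip ω).1 ((hplus _).1 hh).1)
      rw [if_neg hk, if_neg c1, if_neg c2, add_zero]
  rw [h3, ← h2]
  ring

/-- normalised form: the label does not change the law of `(B, statuses)` -/
theorem cp_lbl_E (S : ClSys V Y) (hS : ∀ y ∈ S.C, S.sv y ⊆ S.A) (K : ClCon V Y) (hwp : K.Wp = ∅) (hwm : K.Wm = ∅)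
    (hE : ∀ e ∈ K.Eq, e.1 ∈ S.A ∧ e.2 ∈ S.A) (C : Finset V) (hCA : C ⊆ S.A) (hne : C.Nonempty)
    (hC : ∀ u ∈ C, ∀ v ∈ C, ReflTransGen (fun a b => (a, b) ∈ K.Eq ∨ (b, a) ∈ K.Eq) u v)
    (F : ClCfg V Y → ℝ) (hFW : ∀ ω ω' : ClCfg V Y, ω.B = ω'.B → ω.O = ω'.O → F ω = F ω') :
    S.E (K.Holds S) F = S.E (({ K with Wp := C } : ClCon V Y).Holds S) F := by
  rw [dis_E_eq, dis_E_eq, dis_Z_eq, dis_Z_eq, cp_lbl S hS K hwp hwm hE C hCA hne hC F hFW,
    cp_lbl S hS K hwp hwm hE C hCA hne hC (fun _ => 1) (fun _ _ _ _ => rfl), mul_div_mul_left _ _ two_ne_zero]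

/-! ## (e) ALT, number form -/

open Classical in
/-- **(e) ALT, number form** (TEX[annulus:duality], first half; T6): `E₁`, `E₂` are read on the first colour, `E₃`, `E₄` on the second colour (configuration with the colours exchanged). -/
theorem cp_alt (S : ClSys V Y) (h0 : ∀ y ∈ S.C, 1 / 2 ≤ S.q y) (h1 : ∀ y ∈ S.C, S.q y ≤ 1) (κ : Finset V → Finset V → Prop)
    (E₁ E₂ E₃ E₄ : ClCfg V Y → Prop)
    (hdet : ∀ ω : ClCfg2 V Y, ω ∈ S.cfgs2 → S.wt2 ω ≠ 0 → E₁ ω.fst ∨ E₂ ω.fst ∨ E₃ ω.snd ∨ E₄ ω.snd) :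
    S.Z (fun ω => κ ω.B ω.W) ≤
      S.N (fun ω => κ ω.B ω.W) (fun ω => if E₁ ω then 1 else 0) + S.N (fun ω => κ ω.B ω.W) (fun ω => if E₂ ω then 1 else 0) +
        S.N (fun ω => κ ω.W ω.B) (fun ω => if E₃ ω then 1 else 0) + S.N (fun ω => κ ω.W ω.B) (fun ω => if E₄ ω then 1 else 0) := by
  rw [dis_Z_eq, ← am_N2_fst S (fun ω => κ ω.B ω.W) (fun _ => 1), ← am_N2_fst S (fun ω => κ ω.B ω.W) (fun ω => if E₁ ω then 1 else 0),
    ← am_N2_fst S (fun ω => κ ω.B ω.W) (fun ω => if E₂ ω then 1 else 0), ← am_N2_snd S (fun ω => κ ω.W ω.B) (fun ω => if E₃ ω then 1 else 0),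
    ← am_N2_snd S (fun ω => κ ω.W ω.B) (fun ω => if E₄ ω then 1 else 0)]
  unfold ClSys.N2
  rw [← Finset.sum_add_distrib, ← Finset.sum_add_distrib, ← Finset.sum_add_distrib]
  refine Finset.sum_le_sum fun ω hω => ?_
  have e1 : ω.fst.B = ω.B := rfl
  have e2 : ω.fst.W = ω.W := rfl
  have e3 : ω.snd.B = ω.W := rfl
  have e4 : ω.snd.W = ω.B := rfl
  simp only [e1, e2, e3, e4]
  by_cases hk : κ ω.B ω.W
  · simp only [if_pos hk]
    have hw := am_wt2_nonneg S h0 h1 ω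
    by_cases hw0 : S.wt2 ω = 0
    · simp [hw0]
    · have a1 : (0 : ℝ) ≤ if E₁ ω.fst then 1 else 0 := by split_ifs <;> norm_num
      have a2 : (0 : ℝ) ≤ if E₂ ω.fst then 1 else 0 := by split_ifs <;> norm_num
      have a3 : (0 : ℝ) ≤ if E₃ ω.snd then 1 else 0 := by split_ifs <;> norm_num
      have a4 : (0 : ℝ) ≤ if E₄ ω.snd then 1 else 0 := by split_ifs <;> norm_num
      have a5 : (1 : ℝ) ≤ (if E₁ ω.fst then 1 else 0) + (if E₂ ω.fst then 1 else 0) + (if E₃ ω.snd then 1 else 0) + (if E₄ ω.snd then 1 else 0) := by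
        rcases hdet ω hω hw0 with h | h | h | h
        · rw [if_pos h]; linarith
        · rw [if_pos h]; linarith
        · rw [if_pos h]; linarith
        · rw [if_pos h]; linarith
      calc S.wt2 ω * 1 ≤ S.wt2 ω * ((if E₁ ω.fst then 1 else 0) + (if E₂ ω.fst then 1 else 0) + (if E₃ ω.snd then 1 else 0) + (if E₄ ω.snd then 1 else 0)) :=
            mul_le_mul_of_nonneg_left a5 hw
        _ = _ := by ring
  · simp only [if_neg hk]
    norm_num

end abstract

/-! ## (e') ALT, deterministic part -/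

/-- a path in a set on which a field does not vanish and adjacent values agree: the field is constant along the path -/
theorem cy_alt_const (τ : CyF) {c d : ℤ} {M : Set (ℤ × ℤ)} (hM : M ⊆ plsBand c d) (h0 : ∀ u ∈ M, τ u ≠ 0)
    (hadj : ∀ u ∈ plsBand c d, ∀ v ∈ plsBand c d, triAdj u v → τ u ≠ 0 → τ v ≠ 0 → τ u = τ v) {u v : ℤ × ℤ} (h : TscR tscG M u v) :
    τ v = τ u ∧ TscR tscG (M ∩ cyOn (τ u) τ) u v := by
  induction h with
  | refl => exact ⟨rfl, tsc_R_refl _⟩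
  | @tail w w' _ hbc ih =>
    have e : τ w = τ w' := hadj w (hM hbc.2.1) w' (hM hbc.2.2) hbc.1 (h0 w hbc.2.1) (h0 w' hbc.2.2)
    exact ⟨e.symm.trans ih.1, ih.2.tail ⟨hbc.1, ⟨hbc.2.1, ih.1⟩, ⟨hbc.2.2, e.symm.trans ih.1⟩⟩⟩

theorem cy_sign_cases (s : SignType) (h : s ≠ 0) : s = 1 ∨ s = -1 := by
  cases s
  · exact absurd rfl h
  · exact Or.inr rfl
  · exact Or.inl rfl

/-- **the deterministic four-way alternative** on periodic status fields (TEX[annulus:duality]): every cell of the band is open for one colour at least, adjacent open cells of one colour have the same sign. -/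
theorem cy_alt_det {L : ℤ} (hL : 0 < L) {c d : ℤ} (hcd : c ≤ d) (τB τW : CyF) (hpB : CyPer L τB)
    (hcov : ∀ u ∈ plsBand c d, τB u ≠ 0 ∨ τW u ≠ 0)
    (hB : ∀ u ∈ plsBand c d, ∀ v ∈ plsBand c d, triAdj u v → τB u ≠ 0 → τB v ≠ 0 → τB u = τB v)
    (hW : ∀ u ∈ plsBand c d, ∀ v ∈ plsBand c d, triAdj u v → τW u ≠ 0 → τW v ≠ 0 → τW u = τW v) :
    τB ∈ cyVP 1 c d ∨ τB ∈ cyVP (-1) c d ∨ τW ∈ cyBlk 1 c d ∨ τW ∈ cyBlk (-1) c d := by
  have hP : PlsPer L {u : ℤ × ℤ | τB u ≠ 0} := fun u => by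
    show τB (u + (L, 0)) ≠ 0 ↔ τB u ≠ 0
    rw [hpB u]
  by_cases h : ∃ u v : ℤ × ℤ, u ∈ plsBand c d ∩ {u : ℤ × ℤ | τB u ≠ 0} ∧ u.2 = c ∧ v.2 = d ∧ TscR tscG (plsBand c d ∩ {u : ℤ × ℤ | τB u ≠ 0}) u v
  · obtain ⟨u, v, hu, huc, hvd, huv⟩ := h
    have k := cy_alt_const τB (M := plsBand c d ∩ {u : ℤ × ℤ | τB u ≠ 0}) Set.inter_subset_left (fun w hw => hw.2) hB huv
    have hx : CyX (plsBand c d ∩ cyOn (τB u) τB) c d :=
      ⟨u, v, ⟨hu.1, rfl⟩, huc, hvd, tsc_R_mono (t := plsBand c d ∩ cyOn (τB u) τB) (fun z hz => ⟨hz.1.1, hz.2⟩) k.2⟩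
    rcases cy_sign_cases (τB u) hu.2 with e | e
    · rw [e] at hx
      exact Or.inl hx
    · rw [e] at hx
      exact Or.inr (Or.inl hx)
  · obtain ⟨M, hM, ⟨z, hz⟩, hconn, _, hblk⟩ := pls_cyl_set hL hcd hP h
    have h0 : ∀ u ∈ M, τW u ≠ 0 := by
      intro u hu
      rcases hcov u (hM hu).1 with h1 | h1
      · exact absurd h1 (hM hu).2
      · exact h1
    have hc : ∀ u ∈ M, τW u = τW z := fun u hu =>
      (cy_alt_const τW (M := M) (hM.trans Set.sdiff_subset) h0 hW (hconn z hz u hu)).1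
    have hb : τW ∈ cyBlk (τW z) c d := by
      rintro ⟨u, v, hu, huc, hvd, huv⟩
      obtain ⟨w, hw1, hw2⟩ := hblk _ u v hu huv huc.le hvd.ge
      exact hw2.2 (hc w hw1)
    rcases cy_sign_cases (τW z) (h0 z hz) with e | e
    · rw [e] at hb
      exact Or.inr (Or.inr (Or.inl hb))
    · rw [e] at hb
      exact Or.inr (Or.inr (Or.inr hb))

/-- the equation lemmas of the definitions of this file are generated HERE -/
theorem cp_defs_eqns_cite : True := by
  have := @clPw.eq_1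
  have := @clKw.eq_1
  have := @ClSys.pw.eq_1
  have := @clKer.eq_1
  trivial

end Claimed.Agent.R291
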