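import Claimed.Agent.R291.Ann.CylSlide
import Claimed.Agent.R291.Ann.CylPair
import Claimed.Agent.R291.Dis.Buffer

/-!
# Row 291 (S0539), ANN block A4, LAW SIDE : THE FIELD `recov` OF `CyLaw (cyP x L H)`      (owner + architect helper196; prefix `cyr` / `cyr_`)

TEX 09-annulus, proof of Prop. annulus:seed, l.866-886 ("Above a successful record the retained law is between that plus cut and the original upper plus cut.  It is therefore above the free capped-sphere law ..
The free sphere law is invariant under the two spin flips and exchange of the spin colors.  Band duality ..").      API: `Ann/CylSlide` (239), `Ann/CylPair` (147), `Ann/Model` (22), `Dis/Base` (146, 50).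

    cyr_recov (= field `recov`)  <=  cys_P_eq + cys_rc_in + cys_amb  (realisation of the three numbers in ONE capped ambient `S`, history `K0` = minus band under the row `0`, plus band over the row `H`)
                                 +   (R1) cyr_sep   DETERMINISTIC: the band `c..d` is blocked by the plus cells of class `T`  ⟹  `ClSep S true ∅ ω O A`,  `O` = rows `≤ c` + south pole, `A` = rows `≥ d+1` + north pole
                                 +   (R2+R3) cyr_dom   ABSTRACT (any `ClDisk`): `E_free F * N_K0 [Sep] ≤ N_K0 F` for increasing `F ≥ 0` local in `A`   (`dis_dec`, `dis_cut_law`, `dis_order`)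
                                 +   (R4) cyr_free  `1/2 ≤ E_free [VP⁺] + E_free [Blk⁺]`   (`cp_alt`, `cy_alt_det`, flip of the first spin)
-/

set_option autoImplicit false
set_option linter.unusedSectionVars false
set_option linter.unusedVariables false
set_option linter.unusedSimpArgs false

namespace Claimed.Agent.R291

open Claims Claims.C0467 Relation

/-! ## 0. abstract: above a plus cut the law dominates the free law -/

section abstract

variable {V Y : Type} [DecidableEq V] [DecidableEq Y]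

theorem cyr_K_holds (S : ClSys V Y) (M P : Finset Y) (ω : ClCfg V Y) :
    (cysK S M P).Holds S ω ↔ P.biUnion S.sv ⊆ ω.B ∧ (∀ v ∈ M.biUnion S.sv, v ∉ ω.B) ∧ (∀ y ∈ P, clTau S ω y = 1) ∧ (∀ y ∈ M, clTau S ω y = -1) := by
  simp only [cysK, ClCon.opn, clFree, ClCon.Holds, if_true, Bool.false_eq_true, if_false, Finset.empty_union, Finset.notMem_empty, false_imp_iff,
    implies_true, Finset.empty_subset, and_true, true_and]

open Classical in
/-- **(R2) + (R3)**.   `K0` = cells of `M` open-minus (all inside `O`), cells of `P` open-plus.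
PLAN: `dis_dec` (`G = 1`) for `F` and for `1`; termwise: if `Z(K0 ∧ Cut_I) = 0` both terms vanish; else `E(K0 ∧ Cut_I) 1 = 1` and
`E(K0 ∧ Cut_I) F = E(Kt ∧ Cut_I) F` (`dis_cut_law`, `Kt = cysK S ∅ P`) `= E((Kt.opn S true (S.cx I)).Holds) F` (`amo_N_opn`) `≥ E_free F` (`cys_E_le`). -/
theorem cyr_dom (S : ClSys V Y) (hS : ClDisk S) {M P : Finset Y} (hM : M ⊆ S.C) (hP : P ⊆ S.C) {O A : Finset V} (hO : O ⊆ S.A) (hA : A ⊆ S.A)
    (hMO : ∀ y ∈ M, S.sv y ⊆ O) (F : ClCfg V Y → ℝ) (hF : ClMono S F) (hFl : ClLoc A (S.cin A) F) (hF0 : ∀ ω, 0 ≤ F ω) :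
    S.E ((cysK S ∅ ∅).Holds S) F * S.N ((cysK S M P).Holds S) (fun ω => if ClSep S true ∅ ω O A then 1 else 0) ≤ S.N ((cysK S M P).Holds S) F := by
  have hok := hS.toClOk
  have hEq : ∀ M' P' : Finset Y, (cysK S M' P').Eq = ∅ := fun M' P' => by simp [cysK, ClCon.opn, clFree]
  have hff : 0 < S.Z ((cysK S ∅ ∅).Holds S) :=
    cys_K_feas S hok (Finset.empty_subset _) (Finset.empty_subset _) (fun y hy => absurd hy (Finset.notMem_empty _))
  have d1 := dis_dec S hok true (cysK S M P) O A hO hA (fun _ => 1) F (fun _ _ _ _ _ => rfl) hFl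
  have d2 := dis_dec S hok true (cysK S M P) O A hO hA (fun _ => 1) (fun _ => 1) (fun _ _ _ _ _ => rfl) (fun _ _ _ _ _ => rfl)
  rw [hEq] at d1 d2
  simp only [one_mul] at d1 d2
  have key : ∀ I ∈ (S.A \ O).powerset.filter (fun I => A ⊆ I),
      S.E ((cysK S ∅ ∅).Holds S) F * S.E (fun ω => (cysK S M P).Holds S ω ∧ ClCut S true I ω) (fun _ => 1) ≤
        S.E (fun ω => (cysK S M P).Holds S ω ∧ ClCut S true I ω) F := by
    intro I hI
    rw [Finset.mem_filter, Finset.mem_powerset] at hI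
    obtain ⟨hIO, hAI⟩ := hI
    by_cases hz : S.Z (fun ω => (cysK S M P).Holds S ω ∧ ClCut S true I ω) = 0
    · rw [dis_E_eq S (fun ω => (cysK S M P).Holds S ω ∧ ClCut S true I ω), dis_E_eq S (fun ω => (cysK S M P).Holds S ω ∧ ClCut S true I ω), hz]
      simp
    · have hf : 0 < S.Z (fun ω => (cysK S M P).Holds S ω ∧ ClCut S true I ω) := lt_of_le_of_ne (amo_Z_nonneg S hok _) (Ne.symm hz)
      have h1 : S.E (fun ω => (cysK S M P).Holds S ω ∧ ClCut S true I ω) (fun _ => 1) = 1 := by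
        rw [dis_E_eq, ← dis_Z_eq, div_self hz]
      rw [h1, mul_one]
      -- drop the minus cells
      have himp : ∀ ω, ((cysK S M P).Holds S ω ∧ ClCut S true I ω) → ((cysK S ∅ P).Holds S ω ∧ ClCut S true I ω) := by
        rintro ω ⟨h, hc⟩
        rw [cyr_K_holds] at h ⊢
        exact ⟨⟨h.1, fun v hv => by simp at hv, h.2.2.1, fun y hy => absurd hy (Finset.notMem_empty _)⟩, hc⟩
      have hf' : 0 < S.Z (fun ω => (cysK S ∅ P).Holds S ω ∧ ClCut S true I ω) := lt_of_lt_of_le hf (amo_Z_mono S hok himp)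
      have hdis : ∀ v ∈ I, v ∉ O := fun v hv => (Finset.mem_sdiff.1 (hIO hv)).2
      have hag : ClAgreeIn S (cysK S M P) (cysK S ∅ P) I := by
        refine ⟨?_, ?_, ?_, ?_, ?_, ?_, ?_, ?_⟩
        · intro v _; simp [cysK, ClCon.opn, clFree]
        · intro v hv
          simp only [cysK, ClCon.opn, clFree, if_true, Bool.false_eq_true, if_false, Finset.empty_union, Finset.biUnion_empty, Finset.notMem_empty, iff_false,
            Finset.mem_biUnion, not_exists, not_and]
          exact fun y hy hvy => hdis v hv (hMO y hy hvy)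
        · intro v _; simp [cysK, ClCon.opn, clFree]
        · intro v _; simp [cysK, ClCon.opn, clFree]
        · intro y _; simp [cysK, ClCon.opn, clFree]
        · intro y hy
          simp only [cysK, ClCon.opn, clFree, if_true, Bool.false_eq_true, if_false, Finset.empty_union, Finset.notMem_empty, iff_false]
          intro hyM
          obtain ⟨v, hv⟩ := hok.ne y (hM hyM)
          exact hdis v (((am_mem_cin S I y).1 hy).2 hv) (hMO y hyM hv)
        · intro y _; simp [cysK, ClCon.opn, clFree]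
        · intro e _ _; simp [cysK, ClCon.opn, clFree]
      have c1 := dis_cut_law S hok true I (cysK S M P) (cysK S ∅ P) (by rw [hEq]; simp) (by rw [hEq]; simp) hag hf hf' F
        (dde_loc_mono hAI (dde_cin_mono S hAI) hFl)
      rw [c1]
      -- the cut as a history
      have hcut : (fun ω => (cysK S ∅ P).Holds S ω ∧ ClCut S true I ω) = fun ω => (cysK S ∅ P).Holds S ω ∧ ∀ y ∈ S.cx I, clTau S ω y = clSg true := by
        funext ω
        simp only [ClCut, ClSys.cx, Finset.mem_filter, and_imp]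
      have eN : ∀ G : ClCfg V Y → ℝ, S.N (fun ω => (cysK S ∅ P).Holds S ω ∧ ClCut S true I ω) G = S.N (((cysK S ∅ P).opn S true (S.cx I)).Holds S) G := fun G => by
        rw [hcut, amo_N_opn S _ true _ (amo_cx_sub S I)]
      have eE : S.E (fun ω => (cysK S ∅ P).Holds S ω ∧ ClCut S true I ω) F = S.E (((cysK S ∅ P).opn S true (S.cx I)).Holds S) F := by
        rw [dis_E_eq, dis_E_eq, dis_Z_eq, dis_Z_eq, eN, eN]
      have hf2 : 0 < S.Z (((cysK S ∅ P).opn S true (S.cx I)).Holds S) := by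
        rw [dis_Z_eq, ← eN, ← dis_Z_eq]; exact hf'
      rw [eE]
      refine cys_E_le S hS _ _ (cys_K_legal S ∅ ∅) (amo_legal_opn S _ (cys_K_legal S ∅ P) true _) ?_ hff hf2 F hF
      refine ⟨?_, ?_, ?_, ?_, ?_, ?_, ?_⟩ <;> simp [cysK, ClCon.opn, clFree]
  calc S.E ((cysK S ∅ ∅).Holds S) F * S.N ((cysK S M P).Holds S) (fun ω => if ClSep S true ∅ ω O A then 1 else 0)
      = ∑ I ∈ (S.A \ O).powerset.filter (fun I => A ⊆ I), S.N ((cysK S M P).Holds S) (fun ω => if clInv S true ∅ ω O = S.A \ I then 1 else 0) *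
          (S.E ((cysK S ∅ ∅).Holds S) F * S.E (fun ω => (cysK S M P).Holds S ω ∧ ClCut S true I ω) (fun _ => 1)) := by
        rw [d2, Finset.mul_sum]
        exact Finset.sum_congr rfl fun I _ => by ring
    _ ≤ ∑ I ∈ (S.A \ O).powerset.filter (fun I => A ⊆ I), S.N ((cysK S M P).Holds S) (fun ω => if clInv S true ∅ ω O = S.A \ I then 1 else 0) *
          S.E (fun ω => (cysK S M P).Holds S ω ∧ ClCut S true I ω) F :=
        Finset.sum_le_sum fun I hI => mul_le_mul_of_nonneg_left (key I hI) (dis_N_nonneg S hok _ fun ω => by split_ifs <;> norm_num)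
    _ = S.N ((cysK S M P).Holds S) (fun ω => if ClSep S true ∅ ω O A then F ω else 0) := d1.symm
    _ ≤ S.N ((cysK S M P).Holds S) F := dis_N_mono S hok _ fun ω _ _ => by
        split_ifs
        · exact le_rfl
        · exact hF0 ω

end abstract

/-! ## 1. the free law of the capped cylinder -/

/-- the sites of a triangle of class `T` -/
theorem cyr_mem_sv (L : ℕ) (T : Bool) (p w : TV) : w ∈ cySv L (cyT T p) ↔
    (T = true ∧ (w = sdRed L p ∨ w = sdRed L (p + (1, 0)) ∨ w = sdRed L (p + (0, 1)))) ∨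
    (T = false ∧ (w = sdRed L (p + (1, 0)) ∨ w = sdRed L (p + (0, 1)) ∨ w = sdRed L (p + (1, 1)))) := by
  cases T
  · simp only [cyT, cySv, cellD, Bool.false_eq_true, if_false, Finset.mem_image, Finset.mem_insert, Finset.mem_singleton, false_and, true_and, false_or]
    constructor
    · rintro ⟨a, (rfl | rfl | rfl), rfl⟩ <;> simp
    · rintro (rfl | rfl | rfl)
      · exact ⟨_, Or.inl rfl, rfl⟩
      · exact ⟨_, Or.inr (Or.inl rfl), rfl⟩
      · exact ⟨_, Or.inr (Or.inr rfl), rfl⟩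
  · simp only [cyT, cySv, cellV, if_true, Finset.mem_image, Finset.mem_insert, Finset.mem_singleton, true_and, Bool.true_eq_false, false_and, or_false]
    constructor
    · rintro ⟨a, (rfl | rfl | rfl), rfl⟩ <;> simp
    · rintro (rfl | rfl | rfl)
      · exact ⟨_, Or.inl rfl, rfl⟩
      · exact ⟨_, Or.inr (Or.inl rfl), rfl⟩
      · exact ⟨_, Or.inr (Or.inr rfl), rfl⟩

theorem cyr_sv_red (L : ℕ) (T : Bool) (p : TV) : cySv L (cyT T (sdRed L p)) = cySv L (cyT T p) := by
  ext w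
  rw [cyr_mem_sv, cyr_mem_sv, cy_red_red, cy_red_red, cy_red_red]
  have : sdRed L (sdRed L p) = sdRed L p := by
    have := cy_red_red L p 0
    simpa using this
  rw [this]

/-- two cells of one class whose indices are adjacent share a site.   PLAN: six directions x two classes; `cy_red_red`. -/
theorem cyr_adj (L : ℕ) (T : Bool) {u v : TV} (h : triAdj u v) : ∃ w, w ∈ cySv L (cyT T (sdRed L u)) ∧ w ∈ cySv L (cyT T (sdRed L v)) := by
  rw [cyr_sv_red, cyr_sv_red]
  obtain ⟨u1, u2⟩ := u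
  obtain ⟨v1, v2⟩ := v
  unfold triAdj at h
  simp only [Prod.mk_sub_mk, Prod.mk.injEq] at h
  cases T
  · rcases h with h | h | h | h | h | h
    · refine ⟨sdRed L ((u1, u2) + (1, 1)), (cyr_mem_sv _ _ _ _).2 (Or.inr ⟨rfl, Or.inr (Or.inr rfl)⟩), (cyr_mem_sv _ _ _ _).2 (Or.inr ⟨rfl, Or.inr (Or.inl ?_)⟩)⟩
      congr 1; ext <;> simp <;> omega
    · refine ⟨sdRed L ((u1, u2) + (1, 1)), (cyr_mem_sv _ _ _ _).2 (Or.inr ⟨rfl, Or.inr (Or.inr rfl)⟩), (cyr_mem_sv _ _ _ _).2 (Or.inr ⟨rfl, Or.inl ?_⟩)⟩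
      congr 1; ext <;> simp <;> omega
    · refine ⟨sdRed L ((u1, u2) + (0, 1)), (cyr_mem_sv _ _ _ _).2 (Or.inr ⟨rfl, Or.inr (Or.inl rfl)⟩), (cyr_mem_sv _ _ _ _).2 (Or.inr ⟨rfl, Or.inl ?_⟩)⟩
      congr 1; ext <;> simp <;> omega
    · refine ⟨sdRed L ((u1, u2) + (0, 1)), (cyr_mem_sv _ _ _ _).2 (Or.inr ⟨rfl, Or.inr (Or.inl rfl)⟩), (cyr_mem_sv _ _ _ _).2 (Or.inr ⟨rfl, Or.inr (Or.inr ?_)⟩)⟩
      congr 1; ext <;> simp <;> omega
    · refine ⟨sdRed L ((u1, u2) + (1, 0)), (cyr_mem_sv _ _ _ _).2 (Or.inr ⟨rfl, Or.inl rfl⟩), (cyr_mem_sv _ _ _ _).2 (Or.inr ⟨rfl, Or.inr (Or.inr ?_)⟩)⟩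
      congr 1; ext <;> simp <;> omega
    · refine ⟨sdRed L ((u1, u2) + (1, 0)), (cyr_mem_sv _ _ _ _).2 (Or.inr ⟨rfl, Or.inl rfl⟩), (cyr_mem_sv _ _ _ _).2 (Or.inr ⟨rfl, Or.inr (Or.inl ?_)⟩)⟩
      congr 1; ext <;> simp <;> omega
  · rcases h with h | h | h | h | h | h
    · refine ⟨sdRed L ((u1, u2) + (1, 0)), (cyr_mem_sv _ _ _ _).2 (Or.inl ⟨rfl, Or.inr (Or.inl rfl)⟩), (cyr_mem_sv _ _ _ _).2 (Or.inl ⟨rfl, Or.inl ?_⟩)⟩
      congr 1; ext <;> simp <;> omega
    · refine ⟨sdRed L ((u1, u2) + (0, 1)), (cyr_mem_sv _ _ _ _).2 (Or.inl ⟨rfl, Or.inr (Or.inr rfl)⟩), (cyr_mem_sv _ _ _ _).2 (Or.inl ⟨rfl, Or.inl ?_⟩)⟩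
      congr 1; ext <;> simp <;> omega
    · refine ⟨sdRed L ((u1, u2) + (0, 1)), (cyr_mem_sv _ _ _ _).2 (Or.inl ⟨rfl, Or.inr (Or.inr rfl)⟩), (cyr_mem_sv _ _ _ _).2 (Or.inl ⟨rfl, Or.inr (Or.inl ?_)⟩)⟩
      congr 1; ext <;> simp <;> omega
    · refine ⟨sdRed L (u1, u2), (cyr_mem_sv _ _ _ _).2 (Or.inl ⟨rfl, Or.inl rfl⟩), (cyr_mem_sv _ _ _ _).2 (Or.inl ⟨rfl, Or.inr (Or.inl ?_)⟩)⟩
      congr 1; ext <;> simp <;> omega
    · refine ⟨sdRed L (u1, u2), (cyr_mem_sv _ _ _ _).2 (Or.inl ⟨rfl, Or.inl rfl⟩), (cyr_mem_sv _ _ _ _).2 (Or.inl ⟨rfl, Or.inr (Or.inr ?_)⟩)⟩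
      congr 1; ext <;> simp <;> omega
    · refine ⟨sdRed L ((u1, u2) + (1, 0)), (cyr_mem_sv _ _ _ _).2 (Or.inl ⟨rfl, Or.inr (Or.inl rfl)⟩), (cyr_mem_sv _ _ _ _).2 (Or.inl ⟨rfl, Or.inr (Or.inr ?_)⟩)⟩
      congr 1; ext <;> simp <;> omega

theorem cyr_fld_per {L : ℕ} (T : Bool) (c d : ℤ) (η : ClCfg TV CyY) : CyPer L (cysFld L T c d η) := by
  intro u
  unfold cysFld
  have e : sdRed L (u + ((L : ℤ), 0)) = sdRed L u := by
    unfold sdRed
    ext <;> simp
  rw [e]
  simp

theorem cyr_fld_ne {L : ℕ} (T : Bool) {c d : ℤ} (η : ClCfg TV CyY) {u : TV} (hu : u ∈ plsBand c d) :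
    cysFld L T c d η u ≠ 0 ↔ cyT T (sdRed L u) ∈ η.O := by
  unfold cysFld
  rw [if_pos (show c ≤ u.2 ∧ u.2 ≤ d from hu)]
  unfold clTau cySg
  by_cases h : cyT T (sdRed L u) ∈ η.O
  · by_cases h2 : (cysR L).sv (cyT T (sdRed L u)) ⊆ η.B <;> simp [h, h2]
  · simp [h]

theorem cyr_fld_val {L : ℕ} (T : Bool) {c d : ℤ} (η : ClCfg TV CyY) {u w : TV} (hu : u ∈ plsBand c d) (ho : cyT T (sdRed L u) ∈ η.O)
    (hc : ClConst η.B (cySv L (cyT T (sdRed L u)))) (hw : w ∈ cySv L (cyT T (sdRed L u))) :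
    cysFld L T c d η u = if w ∈ η.B then 1 else -1 := by
  unfold cysFld
  rw [if_pos (show c ≤ u.2 ∧ u.2 ≤ d from hu)]
  unfold clTau cySg
  rw [if_pos ho]
  have e : ((cysR L).sv (cyT T (sdRed L u)) ⊆ η.B) ↔ w ∈ η.B := by
    show cySv L _ ⊆ η.B ↔ _
    constructor
    · exact fun h => h hw
    · intro h
      rcases hc with hc | hc
      · exact hc
      · exact absurd h (hc w hw)
  by_cases h : w ∈ η.B
  · rw [if_pos (e.2 h), if_pos h, if_pos rfl]
  · rw [if_neg (fun h' => h (e.1 h')), if_neg h, if_neg (by norm_num), if_pos rfl]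

theorem cyr_fld_adj {L : ℕ} (T : Bool) {c d : ℤ} (η : ClCfg TV CyY) (hc : ∀ u ∈ plsBand c d, cyT T (sdRed L u) ∈ η.O → ClConst η.B (cySv L (cyT T (sdRed L u)))) :
    ∀ u ∈ plsBand c d, ∀ v ∈ plsBand c d, triAdj u v → cysFld L T c d η u ≠ 0 → cysFld L T c d η v ≠ 0 → cysFld L T c d η u = cysFld L T c d η v := by
  intro u hu v hv hadj h1 h2
  rw [cyr_fld_ne T η hu] at h1
  rw [cyr_fld_ne T η hv] at h2
  obtain ⟨w, hw1, hw2⟩ := cyr_adj L T hadj
  rw [cyr_fld_val T η hu h1 (hc u hu h1) hw1, cyr_fld_val T η hv h2 (hc v hv h2) hw2]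

/-- **(R4), deterministic part**: the four-way alternative on the support of the two-colour law.
PLAN: `cy_alt_det` with `τB = cysFld .. ω.fst`, `τW = cysFld .. ω.snd`; periodicity: `cy_red_per`-type; cover and constancy on open cells: `am_wt2_cover`; adjacent open cells of one colour share a site (`cyr_adj`), so they have the same sign. -/
theorem cyr_det {x : ℝ} {L : ℕ} (hL : 3 ≤ L) {a b : ℤ} {Q : Finset CyY} (T : Bool) {c d : ℤ} (hcd : c ≤ d) (hT : cyBand L T c d ⊆ (cyS x L a b Q ∅).C)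
    (ω : ClCfg2 TV CyY) (hω : (cyS x L a b Q ∅).wt2 ω ≠ 0) :
    cysFld L T c d ω.fst ∈ cyVP 1 c d ∨ cysFld L T c d ω.fst ∈ cyVP (-1) c d ∨ cysFld L T c d ω.snd ∈ cyBlk 1 c d ∨ cysFld L T c d ω.snd ∈ cyBlk (-1) c d := by
  have hL0 : 0 < L := by omega
  have hmem : ∀ u ∈ plsBand c d, cyT T (sdRed L u) ∈ (cyS x L a b Q ∅).C := fun u hu =>
    hT (Finset.mem_image.2 ⟨sdRed L u, cys_red_cell hL0 u hu.1 hu.2, rfl⟩)
  refine cy_alt_det (L := (L : ℤ)) (by exact_mod_cast hL0) hcd _ _ (cyr_fld_per T c d _) (fun u hu => ?_)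
    (cyr_fld_adj T ω.fst fun u hu ho => ?_) (cyr_fld_adj T ω.snd fun u hu ho => ?_)
  · rw [cyr_fld_ne T _ hu, cyr_fld_ne T _ hu]
    exact (am_wt2_cover _ ω hω _ (hmem u hu)).1
  · exact (am_wt2_cover _ ω hω _ (hmem u hu)).2.1 ho
  · exact (am_wt2_cover _ ω hω _ (hmem u hu)).2.2.1 ho

theorem cyr_sg_neg (t : ℤ) : cySg (-t) = - cySg t := by
  unfold cySg
  by_cases h1 : t = 1
  · subst h1; simp
  · by_cases h2 : t = -1
    · subst h2; simp
    · have h3 : ¬ (-t = 1) := fun h => h2 (by omega)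
      have h4 : ¬ (-t = -1) := fun h => h1 (by omega)
      simp [h1, h2, h3, h4]

/-- **(R4), flip of the first spin** under the free law.   PLAN: `am_flipB_N`, then on the support `am_flipB_tau`: the field changes sign. -/
theorem cyr_flip {x : ℝ} (hx0 : 0 < x) (hx1 : x ≤ 1) {L : ℕ} (hL : 3 ≤ L) {a b : ℤ} (hab : a ≤ b) {Q : Finset CyY} (hQ : CyVal L a b Q) (T : Bool) {c d : ℤ}
    (hT : cyBand L T c d ⊆ Q) (E : Set CyF) :
    (cyS x L a b Q ∅).N (fun _ => True) (cysF L T c d {τ | (fun u => - τ u) ∈ E}) = (cyS x L a b Q ∅).N (fun _ => True) (cysF L T c d E) := by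
  classical
  have hL0 : 0 < L := by omega
  set S := cyS x L a b Q ∅ with hS
  have hok : ClOk S := cy_S_ok hx0 hx1 hL hab hQ ∅
  rw [am_flipB_N S hok.sub (fun _ => True) (cysF L T c d E)]
  unfold ClSys.N
  refine Finset.sum_congr rfl fun ω _ => ?_
  rw [if_pos trivial, if_pos trivial]
  by_cases hw : S.wt ω = 0
  · rw [hw, zero_mul, zero_mul]
  · congr 1
    have hfld : cysFld L T c d (ω.flipB S.A) = fun u => - cysFld L T c d ω u := by
      funext u
      unfold cysFld
      by_cases hu : c ≤ u.2 ∧ u.2 ≤ d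
      · rw [if_pos hu, if_pos hu]
        have hm : cyT T (sdRed L u) ∈ S.C :=
          cys_Q_sub x L a b Q ∅ (hT (Finset.mem_image.2 ⟨sdRed L u, cys_red_cell hL0 u hu.1 hu.2, rfl⟩))
        rw [← cys_tau_R L S rfl, ← cys_tau_R L S rfl, am_flipB_tau S hok ω hw _ hm, cyr_sg_neg]
      · rw [if_neg hu, if_neg hu]; simp
    unfold cysF
    show (if cysFld L T c d ω ∈ {τ | (fun u => -τ u) ∈ E} then (1 : ℝ) else 0) = if cysFld L T c d (ω.flipB S.A) ∈ E then 1 else 0
    rw [hfld]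
    rfl

/-- the empty history holds everywhere -/
theorem cyr_f_free {V Y : Type} [DecidableEq V] [DecidableEq Y] (S : ClSys V Y) : (cysK S ∅ ∅).Holds S = fun _ => True := by
  funext ω
  simp [cysK, ClCon.opn, clFree, ClCon.Holds]

/-- the cells of sign `1` of the opposite field -/
theorem cyr_f_on (τ : CyF) : cyOn 1 (fun u => - τ u) = cyOn (-1) τ := by
  ext u
  show - τ u = 1 ↔ τ u = -1
  cases τ u <;> decide

/-- **(R4)**.   PLAN: `cp_alt` with `κ = True`, `E₁ E₂ = VP^±` (first colour), `E₃ E₄ = Blk^±` (second colour), `hdet` = `cyr_det`; `cyr_flip`: `N[VP⁻] = N[VP⁺]`, `N[Blk⁻] = N[Blk⁺]`. -/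
theorem cyr_free {x : ℝ} (hx : 1 / Real.sqrt 2 ≤ x) (hx1 : x ≤ 1) {L : ℕ} (hL : 3 ≤ L) {a b : ℤ} (hab : a ≤ b) {Q : Finset CyY} (hQ : CyVal L a b Q) (T : Bool) {c d : ℤ}
    (hcd : c ≤ d) (hT : cyBand L T c d ⊆ Q) :
    1 / 2 ≤ (cyS x L a b Q ∅).E ((cysK (cyS x L a b Q ∅) ∅ ∅).Holds (cyS x L a b Q ∅)) (cysF L T c d (cyVP 1 c d)) +
      (cyS x L a b Q ∅).E ((cysK (cyS x L a b Q ∅) ∅ ∅).Holds (cyS x L a b Q ∅)) (cysF L T c d (cyBlk 1 c d)) := by
  classical
  have hx0 : 0 < x := lt_of_lt_of_le (by positivity) hx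
  set S := cyS x L a b Q ∅ with hS
  have hok : ClOk S := cy_S_ok hx0 hx1 hL hab hQ ∅
  have hZ : 0 < S.Z ((cysK S ∅ ∅).Holds S) :=
    cys_K_feas S hok (Finset.empty_subset _) (Finset.empty_subset _) fun y hy => absurd hy (Finset.notMem_empty _)
  have hxx : 1 / 2 ≤ x ^ 2 := by
    have h1 : (1 / Real.sqrt 2) ^ 2 ≤ x ^ 2 := pow_le_pow_left₀ (by positivity) hx 2
    have h2 : (1 / Real.sqrt 2) ^ 2 = 1 / 2 := by
      rw [div_pow, one_pow, Real.sq_sqrt (by norm_num)]
    linarith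
  have h12 : ∀ y ∈ S.C, 1 / 2 ≤ S.q y := by
    intro y _
    show 1 / 2 ≤ (if y ∈ (∅ : Finset CyY) then (1 : ℝ) else if y.1 = CyK.up ∨ y.1 = CyK.dn then x ^ 2 else x)
    rw [if_neg (Finset.notMem_empty _)]
    split_ifs
    · exact hxx
    · nlinarith
  have alt := cp_alt S h12 hok.q1 (fun _ _ => True) (fun ω => cysFld L T c d ω ∈ cyVP 1 c d) (fun ω => cysFld L T c d ω ∈ cyVP (-1) c d)
    (fun ω => cysFld L T c d ω ∈ cyBlk 1 c d) (fun ω => cysFld L T c d ω ∈ cyBlk (-1) c d)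
    (fun ω _ hω => cyr_det hL T hcd (hT.trans (cys_Q_sub x L a b Q ∅)) ω hω)
  have f1 := cyr_flip hx0 hx1 hL hab hQ T hT (cyVP 1 c d)
  have f2 := cyr_flip hx0 hx1 hL hab hQ T hT (cyBlk 1 c d)
  have e1 : {τ : CyF | (fun u => - τ u) ∈ cyVP 1 c d} = cyVP (-1) c d := by
    ext τ
    show CyX (plsBand c d ∩ cyOn 1 (fun u => - τ u)) c d ↔ CyX (plsBand c d ∩ cyOn (-1) τ) c d
    rw [cyr_f_on]
  have e2 : {τ : CyF | (fun u => - τ u) ∈ cyBlk 1 c d} = cyBlk (-1) c d := by
    ext τ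
    show ¬ CyX (plsBand c d \ cyOn 1 (fun u => - τ u)) c d ↔ ¬ CyX (plsBand c d \ cyOn (-1) τ) c d
    rw [cyr_f_on]
  rw [e1] at f1
  rw [e2] at f2
  rw [cyr_f_free] at hZ ⊢
  have g : ∀ E : Set CyF, (fun ω : ClCfg TV CyY => if cysFld L T c d ω ∈ E then (1 : ℝ) else 0) = cysF L T c d E := by
    intro E
    funext ω
    unfold cysF
    congr
  rw [g, g, g, g, f1, f2] at alt
  rw [dis_E_eq, dis_E_eq, ← add_div, le_div_iff₀ hZ]
  linarith

/-! ## 2. a blocked band separates -/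

/-- the rows `≤ r` and the south pole -/
noncomputable def cyrDn (L : ℕ) (a r : ℤ) : Finset TV := sdSites L a r ∪ {(0, a - 1)}

/-- equal reductions may be shifted -/
theorem cyr_red_shift (L : ℕ) {a b : TV} (h : sdRed L a = sdRed L b) (e : TV) : sdRed L (a + e) = sdRed L (b + e) := by
  rw [← cy_red_red L a e, h, cy_red_red]

/-- two cells of one class which share a site have equal or adjacent indices, mod `(L, 0)`.   PLAN: `u = sdRed (p + δ) = sdRed (p' + δ')`, `q = p + δ - δ'`; 3 x 3 cases x two classes. -/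
theorem cyr_share {L : ℕ} (hL : 0 < L) (T : Bool) {p p' u : TV} (hu : u ∈ cySv L (cyT T p)) (hu' : u ∈ cySv L (cyT T p')) :
    ∃ q : TV, (q = p ∨ triAdj p q) ∧ sdRed L q = sdRed L p' := by
  have key : ∀ δ δ' : TV, sdRed L (p + δ) = sdRed L (p' + δ') → (δ - δ' = 0 ∨ triAdj 0 (δ - δ')) →
      ∃ q : TV, (q = p ∨ triAdj p q) ∧ sdRed L q = sdRed L p' := by
    intro δ δ' h hd
    refine ⟨p + (δ - δ'), ?_, ?_⟩
    · rcases hd with hd | hd
      · left; rw [hd, add_zero]
      · right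
        unfold triAdj at hd ⊢
        simpa using hd
    · have := cyr_red_shift L h (-δ')
      have e1 : p + δ + -δ' = p + (δ - δ') := by abel
      have e2 : p' + δ' + -δ' = p' := by abel
      rwa [e1, e2] at this
  rw [cyr_mem_sv] at hu hu'
  have z : ∀ a : TV, a = a + (0, 0) := fun a => by simp
  rcases hu with ⟨rfl, hu⟩ | ⟨rfl, hu⟩
  · rcases hu' with ⟨-, hu'⟩ | ⟨h, -⟩
    · rcases hu with rfl | rfl | rfl <;> rcases hu' with h | h | h
      · exact key (0, 0) (0, 0) (by simpa [Prod.mk_zero_zero] using h) (by simp)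
      · exact key (0, 0) (1, 0) (by simpa [Prod.mk_zero_zero] using h) (by right; unfold triAdj; simp)
      · exact key (0, 0) (0, 1) (by simpa [Prod.mk_zero_zero] using h) (by right; unfold triAdj; simp)
      · exact key (1, 0) (0, 0) (by simpa [Prod.mk_zero_zero] using h) (by right; unfold triAdj; simp)
      · exact key (1, 0) (1, 0) h (by simp)
      · exact key (1, 0) (0, 1) h (by right; unfold triAdj; simp)
      · exact key (0, 1) (0, 0) (by simpa [Prod.mk_zero_zero] using h) (by right; unfold triAdj; simp)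
      · exact key (0, 1) (1, 0) h (by right; unfold triAdj; simp)
      · exact key (0, 1) (0, 1) h (by simp)
    · exact absurd h (by simp)
  · rcases hu' with ⟨h, -⟩ | ⟨-, hu'⟩
    · exact absurd h (by simp)
    · rcases hu with rfl | rfl | rfl <;> rcases hu' with h | h | h
      · exact key (1, 0) (1, 0) h (by simp)
      · exact key (1, 0) (0, 1) h (by right; unfold triAdj; simp)
      · exact key (1, 0) (1, 1) h (by right; unfold triAdj; simp)
      · exact key (0, 1) (1, 0) h (by right; unfold triAdj; simp)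
      · exact key (0, 1) (0, 1) h (by simp)
      · exact key (0, 1) (1, 1) h (by right; unfold triAdj; simp)
      · exact key (1, 1) (1, 0) h (by right; unfold triAdj; simp)
      · exact key (1, 1) (0, 1) h (by right; unfold triAdj; simp)
      · exact key (1, 1) (1, 1) h (by simp)

/-- a cell of the ambient which contains a site of a row in `c+1..d` is a cell of the band `c..d`.
PLAN: `cys_sv_rows`; all kinds but `eh` have `cysHi = cysLo + 1`: `cys_slab` with `j = cysLo y ∈ {u.2 - 1, u.2}`; `eh`: the edge is covered by `cyTa` (`T = true`, index row `u.2`) or `cyTb` (`T = false`, index row `u.2 - 1`). -/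
theorem cyr_cell {x : ℝ} {L : ℕ} (hL : 3 ≤ L) {a b : ℤ} {Q : Finset CyY} (hQ : CyVal L a b Q) (Γ : Finset CyY) (T : Bool) {c d : ℤ} (hac : a ≤ c) (hdb : d < b)
    (hT : cyBand L T c d ⊆ Q) {y : CyY} (hy : y ∈ (cyS x L a b Q Γ).C) {u : TV} (hu : u ∈ cySv L y) (h1 : c + 1 ≤ u.2) (h2 : u.2 ≤ d) : y ∈ cyBand L T c d := by
  have hL0 : 0 < L := by omega
  have hr := ((cys_sv_rows hL0 y).1 u hu).2
  have slab : cysHi y = cysLo y + 1 → y ∈ cyBand L T c d := by
    intro hh
    have hj1 : c ≤ cysLo y := by omega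
    have hj2 : cysLo y ≤ d := by omega
    exact cys_band_mono L T hj1 hj2 (cys_slab hL (j := cysLo y) (by omega) (by omega) hQ Γ T ((cys_band_mono L T hj1 hj2).trans hT) hy le_rfl (by omega))
  obtain ⟨k, p⟩ := y
  cases k
  case eh =>
    exfalso
    have hrow : u.2 = p.2 := by
      simp only [cysLo, cysHi] at hr
      omega
    rcases cy_mem_C.1 hy with h | h | h
    · have := (cy_mem_tris.1 (hQ.sub h)).1
      simp at this
    · obtain ⟨he, hTa, hTb⟩ := h
      rcases cy_mem_edges.1 he with ⟨-, hp⟩ | ⟨h', -⟩ | ⟨h', -⟩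
      · simp only at hp
        rw [cy_mem_sites] at hp
        cases T
        · apply hTb
          apply hT
          rw [cys_mem_band]
          simp only [cyTb, Bool.false_eq_true, if_false, Prod.fst_sub, Prod.snd_sub, sub_zero, true_and]
          exact ⟨⟨hp.1, hp.2.1⟩, by omega, by omega⟩
        · apply hTa
          apply hT
          rw [cys_mem_band]
          simp only [cyTa, if_true, true_and]
          exact ⟨⟨hp.1, hp.2.1⟩, by omega, by omega⟩
      · simp at h'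
      · simp at h'
    · rcases cy_mem_spokes.1 h with ⟨h', -⟩ | ⟨h', -⟩ <;> simp at h'
  all_goals exact slab (by simp only [cysLo, cysHi]; try omega)

/-- the sites of a triangle depend on the reduced index only -/
theorem cyr_s_sv_red (L : ℕ) (T : Bool) (p : TV) : cySv L (cyT T (sdRed L p)) = cySv L (cyT T p) := by
  cases T
  · show (cellD (sdRed L p)).image (sdRed L) = (cellD p).image (sdRed L)
    simp only [cellD, Finset.image_insert, Finset.image_singleton, cy_red_red]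
  · show (cellV (sdRed L p)).image (sdRed L) = (cellV p).image (sdRed L)
    simp only [cellV, Finset.image_insert, Finset.image_singleton, cy_red_red, cy_red_idem]

/-- **(R1)**, deterministic.   PLAN: `R` = the indices of the band `c..d`, not plus, joined (in the cover) to the index row `c`; `J = O ∪ ` sites of the cells of `R` is stable under `clStep` and does not meet `A`.
One step: from a site of a row `≤ c` a cell leaves `O` only through the slab `c` (`cys_slab`); a cell of the ambient which contains a site of a row in `c+1..d` is a cell of the band (the edges there are covered);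
two cells of one class which share a site have equal or `triAdj` indices mod `L` (`cyr_share`, `cyr_cell`). -/
theorem cyr_sep {x : ℝ} {L : ℕ} (hL : 3 ≤ L) {a b : ℤ} {Q : Finset CyY} (hQ : CyVal L a b Q) (T : Bool) {c d : ℤ} (hac : a ≤ c) (hcd : c ≤ d) (hdb : d < b)
    (hT : cyBand L T c d ⊆ Q) (ω : ClCfg TV CyY) (h : cysFld L T c d ω ∈ cyBlk 1 c d) :
    ClSep (cyS x L a b Q ∅) true ∅ ω (cyrDn L a c) (cysUp L (d + 1) b) := by
  have hL0 : 0 < L := by omega
  set S := cyS x L a b Q ∅ with hS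
  set τ := cysFld L T c d ω with hτ
  set N : Set TV := plsBand c d \ cyOn 1 τ with hN
  -- the invaded set
  let J : TV → Prop := fun w => w.2 ≤ c ∨ ∃ p u0 : TV, u0 ∈ N ∧ u0.2 = c ∧ TscR tscG N u0 p ∧ p ∈ N ∧ w ∈ cySv L (cyT T p)
  have hrows : ∀ (p w : TV), w ∈ cySv L (cyT T p) → p.2 ≤ w.2 ∧ w.2 ≤ p.2 + 1 := by
    intro p w hw
    have h1 := ((cys_sv_rows hL0 (cyT T p)).1 w hw).2
    cases T <;> simpa [cyT, cysLo, cysHi] using h1
  have hJd : ∀ w, J w → w.2 ≤ d := by
    rintro w (hw | ⟨p, u0, h0, h0c, hR, hp, hw⟩)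
    · omega
    · by_contra hlt
      have h1 := hrows p w hw
      have h2 : c ≤ p.2 ∧ p.2 ≤ d := hp.1
      exact h ⟨u0, p, h0, h0c, by omega, hR⟩
  have hstep : ∀ w w', J w → clStep S true ∅ ω w w' → J w' := by
    intro w w' hw hst
    rcases hst with ⟨y, hy, hwy, hwy', hty⟩ | hE | hE
    · by_cases hc' : w'.2 ≤ c
      · exact Or.inl hc'
      · have hwd := hJd w hw
        have hyr := (cys_sv_rows hL0 y).1
        have hyb : y ∈ cyBand L T c d := by
          by_cases hd' : w'.2 ≤ d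
          · exact cyr_cell hL hQ ∅ T hac hdb hT hy hwy' (by omega) hd'
          · have h1 := (hyr w hwy).2
            have h2 := (hyr w' hwy').2
            exact cys_band_mono L T hcd le_rfl
              (cys_slab hL (by omega) hdb hQ ∅ T ((cys_band_mono L T hcd le_rfl).trans hT) hy (by omega) (by omega))
        obtain ⟨k1, k2, k3, k4⟩ := cys_mem_band.1 hyb
        have hyT : y = cyT T y.2 := Prod.ext k1 rfl
        have hred : sdRed L y.2 = y.2 := cy_red_self k2.1 k2.2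
        -- every lift of the index of `y` is not plus
        have hlift : ∀ q : TV, sdRed L q = y.2 → q ∈ N := by
          intro q hq
          have hq2 : q.2 = y.2.2 := by rw [← hq]; rfl
          refine ⟨⟨by omega, by omega⟩, fun h1 => hty ?_⟩
          have h2 : τ q = 1 := h1
          rw [hτ] at h2
          unfold cysFld at h2
          rw [if_pos ⟨by omega, by omega⟩, hq, ← hyT, ← cys_tau_R L S rfl] at h2
          unfold cySg at h2
          show clTau S ω y = 1
          by_contra h3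
          rw [if_neg h3] at h2
          split_ifs at h2
        rcases hw with hw | ⟨p, u0, h0, h0c, hR, hp, hwp⟩
        · have h1 : y.2.2 ≤ w.2 := by
            rw [hyT] at hwy
            exact (hrows _ _ hwy).1
          refine Or.inr ⟨y.2, y.2, hlift _ hred, by omega, ReflTransGen.refl, hlift _ hred, ?_⟩
          rw [← hyT]
          exact hwy'
        · rw [hyT] at hwy
          obtain ⟨q, hq, hqr⟩ := cyr_share hL0 T hwp hwy
          rw [hred] at hqr
          have hqN := hlift q hqr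
          have hw'q : w' ∈ cySv L (cyT T q) := by
            rw [← cyr_s_sv_red, hqr, ← hyT]
            exact hwy'
          rcases hq with rfl | hq
          · exact Or.inr ⟨q, u0, h0, h0c, hR, hqN, hw'q⟩
          · exact Or.inr ⟨q, u0, h0, h0c, hR.tail ⟨hq, hp, hqN⟩, hqN, hw'q⟩
    · exact absurd hE (Finset.notMem_empty _)
    · exact absurd hE (Finset.notMem_empty _)
  intro u hu v hv hr
  have hJu : J u := by
    left
    unfold cyrDn at hu
    rcases Finset.mem_union.1 hu with h1 | h1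
    · exact (cy_mem_sites.1 h1).2.2.2
    · rw [Finset.mem_singleton.1 h1]
      show a - 1 ≤ c
      omega
  have hJv : J v := by
    clear hv
    induction hr with
    | refl => exact hJu
    | tail _ hst ih => exact hstep _ _ ih hst
  have h1 := hJd v hJv
  unfold cysUp at hv
  rcases Finset.mem_union.1 hv with h2 | h2
  · have := (cy_mem_sites.1 h2).2.2.1
    omega
  · rw [Finset.mem_singleton.1 h2] at h1
    have : b + 1 ≤ d := h1
    omega

/-! ## 3. assembly -/

/-- the family of the comparison -/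
noncomputable def cyrQ (L H : ℕ) (T T1 : Bool) (c d κ κ' : ℤ) : Finset CyY :=
  cyBand L T (-1) (-1) ∪ cyBand L T H H ∪ cyBand L T c d ∪ cyBand L T1 κ κ'

theorem cyr_Q_val (L H : ℕ) (T T1 : Bool) {c d κ κ' : ℤ} (hc : 3 ≤ c) (hcd : c ≤ d) (h1 : d + 3 ≤ κ) (hκ : κ ≤ κ') (h2 : κ' ≤ (H : ℤ) - 4) :
    CyVal L (-3) ((H : ℤ) + 3) (cyrQ L H T T1 c d κ κ') := by
  refine cys_val_of ?_ ?_
  · unfold cyrQ
    refine Finset.union_subset (Finset.union_subset (Finset.union_subset ?_ ?_) ?_) ?_ <;>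
      exact cys_band_tris (by omega) (by omega)
  · intro y z hy hz
    unfold cyrQ at hy hz
    cases T <;> cases T1 <;> simp [Finset.mem_union, cys_mem_band] at hy hz <;> omega

theorem cyr_eqns_cite : True := by
  have := @cyrDn.eq_1
  have := @cyrQ.eq_1
  trivial

/-- **TEX[annulus:seed], recovery** = the field `recov` of `CyLaw L H (cyP x L H)` -/
theorem cyr_recov {x : ℝ} (hx : 1 / Real.sqrt 2 ≤ x) (hx1 : x ≤ 1) {L H : ℕ} (hL : 3 ≤ L) (hH : 20 ≤ H) (T T1 : Bool) (c d κ m : ℤ) (hc : 3 ≤ c) (hcd : c ≤ d)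
    (h1 : d + 3 ≤ κ) (hm : 1 ≤ m) (h2 : κ + m - 1 ≤ (H : ℤ) - 4) :
    cyP x L H T T (cyBlk 1 c d) ≤ 2 * (cyP x L H T T1 (cyVP 1 κ (κ + m - 1)) + cyP x L H T T1 (cyBlk 1 κ (κ + m - 1))) := by
  classical
  have hx0 : 0 < x := lt_of_lt_of_le (by positivity) hx
  have hL0 : 0 < L := by omega
  have hH' : (20 : ℤ) ≤ H := by exact_mod_cast hH
  set κ' : ℤ := κ + m - 1 with hκ'
  have hκκ : κ ≤ κ' := by omega
  have hV : CyVal L (-3) ((H : ℤ) + 3) (cyrQ L H T T1 c d κ κ') := cyr_Q_val L H T T1 hc hcd h1 hκκ h2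
  have z1 : (0 : ℤ) - 1 = -1 := by norm_num
  have b1 : cyBand L T (0 - 1) (0 - 1) ⊆ cyrQ L H T T1 c d κ κ' := fun y hy => by
    rw [z1] at hy
    unfold cyrQ; simp only [Finset.mem_union]; tauto
  have b2 : cyBand L T H H ⊆ cyrQ L H T T1 c d κ κ' := fun y hy => by
    unfold cyrQ; simp only [Finset.mem_union]; tauto
  have b3 : cyBand L T c d ⊆ cyrQ L H T T1 c d κ κ' := fun y hy => by
    unfold cyrQ; simp only [Finset.mem_union]; tauto
  have b4 : cyBand L T1 κ κ' ⊆ cyrQ L H T T1 c d κ κ' := fun y hy => by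
    unfold cyrQ; simp only [Finset.mem_union]; tauto
  set Qb := cyrQ L H T T1 c d κ κ' with hQb
  set S := cyS x L (-3) ((H : ℤ) + 3) Qb ∅ with hSdef
  have hD : ClDisk S := cy_S_disk hx0 hx1 hL (by omega) hV ∅ (cy_S_card _ _ _ _ _ _)
  have hQC : Qb ⊆ S.C := cys_Q_sub x L (-3) ((H : ℤ) + 3) Qb ∅
  -- realisation of `cyP x L H T T' E` (test of class `T'` in the slabs `c'..d'`) in the ambient `S`
  have real : ∀ (T' : Bool) (c' d' : ℤ) (E : Set CyF), 3 ≤ c' → d' ≤ (H : ℤ) - 4 → cyBand L T' c' d' ⊆ Qb → CySup c' d' E →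
      0 < S.Z ((cysK S (cyBand L T (0 - 1) (0 - 1) ∪ ∅) (cyBand L T H H ∪ ∅)).Holds S) ∧
      cyP x L H T T' E = S.E ((cysK S (cyBand L T (0 - 1) (0 - 1) ∪ ∅) (cyBand L T H H ∪ ∅)).Holds S) (cysF L T' c' d' E) := by
    intro T' c' d' E hc' hd' hb hs
    have q1 : cyBand L T (0 - 1) (0 - 1) ⊆ cyQ L H T T' := fun y hy => by
      rw [z1] at hy
      unfold cyQ; simp only [Finset.mem_union]; tauto
    have q2 : cyBand L T H H ⊆ cyQ L H T T' := fun y hy => by
      unfold cyQ; simp only [Finset.mem_union]; tauto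
    have e1 : cyP x L H T T' E = (cysIn x L Qb ∅ 0 H).E (CyMix L 0 H) (cysF L T' c' d' E) := by
      rw [cys_P_eq x hL0 H T T' (by omega) (by omega) hs]
      exact cys_rc_in hx0 hx1 hL (a := -3) (b := (H : ℤ) + 3) (a' := -3) (b' := (H : ℤ) + 3) (by omega) (by omega) (by omega) (by omega) (by omega)
        (cys_Q_val L H T T') hV T T T' q1 q2 (cys_Q_band L H T T' (by omega) (by omega)) b1 b2 hb (by omega) (by omega) _
        (cys_F_loc hL0 T' (by omega) (by omega) E)
    have a1 := cys_amb hx0 hx1 hL (a := -3) (b := (H : ℤ) + 3) (r0 := 0) (r1 := H) (by omega) (by omega) (by omega) hV ∅ T T b1 b2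
      (M' := ∅) (P' := ∅) (Finset.empty_subset _) (fun y hy => absurd hy (Finset.notMem_empty _))
      (Finset.empty_subset _) (fun y hy => absurd hy (Finset.notMem_empty _)) (cysF L T' c' d' E)
      (dde_loc_mono (Finset.Subset.refl _) (cys_band_cin hL0 ∅ hb (by omega) (by omega)) (cys_F_loc hL0 T' (by omega) (by omega) E))
    exact ⟨a1.1, e1.trans a1.2.symm⟩
  obtain ⟨hZ, r0⟩ := real T c d (cyBlk 1 c d) hc (by omega) b3 (cy_sup_Blk 1 c d)
  obtain ⟨-, r1⟩ := real T1 κ κ' (cyVP 1 κ κ') (by omega) h2 b4 (cy_sup_VP 1 κ κ')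
  obtain ⟨-, r2⟩ := real T1 κ κ' (cyBlk 1 κ κ') (by omega) h2 b4 (cy_sup_Blk 1 κ κ')
  rw [r0, r1, r2]
  set M := cyBand L T (0 - 1) (0 - 1) ∪ ∅ with hMdef
  set P := cyBand L T H H ∪ ∅ with hPdef
  have hMC : M ⊆ S.C := by rw [hMdef, Finset.union_empty]; exact b1.trans hQC
  have hPC : P ⊆ S.C := by rw [hPdef, Finset.union_empty]; exact b2.trans hQC
  -- the two regions
  have hO : cyrDn L (-3) c ⊆ S.A := by
    intro v hv
    unfold cyrDn at hv
    rw [hSdef, cy_mem_A]
    rcases Finset.mem_union.1 hv with h | h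
    · have := cy_mem_sites.1 h
      exact Or.inl (cy_mem_sites.2 ⟨this.1, this.2.1, this.2.2.1, by omega⟩)
    · exact Or.inr (Or.inr (Finset.mem_singleton.1 h))
  have hA : cysUp L (d + 1) ((H : ℤ) + 3) ⊆ S.A := cys_up_sub x L (by omega) Qb ∅
  have hMO : ∀ y ∈ M, S.sv y ⊆ cyrDn L (-3) c := by
    intro y hy v hv
    rw [hMdef, Finset.union_empty] at hy
    have h3 := cys_band_rows hL0 hy hv
    have h4 := ((cys_sv_rows hL0 y).1 v hv).1
    exact Finset.mem_union_left _ (cy_mem_sites.2 ⟨h4.1, h4.2, by omega, by omega⟩)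
  -- the tests are increasing, local above the band, nonnegative
  have hFl : ∀ E : Set CyF, ClLoc (cysUp L (d + 1) ((H : ℤ) + 3)) (S.cin (cysUp L (d + 1) ((H : ℤ) + 3))) (cysF L T1 κ κ' E) := fun E =>
    dde_loc_mono (cys_rows_up L (r0 := d + 1) (r1 := (H : ℤ) + 3) le_rfl)
      ((cys_band_cin hL0 ∅ b4 (r0 := d + 1) (r1 := (H : ℤ) + 3) (by omega) (by omega)).trans (dde_cin_mono S (cys_rows_up L (r0 := d + 1) (r1 := (H : ℤ) + 3) le_rfl)))
      (cys_F_loc hL0 T1 (r0 := d + 1) (r1 := (H : ℤ) + 3) (by omega) (by omega) E)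
  have hF0 : ∀ (E : Set CyF) (ω : ClCfg TV CyY), 0 ≤ cysF L T1 κ κ' E ω := fun E ω => by
    unfold cysF; split_ifs <;> norm_num
  have d1 := cyr_dom S hD hMC hPC hO hA hMO _ (cys_F_mono hL0 S rfl (b4.trans hQC) (cy_inc_VP κ κ')) (hFl _) (hF0 _)
  have d2 := cyr_dom S hD hMC hPC hO hA hMO _ (cys_F_mono hL0 S rfl (b4.trans hQC) (cy_inc_Blk κ κ')) (hFl _) (hF0 _)
  have fr := cyr_free hx hx1 hL (a := -3) (b := (H : ℤ) + 3) (by omega) hV T1 hκκ b4
  -- (R1)
  have s1 : S.N ((cysK S M P).Holds S) (cysF L T c d (cyBlk 1 c d)) ≤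
      S.N ((cysK S M P).Holds S) (fun ω => if ClSep S true ∅ ω (cyrDn L (-3) c) (cysUp L (d + 1) ((H : ℤ) + 3)) then 1 else 0) := by
    refine dis_N_mono S hD.toClOk _ fun ω _ _ => ?_
    unfold cysF
    by_cases hb : cysFld L T c d ω ∈ cyBlk 1 c d
    · rw [if_pos hb, if_pos (cyr_sep hL hV T (by omega) hcd (by omega) b3 ω hb)]
    · rw [if_neg hb]
      split_ifs <;> norm_num
  have hN0 : 0 ≤ S.N ((cysK S M P).Holds S) (fun ω => if ClSep S true ∅ ω (cyrDn L (-3) c) (cysUp L (d + 1) ((H : ℤ) + 3)) then (1 : ℝ) else 0) :=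
    dis_N_nonneg S hD.toClOk _ fun ω => by split_ifs <;> norm_num
  rw [dis_E_eq, dis_E_eq, dis_E_eq, ← add_div, ← mul_div_assoc, div_le_div_iff_of_pos_right hZ]
  nlinarith [d1, d2, fr, s1, hN0]

end Claimed.Agent.R291
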