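import Claimed.Agent.R291.Ann.CylDefs

/-!
# Row 291 (S0539), ANN block A4, LAW SIDE : THE FIELD `slide` OF `CyLaw (cyP x L H)`      (owner + architect helper239; prefix `cys` / `cys_`)

TEX 09-annulus l.112-165 (annulus:slide, (annulus:slide-cuts), (annulus:slide-tests)), l.22-85 (annulus:ambient, cut assertion).      Definitions: `Ann/CylDefs` (helper5).

REUSABLE API (for the fields `fkg`, `sym`, `recov` too):
* Sec. 0 (abstract `ClSys`): `cysK S M P` = the history "cells of `M` open-minus, cells of `P` open-plus" (legal, ordered, feasible: `cys_K_legal`, `cys_K_le`, `cys_K_feas`);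
  **`cys_two`** = TWO CUTS of opposite signs isolate the law between them;      `cys_E_le` = `dis_order` in normalised form
* Sec. 1 geometry of the cells of the capped cylinder (`cys_sv_rows`, bands, `cys_val_of` = criterion for `CyVal`)
* Sec. 2 `cysIn x L Q Γ r0 r1` = EXPLICIT form of `cyI` (no ambient rows): `cys_I_eq`;      crossing cells and layers of the two cuts
* Sec. 3 **`cys_amb`**: in ANY valid capped ambient the history "minus band of class `S0` under the row `r0`, plus band of class `S1` over the row `r1`" (+ more minus cells below, more plus cells above) realises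
  `(cysIn x L Q Γ r0 r1).E (CyMix L r0 r1)`;      **`cys_rc_in`**: that law, for tests reading one band of class `T`, does not depend on the rest of the family (from `cy_rc` of helper5)
* Sec. 4 the canonical test `cysF L T c d E` (reads the slabs `c..d` through `cySv` only): monotone, local, `= cyFld`-form under `CySup`;      `cys_P_eq`
* Sec. 5 vertical translation `cysTr t` (`CuIso` between the explicit systems)
* Sec. 6 **`cys_slide`**.
-/

set_option autoImplicit false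
set_option linter.unusedSectionVars false
set_option linter.unusedVariables false
set_option linter.unusedSimpArgs false

namespace Claimed.Agent.R291

open Claims Claims.C0467 Relation

/-! ## 0. abstract: histories made of open cells, two cuts -/

section abstract

variable {V Y : Type} [DecidableEq V] [DecidableEq Y]

/-- the history "the cells of `M` are open-minus, the cells of `P` are open-plus" (all their first spins pinned) -/
def cysK (S : ClSys V Y) (M P : Finset Y) : ClCon V Y := ((clFree : ClCon V Y).opn S true P).opn S false M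

theorem cys_free_legal (S : ClSys V Y) : ClLegal S (clFree : ClCon V Y) :=
  ⟨rfl, rfl, fun y _ hy => by simp [clFree] at hy, fun e he => by simp [clFree] at he⟩

theorem cys_K_legal (S : ClSys V Y) (M P : Finset Y) : ClLegal S (cysK S M P) :=
  amo_legal_opn S _ (amo_legal_opn S _ (cys_free_legal S) true P) false M

theorem cys_K_le (S : ClSys V Y) {M M' P P' : Finset Y} (hM : M' ⊆ M) (hP : P ⊆ P') : ClLe (cysK S M P) (cysK S M' P') :=
  amo_le_opn S (amo_le_opn S (amo_le_refl _) true true P P' (fun _ => ⟨rfl, hP⟩) (fun h => by simp at h)) false false M M'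
    (fun h => by simp at h) (fun _ => ⟨rfl, hM⟩)

/-- PLAN: `dis_feas` + `cys_K_legal`; `ClFeas`: `Bp = ∅ ∪ P.biUnion sv`, `Bm = ∅ ∪ M.biUnion sv`, `Op = ∅ ∪ P`, `Om = ∅ ∪ M`, `Cl = ∅`; `Disjoint P M` from `hd` and `hS.ne`. -/
theorem cys_K_feas (S : ClSys V Y) (hS : ClOk S) {M P : Finset Y} (hM : M ⊆ S.C) (hP : P ⊆ S.C)
    (hd : ∀ y ∈ P, ∀ z ∈ M, Disjoint (S.sv y) (S.sv z)) : 0 < S.Z ((cysK S M P).Holds S) := by
  refine dis_feas S hS _ (cys_K_legal S M P) ?_
  have hBp : (cysK S M P).Bp = P.biUnion S.sv := by simp [cysK, ClCon.opn, clFree]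
  have hBm : (cysK S M P).Bm = M.biUnion S.sv := by simp [cysK, ClCon.opn, clFree]
  have hOp : (cysK S M P).Op = P := by simp [cysK, ClCon.opn, clFree]
  have hOm : (cysK S M P).Om = M := by simp [cysK, ClCon.opn, clFree]
  have hCl : (cysK S M P).Cl = ∅ := by simp [cysK, ClCon.opn, clFree]
  refine ⟨?_, ?_, ?_, ?_, ?_, ?_, ?_, ?_, ?_, ?_⟩
  · rw [hBp]
    exact Finset.biUnion_subset.2 fun y hy => hS.sub y (hP hy)
  · rw [hBp, hBm, Finset.disjoint_biUnion_left]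
    intro y hy
    rw [Finset.disjoint_biUnion_right]
    exact fun z hz => hd y hy z hz
  · rw [hOp]; exact hP
  · rw [hOm]; exact hM
  · rw [hOp, hBp]
    exact fun y hy => Finset.subset_biUnion_of_mem S.sv hy
  · rw [hOm, hBm]
    exact fun y hy => Finset.subset_biUnion_of_mem S.sv hy
  · rw [hCl]
    intro y hy
    exact absurd hy (Finset.notMem_empty _)
  · rw [hOp, hOm, Finset.disjoint_left]
    intro y hy hy'
    obtain ⟨v, hv⟩ := hS.ne y (hP hy)
    exact Finset.disjoint_left.1 (hd y hy y hy') hv hv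
  · rw [hCl]; exact Finset.disjoint_empty_right _
  · rw [hCl]; exact Finset.disjoint_empty_right _

/-- `dis_order`, normalised -/
theorem cys_E_le (S : ClSys V Y) (hS : ClDisk S) (K₁ K₂ : ClCon V Y) (h₁ : ClLegal S K₁) (h₂ : ClLegal S K₂) (hle : ClLe K₁ K₂)
    (f₁ : 0 < S.Z (K₁.Holds S)) (f₂ : 0 < S.Z (K₂.Holds S)) (F : ClCfg V Y → ℝ) (hF : ClMono S F) :
    S.E (K₁.Holds S) F ≤ S.E (K₂.Holds S) F := by
  rw [dis_E_eq, dis_E_eq, div_le_div_iff₀ f₁ f₂]
  have := dis_order S hS K₁ K₂ h₁ h₂ hle F hF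
  linarith

/-- **TWO CUTS**: a minus cut around `I1` and, inside `I1`, a plus cut around `I2` isolate the law on `I2`.      OWNER 239. -/
theorem cys_two (S : ClSys V Y) (hS : ClOk S) {I1 I2 : Finset V} (h1 : I1 ⊆ S.A) (h21 : I2 ⊆ I1) (hl : cuLay S I1 ⊆ I2)
    {M' P' : Finset Y} (hM' : M' ⊆ S.cout I1) (hP' : P' ⊆ (S.inn I1).cout I2)
    (hf : 0 < S.Z ((cysK S (S.cx I1 ∪ M') ((S.inn I1).cx I2 ∪ P')).Holds S))
    (F : ClCfg V Y → ℝ) (hF : ClLoc I2 (S.cin I2) F) :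
    S.E ((cysK S (S.cx I1 ∪ M') ((S.inn I1).cx I2 ∪ P')).Holds S) F =
      (S.inn I2).E (fun ω => CuPin false (cuLay S I1) ω ∧ CuPin true (cuLay (S.inn I1) I2) ω) F := by
  have hXc : (S.inn I1).cx I2 ∪ P' ⊆ S.cin I1 :=
    Finset.union_subset (amo_cx_sub (S.inn I1) I2) (hP'.trans (amo_cout_subC (S.inn I1) I2))
  have hKaIn : ((clFree : ClCon V Y).opn S true ((S.inn I1).cx I2 ∪ P')).In S I1 := by
    refine ⟨?_, ?_, ?_, ?_, ?_, ?_, ?_, ?_⟩
    · simp only [ClCon.opn, clFree, if_true, Finset.empty_union]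
      exact Finset.biUnion_subset.2 fun y hy => ((am_mem_cin S I1 y).1 (hXc hy)).2
    · simp [ClCon.opn, clFree]
    · simp [ClCon.opn, clFree]
    · simp only [ClCon.opn, clFree, if_true, Finset.empty_union]
      exact hXc
    · simp [ClCon.opn, clFree]
    · simp [ClCon.opn, clFree]
    · simp [ClCon.opn, clFree]
    · simp [ClCon.opn, clFree]
  have c1 := fun G hG => amo_cut S hS false I1 h1 _ hKaIn M' hM' G hG
  have hF1 : ClLoc I1 (S.cin I1) F := dde_loc_mono h21 (dde_cin_mono S h21) hF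
  have e1 : S.E ((cysK S (S.cx I1 ∪ M') ((S.inn I1).cx I2 ∪ P')).Holds S) F =
      cuE S false I1 (((clFree : ClCon V Y).opn S true ((S.inn I1).cx I2 ∪ P')).Holds S) F := by
    rw [dis_E_eq]
    unfold cysK at hf ⊢
    rw [c1 F hF1, mul_div_assoc, mul_comm, div_mul_cancel₀ _ hf.ne']
  have hS1 : ClOk (S.inn I1) := am_inn_ok S hS I1
  have hKbIn : ({ (clFree : ClCon V Y) with Bm := cuLay S I1 } : ClCon V Y).In (S.inn I1) I2 := by
    refine ⟨?_, hl, ?_, ?_, ?_, ?_, ?_, ?_⟩ <;> simp [clFree]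
  have c2 := fun G hG => amo_cut (S.inn I1) hS1 true I2 h21 _ hKbIn P' hP' G hG
  have hid : (fun ω => CuPin false (cuLay S I1) ω ∧ ((clFree : ClCon V Y).opn S true ((S.inn I1).cx I2 ∪ P')).Holds S ω) =
      (({ (clFree : ClCon V Y) with Bm := cuLay S I1 } : ClCon V Y).opn (S.inn I1) true ((S.inn I1).cx I2 ∪ P')).Holds (S.inn I1) := by
    funext ω
    apply propext
    simp only [CuPin, ClCon.opn, ClCon.Holds, clFree, if_true, Finset.empty_union, Finset.notMem_empty, false_imp_iff, implies_true,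
      Finset.empty_subset, and_true, true_and, Bool.false_eq_true, iff_false]
    constructor
    · rintro ⟨h1, h2, h3⟩
      exact ⟨h2, h1, h3⟩
    · rintro ⟨h2, h1, h3⟩
      exact ⟨h1, h2, h3⟩
  have hZ1 : 0 < (S.inn I1).Z ((({ (clFree : ClCon V Y) with Bm := cuLay S I1 } : ClCon V Y).opn (S.inn I1) true ((S.inn I1).cx I2 ∪ P')).Holds (S.inn I1)) := by
    by_contra hneg
    have hz := le_antisymm (not_lt.1 hneg) (amo_Z_nonneg (S.inn I1) hS1 _)
    have h3 := c1 (fun _ => 1) (fun _ _ _ _ _ => rfl)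
    rw [← dis_Z_eq] at h3
    have h0 : cuE S false I1 (((clFree : ClCon V Y).opn S true ((S.inn I1).cx I2 ∪ P')).Holds S) (fun _ => 1) = 0 :=
      amo_cuE_zero S false I1 _ (by rw [hid]; exact hz) _
    rw [h0, mul_zero] at h3
    unfold cysK at hf
    exact hf.ne' h3
  have hC : (S.inn I1).cin I2 = S.cin I2 := congrArg ClSys.C (am_inn_inn S h21)
  have hF2 : ClLoc I2 ((S.inn I1).cin I2) F := by rw [hC]; exact hF
  rw [e1]
  unfold cuE
  rw [hid, dis_E_eq, c2 F hF2, mul_div_assoc, mul_comm, div_mul_cancel₀ _ hZ1.ne']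
  unfold cuE
  rw [am_inn_inn S h21]
  congr 1
  funext ω
  apply propext
  simp only [CuPin, ClCon.Holds, clFree, Finset.notMem_empty, false_imp_iff, implies_true,
      Finset.empty_subset, and_true, true_and, Bool.false_eq_true, iff_false]
  exact and_comm

end abstract

/-! ## 1. geometry of the cells -/

theorem cys_red_snd (L : ℕ) (u : TV) : (sdRed L u).2 = u.2 := rfl

theorem cys_red_mem {L : ℕ} (hL : 0 < L) (u : TV) (a b : ℤ) : sdRed L u ∈ sdSites L a b ↔ a ≤ u.2 ∧ u.2 ≤ b := by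
  exact cy_red_mem hL u

theorem cys_red_id {L : ℕ} {u : TV} (h0 : 0 ≤ u.1) (h1 : u.1 < L) : sdRed L u = u := by
  exact cy_red_self h0 h1

theorem cys_red_add (L : ℕ) (u : TV) (t : ℤ) : sdRed L (u + (0, t)) = sdRed L u + (0, t) := by
  unfold sdRed
  ext <;> simp

theorem cys_mem_sites {L : ℕ} {a b : ℤ} {v : TV} : v ∈ sdSites L a b ↔ (0 ≤ v.1 ∧ v.1 < L) ∧ a ≤ v.2 ∧ v.2 ≤ b := by
  rw [cy_mem_sites]
  tauto

theorem cys_mem_row {L : ℕ} {j : ℤ} {v : TV} : v ∈ sdRow L j ↔ (0 ≤ v.1 ∧ v.1 < L) ∧ v.2 = j := by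
  rw [cy_mem_row]
  tauto

theorem cys_mem_band {L : ℕ} {T : Bool} {c d : ℤ} {y : CyY} :
    y ∈ cyBand L T c d ↔ y.1 = (if T then CyK.up else CyK.dn) ∧ (0 ≤ y.2.1 ∧ y.2.1 < L) ∧ c ≤ y.2.2 ∧ y.2.2 ≤ d := by
  unfold cyBand
  rw [Finset.mem_image]
  constructor
  · rintro ⟨u, hu, rfl⟩
    have h := cy_mem_cells.1 hu
    exact ⟨rfl, ⟨h.1, h.2.1⟩, h.2.2.1, by have := h.2.2.2; show u.2 ≤ d; omega⟩
  · rintro ⟨h1, h2, h3, h4⟩
    exact ⟨y.2, cy_mem_cells.2 ⟨h2.1, h2.2, h3, by omega⟩, Prod.ext h1.symm rfl⟩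

theorem cys_mem_tris {L : ℕ} {a b : ℤ} {y : CyY} :
    y ∈ cyTris L a b ↔ (y.1 = CyK.up ∨ y.1 = CyK.dn) ∧ (0 ≤ y.2.1 ∧ y.2.1 < L) ∧ a ≤ y.2.2 ∧ y.2.2 < b := by
  rw [cy_mem_tris, cy_mem_cells]
  tauto

/-- lowest row of a cell -/
def cysLo (c : CyY) : ℤ := match c.1 with
  | .ss => c.2.2 - 1
  | _ => c.2.2

/-- highest row of a cell -/
def cysHi (c : CyY) : ℤ := match c.1 with
  | .eh => c.2.2
  | .ss => c.2.2
  | _ => c.2.2 + 1

theorem cys_red_fst {L : ℕ} (hL : 0 < L) (u : TV) : 0 ≤ (sdRed L u).1 ∧ (sdRed L u).1 < L :=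
  ⟨Int.emod_nonneg _ (by exact_mod_cast hL.ne'), Int.emod_lt_of_pos _ (by exact_mod_cast hL)⟩

/-- every site of a cell is reduced and lies between the lowest and the highest row; both rows are attained -/
theorem cys_sv_rows {L : ℕ} (hL : 0 < L) (c : CyY) :
    (∀ v ∈ cySv L c, (0 ≤ v.1 ∧ v.1 < L) ∧ cysLo c ≤ v.2 ∧ v.2 ≤ cysHi c) ∧ (∃ v ∈ cySv L c, v.2 = cysLo c) ∧ ∃ v ∈ cySv L c, v.2 = cysHi c := by
  have hL' : (0 : ℤ) < L := by exact_mod_cast hL
  obtain ⟨k, y⟩ := c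
  cases k
  · refine ⟨?_, ⟨sdRed L y, Finset.mem_image_of_mem _ (by simp [cellV]), rfl⟩,
      ⟨sdRed L (y + (0, 1)), Finset.mem_image_of_mem _ (by simp [cellV]), rfl⟩⟩
    intro v hv
    obtain ⟨p, hp, rfl⟩ := Finset.mem_image.1 hv
    refine ⟨cys_red_fst hL p, ?_⟩
    simp only [cellV, Finset.mem_insert, Finset.mem_singleton] at hp
    rcases hp with rfl | rfl | rfl <;> simp [cysLo, cysHi, sdRed]
  · refine ⟨?_, ⟨sdRed L (y + (1, 0)), Finset.mem_image_of_mem _ (by simp [cellD]), by simp [cysLo, sdRed]⟩,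
      ⟨sdRed L (y + (0, 1)), Finset.mem_image_of_mem _ (by simp [cellD]), rfl⟩⟩
    intro v hv
    obtain ⟨p, hp, rfl⟩ := Finset.mem_image.1 hv
    refine ⟨cys_red_fst hL p, ?_⟩
    simp only [cellD, Finset.mem_insert, Finset.mem_singleton] at hp
    rcases hp with rfl | rfl | rfl <;> simp [cysLo, cysHi, sdRed]
  · refine ⟨?_, ⟨sdRed L y, Finset.mem_image_of_mem _ (by simp), rfl⟩, ⟨sdRed L y, Finset.mem_image_of_mem _ (by simp), rfl⟩⟩
    intro v hv
    obtain ⟨p, hp, rfl⟩ := Finset.mem_image.1 hv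
    refine ⟨cys_red_fst hL p, ?_⟩
    simp only [Finset.mem_insert, Finset.mem_singleton] at hp
    rcases hp with rfl | rfl <;> simp [cysLo, cysHi, sdRed]
  · refine ⟨?_, ⟨sdRed L y, Finset.mem_image_of_mem _ (by simp), rfl⟩,
      ⟨sdRed L (y + (0, 1)), Finset.mem_image_of_mem _ (by simp), rfl⟩⟩
    intro v hv
    obtain ⟨p, hp, rfl⟩ := Finset.mem_image.1 hv
    refine ⟨cys_red_fst hL p, ?_⟩
    simp only [Finset.mem_insert, Finset.mem_singleton] at hp
    rcases hp with rfl | rfl <;> simp [cysLo, cysHi, sdRed]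
  · refine ⟨?_, ⟨sdRed L y, Finset.mem_image_of_mem _ (by simp), rfl⟩,
      ⟨sdRed L (y + (-1, 1)), Finset.mem_image_of_mem _ (by simp), rfl⟩⟩
    intro v hv
    obtain ⟨p, hp, rfl⟩ := Finset.mem_image.1 hv
    refine ⟨cys_red_fst hL p, ?_⟩
    simp only [Finset.mem_insert, Finset.mem_singleton] at hp
    rcases hp with rfl | rfl <;> simp [cysLo, cysHi, sdRed]
  · refine ⟨?_, ⟨sdRed L y, by simp [cySv], rfl⟩, ⟨(0, y.2 + 1), by simp [cySv], rfl⟩⟩
    intro v hv
    simp only [cySv, Finset.mem_insert, Finset.mem_singleton] at hv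
    rcases hv with rfl | rfl
    · exact ⟨cys_red_fst hL y, by simp [cysLo, sdRed], by simp [cysHi, sdRed]⟩
    · exact ⟨⟨le_rfl, hL'⟩, by simp [cysLo], by simp [cysHi]⟩
  · refine ⟨?_, ⟨(0, y.2 - 1), by simp [cySv], rfl⟩, ⟨sdRed L y, by simp [cySv], rfl⟩⟩
    intro v hv
    simp only [cySv, Finset.mem_insert, Finset.mem_singleton] at hv
    rcases hv with rfl | rfl
    · exact ⟨cys_red_fst hL y, by simp [cysLo, sdRed], by simp [cysHi, sdRed]⟩
    · exact ⟨⟨le_rfl, hL'⟩, by simp [cysLo], by simp [cysHi]⟩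

theorem cys_sv_sub {L : ℕ} (hL : 0 < L) (c : CyY) (r0 r1 : ℤ) : cySv L c ⊆ sdSites L r0 r1 ↔ r0 ≤ cysLo c ∧ cysHi c ≤ r1 := by
  obtain ⟨h1, ⟨u, hu, hu2⟩, ⟨w, hw, hw2⟩⟩ := cys_sv_rows hL c
  constructor
  · intro h
    have a1 := (cys_mem_sites.1 (h hu)).2
    have a2 := (cys_mem_sites.1 (h hw)).2
    omega
  · rintro ⟨a1, a2⟩ v hv
    have := h1 v hv
    exact cys_mem_sites.2 ⟨this.1, by omega, by omega⟩

/-- lowest and highest row of a triangle of a band -/
theorem cys_band_lohi {L : ℕ} {T : Bool} {c d : ℤ} {y : CyY} (hy : y ∈ cyBand L T c d) : cysLo y = y.2.2 ∧ cysHi y = y.2.2 + 1 := by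
  obtain ⟨k, u⟩ := y
  have h := (cys_mem_band.1 hy).1
  simp only at h
  subst h
  cases T <;> exact ⟨rfl, rfl⟩

theorem cys_band_rows {L : ℕ} (hL : 0 < L) {T : Bool} {c d : ℤ} {y : CyY} (hy : y ∈ cyBand L T c d) {v : TV} (hv : v ∈ cySv L y) :
    c ≤ v.2 ∧ v.2 ≤ d + 1 := by
  have h1 := ((cys_sv_rows hL y).1 v hv).2
  have h2 := cys_band_lohi hy
  have h3 := (cys_mem_band.1 hy).2.2
  omega

theorem cys_band_tris {L : ℕ} {T : Bool} {a b c d : ℤ} (h0 : a ≤ c) (h1 : d < b) : cyBand L T c d ⊆ cyTris L a b := by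
  intro y hy
  obtain ⟨k1, k2, k3, k4⟩ := cys_mem_band.1 hy
  refine cys_mem_tris.2 ⟨?_, k2, by omega, by omega⟩
  rw [k1]
  cases T
  · exact Or.inr rfl
  · exact Or.inl rfl

/-- criterion of validity: an up-triangle and a down-triangle of the family are never in the same slab, nor is the down-triangle in the slab just below -/
theorem cys_val_of {L : ℕ} {a b : ℤ} {Q : Finset CyY} (hsub : Q ⊆ cyTris L a b)
    (h : ∀ y z : TV, (CyK.up, y) ∈ Q → (CyK.dn, z) ∈ Q → z.2 + 1 < y.2 ∨ y.2 < z.2) : CyVal L a b Q := by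
  refine ⟨hsub, fun e he hh => ?_⟩
  obtain ⟨k, y⟩ := e
  rcases cy_mem_edges.1 he with ⟨hk, -⟩ | ⟨hk, -⟩ | ⟨hk, -⟩
  · simp only at hk
    subst hk
    have := h _ _ hh.1 hh.2
    simp at this
    omega
  · simp only at hk
    subst hk
    have := h _ _ hh.1 hh.2
    simp [sdRed] at this
  · simp only at hk
    subst hk
    have := h _ _ hh.1 hh.2
    simp [sdRed] at this

theorem cys_val_mono {L : ℕ} {a b : ℤ} {Q Q' : Finset CyY} (h : Q ⊆ Q') (hQ : CyVal L a b Q') : CyVal L a b Q :=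
  ⟨h.trans hQ.sub, fun e he hh => hQ.dis e he ⟨h hh.1, h hh.2⟩⟩

/-- the triangles of the family are cells of the ambient -/
theorem cys_Q_sub (x : ℝ) (L : ℕ) (a b : ℤ) (Q Γ : Finset CyY) : Q ⊆ (cyS x L a b Q Γ).C :=
  fun _ hy => Finset.mem_union_left _ (Finset.mem_union_left _ hy)

/-! ## 2. the explicit inner system; the two cuts -/

/-- EXPLICIT form of `cyI`: the sites of the rows `r0..r1`, the triangles of `Q` and the uncovered edges inside these rows -/
noncomputable def cysIn (x : ℝ) (L : ℕ) (Q Γ : Finset CyY) (r0 r1 : ℤ) : ClSys TV CyY where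
  A := sdSites L r0 r1
  C := (Q ∩ cyTris L r0 r1) ∪ (cyEdges L r0 r1).filter (fun e => cyTa L e ∉ Q ∧ cyTb L e ∉ Q)
  sv := cySv L
  q := fun c => if c ∈ Γ then 1 else if c.1 = CyK.up ∨ c.1 = CyK.dn then x ^ 2 else x

/-- PLAN: `ClSys` ext; only `C`: `ext ⟨k, y⟩`, cases `k`; `am_mem_cin`, `cys_sv_sub`; a spoke is never inside (`cysHi = b + 1`, `cysLo = a - 1`). -/
theorem cys_I_eq (x : ℝ) {L : ℕ} (hL : 0 < L) {a b r0 r1 : ℤ} (h0 : a ≤ r0) (h1 : r1 ≤ b) {Q : Finset CyY} (hQ : Q ⊆ cyTris L a b)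
    (Γ : Finset CyY) : cyI x L a b Q Γ r0 r1 = cysIn x L Q Γ r0 r1 := by
  have hC : (cyS x L a b Q Γ).cin (sdSites L r0 r1) = (cysIn x L Q Γ r0 r1).C := by
    ext c
    rw [am_mem_cin, cy_mem_C]
    have hsv : (cyS x L a b Q Γ).sv c ⊆ sdSites L r0 r1 ↔ r0 ≤ cysLo c ∧ cysHi c ≤ r1 := cys_sv_sub hL c r0 r1
    rw [hsv]
    show _ ↔ c ∈ (Q ∩ cyTris L r0 r1) ∪ (cyEdges L r0 r1).filter (fun e => cyTa L e ∉ Q ∧ cyTb L e ∉ Q)
    rw [Finset.mem_union, Finset.mem_inter, Finset.mem_filter]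
    obtain ⟨k, y⟩ := c
    constructor
    · rintro ⟨hc | ⟨hc, hn⟩ | hc, h2, h3⟩
      · left
        refine ⟨hc, ?_⟩
        obtain ⟨k1, k2, k3, k4⟩ := cys_mem_tris.1 (hQ hc)
        simp only at k1 k2 k3 k4
        refine cys_mem_tris.2 ⟨k1, k2, ?_, ?_⟩
        · rcases k1 with rfl | rfl <;> exact h2
        · rcases k1 with rfl | rfl <;> (have h3' : y.2 + 1 ≤ r1 := h3; show y.2 < r1; omega)
      · right
        refine ⟨?_, hn⟩
        rcases cy_mem_edges.1 hc with ⟨hk, hy⟩ | ⟨hk, hy⟩ | ⟨hk, hy⟩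
        · simp only at hk hy
          subst hk
          have h2' : r0 ≤ y.2 := h2
          have h3' : y.2 ≤ r1 := h3
          have := cy_mem_sites.1 hy
          exact cy_mem_edges.2 (Or.inl ⟨rfl, (cy_mem_sites (u := y)).2 ⟨this.1, this.2.1, h2', h3'⟩⟩)
        · simp only at hk hy
          subst hk
          have h2' : r0 ≤ y.2 := h2
          have h3' : y.2 + 1 ≤ r1 := h3
          have := cy_mem_cells.1 hy
          exact cy_mem_edges.2 (Or.inr (Or.inl ⟨rfl, (cy_mem_cells (u := y)).2 ⟨this.1, this.2.1, h2', by omega⟩⟩))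
        · simp only at hk hy
          subst hk
          have h2' : r0 ≤ y.2 := h2
          have h3' : y.2 + 1 ≤ r1 := h3
          have := cy_mem_cells.1 hy
          exact cy_mem_edges.2 (Or.inr (Or.inr ⟨rfl, (cy_mem_cells (u := y)).2 ⟨this.1, this.2.1, h2', by omega⟩⟩))
      · exfalso
        rcases cy_mem_spokes.1 hc with ⟨hk, hy⟩ | ⟨hk, hy⟩
        · simp only at hk hy
          subst hk
          have h3' : y.2 + 1 ≤ r1 := h3
          have := cy_mem_row.1 hy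
          omega
        · simp only at hk hy
          subst hk
          have h2' : r0 ≤ y.2 - 1 := h2
          have := cy_mem_row.1 hy
          omega
    · rintro (⟨hc, ht⟩ | ⟨hc, hn⟩)
      · refine ⟨Or.inl hc, ?_⟩
        obtain ⟨k1, k2, k3, k4⟩ := cys_mem_tris.1 ht
        simp only at k1 k2 k3 k4
        rcases k1 with rfl | rfl
        · exact ⟨k3, by show y.2 + 1 ≤ r1; omega⟩
        · exact ⟨k3, by show y.2 + 1 ≤ r1; omega⟩
      · rcases cy_mem_edges.1 hc with ⟨hk, hy⟩ | ⟨hk, hy⟩ | ⟨hk, hy⟩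
        · simp only at hk hy
          subst hk
          have := cy_mem_sites.1 hy
          exact ⟨Or.inr (Or.inl ⟨cy_mem_edges.2 (Or.inl ⟨rfl, (cy_mem_sites (u := y)).2 ⟨this.1, this.2.1, by omega, by omega⟩⟩), hn⟩),
            this.2.2.1, this.2.2.2⟩
        · simp only at hk hy
          subst hk
          have := cy_mem_cells.1 hy
          exact ⟨Or.inr (Or.inl ⟨cy_mem_edges.2 (Or.inr (Or.inl ⟨rfl, (cy_mem_cells (u := y)).2 ⟨this.1, this.2.1, by omega, by omega⟩⟩)), hn⟩),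
            this.2.2.1, by show y.2 + 1 ≤ r1; omega⟩
        · simp only at hk hy
          subst hk
          have := cy_mem_cells.1 hy
          exact ⟨Or.inr (Or.inl ⟨cy_mem_edges.2 (Or.inr (Or.inr ⟨rfl, (cy_mem_cells (u := y)).2 ⟨this.1, this.2.1, by omega, by omega⟩⟩)), hn⟩),
            this.2.2.1, by show y.2 + 1 ≤ r1; omega⟩
  unfold cyI ClSys.inn
  rw [hC]
  rfl

/-- the sites of the ambient in the rows `≥ r` (with the north pole) -/
noncomputable def cysUp (L : ℕ) (r b : ℤ) : Finset TV := sdSites L r b ∪ {(0, b + 1)}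

theorem cys_up_sub (x : ℝ) (L : ℕ) {a b r : ℤ} (h : a ≤ r) (Q Γ : Finset CyY) : cysUp L r b ⊆ (cyS x L a b Q Γ).A := by
  intro v hv
  rw [cy_mem_A]
  rcases Finset.mem_union.1 hv with h1 | h1
  · left
    have := cy_mem_sites.1 h1
    exact cy_mem_sites.2 ⟨this.1, this.2.1, by omega, this.2.2.2⟩
  · right; left
    exact Finset.mem_singleton.1 h1

theorem cys_rows_up (L : ℕ) {r0 r1 b : ℤ} (h : r1 ≤ b) : sdSites L r0 r1 ⊆ cysUp L r0 b := by
  intro v hv
  have := cy_mem_sites.1 hv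
  exact Finset.mem_union_left _ (cy_mem_sites.2 ⟨this.1, this.2.1, this.2.2.1, by omega⟩)

/-- a site of the ambient lies in the upper part iff its row is `≥ r` -/
theorem cys_mem_up (x : ℝ) {L : ℕ} (hL : 0 < L) {a b r : ℤ} (h0 : a ≤ r) (h1 : r ≤ b + 1) (Q Γ : Finset CyY) {v : TV} (hv : v ∈ (cyS x L a b Q Γ).A) :
    v ∈ cysUp L r b ↔ r ≤ v.2 := by
  unfold cysUp
  rw [Finset.mem_union, Finset.mem_singleton, cy_mem_sites]
  rcases cy_mem_A.1 hv with h | rfl | rfl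
  · have := cy_mem_sites.1 h
    constructor
    · rintro (h2 | rfl)
      · exact h2.2.2.1
      · exact h1
    · intro h2
      exact Or.inl ⟨this.1, this.2.1, h2, this.2.2.2⟩
  · exact ⟨fun _ => h1, fun _ => Or.inr rfl⟩
  · constructor
    · rintro (h2 | h2)
      · exact h2.2.2.1
      · have : a - 1 = b + 1 := congrArg Prod.snd h2
        show r ≤ a - 1
        omega
    · intro h2
      have : r ≤ a - 1 := h2
      omega

/-- a cell of the ambient which has sites in the rows `j` and `j + 1`, when the band of class `T` of the slab `j` is in the family, belongs to this band.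
PLAN: cases on the kind.  Triangle of `Q` of the other class: `hQ.dis` at its vertical edge.  `ev`, `ed`: covered by the band.  `eh`: one row.  Spokes: `cysLo`, `cysHi` are `b, b+1` resp. `a-1, a`. -/
theorem cys_slab {x : ℝ} {L : ℕ} (hL : 3 ≤ L) {a b j : ℤ} (h0 : a ≤ j) (h1 : j < b) {Q : Finset CyY} (hQ : CyVal L a b Q) (Γ : Finset CyY) (T : Bool)
    (hT : cyBand L T j j ⊆ Q) {y : CyY} (hy : y ∈ (cyS x L a b Q Γ).C) (hlo : cysLo y ≤ j) (hhi : j + 1 ≤ cysHi y) : y ∈ cyBand L T j j := by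
  have hL0 : 0 < L := by omega
  obtain ⟨k, z⟩ := y
  have hband : ∀ w : TV, (0 ≤ w.1 ∧ w.1 < L) → w.2 = j → cyT T w ∈ Q := fun w hw hj =>
    hT (cys_mem_band.2 ⟨by unfold cyT; rfl, hw, by simp only [cyT]; omega, by simp only [cyT]; omega⟩)
  have hred : ∀ w : TV, 0 ≤ (sdRed L w).1 ∧ (sdRed L w).1 < L := fun w =>
    ⟨Int.emod_nonneg _ (by exact_mod_cast hL0.ne'), Int.emod_lt_of_pos _ (by exact_mod_cast hL0)⟩
  rcases cy_mem_C.1 hy with h | ⟨h, ha, hb⟩ | h
  · obtain ⟨hk, hz⟩ := cys_mem_tris.1 (hQ.sub h)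
    simp only at hk hz
    have hzj : z.2 = j := by
      rcases hk with rfl | rfl <;> simp only [cysLo, cysHi] at hlo hhi <;> omega
    have hzz : sdRed L (sdRed L (z + (1, 0)) - (1, 0)) = z := by
      have e : sdRed L (z + (1, 0)) - (1, 0) = sdRed L (z + (1, 0)) + (-1, 0) := by
        ext <;> simp [sub_eq_add_neg]
      rw [e, cy_red_red]
      have e2 : z + (1, 0) + (-1, 0) = z := by ext <;> simp
      rw [e2]
      exact cy_red_self hz.1.1 hz.1.2
    have hedge : ((CyK.ed, sdRed L (z + (1, 0))) : CyY) ∈ cyEdges L a b := by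
      rw [cy_mem_edges]
      right; right
      refine ⟨rfl, ?_⟩
      rw [cy_mem_cells]
      have := hred (z + (1, 0))
      refine ⟨this.1, this.2, ?_, ?_⟩ <;> simp [sdRed] <;> omega
    have hdis := hQ.dis _ hedge
    have hTa : cyTa L ((CyK.ed, sdRed L (z + (1, 0))) : CyY) = (CyK.up, z) := by
      simp only [cyTa]; rw [hzz]
    have hTb : cyTb L ((CyK.ed, sdRed L (z + (1, 0))) : CyY) = (CyK.dn, z) := by
      simp only [cyTb]; rw [hzz]
    rw [hTa, hTb] at hdis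
    have hbz := hband z hz.1 hzj
    rw [cys_mem_band]
    refine ⟨?_, hz.1, by simp only; omega, by simp only; omega⟩
    cases T
    · rcases hk with rfl | rfl
      · exact absurd ⟨h, hbz⟩ hdis
      · rfl
    · rcases hk with rfl | rfl
      · rfl
      · exact absurd ⟨hbz, h⟩ hdis
  · exfalso
    rcases cy_mem_edges.1 h with ⟨hk, hz⟩ | ⟨hk, hz⟩ | ⟨hk, hz⟩
    · simp only at hk hz
      subst hk
      simp only [cysLo, cysHi] at hlo hhi
      omega
    · simp only at hk hz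
      subst hk
      simp only [cysLo, cysHi] at hlo hhi
      rw [cy_mem_cells] at hz
      cases T
      · exact hb (hband _ (hred _) (by simp [sdRed]; omega))
      · exact ha (hband z ⟨hz.1, hz.2.1⟩ (by omega))
    · simp only at hk hz
      subst hk
      simp only [cysLo, cysHi] at hlo hhi
      cases T
      · exact hb (hband _ (hred _) (by simp [sdRed]; omega))
      · exact ha (hband _ (hred _) (by simp [sdRed]; omega))
  · exfalso
    rcases cy_mem_spokes.1 h with ⟨hk, hz⟩ | ⟨hk, hz⟩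
    · simp only at hk hz
      subst hk
      rw [cy_mem_row] at hz
      simp only [cysLo, cysHi] at hlo hhi
      omega
    · simp only at hk hz
      subst hk
      rw [cy_mem_row] at hz
      simp only [cysLo, cysHi] at hlo hhi
      omega

/-- (108) a band cell: lowest and highest row -/
theorem cys_slab_lohi {L : ℕ} {T : Bool} {j : ℤ} {y : CyY} (hy : y ∈ cyBand L T j j) : cysLo y = j ∧ cysHi y = j + 1 := by
  obtain ⟨k, z⟩ := y
  obtain ⟨hk, -, h1, h2⟩ := cys_mem_band.1 hy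
  simp only at hk h1 h2
  cases T <;> simp only [Bool.false_eq_true, if_true, if_false] at hk <;> subst hk <;> simp only [cysLo, cysHi] <;> omega

/-- (108) every site of the lower row of a slab lies in a band cell -/
theorem cys_slab_bot {L : ℕ} (hL : 0 < L) (T : Bool) {j : ℤ} {u : TV} (hu : u ∈ sdRow L j) : ∃ y ∈ cyBand L T j j, u ∈ cySv L y := by
  rw [cys_mem_row] at hu
  have hred : ∀ w : TV, 0 ≤ (sdRed L w).1 ∧ (sdRed L w).1 < L := fun w =>
    ⟨Int.emod_nonneg _ (by exact_mod_cast hL.ne'), Int.emod_lt_of_pos _ (by exact_mod_cast hL)⟩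
  cases T
  · refine ⟨(CyK.dn, sdRed L (u + (-1, 0))), cys_mem_band.2 ⟨rfl, hred _, by simp [sdRed]; omega, by simp [sdRed]; omega⟩, ?_⟩
    simp only [cySv, cellD, Finset.mem_image, Finset.mem_insert, Finset.mem_singleton]
    refine ⟨_, Or.inl rfl, ?_⟩
    rw [cy_red_red]
    have e2 : u + (-1, 0) + (1, 0) = u := by ext <;> simp
    rw [e2]
    exact cy_red_self hu.1.1 hu.1.2
  · refine ⟨(CyK.up, u), cys_mem_band.2 ⟨rfl, hu.1, by simp only; omega, by simp only; omega⟩, ?_⟩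
    simp only [cySv, cellV, Finset.mem_image, Finset.mem_insert, Finset.mem_singleton]
    exact ⟨_, Or.inl rfl, cy_red_self hu.1.1 hu.1.2⟩

/-- (108) every site of the upper row of a slab lies in a band cell -/
theorem cys_slab_top {L : ℕ} (hL : 0 < L) (T : Bool) {j : ℤ} {u : TV} (hu : u ∈ sdRow L (j + 1)) : ∃ y ∈ cyBand L T j j, u ∈ cySv L y := by
  rw [cys_mem_row] at hu
  have e2 : u + (0, -1) + (0, 1) = u := by ext <;> simp
  cases T
  · refine ⟨(CyK.dn, u + (0, -1)), cys_mem_band.2 ⟨rfl, by simpa using hu.1, by simp; omega, by simp; omega⟩, ?_⟩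
    simp only [cySv, cellD, Finset.mem_image, Finset.mem_insert, Finset.mem_singleton]
    refine ⟨_, Or.inr (Or.inl rfl), ?_⟩
    rw [e2]
    exact cy_red_self hu.1.1 hu.1.2
  · refine ⟨(CyK.up, u + (0, -1)), cys_mem_band.2 ⟨rfl, by simpa using hu.1, by simp; omega, by simp; omega⟩, ?_⟩
    simp only [cySv, cellV, Finset.mem_image, Finset.mem_insert, Finset.mem_singleton]
    refine ⟨_, Or.inr (Or.inr rfl), ?_⟩
    rw [e2]
    exact cy_red_self hu.1.1 hu.1.2

theorem cys_cx_up {x : ℝ} (hx0 : 0 < x) (hx1 : x ≤ 1) {L : ℕ} (hL : 3 ≤ L) {a b r0 : ℤ} (h0 : a < r0) (h1 : r0 ≤ b) {Q : Finset CyY} (hQ : CyVal L a b Q) (Γ : Finset CyY) (S0 : Bool)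
    (hQ0 : cyBand L S0 (r0 - 1) (r0 - 1) ⊆ Q) : (cyS x L a b Q Γ).cx (cysUp L r0 b) = cyBand L S0 (r0 - 1) (r0 - 1) := by
  have hL0 : 0 < L := by omega
  have hok := cy_S_ok hx0 hx1 hL (by omega : a ≤ b) hQ Γ
  have hup : ∀ v ∈ (cyS x L a b Q Γ).A, (v ∈ cysUp L r0 b ↔ r0 ≤ v.2) := fun v hv => cys_mem_up x hL0 h0.le (by omega) Q Γ hv
  ext y
  unfold ClSys.cx
  rw [Finset.mem_filter]
  constructor
  · rintro ⟨hy, ⟨u, hu, hu'⟩, ⟨v, hv, hv'⟩⟩
    rw [hup u (hok.sub y hy hu)] at hu'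
    rw [hup v (hok.sub y hy hv)] at hv'
    have hu2 := ((cys_sv_rows hL0 y).1 u hu).2
    have hv2 := ((cys_sv_rows hL0 y).1 v hv).2
    exact cys_slab hL (by omega) (by omega) hQ Γ S0 hQ0 hy (by omega) (by omega)
  · intro hy
    have hyC := cys_Q_sub x L a b Q Γ (hQ0 hy)
    obtain ⟨h1, h2⟩ := cys_slab_lohi hy
    obtain ⟨-, ⟨v, hv, hv2⟩, ⟨u, hu, hu2⟩⟩ := cys_sv_rows hL0 y
    refine ⟨hyC, ⟨u, hu, ?_⟩, ⟨v, hv, ?_⟩⟩
    · rw [hup u (hok.sub y hyC hu)]; omega
    · rw [hup v (hok.sub y hyC hv)]; omega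

theorem cys_lay_up {x : ℝ} (hx0 : 0 < x) (hx1 : x ≤ 1) {L : ℕ} (hL : 3 ≤ L) {a b r0 : ℤ} (h0 : a < r0) (h1 : r0 ≤ b) {Q : Finset CyY} (hQ : CyVal L a b Q) (Γ : Finset CyY) (S0 : Bool)
    (hQ0 : cyBand L S0 (r0 - 1) (r0 - 1) ⊆ Q) : cuLay (cyS x L a b Q Γ) (cysUp L r0 b) = sdRow L r0 := by
  have hL0 : 0 < L := by omega
  have hok := cy_S_ok hx0 hx1 hL (by omega : a ≤ b) hQ Γ
  have hup : ∀ v ∈ (cyS x L a b Q Γ).A, (v ∈ cysUp L r0 b ↔ r0 ≤ v.2) := fun v hv => cys_mem_up x hL0 h0.le (by omega) Q Γ hv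
  ext u
  rw [am_mem_lay]
  constructor
  · rintro ⟨hu', y, hy, hu, hns⟩
    obtain ⟨v, hv, hv'⟩ := Finset.not_subset.1 hns
    rw [hup u (hok.sub y hy hu)] at hu'
    rw [hup v (hok.sub y hy hv)] at hv'
    have hu2 := (cys_sv_rows hL0 y).1 u hu
    have hv2 := ((cys_sv_rows hL0 y).1 v hv).2
    have hb := cys_slab hL (by omega) (by omega) hQ Γ S0 hQ0 hy (by omega : cysLo y ≤ r0 - 1) (by omega)
    have := cys_band_rows hL0 hb hu
    rw [cys_mem_row]
    exact ⟨hu2.1, by omega⟩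
  · intro hu
    have hu0 := cys_mem_row.1 hu
    obtain ⟨y, hy, huy⟩ := cys_slab_top hL0 S0 (j := r0 - 1) (u := u) (by rwa [sub_add_cancel])
    have hyC := cys_Q_sub x L a b Q Γ (hQ0 hy)
    obtain ⟨h1, h2⟩ := cys_slab_lohi hy
    obtain ⟨-, ⟨v, hv, hv2⟩, -⟩ := cys_sv_rows hL0 y
    refine ⟨?_, y, hyC, huy, fun hsub => ?_⟩
    · rw [hup u (hok.sub y hyC huy)]; omega
    · have := hsub hv
      rw [hup v (hok.sub y hyC hv)] at this
      omega

theorem cys_cx_in {x : ℝ} (hx0 : 0 < x) (hx1 : x ≤ 1) {L : ℕ} (hL : 3 ≤ L) {a b r0 r1 : ℤ} (h0 : a ≤ r0) (h01 : r0 ≤ r1) (h1 : r1 < b) {Q : Finset CyY} (hQ : CyVal L a b Q) (Γ : Finset CyY)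
    (S1 : Bool) (hQ1 : cyBand L S1 r1 r1 ⊆ Q) :
    ((cyS x L a b Q Γ).inn (cysUp L r0 b)).cx (sdSites L r0 r1) = cyBand L S1 r1 r1 := by
  have hL0 : 0 < L := by omega
  have hok := cy_S_ok hx0 hx1 hL (by omega : a ≤ b) hQ Γ
  have hup : ∀ v ∈ (cyS x L a b Q Γ).A, (v ∈ cysUp L r0 b ↔ r0 ≤ v.2) := fun v hv => cys_mem_up x hL0 h0 (by omega) Q Γ hv
  ext y
  unfold ClSys.cx
  rw [Finset.mem_filter]
  constructor
  · rintro ⟨hy, ⟨u, hu, hu'⟩, ⟨v, hv, hv'⟩⟩
    obtain ⟨hyC, hsub⟩ := (am_mem_cin _ _ _).1 hy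
    have hv3 := hsub hv
    rw [hup v (hok.sub y hyC hv)] at hv3
    have hu2 := ((cys_sv_rows hL0 y).1 u hu).2
    have hv2 := (cys_sv_rows hL0 y).1 v hv
    rw [cys_mem_sites] at hu' hv'
    have hv4 : r1 < v.2 := by
      by_contra hcon
      exact hv' ⟨hv2.1, hv3, by omega⟩
    exact cys_slab hL (by omega) h1 hQ Γ S1 hQ1 hyC (by omega) (by omega)
  · intro hy
    have hyC := cys_Q_sub x L a b Q Γ (hQ1 hy)
    obtain ⟨h1', h2'⟩ := cys_slab_lohi hy
    obtain ⟨hall, ⟨u, hu, hu2⟩, ⟨v, hv, hv2⟩⟩ := cys_sv_rows hL0 y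
    refine ⟨(am_mem_cin _ _ _).2 ⟨hyC, fun w hw => ?_⟩, ⟨u, hu, ?_⟩, ⟨v, hv, ?_⟩⟩
    · rw [hup w (hok.sub y hyC hw)]
      have := (hall w hw).2
      omega
    · rw [cys_mem_sites]
      exact ⟨(hall u hu).1, by omega, by omega⟩
    · rw [cys_mem_sites]
      intro hcon
      omega

theorem cys_lay_in {x : ℝ} (hx0 : 0 < x) (hx1 : x ≤ 1) {L : ℕ} (hL : 3 ≤ L) {a b r0 r1 : ℤ} (h0 : a ≤ r0) (h01 : r0 ≤ r1) (h1 : r1 < b) {Q : Finset CyY} (hQ : CyVal L a b Q) (Γ : Finset CyY)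
    (S1 : Bool) (hQ1 : cyBand L S1 r1 r1 ⊆ Q) :
    cuLay ((cyS x L a b Q Γ).inn (cysUp L r0 b)) (sdSites L r0 r1) = sdRow L r1 := by
  have hL0 : 0 < L := by omega
  have hok := cy_S_ok hx0 hx1 hL (by omega : a ≤ b) hQ Γ
  have hup : ∀ v ∈ (cyS x L a b Q Γ).A, (v ∈ cysUp L r0 b ↔ r0 ≤ v.2) := fun v hv => cys_mem_up x hL0 h0 (by omega) Q Γ hv
  ext u
  rw [am_mem_lay]
  constructor
  · rintro ⟨hu', y, hy, hu, hns⟩
    obtain ⟨v, hv, hv'⟩ := Finset.not_subset.1 hns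
    obtain ⟨hyC, hsub⟩ := (am_mem_cin _ _ _).1 hy
    have hv3 := hsub hv
    rw [hup v (hok.sub y hyC hv)] at hv3
    have hu2 := (cys_sv_rows hL0 y).1 u hu
    have hv2 := (cys_sv_rows hL0 y).1 v hv
    rw [cys_mem_sites] at hu' hv'
    have hv4 : r1 < v.2 := by
      by_contra hcon
      exact hv' ⟨hv2.1, hv3, by omega⟩
    have hb := cys_slab hL (by omega) h1 hQ Γ S1 hQ1 hyC (by omega : cysLo y ≤ r1) (by omega)
    have := cys_band_rows hL0 hb hu
    rw [cys_mem_row]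
    exact ⟨hu2.1, by omega⟩
  · intro hu
    have hu0 := cys_mem_row.1 hu
    obtain ⟨y, hy, huy⟩ := cys_slab_bot hL0 S1 hu
    have hyC := cys_Q_sub x L a b Q Γ (hQ1 hy)
    obtain ⟨h1', h2'⟩ := cys_slab_lohi hy
    obtain ⟨hall, -, ⟨v, hv, hv2⟩⟩ := cys_sv_rows hL0 y
    refine ⟨?_, y, (am_mem_cin _ _ _).2 ⟨hyC, fun w hw => ?_⟩, huy, fun hsub => ?_⟩
    · rw [cys_mem_sites]
      exact ⟨hu0.1, by omega, by omega⟩
    · rw [hup w (hok.sub y hyC hw)]
      have := (hall w hw).2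
      omega
    · have := hsub hv
      rw [cys_mem_sites] at this
      omega

theorem cys_cout_up {x : ℝ} {L : ℕ} (hL : 0 < L) {a b r0 : ℤ} (h0 : a ≤ r0) (h1 : r0 ≤ b) (Q Γ : Finset CyY) {M' : Finset CyY}
    (hM : M' ⊆ (cyS x L a b Q Γ).C) (hr : ∀ y ∈ M', ∀ v ∈ cySv L y, v.2 < r0) : M' ⊆ (cyS x L a b Q Γ).cout (cysUp L r0 b) := by
  have key : ∀ y ∈ M', ∀ v ∈ cySv L y, v ∉ cysUp L r0 b := by
    intro y hy v hv hmem
    have h2 := hr y hy v hv
    unfold cysUp at hmem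
    rcases Finset.mem_union.1 hmem with h | h
    · rw [cys_mem_sites] at h; omega
    · rw [Finset.mem_singleton] at h
      rw [h] at h2
      simp only at h2
      omega
  intro y hy
  obtain ⟨v0, hv0⟩ := cy_sv_nonempty L y
  rw [am_mem_cout]
  exact ⟨hM hy, fun hsub => key y hy v0 hv0 (hsub hv0), fun ⟨⟨u, hu, hu'⟩, _⟩ => key y hy u hu hu'⟩

theorem cys_cout_in {x : ℝ} (hx0 : 0 < x) (hx1 : x ≤ 1) {L : ℕ} (hL : 3 ≤ L) {a b r0 r1 : ℤ} (h0 : a ≤ r0) (h01 : r0 ≤ r1) (h1 : r1 < b) {Q : Finset CyY}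
    (hQ : CyVal L a b Q) (Γ : Finset CyY) {P' : Finset CyY}
    (hP : P' ⊆ (cyS x L a b Q Γ).C) (hr : ∀ y ∈ P', ∀ v ∈ cySv L y, r1 < v.2) :
    P' ⊆ ((cyS x L a b Q Γ).inn (cysUp L r0 b)).cout (sdSites L r0 r1) := by
  intro y hy
  have hL0 : 0 < L := by omega
  have hok := cy_S_ok hx0 hx1 hL (by omega : a ≤ b) hQ Γ
  have hyC := hP hy
  obtain ⟨v0, hv0⟩ := hok.ne y hyC
  rw [am_mem_cout]
  refine ⟨?_, ?_, ?_⟩
  · show y ∈ (cyS x L a b Q Γ).cin (cysUp L r0 b)
    rw [am_mem_cin]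
    refine ⟨hyC, fun v hv => ?_⟩
    rw [cys_mem_up x hL0 h0 (by omega) Q Γ (hok.sub y hyC hv)]
    have := hr y hy v hv
    omega
  · intro hsub
    have h1 := hsub hv0
    rw [cys_mem_sites] at h1
    have := hr y hy v0 hv0
    omega
  · rintro ⟨⟨u, hu, hu'⟩, -⟩
    rw [cys_mem_sites] at hu'
    have := hr y hy u hu
    omega

/-! ## 3. realisation of the law between two cuts; independence of the family -/

/-- **(AMB)**: in any valid capped ambient, the history "minus band of class `S0` under the row `r0` (and more minus cells `M'` below), plus band of class `S1` over the row `r1` (and more plus cells `P'` above)"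
realises the mixed law of the explicit system on the rows `r0..r1`.      OWNER 239. -/
theorem cys_amb {x : ℝ} (hx0 : 0 < x) (hx1 : x ≤ 1) {L : ℕ} (hL : 3 ≤ L) {a b r0 r1 : ℤ} (h0 : a < r0) (h01 : r0 < r1) (h1 : r1 < b) {Q : Finset CyY}
    (hQ : CyVal L a b Q) (Γ : Finset CyY) (S0 S1 : Bool) (hQ0 : cyBand L S0 (r0 - 1) (r0 - 1) ⊆ Q) (hQ1 : cyBand L S1 r1 r1 ⊆ Q)
    {M' P' : Finset CyY} (hM : M' ⊆ (cyS x L a b Q Γ).C) (hMr : ∀ y ∈ M', ∀ v ∈ cySv L y, v.2 < r0)
    (hP : P' ⊆ (cyS x L a b Q Γ).C) (hPr : ∀ y ∈ P', ∀ v ∈ cySv L y, r1 < v.2)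
    (F : ClCfg TV CyY → ℝ) (hF : ClLoc (sdSites L r0 r1) ((cyS x L a b Q Γ).cin (sdSites L r0 r1)) F) :
    0 < (cyS x L a b Q Γ).Z ((cysK (cyS x L a b Q Γ) (cyBand L S0 (r0 - 1) (r0 - 1) ∪ M') (cyBand L S1 r1 r1 ∪ P')).Holds (cyS x L a b Q Γ)) ∧
    (cyS x L a b Q Γ).E ((cysK (cyS x L a b Q Γ) (cyBand L S0 (r0 - 1) (r0 - 1) ∪ M') (cyBand L S1 r1 r1 ∪ P')).Holds (cyS x L a b Q Γ)) F =
      (cysIn x L Q Γ r0 r1).E (CyMix L r0 r1) F := by
  have hL0 : 0 < L := by omega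
  have hok : ClOk (cyS x L a b Q Γ) := cy_S_ok hx0 hx1 hL (by omega) hQ Γ
  have hQC := cys_Q_sub x L a b Q Γ
  have cx1 := cys_cx_up hx0 hx1 hL h0 (by omega) hQ Γ S0 hQ0
  have ly1 := cys_lay_up hx0 hx1 hL h0 (by omega) hQ Γ S0 hQ0
  have cx2 := cys_cx_in hx0 hx1 hL (r0 := r0) (by omega) h01.le h1 hQ Γ S1 hQ1
  have ly2 := cys_lay_in hx0 hx1 hL (r0 := r0) (by omega) h01.le h1 hQ Γ S1 hQ1
  have hlo : ∀ z ∈ cyBand L S0 (r0 - 1) (r0 - 1) ∪ M', ∀ v ∈ cySv L z, v.2 ≤ r0 := by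
    intro z hz v hv
    rcases Finset.mem_union.1 hz with hz | hz
    · have := cys_band_rows hL0 hz hv
      omega
    · exact (hMr z hz v hv).le
  have hhi : ∀ y ∈ cyBand L S1 r1 r1 ∪ P', ∀ v ∈ cySv L y, r1 ≤ v.2 := by
    intro z hz v hv
    rcases Finset.mem_union.1 hz with hz | hz
    · exact (cys_band_rows hL0 hz hv).1
    · exact (hPr z hz v hv).le
  have hf : 0 < (cyS x L a b Q Γ).Z ((cysK (cyS x L a b Q Γ) (cyBand L S0 (r0 - 1) (r0 - 1) ∪ M') (cyBand L S1 r1 r1 ∪ P')).Holds (cyS x L a b Q Γ)) := by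
    refine cys_K_feas _ hok (Finset.union_subset (hQ0.trans hQC) hM) (Finset.union_subset (hQ1.trans hQC) hP) ?_
    intro y hy z hz
    rw [Finset.disjoint_left]
    intro v hv hv'
    have e1 := hhi y hy v hv
    have e2 := hlo z hz v hv'
    omega
  refine ⟨hf, ?_⟩
  have hrow : sdRow L r0 ⊆ sdSites L r0 r1 := by
    intro v hv
    rw [cys_mem_row] at hv
    rw [cys_mem_sites]
    exact ⟨hv.1, by omega, by omega⟩
  have key := cys_two (cyS x L a b Q Γ) hok (cys_up_sub x L (r := r0) (by omega) Q Γ) (cys_rows_up L (r0 := r0) h1.le) (by rw [ly1]; exact hrow)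
    (cys_cout_up hL0 (by omega) (by omega) Q Γ hM hMr) (cys_cout_in hx0 hx1 hL (by omega) h01.le h1 hQ Γ hP hPr) (by rw [cx1, cx2]; exact hf) F hF
  rw [cx1, cx2, ly1, ly2] at key
  rw [key]
  have hI := cys_I_eq x hL0 (r0 := r0) (r1 := r1) (by omega) h1.le hQ.sub Γ
  unfold cyI at hI
  rw [hI]
  rfl

/-- the history of open cells reads the spins and the statuses of its own cells only.      PLAN: `dde_holds_congr`; `Bp`, `Bm` are unions of `sv y ⊆ A`. -/
theorem cys_K_loc {V Y : Type} [DecidableEq V] [DecidableEq Y] (S : ClSys V Y) {M P X : Finset Y} {T : Finset V} (hM : M ⊆ X) (hP : P ⊆ X)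
    (hs : ∀ y ∈ X, S.sv y ⊆ T) : ClLocP T X ((cysK S M P).Holds S) := by
  have hBp : (cysK S M P).Bp = P.biUnion S.sv := by simp [cysK, ClCon.opn, clFree]
  have hBm : (cysK S M P).Bm = M.biUnion S.sv := by simp [cysK, ClCon.opn, clFree]
  have hOp : (cysK S M P).Op = P := by simp [cysK, ClCon.opn, clFree]
  have hOm : (cysK S M P).Om = M := by simp [cysK, ClCon.opn, clFree]
  have hCl : (cysK S M P).Cl = ∅ := by simp [cysK, ClCon.opn, clFree]
  have hWp : (cysK S M P).Wp = ∅ := by simp [cysK, ClCon.opn, clFree]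
  have hWm : (cysK S M P).Wm = ∅ := by simp [cysK, ClCon.opn, clFree]
  have hEq : (cysK S M P).Eq = ∅ := by simp [cysK, ClCon.opn, clFree]
  intro ω ω' h1 h2 h3
  refine dde_holds_congr S _ _ _ ?_ ?_ ?_ ?_
  · intro v hv
    refine dcu_mem_of_inter h1 ?_
    rw [hBp, hBm] at hv
    rcases hv with hv | hv
    · obtain ⟨y, hy, hv⟩ := Finset.mem_biUnion.1 hv
      exact hs y (hP hy) hv
    · obtain ⟨y, hy, hv⟩ := Finset.mem_biUnion.1 hv
      exact hs y (hM hy) hv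
  · intro v hv
    rw [hWp, hWm] at hv
    simp at hv
  · intro e he
    rw [hEq] at he
    simp at he
  · intro y hy
    rw [hOp, hOm, hCl] at hy
    have hyX : y ∈ X := by
      rcases hy with hy | hy | hy
      · exact hP hy
      · exact hM hy
      · simp at hy
    exact amo_tau_loc S h1 h3 hyX (hs y hyX)

/-- a band of the family whose rows lie in `r0..r1` consists of cells inside these rows -/
theorem cys_band_cin {x : ℝ} {L : ℕ} (hL : 0 < L) {a b r0 r1 c d : ℤ} {Q : Finset CyY} (Γ : Finset CyY) {T : Bool} (hT : cyBand L T c d ⊆ Q)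
    (hc : r0 ≤ c) (hd : d < r1) : cyBand L T c d ⊆ (cyS x L a b Q Γ).cin (sdSites L r0 r1) := by
  intro y hy
  rw [am_mem_cin]
  refine ⟨cys_Q_sub x L a b Q Γ (hT hy), fun v hv => ?_⟩
  have hv' : v ∈ cySv L y := hv
  have h1 := cys_band_rows hL hy hv'
  have h2 := ((cys_sv_rows hL y).1 v hv').1
  rw [cys_mem_sites]
  exact ⟨h2, by omega, by omega⟩

/-- the history and its event depend on the system through `sv` only -/
theorem cys_K_sv {V Y : Type} [DecidableEq V] [DecidableEq Y] (S S' : ClSys V Y) (h : S.sv = S'.sv) (M P : Finset Y) :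
    (cysK S M P).Holds S = (cysK S' M P).Holds S' := by
  obtain ⟨A, C, sv, q⟩ := S
  obtain ⟨A', C', sv', q'⟩ := S'
  have h' : sv = sv' := h
  subst h'
  rfl

/-- **(RC) for the law between two cuts**: for tests which read one band of class `T`, the rest of the family is irrelevant.      OWNER 239 (from `cys_amb` + `cy_rc`). -/
theorem cys_rc_in {x : ℝ} (hx0 : 0 < x) (hx1 : x ≤ 1) {L : ℕ} (hL : 3 ≤ L) {a b a' b' r0 r1 c d : ℤ} (h0 : a < r0) (h0' : a' < r0) (h01 : r0 < r1)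
    (h1 : r1 < b) (h1' : r1 < b') {Q Q' : Finset CyY} (hQ : CyVal L a b Q) (hQ' : CyVal L a' b' Q') (S0 S1 T : Bool)
    (hQ0 : cyBand L S0 (r0 - 1) (r0 - 1) ⊆ Q) (hQ1 : cyBand L S1 r1 r1 ⊆ Q) (hQT : cyBand L T c d ⊆ Q)
    (hQ0' : cyBand L S0 (r0 - 1) (r0 - 1) ⊆ Q') (hQ1' : cyBand L S1 r1 r1 ⊆ Q') (hQT' : cyBand L T c d ⊆ Q') (hc : r0 ≤ c) (hd : d < r1)
    (F : ClCfg TV CyY → ℝ) (hF : ClLoc (sdSites L r0 r1) (cyBand L T c d) F) :
    (cysIn x L Q ∅ r0 r1).E (CyMix L r0 r1) F = (cysIn x L Q' ∅ r0 r1).E (CyMix L r0 r1) F := by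
  have hL0 : 0 < L := by omega
  have key : ∀ (a b : ℤ) (Q : Finset CyY), a < r0 → r1 < b → CyVal L a b Q → cyBand L S0 (r0 - 1) (r0 - 1) ⊆ Q → cyBand L S1 r1 r1 ⊆ Q →
      cyBand L T c d ⊆ Q → (cysIn x L Q ∅ r0 r1).E (CyMix L r0 r1) F =
        (cysIn x L (cyBand L S0 (r0 - 1) (r0 - 1) ∪ cyBand L S1 r1 r1 ∪ cyBand L T c d) ∅ r0 r1).E (CyMix L r0 r1) F := by
    intro a b Q h0 h1 hQ hQ0 hQ1 hQT
    have hsub : cyBand L S0 (r0 - 1) (r0 - 1) ∪ cyBand L S1 r1 r1 ∪ cyBand L T c d ⊆ Q := Finset.union_subset (Finset.union_subset hQ0 hQ1) hQT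
    have s0 : cyBand L S0 (r0 - 1) (r0 - 1) ⊆ cyBand L S0 (r0 - 1) (r0 - 1) ∪ cyBand L S1 r1 r1 ∪ cyBand L T c d :=
      Finset.subset_union_left.trans Finset.subset_union_left
    have s1 : cyBand L S1 r1 r1 ⊆ cyBand L S0 (r0 - 1) (r0 - 1) ∪ cyBand L S1 r1 r1 ∪ cyBand L T c d :=
      Finset.subset_union_right.trans Finset.subset_union_left
    have sT : cyBand L T c d ⊆ cyBand L S0 (r0 - 1) (r0 - 1) ∪ cyBand L S1 r1 r1 ∪ cyBand L T c d := Finset.subset_union_right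
    set Q0 := cyBand L S0 (r0 - 1) (r0 - 1) ∪ cyBand L S1 r1 r1 ∪ cyBand L T c d with hQ0def
    have hV0 : CyVal L a b Q0 := cys_val_mono hsub hQ
    have A1 := cys_amb hx0 hx1 hL h0 h01 h1 hQ ∅ S0 S1 hQ0 hQ1 (M' := ∅) (P' := ∅) (Finset.empty_subset _)
      (fun y hy => absurd hy (Finset.notMem_empty _)) (Finset.empty_subset _) (fun y hy => absurd hy (Finset.notMem_empty _)) F
      (dde_loc_mono (Finset.Subset.refl _) (cys_band_cin hL0 ∅ hQT hc hd) hF)
    have A0 := cys_amb hx0 hx1 hL h0 h01 h1 hV0 ∅ S0 S1 s0 s1 (M' := ∅) (P' := ∅) (Finset.empty_subset _)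
      (fun y hy => absurd hy (Finset.notMem_empty _)) (Finset.empty_subset _) (fun y hy => absurd hy (Finset.notMem_empty _)) F
      (dde_loc_mono (Finset.Subset.refl _) (cys_band_cin hL0 ∅ sT hc hd) hF)
    rw [← A1.2, ← A0.2, dis_E_eq, dis_E_eq, dis_Z_eq, dis_Z_eq]
    have hok0 : ClOk (cyS x L a b Q0 ∅) := cy_S_ok hx0 hx1 hL (by omega) hV0 ∅
    have hK : ClLocP (cyS x L a b Q0 ∅).A Q0
        ((cysK (cyS x L a b Q0 ∅) (cyBand L S0 (r0 - 1) (r0 - 1) ∪ ∅) (cyBand L S1 r1 r1 ∪ ∅)).Holds (cyS x L a b Q0 ∅)) :=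
      cys_K_loc _ (by rw [Finset.union_empty]; exact s0) (by rw [Finset.union_empty]; exact s1)
        (fun y hy => hok0.sub y (cys_Q_sub x L a b Q0 ∅ hy))
    have hrows : sdSites L r0 r1 ⊆ (cyS x L a b Q0 ∅).A :=
      (cys_rows_up L (r0 := r0) h1.le).trans (cys_up_sub x L (by omega) Q0 ∅)
    have r1' := cy_rc x hL hV0 hQ hsub (Finset.empty_subset _) _ F hK (dde_loc_mono hrows sT hF)
    have r2' := cy_rc x hL hV0 hQ hsub (Finset.empty_subset _) _ (fun _ => 1) hK (fun _ _ _ _ _ => rfl)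
    rw [cys_K_sv (cyS x L a b Q ∅) (cyS x L a b Q0 ∅) rfl, r1', r2']
  rw [key a b Q h0 h1 hQ hQ0 hQ1 hQT, key a' b' Q' h0' h1' hQ' hQ0' hQ1' hQT']

/-! ## 4. the canonical test -/

/-- reference system: only `sv` matters -/
def cysR (L : ℕ) : ClSys TV CyY := ⟨∅, ∅, cySv L, fun _ => 0⟩

/-- the status field of the cells of class `T` in the slabs `c..d` -/
def cysFld (L : ℕ) (T : Bool) (c d : ℤ) (ω : ClCfg TV CyY) : CyF :=
  fun y => if c ≤ y.2 ∧ y.2 ≤ d then cySg (clTau (cysR L) ω (cyT T (sdRed L y))) else 0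

open Classical in
/-- the canonical test -/
noncomputable def cysF (L : ℕ) (T : Bool) (c d : ℤ) (E : Set CyF) (ω : ClCfg TV CyY) : ℝ := if cysFld L T c d ω ∈ E then 1 else 0

theorem cys_red_cell {L : ℕ} (hL : 0 < L) (u : TV) {c d : ℤ} (h1 : c ≤ u.2) (h2 : u.2 ≤ d) : sdRed L u ∈ sdCells L c (d + 1) := by
  rw [cy_mem_cells]
  have h3 := Int.emod_nonneg u.1 (by exact_mod_cast hL.ne' : (L : ℤ) ≠ 0)
  have h4 := Int.emod_lt_of_pos u.1 (by exact_mod_cast hL : (0 : ℤ) < L)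
  refine ⟨h3, h4, h1, ?_⟩
  show u.2 < d + 1
  omega

theorem cys_tau_R (L : ℕ) (S : ClSys TV CyY) (hsv : S.sv = cySv L) (ω : ClCfg TV CyY) (y : CyY) : clTau S ω y = clTau (cysR L) ω y := by
  unfold clTau cysR
  rw [hsv]

/-- PLAN: `hs` applied to the two fields: on the slabs `c..d` the cell `cyT T (sdRed L u)` is in the band, hence in `S.C`; `clTau` reads `S.sv` only. -/
theorem cys_fld_iff {L : ℕ} (hL : 0 < L) (S : ClSys TV CyY) (hsv : S.sv = cySv L) {T : Bool} {c d : ℤ} (hT : cyBand L T c d ⊆ S.C) {E : Set CyF}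
    (hs : CySup c d E) (ω : ClCfg TV CyY) : cyFld S L T ω ∈ E ↔ cysFld L T c d ω ∈ E := by
  refine hs _ _ (fun u h1 h2 => ?_)
  unfold cyFld cysFld
  have hm : cyT T (sdRed L u) ∈ S.C := hT (Finset.mem_image.2 ⟨sdRed L u, cys_red_cell hL u h1 h2, rfl⟩)
  rw [if_pos hm, if_pos ⟨h1, h2⟩, cys_tau_R L S hsv]

theorem cys_sg_mono {a b : ℤ} (h : a ≤ b) (ha : a = 1 ∨ a = -1 ∨ a = 0) (hb : b = 1 ∨ b = -1 ∨ b = 0) : cySg a ≤ cySg b := by
  unfold cySg
  rcases ha with rfl | rfl | rfl <;> rcases hb with rfl | rfl | rfl <;> first | (exfalso; omega) | decide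

theorem cys_tau_val {V Y : Type} [DecidableEq V] [DecidableEq Y] (S : ClSys V Y) (ω : ClCfg V Y) (y : Y) : clTau S ω y = 1 ∨ clTau S ω y = -1 ∨ clTau S ω y = 0 := by
  unfold clTau
  split_ifs <;> simp

theorem cys_F_mono {L : ℕ} (hL : 0 < L) (S : ClSys TV CyY) (hsv : S.sv = cySv L) {T : Bool} {c d : ℤ} (hT : cyBand L T c d ⊆ S.C) {E : Set CyF}
    (hE : CyInc E) : ClMono S (cysF L T c d E) := by
  intro ω ω' _ hτ
  unfold cysF
  have key : cysFld L T c d ω ∈ E → cysFld L T c d ω' ∈ E := by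
    refine hE _ _ (fun u => ?_)
    unfold cysFld
    by_cases hc : c ≤ u.2 ∧ u.2 ≤ d
    · rw [if_pos hc, if_pos hc]
      have hm : cyT T (sdRed L u) ∈ S.C := hT (Finset.mem_image.2 ⟨sdRed L u, cys_red_cell hL u hc.1 hc.2, rfl⟩)
      have := hτ _ hm
      rw [cys_tau_R L S hsv, cys_tau_R L S hsv] at this
      exact cys_sg_mono this (cys_tau_val _ _ _) (cys_tau_val _ _ _)
    · rw [if_neg hc, if_neg hc]
  by_cases h : cysFld L T c d ω ∈ E
  · rw [if_pos h, if_pos (key h)]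
  · rw [if_neg h]
    split_ifs <;> norm_num

theorem cys_F_loc {L : ℕ} (hL : 0 < L) (T : Bool) {r0 r1 c d : ℤ} (hc : r0 ≤ c) (hd : d < r1) (E : Set CyF) :
    ClLoc (sdSites L r0 r1) (cyBand L T c d) (cysF L T c d E) := by
  intro ω ω' hB _ hO
  unfold cysF
  have : cysFld L T c d ω = cysFld L T c d ω' := by
    funext u
    unfold cysFld
    by_cases hcd : c ≤ u.2 ∧ u.2 ≤ d
    · rw [if_pos hcd, if_pos hcd]
      have hm : cyT T (sdRed L u) ∈ cyBand L T c d := Finset.mem_image.2 ⟨sdRed L u, cys_red_cell hL u hcd.1 hcd.2, rfl⟩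
      have hsub : cySv L (cyT T (sdRed L u)) ⊆ sdSites L r0 r1 := by
        intro v hv
        have h1 := cys_band_rows hL hm hv
        have h2 := ((cys_sv_rows hL (cyT T (sdRed L u))).1 v hv).1
        rw [cy_mem_sites]
        exact ⟨h2.1, h2.2, by omega, by omega⟩
      congr 1
      unfold clTau
      have e1 : (cyT T (sdRed L u) ∈ ω.O) ↔ (cyT T (sdRed L u) ∈ ω'.O) := by
        have := Finset.ext_iff.1 hO (cyT T (sdRed L u))
        simpa [hm] using this
      have e2 : ((cysR L).sv (cyT T (sdRed L u)) ⊆ ω.B) ↔ ((cysR L).sv (cyT T (sdRed L u)) ⊆ ω'.B) := by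
        show cySv L _ ⊆ _ ↔ cySv L _ ⊆ _
        constructor
        · intro h v hv
          have := (Finset.ext_iff.1 hB v).1 (Finset.mem_inter.2 ⟨h hv, hsub hv⟩)
          exact (Finset.mem_inter.1 this).1
        · intro h v hv
          have := (Finset.ext_iff.1 hB v).2 (Finset.mem_inter.2 ⟨h hv, hsub hv⟩)
          exact (Finset.mem_inter.1 this).1
      simp only [e1, e2]
    · rw [if_neg hcd, if_neg hcd]
  rw [this]

theorem cys_band_mono (L : ℕ) (T : Bool) {c d c' d' : ℤ} (h1 : c' ≤ c) (h2 : d ≤ d') : cyBand L T c d ⊆ cyBand L T c' d' := by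
  intro y hy
  rw [cys_mem_band] at hy ⊢
  exact ⟨hy.1, hy.2.1, by omega, by omega⟩

/-- validity of the family of `cyP` -/
theorem cys_Q_val (L H : ℕ) (S T : Bool) : CyVal L (-3) ((H : ℤ) + 3) (cyQ L H S T) := by
  refine cys_val_of ?_ ?_
  · unfold cyQ
    refine Finset.union_subset (Finset.union_subset (cys_band_tris (by omega) (by omega)) (cys_band_tris (by omega) (by omega))) ?_
    split_ifs
    · exact cys_band_tris (by omega) (by omega)
    · exact cys_band_tris (by omega) (by omega)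
  · intro y z hy hz
    unfold cyQ at hy hz
    cases S <;> cases T <;> simp [Finset.mem_union, cys_mem_band] at hy hz <;> omega

theorem cys_Q_band (L H : ℕ) (S T : Bool) {c d : ℤ} (hc : 2 ≤ c) (hd : d ≤ (H : ℤ) - 3) : cyBand L T c d ⊆ cyQ L H S T := by
  unfold cyQ
  refine Finset.Subset.trans ?_ Finset.subset_union_right
  split_ifs
  · exact cys_band_mono L T (by omega) (by omega)
  · exact cys_band_mono L T (by omega) (by omega)

/-- **`cyP` in canonical form** -/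
theorem cys_P_eq (x : ℝ) {L : ℕ} (hL : 0 < L) (H : ℕ) (S T : Bool) {c d : ℤ} (hc : 2 ≤ c) (hd : d ≤ (H : ℤ) - 3) {E : Set CyF} (hs : CySup c d E) :
    cyP x L H S T E = (cysIn x L (cyQ L H S T) ∅ 0 H).E (CyMix L 0 H) (cysF L T c d E) := by
  have hI : cyM x L H S T = cysIn x L (cyQ L H S T) ∅ 0 H :=
    cys_I_eq x hL (by norm_num) (by omega) (cys_Q_val L H S T).sub ∅
  unfold cyP ClSys.P
  rw [hI]
  congr 1
  funext ω
  have hb : cyBand L T c d ⊆ (cysIn x L (cyQ L H S T) ∅ 0 H).C := by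
    intro y hy
    exact Finset.mem_union_left _ (Finset.mem_inter.2 ⟨cys_Q_band L H S T hc hd hy, cys_band_tris (by omega) (by omega) hy⟩)
  have := cys_fld_iff hL (cysIn x L (cyQ L H S T) ∅ 0 H) rfl hb hs ω
  unfold cysF
  by_cases h : cysFld L T c d ω ∈ E
  · rw [if_pos h, if_pos (this.2 h)]
  · rw [if_neg h, if_neg (fun h' => h (this.1 h'))]

/-- the field `zero` of `CyLaw` -/
theorem cys_P_empty (x : ℝ) (L H : ℕ) (S T : Bool) : cyP x L H S T ∅ = 0 := by
  unfold cyP ClSys.P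
  simp [ClSys.E, ClSys.N]

/-- the field `one` of `CyLaw`.      PLAN: `cys_amb` in the ambient of `cyM` with `F = 1` (`r0 = 0`, `r1 = H`, `M' = P' = ∅`): `E 1 = 1` in the ambient since `0 < Z`. -/
theorem cys_P_univ {x : ℝ} (hx0 : 0 < x) (hx1 : x ≤ 1) {L H : ℕ} (hL : 3 ≤ L) (hH : 1 ≤ H) (S T : Bool) : cyP x L H S T Set.univ = 1 := by
  have hL0 : 0 < L := by omega
  have hH' : (1 : ℤ) ≤ H := by exact_mod_cast hH
  have hI : cyM x L H S T = cysIn x L (cyQ L H S T) ∅ 0 H :=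
    cys_I_eq x hL0 (by norm_num) (by omega) (cys_Q_val L H S T).sub ∅
  have q1 : cyBand L S (0 - 1) (0 - 1) ⊆ cyQ L H S T := fun y hy => by
    have z1 : (0 : ℤ) - 1 = -1 := by norm_num
    rw [z1] at hy
    unfold cyQ; simp only [Finset.mem_union]; tauto
  have q2 : cyBand L S H H ⊆ cyQ L H S T := fun y hy => by
    unfold cyQ; simp only [Finset.mem_union]; tauto
  have A1 := cys_amb hx0 hx1 hL (a := -3) (b := (H : ℤ) + 3) (r0 := 0) (r1 := H) (by norm_num) (by omega) (by omega) (cys_Q_val L H S T) ∅ S S q1 q2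
    (M' := ∅) (P' := ∅) (Finset.empty_subset _)
      (fun y hy => absurd hy (Finset.notMem_empty _)) (Finset.empty_subset _) (fun y hy => absurd hy (Finset.notMem_empty _)) (fun _ => 1)
      (fun _ _ _ _ _ => rfl)
  unfold cyP ClSys.P
  rw [hI]
  simp only [Set.mem_univ, if_true]
  rw [← A1.2, dis_E_eq, ← dis_Z_eq, div_self A1.1.ne']

/-- an event which reads nothing is trivial -/
theorem cys_sup_triv {c d : ℤ} (h : d < c) {E : Set CyF} (hs : CySup c d E) : E = Set.univ ∨ E = ∅ := by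
  by_cases hE : E = ∅
  · exact Or.inr hE
  · left
    obtain ⟨τ, hτ⟩ := Set.nonempty_iff_ne_empty.2 hE
    ext τ'
    simp only [Set.mem_univ, iff_true]
    exact (hs τ τ' (fun u h1 h2 => by omega)).1 hτ

/-! ## 5. vertical translation -/

/-- vertical translation of the cells -/
def cysTr (t : ℤ) (c : CyY) : CyY := (c.1, c.2 + (0, t))

theorem cys_tr_inj (t : ℤ) : Function.Injective (cysTr t) := by
  intro c c' h
  unfold cysTr at h
  have h1 := congrArg Prod.fst h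
  have h2 := congrArg Prod.snd h
  simp only at h1 h2
  exact Prod.ext h1 (add_right_cancel h2)

theorem cys_tr_sv (L : ℕ) (t : ℤ) (c : CyY) : cySv L (cysTr t c) = (cySv L c).image (· + ((0, t) : TV)) := by
  obtain ⟨k, y⟩ := c
  have hr : ∀ u : TV, sdRed L (u + (0, t)) = sdRed L u + (0, t) := fun u => by
    unfold sdRed
    ext <;> simp
  have e1 : ∀ w : TV, y + (0, t) + w = y + w + (0, t) := fun w => by abel
  cases k <;>
    simp only [cySv, cysTr, cellV, cellD, Finset.image_insert, Finset.image_singleton, e1, hr]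
  · congr 2
    ext <;> simp
    ring
  · congr 2
    ext <;> simp
    ring

theorem cys_tr_band (L : ℕ) (T : Bool) (c d t : ℤ) : (cyBand L T c d).image (cysTr t) = cyBand L T (c + t) (d + t) := by
  ext ⟨k, y⟩
  simp only [cyBand, cysTr, cyT, sdCells, Finset.mem_image, Finset.mem_product, Finset.mem_Ico, Prod.exists, Prod.mk.injEq]
  constructor
  · rintro ⟨k', a, b, ⟨a', b', ⟨⟨h1, h2⟩, h3, h4⟩, rfl, rfl, rfl⟩, rfl, rfl⟩
    exact ⟨a', b' + t, ⟨⟨h1, h2⟩, by omega, by omega⟩, rfl, by ext <;> simp⟩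
  · rintro ⟨a', b', ⟨⟨h1, h2⟩, h3, h4⟩, rfl, rfl⟩
    exact ⟨_, a', b' - t, ⟨a', b' - t, ⟨⟨h1, h2⟩, by omega, by omega⟩, rfl, rfl, rfl⟩, rfl, by ext <;> simp⟩

theorem cys_tr_tr (t : ℤ) (c : CyY) : cysTr t (cysTr (-t) c) = c := by
  unfold cysTr
  ext <;> simp

theorem cys_tr_Ta (L : ℕ) (t : ℤ) (e : CyY) : cyTa L (cysTr t e) = cysTr t (cyTa L e) := by
  obtain ⟨k, y⟩ := e
  cases k <;> simp only [cyTa, cysTr]
  unfold sdRed
  ext <;> simp

theorem cys_tr_Tb (L : ℕ) (t : ℤ) (e : CyY) : cyTb L (cysTr t e) = cysTr t (cyTb L e) := by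
  obtain ⟨k, y⟩ := e
  cases k <;> simp only [cyTb, cysTr, sdRed] <;> refine Prod.ext rfl (Prod.ext ?_ ?_) <;> simp <;> ring

theorem cys_tr_tris (L : ℕ) (a b t : ℤ) (y : CyY) : cysTr t y ∈ cyTris L (a + t) (b + t) ↔ y ∈ cyTris L a b := by
  obtain ⟨k, y⟩ := y
  simp only [cyTris, cysTr, sdCells, Finset.mem_union, Finset.mem_image, Finset.mem_product, Finset.mem_Ico, Prod.mk.injEq, Prod.exists]
  constructor
  · rintro (⟨i, j, ⟨h1, h2, h3⟩, rfl, h⟩ | ⟨i, j, ⟨h1, h2, h3⟩, rfl, h⟩)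
    · have e1 := congrArg Prod.fst h
      have e2 := congrArg Prod.snd h
      simp only [Prod.fst_add, Prod.snd_add, add_zero] at e1 e2
      exact Or.inl ⟨y.1, y.2, ⟨by rw [← e1]; exact h1, by omega, by omega⟩, rfl, rfl⟩
    · have e1 := congrArg Prod.fst h
      have e2 := congrArg Prod.snd h
      simp only [Prod.fst_add, Prod.snd_add, add_zero] at e1 e2
      exact Or.inr ⟨y.1, y.2, ⟨by rw [← e1]; exact h1, by omega, by omega⟩, rfl, rfl⟩
  · rintro (⟨i, j, ⟨h1, h2, h3⟩, rfl, rfl⟩ | ⟨i, j, ⟨h1, h2, h3⟩, rfl, rfl⟩)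
    · exact Or.inl ⟨i, j + t, ⟨h1, by omega, by omega⟩, rfl, by ext <;> simp⟩
    · exact Or.inr ⟨i, j + t, ⟨h1, by omega, by omega⟩, rfl, by ext <;> simp⟩

theorem cys_tr_edges (L : ℕ) (a b t : ℤ) (y : CyY) : cysTr t y ∈ cyEdges L (a + t) (b + t) ↔ y ∈ cyEdges L a b := by
  obtain ⟨k, y⟩ := y
  simp only [cyEdges, cysTr, sdCells, sdSites, Finset.mem_union, Finset.mem_image, Finset.mem_product, Finset.mem_Ico, Finset.mem_Icc, Prod.mk.injEq, Prod.exists]
  constructor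
  · rintro ((⟨i, j, ⟨h1, h2, h3⟩, rfl, h⟩ | ⟨i, j, ⟨h1, h2, h3⟩, rfl, h⟩) | ⟨i, j, ⟨h1, h2, h3⟩, rfl, h⟩)
    · have e1 := congrArg Prod.fst h
      have e2 := congrArg Prod.snd h
      simp only [Prod.fst_add, Prod.snd_add, add_zero] at e1 e2
      exact Or.inl (Or.inl ⟨y.1, y.2, ⟨by rw [← e1]; exact h1, by omega, by omega⟩, rfl, rfl⟩)
    · have e1 := congrArg Prod.fst h
      have e2 := congrArg Prod.snd h
      simp only [Prod.fst_add, Prod.snd_add, add_zero] at e1 e2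
      exact Or.inl (Or.inr ⟨y.1, y.2, ⟨by rw [← e1]; exact h1, by omega, by omega⟩, rfl, rfl⟩)
    · have e1 := congrArg Prod.fst h
      have e2 := congrArg Prod.snd h
      simp only [Prod.fst_add, Prod.snd_add, add_zero] at e1 e2
      exact Or.inr ⟨y.1, y.2, ⟨by rw [← e1]; exact h1, by omega, by omega⟩, rfl, rfl⟩
  · rintro ((⟨i, j, ⟨h1, h2, h3⟩, rfl, rfl⟩ | ⟨i, j, ⟨h1, h2, h3⟩, rfl, rfl⟩) | ⟨i, j, ⟨h1, h2, h3⟩, rfl, rfl⟩)
    · exact Or.inl (Or.inl ⟨i, j + t, ⟨h1, by omega, by omega⟩, rfl, by ext <;> simp⟩)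
    · exact Or.inl (Or.inr ⟨i, j + t, ⟨h1, by omega, by omega⟩, rfl, by ext <;> simp⟩)
    · exact Or.inr ⟨i, j + t, ⟨h1, by omega, by omega⟩, rfl, by ext <;> simp⟩

theorem cys_tr_val {L : ℕ} {a b : ℤ} {Q : Finset CyY} (hQ : CyVal L a b Q) (t : ℤ) : CyVal L (a + t) (b + t) (Q.image (cysTr t)) := by
  refine ⟨?_, ?_⟩
  · intro y hy
    obtain ⟨z, hz, rfl⟩ := Finset.mem_image.1 hy
    exact (cys_tr_tris L a b t z).2 (hQ.sub hz)
  · intro e he hh
    have e0 : e = cysTr t (cysTr (-t) e) := (cys_tr_tr t e).symm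
    rw [e0] at he hh
    rw [cys_tr_edges] at he
    rw [cys_tr_Ta, cys_tr_Tb, (cys_tr_inj t).mem_finset_image, (cys_tr_inj t).mem_finset_image] at hh
    exact hQ.dis _ he hh

theorem cys_tr_iso (x : ℝ) (L : ℕ) (Q Γ : Finset CyY) (r0 r1 t : ℤ) :
    CuIso (cysIn x L Q Γ r0 r1) (cysIn x L (Q.image (cysTr t)) (Γ.image (cysTr t)) (r0 + t) (r1 + t)) (· + ((0, t) : TV)) (cysTr t) := by
  have hinj : Function.Injective (· + ((0, t) : TV)) := add_left_injective _
  refine ⟨hinj.injOn, (cys_tr_inj t).injOn, ?_, ?_, fun y _ => cys_tr_sv L t y, fun y _ => ?_⟩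
  · ext v
    simp only [cysIn, sdSites, Finset.mem_image, Finset.mem_product, Finset.mem_Ico, Finset.mem_Icc]
    constructor
    · rintro ⟨u, ⟨h1, h2, h3⟩, rfl⟩
      simp only [Prod.fst_add, Prod.snd_add, add_zero]
      exact ⟨h1, by omega, by omega⟩
    · rintro ⟨h1, h2, h3⟩
      exact ⟨v - (0, t), ⟨by simpa using h1, by simp only [Prod.snd_sub]; omega, by simp only [Prod.snd_sub]; omega⟩, by abel⟩
  · ext y
    have key : ∀ z : CyY, cysTr t z ∈ (cysIn x L (Q.image (cysTr t)) (Γ.image (cysTr t)) (r0 + t) (r1 + t)).C ↔ z ∈ (cysIn x L Q Γ r0 r1).C := fun z => by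
      simp only [cysIn, Finset.mem_union, Finset.mem_inter, Finset.mem_filter, cys_tr_tris, cys_tr_edges, cys_tr_Ta, cys_tr_Tb,
        (cys_tr_inj t).mem_finset_image]
    constructor
    · intro hy
      obtain ⟨z, hz, rfl⟩ := Finset.mem_image.1 hy
      exact (key z).2 hz
    · intro hy
      rw [← cys_tr_tr t y] at hy ⊢
      exact Finset.mem_image_of_mem _ ((key _).1 hy)
  · simp only [cysIn, (cys_tr_inj t).mem_finset_image]
    rfl

theorem cys_tr_mix (L : ℕ) (r0 r1 t : ℤ) (ω : ClCfg TV CyY) :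
    CyMix L (r0 + t) (r1 + t) (ω.map (· + ((0, t) : TV)) (cysTr t)) ↔ CyMix L r0 r1 ω := by
  have hrow : ∀ (j : ℤ) (v : TV), v + (0, t) ∈ sdRow L (j + t) ↔ v ∈ sdRow L j := fun j v => by
    simp only [sdRow, Finset.mem_product, Finset.mem_Ico, Finset.mem_singleton, Prod.fst_add, Prod.snd_add, add_zero, add_left_inj]
  have hB : ∀ v : TV, v + (0, t) ∈ (ω.map (· + ((0, t) : TV)) (cysTr t)).B ↔ v ∈ ω.B := fun v => by
    unfold ClCfg.map
    simp only [Finset.mem_image, add_left_inj, exists_eq_right]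
  have hpin : ∀ (s : Bool) (j : ℤ), CuPin s (sdRow L (j + t)) (ω.map (· + ((0, t) : TV)) (cysTr t)) ↔ CuPin s (sdRow L j) ω := fun s j => by
    unfold CuPin
    constructor
    · intro h v hv
      rw [← hB v]
      exact h _ ((hrow j v).2 hv)
    · intro h v hv
      have e : v = (v - (0, t)) + (0, t) := by abel
      rw [e] at hv ⊢
      rw [hB]
      exact h _ ((hrow j _).1 hv)
  unfold CyMix
  rw [hpin, hpin]

theorem cys_tr_F (L : ℕ) (T : Bool) (c d t : ℤ) (E : Set CyF) (ω : ClCfg TV CyY) :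
    cysF L T (c + t) (d + t) (cyMv (0, t) E) (ω.map (· + ((0, t) : TV)) (cysTr t)) = cysF L T c d E ω := by
  have hr : ∀ u : TV, sdRed L (u + (0, t)) = sdRed L u + (0, t) := fun u => by
    unfold sdRed
    ext <;> simp
  have hinj : Function.Injective (· + ((0, t) : TV)) := add_left_injective _
  have htau : ∀ y : CyY, clTau (cysR L) (ω.map (· + ((0, t) : TV)) (cysTr t)) (cysTr t y) = clTau (cysR L) ω y := fun y => by
    have h1 : cysTr t y ∈ (ω.map (· + ((0, t) : TV)) (cysTr t)).O ↔ y ∈ ω.O := by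
      unfold ClCfg.map
      exact (cys_tr_inj t).mem_finset_image
    have h2 : (cysR L).sv (cysTr t y) ⊆ (ω.map (· + ((0, t) : TV)) (cysTr t)).B ↔ (cysR L).sv y ⊆ ω.B := by
      unfold ClCfg.map cysR
      simp only
      rw [cys_tr_sv]
      exact Finset.image_subset_image_iff hinj
    unfold clTau
    simp only [h1, h2]
  have hf : (fun u : ℤ × ℤ => cysFld L T (c + t) (d + t) (ω.map (· + ((0, t) : TV)) (cysTr t)) (u + (0, t))) = cysFld L T c d ω := by
    funext u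
    unfold cysFld
    have e : cyT T (sdRed L (u + (0, t))) = cysTr t (cyT T (sdRed L u)) := by
      rw [hr]; rfl
    rw [e, htau]
    simp only [Prod.snd_add, add_le_add_iff_right]
  have hm : cysFld L T (c + t) (d + t) (ω.map (· + ((0, t) : TV)) (cysTr t)) ∈ cyMv (0, t) E ↔ cysFld L T c d ω ∈ E := by
    show (fun u : ℤ × ℤ => cysFld L T (c + t) (d + t) (ω.map (· + ((0, t) : TV)) (cysTr t)) (u + (0, t))) ∈ E ↔ _
    rw [hf]
  unfold cysF
  by_cases h : cysFld L T c d ω ∈ E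
  · rw [if_pos h, if_pos (hm.2 h)]
  · rw [if_neg h, if_neg (fun h' => h (hm.1 h'))]

theorem cys_sup_mv {c d : ℤ} {E : Set CyF} (hs : CySup c d E) (t : ℤ) : CySup (c + t) (d + t) (cyMv (0, t) E) := by
  intro τ τ' h
  show (fun u : ℤ × ℤ => τ (u + (0, t))) ∈ E ↔ (fun u : ℤ × ℤ => τ' (u + (0, t))) ∈ E
  refine hs _ _ fun u hc hd => h (u + (0, t)) ?_ ?_
  · simp only [Prod.snd_add]; omega
  · simp only [Prod.snd_add]; omega

/-- the cells of the explicit system lie inside its rows -/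
theorem cys_In_sub (x : ℝ) {L : ℕ} (hL : 0 < L) (Q Γ : Finset CyY) (r0 r1 : ℤ) : ∀ y ∈ (cysIn x L Q Γ r0 r1).C, (cysIn x L Q Γ r0 r1).sv y ⊆ (cysIn x L Q Γ r0 r1).A := by
  intro y hy
  show cySv L y ⊆ sdSites L r0 r1
  have hy' : y ∈ (Q ∩ cyTris L r0 r1) ∪ (cyEdges L r0 r1).filter (fun e => cyTa L e ∉ Q ∧ cyTb L e ∉ Q) := hy
  rcases Finset.mem_union.1 hy' with h | h
  · exact cy_tri_sub hL (Finset.mem_inter.1 h).2
  · exact cy_edge_sub hL (Finset.mem_filter.1 h).1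

/-- translation of the law between two cuts -/
theorem cys_tr_E (x : ℝ) {L : ℕ} (hL : 0 < L) (Q : Finset CyY) (r0 r1 t : ℤ) (T : Bool) (c d : ℤ) (E : Set CyF) :
    (cysIn x L Q ∅ r0 r1).E (CyMix L r0 r1) (cysF L T c d E) =
      (cysIn x L (Q.image (cysTr t)) ∅ (r0 + t) (r1 + t)).E (CyMix L (r0 + t) (r1 + t)) (cysF L T (c + t) (d + t) (cyMv (0, t) E)) := by
  have iso := cys_tr_iso x L Q ∅ r0 r1 t
  rw [Finset.image_empty] at iso
  have hsub := cys_In_sub x hL Q ∅ r0 r1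
  rw [dis_E_eq, dis_E_eq, dis_Z_eq, dis_Z_eq, am_iso _ _ _ _ iso hsub (CyMix L (r0 + t) (r1 + t)) (cysF L T (c + t) (d + t) (cyMv (0, t) E)),
    am_iso _ _ _ _ iso hsub (CyMix L (r0 + t) (r1 + t)) (fun _ => 1)]
  simp only [cys_tr_mix, cys_tr_F]

/-! ## 6. the slide -/

/-- the family of the comparison -/
noncomputable def cysQ (L H : ℕ) (S S' T : Bool) (c d t : ℤ) : Finset CyY :=
  cyBand L S (-1) (-1) ∪ cyBand L S H H ∪ cyBand L S' (-t - 1) (-t - 1) ∪ cyBand L S' ((H : ℤ) - t) ((H : ℤ) - t) ∪ cyBand L T c d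

theorem cys_bigQ_val (L H : ℕ) (S S' T : Bool) {c d t : ℤ} (hc : 3 ≤ c) (hcd : c ≤ d) (ht : 3 ≤ t) (hd : d + t ≤ (H : ℤ) - 4) :
    CyVal L (-t - 3) ((H : ℤ) + 3) (cysQ L H S S' T c d t) := by
  refine cys_val_of ?_ ?_
  · unfold cysQ
    refine Finset.union_subset (Finset.union_subset (Finset.union_subset (Finset.union_subset ?_ ?_) ?_) ?_) ?_ <;>
      exact cys_band_tris (by omega) (by omega)
  · intro y z hy hz
    unfold cysQ at hy hz
    cases S <;> cases S' <;> cases T <;> simp [Finset.mem_union, cys_mem_band] at hy hz <;> omega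

/-- **TEX[annulus:slide], (annulus:slide-tests)** = the field `slide` of `CyLaw L H (cyP x L H)` -/
theorem cys_slide {x : ℝ} (hx0 : 0 < x) (hx1 : x ≤ 1) {L H : ℕ} (hL : 3 ≤ L) (hH : 1 ≤ H) (S S' T : Bool) (c d t : ℤ) (E : Set CyF) (hE : CyInc E)
    (hs : CySup c d E) (hc : 3 ≤ c) (ht : 3 ≤ t) (hd : d + t ≤ (H : ℤ) - 4) : cyP x L H S T E ≤ cyP x L H S' T (cyMv (0, t) E) := by
  have hL0 : 0 < L := by omega
  have hH' : (1 : ℤ) ≤ H := by exact_mod_cast hH
  rcases lt_or_ge d c with hcd | hcd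
  · rcases cys_sup_triv hcd hs with rfl | rfl
    · have : cyMv ((0, t) : ℤ × ℤ) (Set.univ : Set CyF) = Set.univ := rfl
      rw [this, cys_P_univ hx0 hx1 hL hH, cys_P_univ hx0 hx1 hL hH]
    · have : cyMv ((0, t) : ℤ × ℤ) (∅ : Set CyF) = ∅ := rfl
      rw [this, cys_P_empty, cys_P_empty]
  have hV : CyVal L (-t - 3) ((H : ℤ) + 3) (cysQ L H S S' T c d t) := cys_bigQ_val L H S S' T hc hcd ht hd
  have b1 : cyBand L S (-1) (-1) ⊆ cysQ L H S S' T c d t := fun y hy => by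
    unfold cysQ; simp only [Finset.mem_union]; tauto
  have b2 : cyBand L S H H ⊆ cysQ L H S S' T c d t := fun y hy => by
    unfold cysQ; simp only [Finset.mem_union]; tauto
  have b3 : cyBand L S' (-t - 1) (-t - 1) ⊆ cysQ L H S S' T c d t := fun y hy => by
    unfold cysQ; simp only [Finset.mem_union]; tauto
  have b4 : cyBand L S' ((H : ℤ) - t) ((H : ℤ) - t) ⊆ cysQ L H S S' T c d t := fun y hy => by
    unfold cysQ; simp only [Finset.mem_union]; tauto
  have b5 : cyBand L T c d ⊆ cysQ L H S S' T c d t := fun y hy => by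
    unfold cysQ; simp only [Finset.mem_union]; tauto
  set Qb := cysQ L H S S' T c d t with hQb
  have z1 : (0 : ℤ) - 1 = -1 := by norm_num
  have hD : ClDisk (cyS x L (-t - 3) ((H : ℤ) + 3) Qb ∅) := cy_S_disk hx0 hx1 hL (by omega) hV ∅ (cy_S_card _ _ _ _ _ _)
  have hQC := cys_Q_sub x L (-t - 3) ((H : ℤ) + 3) Qb ∅
  -- step 1: the law of class `S` in the big family
  have q1 : cyBand L S (-1) (-1) ⊆ cyQ L H S T := fun y hy => by
    unfold cyQ; simp only [Finset.mem_union]; tauto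
  have q2 : cyBand L S H H ⊆ cyQ L H S T := fun y hy => by
    unfold cyQ; simp only [Finset.mem_union]; tauto
  have e1 : cyP x L H S T E = (cysIn x L Qb ∅ 0 H).E (CyMix L 0 H) (cysF L T c d E) := by
    rw [cys_P_eq x hL0 H S T (by omega) (by omega) hs]
    exact cys_rc_in hx0 hx1 hL (a := -3) (b := (H : ℤ) + 3) (a' := -t - 3) (b' := (H : ℤ) + 3) (by omega) (by omega) (by omega) (by omega) (by omega)
      (cys_Q_val L H S T) hV S S T (by rw [z1]; exact q1) q2 (cys_Q_band L H S T (by omega) (by omega)) (by rw [z1]; exact b1) b2 b5 (by omega) (by omega) _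
      (cys_F_loc hL0 T (by omega) (by omega) E)
  -- step 2: the two histories in the big ambient
  have hFl : ∀ r0 r1 : ℤ, r0 ≤ c → d < r1 →
      ClLoc (sdSites L r0 r1) ((cyS x L (-t - 3) ((H : ℤ) + 3) Qb ∅).cin (sdSites L r0 r1)) (cysF L T c d E) := fun r0 r1 h0 h1 =>
    dde_loc_mono (Finset.Subset.refl _) (cys_band_cin hL0 ∅ b5 h0 h1) (cys_F_loc hL0 T h0 h1 E)
  have a1 := cys_amb hx0 hx1 hL (a := -t - 3) (b := (H : ℤ) + 3) (r0 := 0) (r1 := H) (by omega) (by omega) (by omega) hV ∅ S S (by rw [z1]; exact b1) b2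
    (M' := cyBand L S' (-t - 1) (-t - 1)) (P' := ∅) (b3.trans hQC) (fun y hy v hv => by have := cys_band_rows hL0 hy hv; omega)
    (Finset.empty_subset _) (fun y hy => absurd hy (Finset.notMem_empty _)) _ (hFl 0 H (by omega) (by omega))
  have a2 := cys_amb hx0 hx1 hL (a := -t - 3) (b := (H : ℤ) + 3) (r0 := -t) (r1 := (H : ℤ) - t) (by omega) (by omega) (by omega) hV ∅ S' S' b3 b4
    (M' := ∅) (P' := cyBand L S H H) (Finset.empty_subset _) (fun y hy => absurd hy (Finset.notMem_empty _))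
    (b2.trans hQC) (fun y hy v hv => by have := cys_band_rows hL0 hy hv; omega) _ (hFl (-t) ((H : ℤ) - t) (by omega) (by omega))
  rw [z1] at a1
  have o := cys_E_le _ hD _ _ (cys_K_legal _ _ _) (cys_K_legal _ _ _)
    (cys_K_le (cyS x L (-t - 3) ((H : ℤ) + 3) Qb ∅) (M := cyBand L S (-1) (-1) ∪ cyBand L S' (-t - 1) (-t - 1)) (M' := cyBand L S' (-t - 1) (-t - 1) ∪ ∅)
      (P := cyBand L S H H ∪ ∅) (P' := cyBand L S' ((H : ℤ) - t) ((H : ℤ) - t) ∪ cyBand L S H H)
      (by rw [Finset.union_empty]; exact Finset.subset_union_right) (by rw [Finset.union_empty]; exact Finset.subset_union_right))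
    a1.1 a2.1 (cysF L T c d E) (cys_F_mono hL0 _ rfl (b5.trans hQC) hE)
  rw [a1.2, a2.2] at o
  -- step 3: translation and the law of class `S'`
  have q1' : cyBand L S' (-1) (-1) ⊆ cyQ L H S' T := fun y hy => by
    unfold cyQ; simp only [Finset.mem_union]; tauto
  have q2' : cyBand L S' H H ⊆ cyQ L H S' T := fun y hy => by
    unfold cyQ; simp only [Finset.mem_union]; tauto
  have t1 := cys_tr_E x hL0 Qb (-t) ((H : ℤ) - t) t T c d E
  have z2 : -t + t = 0 := by ring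
  have z3 : (H : ℤ) - t + t = H := by ring
  rw [z2, z3] at t1
  have i3 : cyBand L S' (0 - 1) (0 - 1) ⊆ Qb.image (cysTr t) := by
    have := Finset.image_subset_image (f := cysTr t) b3
    rw [cys_tr_band] at this
    have z : -t - 1 + t = 0 - 1 := by ring
    rwa [z] at this
  have i4 : cyBand L S' H H ⊆ Qb.image (cysTr t) := by
    have := Finset.image_subset_image (f := cysTr t) b4
    rw [cys_tr_band, z3] at this
    exact this
  have i5 : cyBand L T (c + t) (d + t) ⊆ Qb.image (cysTr t) := by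
    have := Finset.image_subset_image (f := cysTr t) b5
    rwa [cys_tr_band] at this
  have e3 : cyP x L H S' T (cyMv (0, t) E) =
      (cysIn x L (Qb.image (cysTr t)) ∅ 0 H).E (CyMix L 0 H) (cysF L T (c + t) (d + t) (cyMv (0, t) E)) := by
    rw [cys_P_eq x hL0 H S' T (c := c + t) (d := d + t) (by omega) (by omega) (cys_sup_mv hs t)]
    exact cys_rc_in hx0 hx1 hL (a := -3) (b := (H : ℤ) + 3) (a' := -t - 3 + t) (b' := (H : ℤ) + 3 + t) (by omega) (by omega) (by omega) (by omega) (by omega)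
      (cys_Q_val L H S' T) (cys_tr_val hV t) S' S' T (by rw [z1]; exact q1') q2' (cys_Q_band L H S' T (by omega) (by omega)) i3 i4 i5 (by omega) (by omega) _
      (cys_F_loc hL0 T (by omega) (by omega) _)
  rw [e1, e3, ← t1]
  exact o

/-- the equation lemmas of the definitions of this file are generated HERE -/
theorem cys_eqns_cite : True := by
  have := @cysK.eq_1
  have := @cysLo.eq_1
  have := @cysHi.eq_1
  have := @cysIn.eq_1
  have := @cysUp.eq_1
  have := @cysR.eq_1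
  have := @cysFld.eq_1
  have := @cysF.eq_1
  have := @cysTr.eq_1
  have := @cysQ.eq_1
  trivial

end Claimed.Agent.R291
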