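import Claimed.Agent.R291.Ann.CylRho
import Claimed.Agent.R291.Ann.CylSlide
import Claimed.Agent.R291.Ann.CylOW
import Claimed.Agent.R291.Ann.CylRecov

/-!
# Row 291 (S0539), ANN block A4, LAW SIDE : GEOMETRY OF `cy_sym2` (ROUTE B)      (owner helper8; prefix `cyg_`, defs `cyg…`, `Cyg…`)

TEX 09-annulus, proof of [annulus:first-seed] (symmetric domain), [annulus:one-white], [annulus:search].   0 sorry.   Fitted to the abstract tools of 5 (`Ann/CylOW`: `cyo_white`, `cyo_wsearch`, `cyo_alt`) and of 22 (`am_dom_plus`, `am_order`, `am_iso`).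

THE CHAIN (per record `J` of the white search from the row `r0 = 0` in `M = S.inn (rows 0..H)`, `S = cyS x L a b Q ∅`, `a + b = 2 n`, `ρ Q = Q`):
    J' = cygJd L a r0 J (record + rows under it + south pole),  Λ = cygLam S J',  D = cyrDn L a H,  D' = cygD L n a b r0 J (= S.A minus the hole over ρ J),  R = cygR L n r0 J = D' \ J'
    (M.inn (M.A \ J)).E (cuLay M (M.A \ J) ⊆ W ∧ B = + on the row H) F
      = (S.inn (D \ J')).E (cuLay (S.inn D) (D \ J') ⊆ W ∧ CuPin true (cuLay S D)) F        `cyg_lay_M`, `cyg_dn_sdiff`, `cyg_lay_hole`, `cyg_lay_dn`, `am_inn_inn`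
      = cuE (S.neu Γ) true D ties F                                                          `cyo_white`  with `cyg_Jd_hole`
      ≥ cuE (S.neu Γ) true D' ties F                                                         `am_dom_plus` (`D ⊆ D'`: `cyg_D_low`)
      = (S.inn R).E (Λ ⊆ W ∧ CuPin true (ρ Λ)) F                                             `cyo_white`  with `cyg_Jd_hole`, `cyg_D_sdiff`, `cyg_lay_D`
    and `ρ` is an AUTOMORPHISM of `S.inn R` (`cyg_iso_R`), an involution (`cyg_V_V`, `cyg_im_im`).   No poles in `S.inn R`.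

* §0 `CygPar` (margins of `cy_sym2`), **`cygQ`** (the `ρ`-symmetric family), `cyg_Q_val`, **`cyg_Q_rho`**, `cyg_Q_T`, `cyg_Q_T'`
* §1 abstract: `cygLam S J` (layer towards a hole), `cyg_lay_hole`, `cyg_lay_compl`, `cyg_lam_part`, `cyg_lam_iso`; `CygCon`, `cyg_inv_con`, `cyg_con_const`, **`cyg_hole`** (criterion for `CyoHole`)
* §2 ambient: `cyg_mem_dn`, `cyg_mem_rows`, `cyg_cover`, `cyg_dn_const`
* §3 records: `CygRec`, `cyg_rec_inv`, `cygJd`, `cygJu`, **`cyg_Jd_hole`**, `cyg_lam_dn`, `cyg_lam_up`, `cyg_lay_dn`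
* §4 `cygV L n`, `cygY L n` (= `cyrV L (2n) (-n)`, `cyrY L (2n) (-n)`), `cyg_iso`, `cygR`, `cyg_R_rho`, `cygD`, `cyg_D_low`, `cyg_D_sdiff`, `cyg_dn_sdiff`, **`cyg_iso_R`**, **`cyg_lay_D`**, `cyg_lam_rows`, `cyg_lam_R`, `cyg_lay_M`
-/

set_option autoImplicit false
set_option linter.unusedSectionVars false
set_option linter.unusedVariables false
set_option linter.unusedSimpArgs false

namespace Claimed.Agent.R291

open Claims Claims.C0467 Relation

/-! ## 0. parameters, the family -/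

/-- the margins of `cy_sym2` -/
structure CygPar (H k m κ κ' n : ℤ) : Prop where
  hm : 1 ≤ m
  hk : 3 ≤ k
  h1 : k + m + 3 ≤ κ
  h2 : κ + m + 2 ≤ κ'
  h3 : κ' + m - 1 ≤ H - 4
  h4 : H + k + 4 ≤ κ + κ'
  h5 : κ + κ' + m = 2 * n

/-- **the `ρ`-symmetric family** (`N = 2 n` = the top row of the symmetric domain) -/
noncomputable def cygQ (L : ℕ) (T : Bool) (H k m κ κ' n : ℤ) : Finset CyY :=
  cyBand L T (-1) (k + m + 1) ∪ cyBand L (!T) (2 * n - 1 - H) (2 * n - 1 - H) ∪ cyBand L T κ (κ + m - 1) ∪ cyBand L (!T) κ' (κ' + m - 1)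
    ∪ cyBand L T H H ∪ cyBand L (!T) (2 * n - 2 - k - m) (2 * n)

theorem cyg_mem_Q {L : ℕ} {T : Bool} {H k m κ κ' n : ℤ} {y : CyY} : y ∈ cygQ L T H k m κ κ' n ↔
    y ∈ cyBand L T (-1) (k + m + 1) ∨ y ∈ cyBand L (!T) (2 * n - 1 - H) (2 * n - 1 - H) ∨ y ∈ cyBand L T κ (κ + m - 1) ∨ y ∈ cyBand L (!T) κ' (κ' + m - 1)
      ∨ y ∈ cyBand L T H H ∨ y ∈ cyBand L (!T) (2 * n - 2 - k - m) (2 * n) := by
  unfold cygQ
  simp only [Finset.mem_union]
  tauto

theorem cyg_band_T {L : ℕ} {T T' : Bool} {c d : ℤ} {y : TV} : cyT T y ∈ cyBand L T' c d ↔ T = T' ∧ y ∈ sdCells L c (d + 1) := by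
  rw [cyr_mem_band]
  cases T <;> cases T' <;> simp [cyT]

/-- the slabs of the triangles of class `T` of the family -/
theorem cyg_Q_T {L : ℕ} {T : Bool} {H k m κ κ' n : ℤ} {y : TV} : cyT T y ∈ cygQ L T H k m κ κ' n ↔
    (0 ≤ y.1 ∧ y.1 < L) ∧ ((-1 ≤ y.2 ∧ y.2 ≤ k + m + 1) ∨ (κ ≤ y.2 ∧ y.2 ≤ κ + m - 1) ∨ y.2 = H) := by
  rw [cyg_mem_Q]
  simp only [cyg_band_T, cy_mem_cells, true_and, Bool.eq_not_self, false_and, false_or, or_false]
  constructor
  · rintro (h | h | h)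
    · exact ⟨⟨h.1, h.2.1⟩, Or.inl ⟨h.2.2.1, by omega⟩⟩
    · exact ⟨⟨h.1, h.2.1⟩, Or.inr (Or.inl ⟨h.2.2.1, by omega⟩)⟩
    · exact ⟨⟨h.1, h.2.1⟩, Or.inr (Or.inr (by omega))⟩
  · rintro ⟨h0, h | h | h⟩
    · exact Or.inl ⟨h0.1, h0.2, h.1, by omega⟩
    · exact Or.inr (Or.inl ⟨h0.1, h0.2, h.1, by omega⟩)
    · exact Or.inr (Or.inr ⟨h0.1, h0.2, by omega, by omega⟩)

/-- the slabs of the triangles of class `!T` of the family -/
theorem cyg_Q_T' {L : ℕ} {T : Bool} {H k m κ κ' n : ℤ} {y : TV} : cyT (!T) y ∈ cygQ L T H k m κ κ' n ↔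
    (0 ≤ y.1 ∧ y.1 < L) ∧ (y.2 = 2 * n - 1 - H ∨ (κ' ≤ y.2 ∧ y.2 ≤ κ' + m - 1) ∨ (2 * n - 2 - k - m ≤ y.2 ∧ y.2 ≤ 2 * n)) := by
  rw [cyg_mem_Q]
  simp only [cyg_band_T, cy_mem_cells, true_and, Bool.not_eq_eq_eq_not, Bool.not_eq_self, Bool.eq_not_self, false_and, false_or, or_false]
  constructor
  · rintro (h | h | h)
    · exact ⟨⟨h.1, h.2.1⟩, Or.inl (by omega)⟩
    · exact ⟨⟨h.1, h.2.1⟩, Or.inr (Or.inl ⟨h.2.2.1, by omega⟩)⟩
    · exact ⟨⟨h.1, h.2.1⟩, Or.inr (Or.inr ⟨h.2.2.1, by omega⟩)⟩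
  · rintro ⟨h0, h | h | h⟩
    · exact Or.inl ⟨h0.1, h0.2, by omega, by omega⟩
    · exact Or.inr (Or.inl ⟨h0.1, h0.2, h.1, by omega⟩)
    · exact Or.inr (Or.inr ⟨h0.1, h0.2, h.1, by omega⟩)

theorem cyg_Q_tris (L : ℕ) (T : Bool) {H k m κ κ' n : ℤ} (h : CygPar H k m κ κ' n) : cygQ L T H k m κ κ' n ⊆ cyTris L (-3) (2 * n + 3) := by
  obtain ⟨hm, hk, h1, h2, h3, h4, h5⟩ := h
  intro y hy
  rcases cyg_mem_Q.1 hy with h | h | h | h | h | h
  · exact cys_band_tris (by omega) (by omega) h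
  · exact cys_band_tris (by omega) (by omega) h
  · exact cys_band_tris (by omega) (by omega) h
  · exact cys_band_tris (by omega) (by omega) h
  · exact cys_band_tris (by omega) (by omega) h
  · exact cys_band_tris (by omega) (by omega) h

theorem cyg_Q_val (L : ℕ) (T : Bool) {H k m κ κ' n : ℤ} (h : CygPar H k m κ κ' n) : CyVal L (-3) (2 * n + 3) (cygQ L T H k m κ κ' n) := by
  refine cys_val_of (cyg_Q_tris L T h) ?_
  obtain ⟨hm, hk, h1, h2, h3, h4, h5⟩ := h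
  intro y z hy hz
  cases T
  · have a := ((cyg_Q_T (T := false) (y := z)).1 hz).2
    have b := ((cyg_Q_T' (T := false) (y := y)).1 hy).2
    omega
  · have a := ((cyg_Q_T (T := true) (y := y)).1 hy).2
    have b := ((cyg_Q_T' (T := true) (y := z)).1 hz).2
    omega

/-- the family is invariant under every reflection `row r ↦ 2 n - r` -/
theorem cyg_Q_rho {L : ℕ} (hL : 0 < L) (T : Bool) {H k m κ κ' n : ℤ} (h : CygPar H k m κ κ' n) (o : ℤ) :
    (cygQ L T H k m κ κ' n).image (cyrY L (2 * n) o) = cygQ L T H k m κ κ' n := by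
  obtain ⟨hm, hk, h1, h2, h3, h4, h5⟩ := h
  have b1 : (cyBand L T (-1) (k + m + 1)).image (cyrY L (2 * n) o) = cyBand L (!T) (2 * n - 2 - k - m) (2 * n) := by
    rw [cyr_im_band hL]
    congr 1 <;> ring
  have b2 : (cyBand L (!T) (2 * n - 1 - H) (2 * n - 1 - H)).image (cyrY L (2 * n) o) = cyBand L T H H := by
    rw [cyr_im_band hL, Bool.not_not]
    congr 1 <;> ring
  have b3 : (cyBand L T κ (κ + m - 1)).image (cyrY L (2 * n) o) = cyBand L (!T) κ' (κ' + m - 1) := by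
    rw [cyr_im_band hL]
    congr 1 <;> linarith
  have b4 : (cyBand L (!T) κ' (κ' + m - 1)).image (cyrY L (2 * n) o) = cyBand L T κ (κ + m - 1) := by
    rw [cyr_im_band hL, Bool.not_not]
    congr 1 <;> linarith
  have b5 : (cyBand L T H H).image (cyrY L (2 * n) o) = cyBand L (!T) (2 * n - 1 - H) (2 * n - 1 - H) := by
    rw [cyr_im_band hL]
  have b6 : (cyBand L (!T) (2 * n - 2 - k - m) (2 * n)).image (cyrY L (2 * n) o) = cyBand L T (-1) (k + m + 1) := by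
    rw [cyr_im_band hL, Bool.not_not]
    congr 1 <;> ring
  unfold cygQ
  rw [Finset.image_union, Finset.image_union, Finset.image_union, Finset.image_union, Finset.image_union, b1, b2, b3, b4, b5, b6]
  ext y
  simp only [Finset.mem_union]
  constructor <;> (intro h; rcases h with ((((h | h) | h) | h) | h) | h <;> simp only [h, true_or, or_true])

/-! ## 1. abstract: layers towards a hole, holes which are connected through cells -/

section abstract

variable {V Y : Type} [DecidableEq V] [DecidableEq Y]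

/-- the layer towards a hole: the sites off `J` of the cells which meet `J` -/
def cygLam (S : ClSys V Y) (J : Finset V) : Finset V := (S.cmt J).biUnion S.sv \ J

theorem cyg_mem_cmt (S : ClSys V Y) (J : Finset V) (y : Y) : y ∈ S.cmt J ↔ y ∈ S.C ∧ ∃ u ∈ S.sv y, u ∈ J := Finset.mem_filter

theorem cyg_mem_lam (S : ClSys V Y) (J : Finset V) (u : V) : u ∈ cygLam S J ↔ u ∉ J ∧ ∃ y ∈ S.C, u ∈ S.sv y ∧ ∃ w ∈ S.sv y, w ∈ J := by
  unfold cygLam
  rw [Finset.mem_sdiff, Finset.mem_biUnion]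
  constructor
  · rintro ⟨⟨y, hy, hu⟩, hn⟩
    exact ⟨hn, y, ((cyg_mem_cmt S J y).1 hy).1, hu, ((cyg_mem_cmt S J y).1 hy).2⟩
  · rintro ⟨hn, y, hy, hu, hw⟩
    exact ⟨⟨y, (cyg_mem_cmt S J y).2 ⟨hy, hw⟩, hu⟩, hn⟩

/-- the layer towards a hole does not depend on the domain -/
theorem cyg_lay_hole (S : ClSys V Y) (D J : Finset V) (hin : ∀ y ∈ S.cmt J, S.sv y ⊆ D) : cuLay (S.inn D) (D \ J) = cygLam S J := by
  ext u
  rw [am_mem_lay, cyg_mem_lam]
  constructor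
  · rintro ⟨hu, y, hy, huy, hn⟩
    obtain ⟨hyC, hyD⟩ := (am_mem_cin S D y).1 hy
    obtain ⟨w, hw, hwn⟩ := Finset.not_subset.1 hn
    refine ⟨(Finset.mem_sdiff.1 hu).2, y, hyC, huy, w, hw, ?_⟩
    by_contra hc
    exact hwn (Finset.mem_sdiff.2 ⟨hyD hw, hc⟩)
  · rintro ⟨hn, y, hy, huy, w, hw, hwJ⟩
    have hD := hin y ((cyg_mem_cmt S J y).2 ⟨hy, w, hw, hwJ⟩)
    exact ⟨Finset.mem_sdiff.2 ⟨hD huy, hn⟩, y, (am_mem_cin S D y).2 ⟨hy, hD⟩, huy, fun hs => (Finset.mem_sdiff.1 (hs hw)).2 hwJ⟩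

/-- the layer of the complement of a hole -/
theorem cyg_lay_compl (S : ClSys V Y) (hS : ∀ y ∈ S.C, S.sv y ⊆ S.A) (J : Finset V) : cuLay S (S.A \ J) = cygLam S J := by
  ext u
  rw [am_mem_lay, cyg_mem_lam]
  constructor
  · rintro ⟨hu, y, hy, huy, hn⟩
    obtain ⟨w, hw, hwn⟩ := Finset.not_subset.1 hn
    refine ⟨(Finset.mem_sdiff.1 hu).2, y, hy, huy, w, hw, ?_⟩
    by_contra hc
    exact hwn (Finset.mem_sdiff.2 ⟨hS y hy hw, hc⟩)
  · rintro ⟨hn, y, hy, huy, w, hw, hwJ⟩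
    exact ⟨Finset.mem_sdiff.2 ⟨hS y hy huy, hn⟩, y, hy, huy, fun hs => (Finset.mem_sdiff.1 (hs hw)).2 hwJ⟩

/-- the layer towards `J` computed in a part `X`: `P` = a piece of the hole off `X` whose cells stay in the hole -/
theorem cyg_lam_part (S : ClSys V Y) (X J P : Finset V) (hXP : Disjoint X P) (hX : ∀ y ∈ S.cmt J, S.sv y ⊆ X ∨ S.sv y ⊆ J ∪ P)
    (hP : ∀ y ∈ S.cmt P, S.sv y ⊆ J ∪ P) : cygLam (S.inn X) J = cygLam S (J ∪ P) := by
  ext u
  rw [cyg_mem_lam, cyg_mem_lam]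
  constructor
  · rintro ⟨hn, y, hy, huy, w, hw, hwJ⟩
    obtain ⟨hyC, hyX⟩ := (am_mem_cin S X y).1 hy
    refine ⟨fun hu => ?_, y, hyC, huy, w, hw, Finset.mem_union_left _ hwJ⟩
    rcases Finset.mem_union.1 hu with h | h
    · exact hn h
    · exact Finset.disjoint_left.1 hXP (hyX huy) h
  · rintro ⟨hn, y, hy, huy, w, hw, hwJ⟩
    rcases Finset.mem_union.1 hwJ with h | h
    · rcases hX y ((cyg_mem_cmt S J y).2 ⟨hy, w, hw, h⟩) with h' | h'
      · exact ⟨fun hu => hn (Finset.mem_union_left _ hu), y, (am_mem_cin S X y).2 ⟨hy, h'⟩, huy, w, hw, h⟩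
      · exact absurd (h' huy) hn
    · exact absurd (hP y ((cyg_mem_cmt S P y).2 ⟨hy, w, hw, h⟩) huy) hn

/-- isomorphisms transport the layers towards holes -/
theorem cyg_lam_iso {V' Y' : Type} [DecidableEq V'] [DecidableEq Y'] (S : ClSys V Y) (S' : ClSys V' Y') (φ : V → V') (ψ : Y → Y') (h : CuIso S S' φ ψ)
    (hS : ∀ y ∈ S.C, S.sv y ⊆ S.A) (J : Finset V) (hJ : J ⊆ S.A) : cygLam S' (J.image φ) = (cygLam S J).image φ := by
  ext u'
  rw [cyg_mem_lam]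
  constructor
  · rintro ⟨hn, y', hy', hu', w', hw', hwJ⟩
    refine Finset.mem_image.2 ?_
    rw [← h.C] at hy'
    obtain ⟨y, hy, rfl⟩ := Finset.mem_image.1 hy'
    rw [h.sv y hy] at hu' hw'
    obtain ⟨u, hu, rfl⟩ := Finset.mem_image.1 hu'
    obtain ⟨w, hw, rfl⟩ := Finset.mem_image.1 hw'
    obtain ⟨j, hj, hjw⟩ := Finset.mem_image.1 hwJ
    have e : j = w := h.injV (Finset.mem_coe.2 (hJ hj)) (Finset.mem_coe.2 (hS y hy hw)) hjw
    exact ⟨u, (cyg_mem_lam S J u).2 ⟨fun hu' => hn (Finset.mem_image_of_mem φ hu'), y, hy, hu, w, hw, e ▸ hj⟩, rfl⟩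
  · intro hm
    obtain ⟨u, hu, rfl⟩ := Finset.mem_image.1 hm
    obtain ⟨hn, y, hy, huy, w, hw, hwJ⟩ := (cyg_mem_lam S J u).1 hu
    refine ⟨fun hm => ?_, ψ y, h.C ▸ Finset.mem_image_of_mem ψ hy, ?_, φ w, ?_, Finset.mem_image_of_mem φ hwJ⟩
    · obtain ⟨j, hj, hju⟩ := Finset.mem_image.1 hm
      have e : j = u := h.injV (Finset.mem_coe.2 (hJ hj)) (Finset.mem_coe.2 (hS y hy huy)) hju
      exact hn (e ▸ hj)
    · rw [h.sv y hy]
      exact Finset.mem_image_of_mem φ huy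
    · rw [h.sv y hy]
      exact Finset.mem_image_of_mem φ hw

/-- `J` is connected through cells, starting from `O` -/
def CygCon (S : ClSys V Y) (O J : Finset V) : Prop :=
  ∀ v ∈ J, ∃ u ∈ O, ReflTransGen (fun p q => q ∈ J ∧ ∃ y ∈ S.C, p ∈ S.sv y ∧ q ∈ S.sv y) u v

/-- an invaded set is connected through cells -/
theorem cyg_inv_con (S : ClSys V Y) (hS : ∀ y ∈ S.C, S.sv y ⊆ S.A) (s : Bool) (η : ClCfg V Y) (O : Finset V) : CygCon S O (clInv S s ∅ η O) := by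
  intro v hv
  obtain ⟨-, u, hu, huv⟩ := (dde_mem_inv S s ∅ η O v).1 hv
  refine ⟨u, hu, ?_⟩
  clear hv
  induction huv with
  | refl => exact ReflTransGen.refl
  | @tail p q hup hpq ih =>
    rcases hpq with ⟨y, hy, hp, hq, hn⟩ | h | h
    · exact ReflTransGen.tail ih ⟨(dde_mem_inv S s ∅ η O q).2 ⟨hS y hy hq, u, hu, hup.tail (Or.inl ⟨y, hy, hp, hq, hn⟩)⟩, y, hy, hp, hq⟩
    · exact absurd h (Finset.notMem_empty _)
    · exact absurd h (Finset.notMem_empty _)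

theorem cyg_con_mono (S S' : ClSys V Y) (hC : S.C ⊆ S'.C) (hsv : S.sv = S'.sv) {O O' J J' : Finset V} (hO : O ⊆ O') (hJ : J ⊆ J') (hOJ : J' \ J ⊆ O')
    (h : CygCon S O J) : CygCon S' O' J' := by
  intro v hv
  by_cases hvJ : v ∈ J
  · obtain ⟨u, hu, huv⟩ := h v hvJ
    refine ⟨u, hO hu, ReflTransGen.mono ?_ _ _ huv⟩
    rintro p q ⟨hq, y, hy, h1, h2⟩
    exact ⟨hJ hq, y, hC hy, hsv ▸ h1, hsv ▸ h2⟩
  · exact ⟨v, hOJ (Finset.mem_sdiff.2 ⟨hv, hvJ⟩), ReflTransGen.refl⟩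

/-- a set which is constant on the cells meeting `J` is constant along `J` -/
theorem cyg_con_const (S : ClSys V Y) {O J : Finset V} (h : CygCon S O J) (U : Finset V) (hU : ∀ y ∈ S.cmt J, ClConst U (S.sv y)) (p : Prop)
    (hO : ∀ u ∈ O, (u ∈ U ↔ p)) : ∀ v ∈ J, (v ∈ U ↔ p) := by
  intro v hv
  obtain ⟨u, hu, huv⟩ := h v hv
  clear hv
  induction huv with
  | refl => exact hO u hu
  | @tail a c _ hac ih =>
    obtain ⟨hc, y, hy, h1, h2⟩ := hac
    exact (dis_const_iff (hU y ((cyg_mem_cmt S J y).2 ⟨hy, c, h2, hc⟩)) h2 h1).trans ih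

/-- criterion for holes -/
theorem cyg_hole (S : ClSys V Y) (D J O : Finset V) (hD : D ⊆ S.A) (hJ : J ⊆ D) (hne : O.Nonempty) (hOJ : O ⊆ J) (ins : ∀ y ∈ S.cmt J, S.sv y ⊆ D)
    (cov : ∀ v ∈ J, ∃ y ∈ S.C, v ∈ S.sv y) (hcon : CygCon S O J)
    (hOc : ∀ U : Finset V, (∀ y ∈ S.cmt O, ClConst U (S.sv y)) → ClConst U O) : CyoHole S D J := by
  obtain ⟨o, ho⟩ := hne
  refine ⟨hD, hJ, ⟨o, hOJ ho⟩, ins, fun v hv => ?_, fun U hU => ?_⟩
  · obtain ⟨y, hy, hvy⟩ := cov v hv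
    exact Finset.mem_biUnion.2 ⟨y, (cyg_mem_cmt S J y).2 ⟨hy, v, hvy, hv⟩, hvy⟩
  · have h1 : ClConst U O := hOc U fun y hy => hU y ((cyg_mem_cmt S J y).2 ⟨((cyg_mem_cmt S O y).1 hy).1, by
      obtain ⟨u, hu, huO⟩ := ((cyg_mem_cmt S O y).1 hy).2
      exact ⟨u, hu, hOJ huO⟩⟩)
    have h2 : ∀ v ∈ J, (v ∈ U ↔ o ∈ U) := cyg_con_const S hcon U hU _ fun u hu => dis_const_iff h1 hu ho
    have h3 : ∀ v ∈ (S.cmt J).biUnion S.sv, (v ∈ U ↔ o ∈ U) := by
      intro v hv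
      obtain ⟨y, hy, hvy⟩ := Finset.mem_biUnion.1 hv
      obtain ⟨w, hw, hwJ⟩ := ((cyg_mem_cmt S J y).1 hy).2
      exact (dis_const_iff (hU y hy) hvy hw).trans (h2 w hwJ)
    by_cases hoU : o ∈ U
    · exact Or.inl fun v hv => (h3 v hv).2 hoU
    · exact Or.inr fun v hv hvU => hoU ((h3 v hv).1 hvU)

end abstract

/-! ## 2. the ambient: rows, covering, the lower part is connected -/

section amb

variable {x : ℝ} {L : ℕ} {a b : ℤ} {Q Γ : Finset CyY}

theorem cyg_mem_dn {r : ℤ} (h0 : a - 1 ≤ r) (h1 : r ≤ b) {v : TV} (hv : v ∈ (cyS x L a b Q Γ).A) : v ∈ cyrDn L a r ↔ v.2 ≤ r := by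
  unfold cyrDn
  rw [Finset.mem_union, Finset.mem_singleton, cy_mem_sites]
  rcases cy_mem_A.1 hv with h | rfl | rfl
  · have := cy_mem_sites.1 h
    constructor
    · rintro (h2 | rfl)
      · exact h2.2.2.2
      · exact h0
    · intro h2
      exact Or.inl ⟨this.1, this.2.1, this.2.2.1, h2⟩
  · constructor
    · rintro (h2 | h2)
      · exact h2.2.2.2
      · have : b + 1 = a - 1 := congrArg Prod.snd h2
        show b + 1 ≤ r
        omega
    · intro h2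
      have : b + 1 ≤ r := h2
      omega
  · exact ⟨fun _ => h0, fun _ => Or.inr rfl⟩

theorem cyg_mem_rows {r0 r1 : ℤ} (h0 : a ≤ r0) (h1 : r1 ≤ b) {v : TV} (hv : v ∈ (cyS x L a b Q Γ).A) : v ∈ sdSites L r0 r1 ↔ r0 ≤ v.2 ∧ v.2 ≤ r1 := by
  rw [cy_mem_sites]
  rcases cy_mem_A.1 hv with h | rfl | rfl
  · have := cy_mem_sites.1 h
    tauto
  · constructor
    · exact fun h => h.2.2
    · rintro ⟨-, h⟩
      have : b + 1 ≤ r1 := h
      omega
  · constructor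
    · exact fun h => h.2.2
    · rintro ⟨h, -⟩
      have : r0 ≤ a - 1 := h
      omega

theorem cyg_dn_sub {r : ℤ} (h1 : r ≤ b) : cyrDn L a r ⊆ (cyS x L a b Q Γ).A := by
  intro v hv
  rw [cy_mem_A]
  rcases Finset.mem_union.1 hv with h | h
  · have := cy_mem_sites.1 h
    exact Or.inl (cy_mem_sites.2 ⟨this.1, this.2.1, this.2.2.1, by omega⟩)
  · exact Or.inr (Or.inr (Finset.mem_singleton.1 h))

theorem cyg_rows_sub {r0 r1 : ℤ} (h0 : a ≤ r0) (h1 : r1 ≤ b) : sdSites L r0 r1 ⊆ (cyS x L a b Q Γ).A := by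
  intro v hv
  have := cy_mem_sites.1 hv
  exact cy_mem_A.2 (Or.inl (cy_mem_sites.2 ⟨this.1, this.2.1, by omega, by omega⟩))

theorem cyg_dn_row {r : ℤ} (h0 : a - 1 ≤ r) {v : TV} (hv : v ∈ cyrDn L a r) : v.2 ≤ r := by
  rcases Finset.mem_union.1 hv with h | h
  · exact (cy_mem_sites.1 h).2.2.2
  · rw [Finset.mem_singleton.1 h]
    exact h0

theorem cyg_up_row {r : ℤ} (h0 : r ≤ b + 1) {v : TV} (hv : v ∈ cysUp L r b) : r ≤ v.2 := by
  rcases Finset.mem_union.1 hv with h | h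
  · exact (cy_mem_sites.1 h).2.2.1
  · rw [Finset.mem_singleton.1 h]
    exact h0

/-- every site of the ambient lies in a cell -/
theorem cyg_cover (hL : 0 < L) (hab : a ≤ b) {v : TV} (hv : v ∈ (cyS x L a b Q Γ).A) : ∃ y ∈ (cyS x L a b Q Γ).C, v ∈ cySv L y := by
  have hL' : (0 : ℤ) < L := by exact_mod_cast hL
  rcases cy_mem_A.1 hv with h | rfl | rfl
  · have h' := cy_mem_sites.1 h
    obtain ⟨c, hc, h1, -⟩ := cy_nb_cell (x := x) (Q := Q) (Γ := Γ) (u := v) (v := sdRed L (v + (1, 0))) (d := (1, 0)) h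
      ((cy_red_mem hL _).2 ⟨by simpa using h'.2.2.1, by simpa using h'.2.2.2⟩) (Or.inl rfl) rfl
    exact ⟨c, hc, h1⟩
  · refine ⟨(CyK.sn, (0, b)), cy_mem_C.2 (Or.inr (Or.inr (cy_mem_spokes.2 (Or.inl ⟨rfl, cy_mem_row.2 ⟨le_rfl, hL', rfl⟩⟩)))), ?_⟩
    simp [cySv]
  · refine ⟨(CyK.ss, (0, a)), cy_mem_C.2 (Or.inr (Or.inr (cy_mem_spokes.2 (Or.inr ⟨rfl, cy_mem_row.2 ⟨le_rfl, hL', rfl⟩⟩)))), ?_⟩
    simp [cySv]

/-- the lower part of the ambient is connected through its cells -/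
theorem cyg_dn_const {r : ℤ} (hr : r ≤ b) (U : Finset TV) (hU : ∀ y ∈ (cyS x L a b Q Γ).cmt (cyrDn L a r), ClConst U (cySv L y)) :
    ClConst U (cyrDn L a r) := by
  have key : ∀ n : ℕ, ∀ v ∈ sdSites L a r, v.2 = a + n → (v ∈ U ↔ ((0, a - 1) : TV) ∈ U) := by
    intro n
    induction n with
    | zero =>
      intro v hv hn
      have h' := cy_mem_sites.1 hv
      have hc : (CyK.ss, v) ∈ (cyS x L a b Q Γ).C :=
        cy_mem_C.2 (Or.inr (Or.inr (cy_mem_spokes.2 (Or.inr ⟨rfl, cy_mem_row.2 ⟨h'.1, h'.2.1, by simpa using hn⟩⟩))))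
      have h1 : v ∈ cySv L (CyK.ss, v) := by
        simp [cySv, cy_red_self h'.1 h'.2.1]
      have h2 : ((0, a - 1) : TV) ∈ cySv L (CyK.ss, v) := by
        have : v.2 = a := by simpa using hn
        simp [cySv, this]
      exact dis_const_iff (hU _ ((cyg_mem_cmt _ _ _).2 ⟨hc, v, h1, Finset.mem_union_left _ hv⟩)) h1 h2
    | succ n ih =>
      intro v hv hn
      have h' := cy_mem_sites.1 hv
      push_cast at hn
      have hu : v - (0, 1) ∈ sdSites L a r := cy_mem_sites.2 ⟨by simpa using h'.1, by simpa using h'.2.1, by simp; omega, by simp; omega⟩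
      have hsub : sdSites L a r ⊆ sdSites L a b := fun w hw => by
        have := cy_mem_sites.1 hw
        exact cy_mem_sites.2 ⟨this.1, this.2.1, this.2.2.1, by omega⟩
      obtain ⟨c, hc, h1, h2⟩ := cy_nb_cell (x := x) (Q := Q) (Γ := Γ) (u := v - (0, 1)) (v := v) (d := (0, 1)) (hsub hu) (hsub hv) (Or.inr (Or.inl rfl))
        (by rw [sub_add_cancel, cy_red_self h'.1 h'.2.1])
      exact (dis_const_iff (hU _ ((cyg_mem_cmt _ _ _).2 ⟨hc, v, h2, Finset.mem_union_left _ hv⟩)) h2 h1).trans (ih _ hu (by simp; omega))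
  have key' : ∀ v ∈ cyrDn L a r, (v ∈ U ↔ ((0, a - 1) : TV) ∈ U) := by
    intro v hv
    rcases Finset.mem_union.1 hv with h | h
    · have h' := cy_mem_sites.1 h
      exact key (v.2 - a).toNat v h (by rw [Int.toNat_of_nonneg (by omega)]; ring)
    · rw [Finset.mem_singleton.1 h]
  by_cases hp : ((0, a - 1) : TV) ∈ U
  · exact Or.inl fun v hv => (key' v hv).2 hp
  · exact Or.inr fun v hv hvU => hp ((key' v hv).1 hvU)

end amb

/-! ## 3. records: the hole under a record, its layer -/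

/-- a RECORD of the search from the row `r0`: `J` lies in the rows `r0..r1`, contains the row `r0`, and is connected through cells starting from the row `r0` -/
structure CygRec (S : ClSys TV CyY) (L : ℕ) (r0 r1 : ℤ) (J : Finset TV) : Prop where
  sub : J ⊆ sdSites L r0 r1
  row : sdRow L r0 ⊆ J
  con : CygCon S (sdRow L r0) J

/-- the hole under a record: the record, the rows under it, the south pole -/
noncomputable def cygJd (L : ℕ) (a r0 : ℤ) (J : Finset TV) : Finset TV := J ∪ cyrDn L a (r0 - 1)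

/-- the hole over a reflected record (top row `r`): the record, the rows over it, the north pole -/
noncomputable def cygJu (L : ℕ) (b r : ℤ) (J : Finset TV) : Finset TV := J ∪ cysUp L (r + 1) b

section rec

variable {x : ℝ} {L : ℕ} {a b : ℤ} {Q Γ : Finset CyY}

/-- the invaded sets of the search in the part `r0..r2` are records -/
theorem cyg_rec_inv (hS : ClOk (cyS x L a b Q Γ)) {r0 r1 r2 : ℤ} (h02 : r0 ≤ r2) (s : Bool) (η : ClCfg TV CyY)
    (h : clInv ((cyS x L a b Q Γ).inn (sdSites L r0 r2)) s ∅ η (sdRow L r0) ⊆ sdSites L r0 r1) :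
    CygRec (cyS x L a b Q Γ) L r0 r1 (clInv ((cyS x L a b Q Γ).inn (sdSites L r0 r2)) s ∅ η (sdRow L r0)) := by
  refine ⟨h, fun v hv => ?_, ?_⟩
  · refine (dde_mem_inv _ _ _ _ _ _).2 ⟨?_, v, hv, ReflTransGen.refl⟩
    have := cy_mem_row.1 hv
    exact cy_mem_sites.2 ⟨this.1, this.2.1, by omega, by omega⟩
  · have h1 : CygCon ((cyS x L a b Q Γ).inn (sdSites L r0 r2)) (sdRow L r0) (clInv ((cyS x L a b Q Γ).inn (sdSites L r0 r2)) s ∅ η (sdRow L r0)) :=
      cyg_inv_con ((cyS x L a b Q Γ).inn (sdSites L r0 r2)) (fun y hy => ((am_mem_cin (cyS x L a b Q Γ) (sdSites L r0 r2) y).1 hy).2) s η (sdRow L r0)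
    exact cyg_con_mono ((cyS x L a b Q Γ).inn (sdSites L r0 r2)) (cyS x L a b Q Γ) (Finset.filter_subset _ _) rfl (Finset.Subset.refl _)
      (Finset.Subset.refl _) (by rw [Finset.sdiff_self]; exact Finset.empty_subset _) h1

theorem cyg_Jd_row {r0 r1 : ℤ} (h0 : a ≤ r0) (h01 : r0 ≤ r1) {J : Finset TV} (hJ : J ⊆ sdSites L r0 r1) {v : TV} (hv : v ∈ cygJd L a r0 J) : v.2 ≤ r1 := by
  rcases Finset.mem_union.1 hv with h | h
  · exact (cy_mem_sites.1 (hJ h)).2.2.2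
  · have := cyg_dn_row (by omega) h
    omega

theorem cyg_Ju_row {r1 r : ℤ} (h0 : r ≤ b) (h01 : r1 ≤ r) {J : Finset TV} (hJ : J ⊆ sdSites L r1 r) {v : TV} (hv : v ∈ cygJu L b r J) : r1 ≤ v.2 := by
  rcases Finset.mem_union.1 hv with h | h
  · exact (cy_mem_sites.1 (hJ h)).2.2.1
  · have := cyg_up_row (by omega) h
    omega

theorem cyg_Jd_sub {r0 r1 : ℤ} (h0 : a ≤ r0) (h01 : r0 ≤ r1) (h1 : r1 ≤ b) {J : Finset TV} (hJ : J ⊆ sdSites L r0 r1) : cygJd L a r0 J ⊆ (cyS x L a b Q Γ).A :=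
  Finset.union_subset (hJ.trans (cyg_rows_sub h0 h1)) (cyg_dn_sub (by omega))

theorem cyg_Ju_sub {r1 r : ℤ} (h0 : a ≤ r1) (h01 : r1 ≤ r) (h1 : r ≤ b) {J : Finset TV} (hJ : J ⊆ sdSites L r1 r) : cygJu L b r J ⊆ (cyS x L a b Q Γ).A :=
  Finset.union_subset (hJ.trans (cyg_rows_sub h0 h1)) (cys_up_sub x L (by omega) Q Γ)

/-- the sites of the rows `≤ r0` belong to the hole -/
theorem cyg_Jd_low {r0 : ℤ} (h0 : a ≤ r0) (h1 : r0 ≤ b) {J : Finset TV} (hrow : sdRow L r0 ⊆ J) {v : TV} (hv : v ∈ (cyS x L a b Q Γ).A) (hr : v.2 ≤ r0) :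
    v ∈ cygJd L a r0 J := by
  rcases (by omega : v.2 = r0 ∨ v.2 ≤ r0 - 1) with h | h
  · have := (cyg_mem_rows (r0 := r0) (r1 := r0) h0 h1 hv).2 ⟨by omega, by omega⟩
    have h' := cy_mem_sites.1 this
    exact Finset.mem_union_left _ (hrow (cy_mem_row.2 ⟨h'.1, h'.2.1, h⟩))
  · exact Finset.mem_union_right _ ((cyg_mem_dn (by omega) (by omega) hv).2 h)

/-- the sites of the rows `≥ r` belong to the upper hole -/
theorem cyg_Ju_high (hL : 0 < L) {r : ℤ} (h0 : a ≤ r) (h1 : r ≤ b) {J : Finset TV} (hrow : sdRow L r ⊆ J) {v : TV} (hv : v ∈ (cyS x L a b Q Γ).A) (hr : r ≤ v.2) :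
    v ∈ cygJu L b r J := by
  rcases (by omega : v.2 = r ∨ r + 1 ≤ v.2) with h | h
  · have := (cyg_mem_rows (r0 := r) (r1 := r) h0 h1 hv).2 ⟨by omega, by omega⟩
    have h' := cy_mem_sites.1 this
    exact Finset.mem_union_left _ (hrow (cy_mem_row.2 ⟨h'.1, h'.2.1, h⟩))
  · exact Finset.mem_union_right _ ((cys_mem_up x hL (by omega) (by omega) Q Γ hv).2 h)

/-- **the hole under a record** is a hole of every domain which contains the rows `≤ r1 + 1` -/
theorem cyg_Jd_hole (hS : ClOk (cyS x L a b Q Γ)) (hL : 0 < L) {r0 r1 : ℤ} (h0 : a ≤ r0) (h01 : r0 ≤ r1) (h1 : r1 ≤ b) {J : Finset TV}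
    (hJ : CygRec (cyS x L a b Q Γ) L r0 r1 J) {D : Finset TV} (hD : D ⊆ (cyS x L a b Q Γ).A) (hD' : ∀ v ∈ (cyS x L a b Q Γ).A, v.2 ≤ r1 + 1 → v ∈ D) :
    CyoHole (cyS x L a b Q Γ) D (cygJd L a r0 J) := by
  have hJA := cyg_Jd_sub (x := x) (Q := Q) (Γ := Γ) h0 h01 h1 hJ.sub
  have hOA : cyrDn L a r0 ⊆ (cyS x L a b Q Γ).A := cyg_dn_sub (by omega)
  have hOJ : cyrDn L a r0 ⊆ cygJd L a r0 J := fun v hv => cyg_Jd_low h0 (by omega) hJ.row (hOA hv) (cyg_dn_row (by omega) hv)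
  refine cyg_hole (cyS x L a b Q Γ) D (cygJd L a r0 J) (cyrDn L a r0) hD ?_ ⟨(0, a - 1), Finset.mem_union_right _ (Finset.mem_singleton_self _)⟩ hOJ ?_ ?_ ?_ ?_
  · intro v hv
    have := cyg_Jd_row h0 h01 hJ.sub hv
    exact hD' v (hJA hv) (by omega)
  · intro y hy v hv
    obtain ⟨hyC, u, hu, huJ⟩ := (cyg_mem_cmt _ _ _).1 hy
    have h2 := cyg_Jd_row h0 h01 hJ.sub huJ
    have h3 := cyr_row_lip L y hu hv
    exact hD' v (hS.sub y hyC hv) (by omega)
  · exact fun v hv => cyg_cover hL (by omega) (hJA hv)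
  · refine cyg_con_mono _ _ (Finset.Subset.refl _) rfl ?_ Finset.subset_union_left ?_ hJ.con
    · intro v hv
      have := cy_mem_row.1 hv
      exact Finset.mem_union_left _ (cy_mem_sites.2 ⟨this.1, this.2.1, by omega, by omega⟩)
    · intro v hv
      obtain ⟨h2, h3⟩ := Finset.mem_sdiff.1 hv
      rcases Finset.mem_union.1 h2 with h | h
      · exact absurd h h3
      · exact (cyg_mem_dn (by omega) (by omega) (hJA h2)).2 (by have := cyg_dn_row (by omega) h; omega)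
  · exact fun U hU => cyg_dn_const (by omega) U hU

/-- the layer towards the hole under a record, computed in the rows `r0..r2` -/
theorem cyg_lam_dn (hS : ClOk (cyS x L a b Q Γ)) {r0 r1 r2 : ℤ} (h0 : a ≤ r0) (h01 : r0 ≤ r1) (h12 : r1 + 1 ≤ r2) (h2 : r2 ≤ b) {J : Finset TV}
    (hJ : J ⊆ sdSites L r0 r1) (hrow : sdRow L r0 ⊆ J) :
    cygLam ((cyS x L a b Q Γ).inn (sdSites L r0 r2)) J = cygLam (cyS x L a b Q Γ) (cygJd L a r0 J) := by
  have low : ∀ y ∈ (cyS x L a b Q Γ).C, (∃ w ∈ cySv L y, w.2 ≤ r0 - 1) → cySv L y ⊆ J ∪ cyrDn L a (r0 - 1) := by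
    rintro y hy ⟨w, hw, hwr⟩ v hv
    have := cyr_row_lip L y hw hv
    exact cyg_Jd_low h0 (by omega) hrow (hS.sub y hy hv) (by omega)
  refine cyg_lam_part _ _ _ _ ?_ ?_ ?_
  · refine Finset.disjoint_left.2 fun v hv hv' => ?_
    have h3 := (cy_mem_sites.1 hv).2.2.1
    have h4 := cyg_dn_row (by omega) hv'
    omega
  · intro y hy
    obtain ⟨hyC, u, hu, huJ⟩ := (cyg_mem_cmt _ _ _).1 hy
    by_cases hlow : ∃ w ∈ cySv L y, w.2 ≤ r0 - 1
    · exact Or.inr (low y hyC hlow)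
    · left
      intro v hv
      have h3 := cyr_row_lip L y hu hv
      have h4 := (cy_mem_sites.1 (hJ huJ)).2.2.2
      refine (cyg_mem_rows h0 h2 (hS.sub y hyC hv)).2 ⟨?_, by omega⟩
      by_contra hc
      exact hlow ⟨v, hv, by omega⟩
  · intro y hy
    obtain ⟨hyC, u, hu, huP⟩ := (cyg_mem_cmt _ _ _).1 hy
    exact low y hyC ⟨u, hu, cyg_dn_row (by omega) huP⟩

/-- the layer towards the hole over a reflected record, computed in the rows `r2..r` -/
theorem cyg_lam_up (hS : ClOk (cyS x L a b Q Γ)) (hL : 0 < L) {r2 r1 r : ℤ} (h2 : a ≤ r2) (h12 : r2 + 1 ≤ r1) (h01 : r1 ≤ r) (h0 : r ≤ b) {J : Finset TV}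
    (hJ : J ⊆ sdSites L r1 r) (hrow : sdRow L r ⊆ J) :
    cygLam ((cyS x L a b Q Γ).inn (sdSites L r2 r)) J = cygLam (cyS x L a b Q Γ) (cygJu L b r J) := by
  have high : ∀ y ∈ (cyS x L a b Q Γ).C, (∃ w ∈ cySv L y, r + 1 ≤ w.2) → cySv L y ⊆ J ∪ cysUp L (r + 1) b := by
    rintro y hy ⟨w, hw, hwr⟩ v hv
    have := cyr_row_lip L y hv hw
    exact cyg_Ju_high hL (by omega) h0 hrow (hS.sub y hy hv) (by omega)
  refine cyg_lam_part _ _ _ _ ?_ ?_ ?_
  · refine Finset.disjoint_left.2 fun v hv hv' => ?_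
    have h3 := (cy_mem_sites.1 hv).2.2.2
    have h4 := cyg_up_row (by omega) hv'
    omega
  · intro y hy
    obtain ⟨hyC, u, hu, huJ⟩ := (cyg_mem_cmt _ _ _).1 hy
    by_cases hhigh : ∃ w ∈ cySv L y, r + 1 ≤ w.2
    · exact Or.inr (high y hyC hhigh)
    · left
      intro v hv
      have h3 := cyr_row_lip L y hv hu
      have h4 := (cy_mem_sites.1 (hJ huJ)).2.2.1
      refine (cyg_mem_rows h2 h0 (hS.sub y hyC hv)).2 ⟨by omega, ?_⟩
      by_contra hc
      exact hhigh ⟨v, hv, by omega⟩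
  · intro y hy
    obtain ⟨hyC, u, hu, huP⟩ := (cyg_mem_cmt _ _ _).1 hy
    exact high y hyC ⟨u, hu, cyg_up_row (by omega) huP⟩

/-- the layer of the lower part is its top row -/
theorem cyg_lay_dn (hS : ClOk (cyS x L a b Q Γ)) (hL : 0 < L) {r : ℤ} (h0 : a ≤ r) (h1 : r < b) : cuLay (cyS x L a b Q Γ) (cyrDn L a r) = sdRow L r := by
  ext v
  rw [am_mem_lay]
  constructor
  · rintro ⟨hv, y, hy, hvy, hn⟩
    obtain ⟨w, hw, hwn⟩ := Finset.not_subset.1 hn
    have hvA : v ∈ (cyS x L a b Q Γ).A := hS.sub y hy hvy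
    have h2 := cyg_dn_row (by omega) hv
    have h3 : ¬ w.2 ≤ r := fun h => hwn ((cyg_mem_dn (by omega) (by omega) (hS.sub y hy hw)).2 h)
    have h4 := cyr_row_lip L y hvy hw
    have h5 := cy_mem_sites.1 ((cyg_mem_rows (r0 := r) (r1 := r) h0 (by omega) hvA).2 ⟨by omega, by omega⟩)
    exact cy_mem_row.2 ⟨h5.1, h5.2.1, by omega⟩
  · intro hv
    have h' := cy_mem_row.1 hv
    have hv1 : v ∈ sdSites L a b := cy_mem_sites.2 ⟨h'.1, h'.2.1, by omega, by omega⟩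
    obtain ⟨c, hc, h2, h3⟩ := cy_nb_cell (x := x) (Q := Q) (Γ := Γ) (u := v) (v := sdRed L (v + (0, 1))) (d := (0, 1)) hv1
      ((cy_red_mem hL _).2 ⟨by simp; omega, by simp; omega⟩) (Or.inr (Or.inl rfl)) rfl
    refine ⟨Finset.mem_union_left _ (cy_mem_sites.2 ⟨h'.1, h'.2.1, by omega, by omega⟩), c, hc, h2, fun hs => ?_⟩
    have := cyg_dn_row (by omega) (hs h3)
    simp [sdRed] at this
    omega

end rec

/-! ## 4. the involution `ρ` (row `r ↦ 2 n - r`), the symmetric domain -/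

/-- the reflection of the sites, offset `- n`: an INVOLUTION -/
abbrev cygV (L : ℕ) (n : ℤ) : TV → TV := cyrV L (2 * n) (-n)

/-- the reflection of the cells -/
abbrev cygY (L : ℕ) (n : ℤ) : CyY → CyY := cyrY L (2 * n) (-n)

theorem cyg_V_V (L : ℕ) (n : ℤ) (u : TV) : cygV L n (cygV L n u) = sdRed L u := by
  have h := cyr_V_V L (2 * n) (-n) u
  rwa [show -(2 * n) - -n = -n by ring] at h

theorem cyg_Y_Y {L : ℕ} (n : ℤ) {c : CyY} (hc : CyrRed L c) : cygY L n (cygY L n c) = c := by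
  have h := cyr_Y_Y' (2 * n) (-n) hc
  rwa [show -(2 * n) - -n = -n by ring] at h

theorem cyg_V_red (L : ℕ) (n : ℤ) (u : TV) : sdRed L (cygV L n u) = cygV L n u := cy_red_idem L _

theorem cyg_V_row (L : ℕ) (n : ℤ) (u : TV) : (cygV L n u).2 = 2 * n - u.2 := rfl

/-- membership in the image of a set of reduced sites -/
theorem cyg_mem_im {L : ℕ} (n : ℤ) {D : Finset TV} (hD : ∀ u ∈ D, sdRed L u = u) (v : TV) : v ∈ D.image (cygV L n) ↔ sdRed L v = v ∧ cygV L n v ∈ D := by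
  constructor
  · intro h
    obtain ⟨u, hu, rfl⟩ := Finset.mem_image.1 h
    refine ⟨cyg_V_red L n u, ?_⟩
    rw [cyg_V_V, hD u hu]
    exact hu
  · rintro ⟨h1, h2⟩
    exact Finset.mem_image.2 ⟨_, h2, by rw [cyg_V_V, h1]⟩

theorem cyg_im_red {L : ℕ} (n : ℤ) (D : Finset TV) : ∀ u ∈ D.image (cygV L n), sdRed L u = u := by
  intro u hu
  obtain ⟨w, -, rfl⟩ := Finset.mem_image.1 hu
  exact cyg_V_red L n w

theorem cyg_im_im {L : ℕ} (n : ℤ) {D : Finset TV} (hD : ∀ u ∈ D, sdRed L u = u) : (D.image (cygV L n)).image (cygV L n) = D := by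
  have h := cyr_imV (2 * n) (-n) hD
  rwa [show -(2 * n) - -n = -n by ring] at h

theorem cyg_im_sites {L : ℕ} (hL : 0 < L) (n r0 r1 : ℤ) : (sdSites L r0 r1).image (cygV L n) = sdSites L (2 * n - r1) (2 * n - r0) :=
  cyr_im_sites hL (2 * n) (-n) r0 r1

theorem cyg_im_row {L : ℕ} (hL : 0 < L) (n j : ℤ) : (sdRow L j).image (cygV L n) = sdRow L (2 * n - j) := cyr_im_row hL (2 * n) (-n) j

/-- **`ρ` is an isomorphism between the parts `D` and `ρ D` of ONE ambient** with a `ρ`-invariant family -/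
theorem cyg_iso {x : ℝ} {L : ℕ} (hL : 0 < L) {n a b : ℤ} (hab : a + b = 2 * n) {Q : Finset CyY} (hQ : Q ⊆ cyTris L a b) (hρ : Q.image (cygY L n) = Q)
    {D : Finset TV} (hD : D ⊆ sdSites L a b) :
    CuIso ((cyS x L a b Q ∅).inn D) ((cyS x L a b Q ∅).inn (D.image (cygV L n))) (cygV L n) (cygY L n) := by
  have h := cyr_iso (x := x) hL (2 * n) (-n) (Γ := ∅) hQ (fun c hc => absurd hc (Finset.notMem_empty _)) hD
  rw [Finset.image_empty, show 2 * n - b = a by linarith, show 2 * n - a = b by linarith] at h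
  rw [show Q.image (cyrY L (2 * n) (-n)) = Q from hρ] at h
  exact h

/-- the symmetric domain of a record: the rows `r0..2n-r0` without the record and its mirror image -/
noncomputable def cygR (L : ℕ) (n r0 : ℤ) (J : Finset TV) : Finset TV := sdSites L r0 (2 * n - r0) \ (J ∪ J.image (cygV L n))

theorem cyg_R_rho {L : ℕ} (hL : 0 < L) (n r0 : ℤ) {J : Finset TV} (hJ : ∀ u ∈ J, sdRed L u = u) : (cygR L n r0 J).image (cygV L n) = cygR L n r0 J := by
  have hW : ∀ u ∈ sdSites L r0 (2 * n - r0), sdRed L u = u := fun u hu => cyr_sites_red hu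
  have hR : ∀ u ∈ cygR L n r0 J, sdRed L u = u := fun u hu => hW u (Finset.mem_sdiff.1 hu).1
  have hWW : (sdSites L r0 (2 * n - r0)).image (cygV L n) = sdSites L r0 (2 * n - r0) := by
    rw [cyg_im_sites hL, sub_sub_cancel]
  ext v
  rw [cyg_mem_im n hR]
  unfold cygR
  simp only [Finset.mem_sdiff, Finset.mem_union, not_or]
  constructor
  · rintro ⟨h1, h2, h3, h4⟩
    refine ⟨?_, fun h => h4 (Finset.mem_image_of_mem _ h), fun h => h3 ((cyg_mem_im n hJ v).1 h).2⟩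
    rw [← hWW]
    exact (cyg_mem_im n hW v).2 ⟨h1, h2⟩
  · rintro ⟨h1, h2, h3⟩
    have hv := hW v h1
    refine ⟨hv, ?_, fun h => h3 ((cyg_mem_im n hJ v).2 ⟨hv, h⟩), fun h => h2 ?_⟩
    · rw [← hWW] at h1
      exact ((cyg_mem_im n hW v).1 h1).2
    · have := ((cyg_mem_im n hJ _).1 h).2
      rwa [cyg_V_V, hv] at this

/-- the big domain of a record: the ambient without the hole over the mirror image of the record -/
noncomputable def cygD (L : ℕ) (n a b r0 : ℤ) (J : Finset TV) : Finset TV :=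
  (sdSites L a b ∪ {(0, b + 1), (0, a - 1)}) \ cygJu L b (2 * n - r0) (J.image (cygV L n))

section sym

variable {x : ℝ} {L : ℕ} {n a b r0 r1 : ℤ} {Q : Finset CyY} {J : Finset TV}

theorem cyg_imJ_sub (hL : 0 < L) (hJ : J ⊆ sdSites L r0 r1) : J.image (cygV L n) ⊆ sdSites L (2 * n - r1) (2 * n - r0) := by
  rw [← cyg_im_sites hL]
  exact Finset.image_subset_image hJ

theorem cyg_imJ_row (hL : 0 < L) (hrow : sdRow L r0 ⊆ J) : sdRow L (2 * n - r0) ⊆ J.image (cygV L n) := by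
  rw [← cyg_im_row hL]
  exact Finset.image_subset_image hrow

theorem cyg_D_sub (Γ : Finset CyY) : cygD L n a b r0 J ⊆ (cyS x L a b Q Γ).A := Finset.sdiff_subset

/-- the big domain contains everything under the mirror image of the record -/
theorem cyg_D_low (hL : 0 < L) (hab : a + b = 2 * n) (h0 : a ≤ r0) (h01 : r0 ≤ r1) (hJ : J ⊆ sdSites L r0 r1) (Γ : Finset CyY) {v : TV}
    (hv : v ∈ (cyS x L a b Q Γ).A) (hr : v.2 < 2 * n - r1) : v ∈ cygD L n a b r0 J := by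
  refine Finset.mem_sdiff.2 ⟨hv, fun h => ?_⟩
  have := cyg_Ju_row (b := b) (by omega) (by omega) (cyg_imJ_sub (n := n) hL hJ) h
  omega

theorem cyg_D_sdiff (hL : 0 < L) (hab : a + b = 2 * n) (h0 : a ≤ r0) (h0n : r0 ≤ n) : cygD L n a b r0 J \ cygJd L a r0 J = cygR L n r0 J := by
  ext v
  unfold cygD cygR cygJd cygJu
  simp only [Finset.mem_sdiff, Finset.mem_union, not_or]
  constructor
  · rintro ⟨⟨hv, h1, h2⟩, h3, h4⟩
    have hvA : v ∈ (cyS 0 L a b ∅ ∅).A := Finset.mem_union.2 hv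
    refine ⟨(cyg_mem_rows h0 (by omega) hvA).2 ⟨?_, ?_⟩, h3, h1⟩
    · by_contra hc
      exact h4 ((cyg_mem_dn (by omega) (by omega) hvA).2 (by omega))
    · by_contra hc
      exact h2 ((cys_mem_up 0 hL (by omega) (by omega) ∅ ∅ hvA).2 (by omega))
  · rintro ⟨hv, h1, h2⟩
    have h' := cy_mem_sites.1 hv
    refine ⟨⟨Or.inl (cy_mem_sites.2 ⟨h'.1, h'.2.1, by omega, by omega⟩), h2, fun h => ?_⟩, h1, fun h => ?_⟩
    · have := cyg_up_row (by omega) h
      omega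
    · have := cyg_dn_row (by omega) h
      omega

theorem cyg_dn_sdiff {H : ℤ} (h0 : a ≤ r0) : cyrDn L a H \ cygJd L a r0 J = sdSites L r0 H \ J := by
  ext v
  unfold cygJd
  simp only [Finset.mem_sdiff, Finset.mem_union, not_or]
  constructor
  · rintro ⟨hv, h1, h2⟩
    refine ⟨?_, h1⟩
    rcases Finset.mem_union.1 hv with h | h
    · have h' := cy_mem_sites.1 h
      refine cy_mem_sites.2 ⟨h'.1, h'.2.1, ?_, h'.2.2.2⟩
      by_contra hc
      exact h2 (Finset.mem_union_left _ (cy_mem_sites.2 ⟨h'.1, h'.2.1, h'.2.2.1, by omega⟩))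
    · exact absurd (Finset.mem_union_right _ h) h2
  · rintro ⟨hv, h1⟩
    have h' := cy_mem_sites.1 hv
    refine ⟨Finset.mem_union_left _ (cy_mem_sites.2 ⟨h'.1, h'.2.1, by omega, h'.2.2.2⟩), h1, fun h => ?_⟩
    have := cyg_dn_row (by omega) h
    omega

/-- `ρ` is an AUTOMORPHISM of the symmetric domain -/
theorem cyg_iso_R (hL : 0 < L) (hab : a + b = 2 * n) (h0 : a ≤ r0) (hQ : Q ⊆ cyTris L a b) (hρ : Q.image (cygY L n) = Q) (hJ : ∀ u ∈ J, sdRed L u = u) :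
    CuIso ((cyS x L a b Q ∅).inn (cygR L n r0 J)) ((cyS x L a b Q ∅).inn (cygR L n r0 J)) (cygV L n) (cygY L n) := by
  have hD : cygR L n r0 J ⊆ sdSites L a b := by
    intro v hv
    have h' := cy_mem_sites.1 (Finset.mem_sdiff.1 hv).1
    exact cy_mem_sites.2 ⟨h'.1, h'.2.1, by omega, by omega⟩
  have h := cyg_iso (x := x) hL hab hQ hρ hD
  rwa [cyg_R_rho hL n r0 hJ] at h

/-- **the layer of the big domain is the mirror image of the layer towards the hole under the record** -/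
theorem cyg_lay_D (hS : ClOk (cyS x L a b Q ∅)) (hL : 0 < L) (hab : a + b = 2 * n) (h0 : a ≤ r0) (h01 : r0 ≤ r1) (h1n : r1 + 1 ≤ 2 * n - r1)
    (hQ : Q ⊆ cyTris L a b) (hρ : Q.image (cygY L n) = Q) (hJ : J ⊆ sdSites L r0 r1) (hrow : sdRow L r0 ⊆ J) :
    cuLay (cyS x L a b Q ∅) (cygD L n a b r0 J) = (cygLam (cyS x L a b Q ∅) (cygJd L a r0 J)).image (cygV L n) := by
  have hW : sdSites L r0 (2 * n - r0) ⊆ sdSites L a b := by
    intro v hv
    have h' := cy_mem_sites.1 hv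
    exact cy_mem_sites.2 ⟨h'.1, h'.2.1, by omega, by omega⟩
  have hiso := cyg_iso (x := x) hL hab hQ hρ hW
  rw [cyg_im_sites hL, sub_sub_cancel] at hiso
  have e1 : cuLay (cyS x L a b Q ∅) (cygD L n a b r0 J) = cygLam (cyS x L a b Q ∅) (cygJu L b (2 * n - r0) (J.image (cygV L n))) :=
    cyg_lay_compl (cyS x L a b Q ∅) hS.sub _
  rw [e1, ← cyg_lam_up hS hL (r2 := r0) (r1 := 2 * n - r1) h0 (by omega) (by omega) (by omega) (cyg_imJ_sub hL hJ) (cyg_imJ_row hL hrow),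
    ← cyg_lam_dn hS (r1 := r1) (r2 := 2 * n - r0) h0 h01 (by omega) (by omega) hJ hrow]
  refine cyg_lam_iso _ _ _ _ hiso (fun y hy => ((am_mem_cin _ _ y).1 hy).2) J ?_
  intro v hv
  have h' := cy_mem_sites.1 (hJ hv)
  exact cy_mem_sites.2 ⟨h'.1, h'.2.1, h'.2.2.1, by omega⟩

/-- the layer towards the hole under a record lies in the rows `r0+1..r1+1` -/
theorem cyg_lam_rows (hS : ClOk (cyS x L a b Q ∅)) (h0 : a ≤ r0) (h01 : r0 ≤ r1) (h1 : r1 + 1 ≤ b) (hJ : J ⊆ sdSites L r0 r1) (hrow : sdRow L r0 ⊆ J) :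
    cygLam (cyS x L a b Q ∅) (cygJd L a r0 J) ⊆ sdSites L (r0 + 1) (r1 + 1) := by
  intro v hv
  obtain ⟨hn, y, hy, hvy, w, hw, hwJ⟩ := (cyg_mem_lam _ _ _).1 hv
  have hvA := hS.sub y hy hvy
  have h2 := cyg_Jd_row h0 h01 hJ hwJ
  have h3 := cyr_row_lip L y hw hvy
  refine (cyg_mem_rows (by omega) h1 hvA).2 ⟨?_, by omega⟩
  by_contra hc
  exact hn (cyg_Jd_low h0 (by omega) hrow hvA (by omega))

/-- the layer towards the hole lies in the symmetric domain -/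
theorem cyg_lam_R (hS : ClOk (cyS x L a b Q ∅)) (hL : 0 < L) (hab : a + b = 2 * n) (h0 : a ≤ r0) (h01 : r0 ≤ r1) (h1n : r1 + 1 < 2 * n - r1)
    (hJ : J ⊆ sdSites L r0 r1) (hrow : sdRow L r0 ⊆ J) : cygLam (cyS x L a b Q ∅) (cygJd L a r0 J) ⊆ cygR L n r0 J := by
  intro v hv
  have h' := cy_mem_sites.1 (cyg_lam_rows hS h0 h01 (by omega) hJ hrow hv)
  have hn := ((cyg_mem_lam _ _ _).1 hv).1
  refine Finset.mem_sdiff.2 ⟨cy_mem_sites.2 ⟨h'.1, h'.2.1, by omega, by omega⟩, fun h => ?_⟩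
  rcases Finset.mem_union.1 h with h | h
  · exact hn (Finset.mem_union_left _ h)
  · have := (cy_mem_sites.1 (cyg_imJ_sub hL hJ h)).2.2.1
    omega

/-- the layer of the search in the rows `r0..H` is the layer towards the hole under the record -/
theorem cyg_lay_M (hS : ClOk (cyS x L a b Q ∅)) {H : ℤ} (h0 : a ≤ r0) (h01 : r0 ≤ r1) (h1H : r1 + 1 ≤ H) (hH : H ≤ b) (hJ : J ⊆ sdSites L r0 r1)
    (hrow : sdRow L r0 ⊆ J) :
    cuLay ((cyS x L a b Q ∅).inn (sdSites L r0 H)) (((cyS x L a b Q ∅).inn (sdSites L r0 H)).A \ J) = cygLam (cyS x L a b Q ∅) (cygJd L a r0 J) := by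
  rw [cyg_lay_compl _ (fun y hy => ((am_mem_cin (cyS x L a b Q ∅) (sdSites L r0 H) y).1 hy).2), cyg_lam_dn hS h0 h01 h1H hH hJ hrow]

end sym

end Claimed.Agent.R291
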