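import Claimed.Agent.R291.Ann.CylDefs

/-!
# Row 291 (S0539), ANN block A4, LAW SIDE : THE SYMMETRIES OF `cyM`      (helper176; prefix `cy_sy_` / `CySy`)

Fields `shift` and `refl` of `CyLaw` (T5 of TEX 09-annulus: horizontal translations; reflection in the middle line followed by the flip of `B`).   No hypothesis on `x`.
* `cy_sy_MC`      the cells of `cyM x L H S T` = reduced index + a condition `CySyM H S T` on (kind, row) ONLY
* `CySy L H S T S' T' g p`   data of a symmetry: `g` acts on the sites, `p` on the cells, both BEFORE reduction mod `(L, 0)`;   `cy_sy_cuiso` : it is a `CuIso` (onto by cardinality)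
* `cy_sy_iso`, `cy_sy_isoF`  transport of `ClSys.P` by an isomorphism (followed by `flipB`)
* `cy_sy_shift_P` = `cy_shift`,   `cy_sy_refl_P` = `cy_refl`
-/

set_option autoImplicit false
set_option linter.unusedSectionVars false
set_option linter.unusedVariables false
set_option linter.unusedSimpArgs false
set_option linter.unreachableTactic false

namespace Claimed.Agent.R291

open Claims Claims.C0467 Relation

/-! ### symmetries of `cyM` (176) -/

/-- transport of a conditional probability by an isomorphism -/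
theorem cy_sy_iso {S S' : ClSys TV CyY} {φ : TV → TV} {ψ : CyY → CyY} (h : CuIso S S' φ ψ) (hS : ∀ y ∈ S.C, S.sv y ⊆ S.A)
    (K L K' L' : ClCfg TV CyY → Prop) (hK : ∀ ω ∈ S.cfgs, S.wt ω ≠ 0 → (K' (ω.map φ ψ) ↔ K ω))
    (hL : ∀ ω ∈ S.cfgs, S.wt ω ≠ 0 → (L' (ω.map φ ψ) ↔ L ω)) : S'.P K' L' = S.P K L := by
  classical
  unfold ClSys.P
  rw [dis_E_eq, dis_E_eq, dis_Z_eq, dis_Z_eq, am_iso S S' φ ψ h hS, am_iso S S' φ ψ h hS]
  congr 1
  · unfold ClSys.N
    refine Finset.sum_congr rfl fun ω hω => ?_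
    by_cases hw : S.wt ω = 0
    · simp [hw]
    · simp only [hK ω hω hw, hL ω hω hw]
  · unfold ClSys.N
    refine Finset.sum_congr rfl fun ω hω => ?_
    by_cases hw : S.wt ω = 0
    · simp [hw]
    · simp only [hK ω hω hw]

/-- the same, followed by the flip of the first spin -/
theorem cy_sy_isoF {S S' : ClSys TV CyY} {φ : TV → TV} {ψ : CyY → CyY} (h : CuIso S S' φ ψ) (hS : ∀ y ∈ S.C, S.sv y ⊆ S.A)
    (hS' : ∀ y ∈ S'.C, S'.sv y ⊆ S'.A)
    (K L K' L' : ClCfg TV CyY → Prop) (hK : ∀ ω ∈ S.cfgs, S.wt ω ≠ 0 → (K' ((ω.map φ ψ).flipB S'.A) ↔ K ω))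
    (hL : ∀ ω ∈ S.cfgs, S.wt ω ≠ 0 → (L' ((ω.map φ ψ).flipB S'.A) ↔ L ω)) : S'.P K' L' = S.P K L := by
  classical
  have e : S'.P K' L' = S'.P (fun ω => K' (ω.flipB S'.A)) (fun ω => L' (ω.flipB S'.A)) := by
    unfold ClSys.P
    rw [dis_E_eq, dis_E_eq, dis_Z_eq, dis_Z_eq, am_flipB_N S' hS' K', am_flipB_N S' hS' K']
  rw [e]
  exact cy_sy_iso h hS K L _ _ hK hL

/-- an injective map into a set which is not larger is onto -/
theorem cy_sy_img {α : Type} [DecidableEq α] {s t : Finset α} {f : α → α} (hm : ∀ a ∈ s, f a ∈ t) (hi : Set.InjOn f ↑s)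
    (hc : t.card ≤ s.card) : s.image f = t :=
  Finset.eq_of_subset_of_card_le (Finset.image_subset_iff.2 hm) (by rw [Finset.card_image_of_injOn hi]; exact hc)

theorem cy_sy_mod {L : ℕ} {a b e : ℤ} (ha : 0 ≤ a) (ha' : a < L) (hb : 0 ≤ b) (hb' : b < L) (h : (a + e) % (L : ℤ) = (b + e) % (L : ℤ)) :
    a = b := by
  have h1 : (L : ℤ) ∣ (a + e) - (b + e) := Int.ModEq.dvd (Int.ModEq.symm h)
  have h2 : (a + e) - (b + e) = a - b := by ring
  rw [h2] at h1
  have h3 : a - b = 0 := Int.eq_zero_of_abs_lt_dvd h1 (by rw [abs_lt]; constructor <;> omega)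
  omega

/-- kind and slab of the triangles of `cyQ` -/
def CySyQ (H : ℕ) (S T : Bool) (k : CyK) (j : ℤ) : Prop :=
  (k = (if S then CyK.up else CyK.dn) ∧ (j = -1 ∨ j = H)) ∨
    (k = (if T then CyK.up else CyK.dn) ∧ (if S = T then 0 ≤ j ∧ j ≤ (H : ℤ) - 1 else 2 ≤ j ∧ j ≤ (H : ℤ) - 3))

/-- kind and row of the cells of `cyM` -/
def CySyM (H : ℕ) (S T : Bool) (k : CyK) (j : ℤ) : Prop :=
  match k with
  | .up => CySyQ H S T CyK.up j ∧ 0 ≤ j ∧ j + 1 ≤ H
  | .dn => CySyQ H S T CyK.dn j ∧ 0 ≤ j ∧ j + 1 ≤ H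
  | .eh => 0 ≤ j ∧ j ≤ H ∧ ¬ CySyQ H S T CyK.up j ∧ ¬ CySyQ H S T CyK.dn (j - 1)
  | .ev => 0 ≤ j ∧ j + 1 ≤ H ∧ ¬ CySyQ H S T CyK.up j ∧ ¬ CySyQ H S T CyK.dn j
  | .ed => 0 ≤ j ∧ j + 1 ≤ H ∧ ¬ CySyQ H S T CyK.up j ∧ ¬ CySyQ H S T CyK.dn j
  | .sn => False
  | .ss => False

theorem cy_sy_band {L : ℕ} {T : Bool} {c d : ℤ} {t : CyY} :
    t ∈ cyBand L T c d ↔ t.1 = (if T then CyK.up else CyK.dn) ∧ 0 ≤ t.2.1 ∧ t.2.1 < L ∧ c ≤ t.2.2 ∧ t.2.2 ≤ d := by
  unfold cyBand cyT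
  simp only [Finset.mem_image, cy_mem_cells]
  constructor
  · rintro ⟨y, hy, rfl⟩
    exact ⟨rfl, hy.1, hy.2.1, hy.2.2.1, by have := hy.2.2.2; simp only; omega⟩
  · rintro ⟨h1, h2, h3, h4, h5⟩
    exact ⟨t.2, ⟨h2, h3, h4, by omega⟩, Prod.ext h1.symm rfl⟩

theorem cy_sy_Q {L H : ℕ} {S T : Bool} {t : CyY} : t ∈ cyQ L H S T ↔ (0 ≤ t.2.1 ∧ t.2.1 < L) ∧ CySyQ H S T t.1 t.2.2 := by
  unfold cyQ CySyQ
  by_cases hST : S = T
  · simp only [hST, if_true, Finset.mem_union, cy_sy_band]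
    constructor
    · rintro ((h | h) | h)
      · exact ⟨⟨h.2.1, h.2.2.1⟩, Or.inl ⟨h.1, Or.inl (by omega)⟩⟩
      · exact ⟨⟨h.2.1, h.2.2.1⟩, Or.inl ⟨h.1, Or.inr (by omega)⟩⟩
      · exact ⟨⟨h.2.1, h.2.2.1⟩, Or.inr ⟨h.1, h.2.2.2⟩⟩
    · rintro ⟨⟨h1, h2⟩, (⟨h3, h4 | h4⟩ | ⟨h3, h4⟩)⟩
      · exact Or.inl (Or.inl ⟨h3, h1, h2, by omega, by omega⟩)
      · exact Or.inl (Or.inr ⟨h3, h1, h2, by omega, by omega⟩)
      · exact Or.inr ⟨h3, h1, h2, h4⟩
  · simp only [hST, if_false, Finset.mem_union, cy_sy_band]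
    constructor
    · rintro ((h | h) | h)
      · exact ⟨⟨h.2.1, h.2.2.1⟩, Or.inl ⟨h.1, Or.inl (by omega)⟩⟩
      · exact ⟨⟨h.2.1, h.2.2.1⟩, Or.inl ⟨h.1, Or.inr (by omega)⟩⟩
      · exact ⟨⟨h.2.1, h.2.2.1⟩, Or.inr ⟨h.1, h.2.2.2⟩⟩
    · rintro ⟨⟨h1, h2⟩, (⟨h3, h4 | h4⟩ | ⟨h3, h4⟩)⟩
      · exact Or.inl (Or.inl ⟨h3, h1, h2, by omega, by omega⟩)
      · exact Or.inl (Or.inr ⟨h3, h1, h2, by omega, by omega⟩)
      · exact Or.inr ⟨h3, h1, h2, h4⟩

/-- rows of the sites of a cell -/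
theorem cy_sy_sv_sub {L : ℕ} (hL : 0 < L) {a b : ℤ} (k : CyK) (y : TV) : cySv L (k, y) ⊆ sdSites L a b ↔
    (match k with
      | .eh => a ≤ y.2 ∧ y.2 ≤ b
      | .ss => a ≤ y.2 - 1 ∧ y.2 ≤ b
      | _ => a ≤ y.2 ∧ y.2 + 1 ≤ b) := by
  have hL' : (0 : ℤ) < L := by exact_mod_cast hL
  cases k <;>
    simp only [cySv, cellV, cellD, Finset.image_insert, Finset.image_singleton, Finset.insert_subset_iff, Finset.singleton_subset_iff,
      cy_red_mem hL, cy_mem_sites, Prod.snd_add, Prod.fst_add] <;> omega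

theorem cy_sy_MC {x : ℝ} {L H : ℕ} (hL : 0 < L) {S T : Bool} {c : CyY} :
    c ∈ (cyM x L H S T).C ↔ (0 ≤ c.2.1 ∧ c.2.1 < L) ∧ CySyM H S T c.1 c.2.2 := by
  obtain ⟨k, y⟩ := c
  unfold cyM cyI
  rw [am_inn_C, am_mem_cin, cy_mem_C]
  show (_ ∧ cySv L (k, y) ⊆ sdSites L 0 H) ↔ _
  rw [cy_sy_sv_sub hL, cy_sy_Q, cy_sy_Q, cy_sy_Q, cy_mem_edges, cy_mem_spokes, cy_mem_sites, cy_mem_cells, cy_mem_row, cy_mem_row]
  have e1 := Int.emod_nonneg (y.1 - 1) (by exact_mod_cast hL.ne' : (L : ℤ) ≠ 0)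
  have e2 := Int.emod_lt_of_pos (y.1 - 1) (by exact_mod_cast hL : (0 : ℤ) < L)
  have nq : ∀ (k : CyK) (j : ℤ), k ≠ CyK.up → k ≠ CyK.dn → ¬ CySyQ H S T k j := by
    intro k j h1 h2 h
    unfold CySyQ at h
    rcases h with ⟨h, -⟩ | ⟨h, -⟩
    · cases S <;> simp_all
    · cases T <;> simp_all
  cases k <;> simp only [CySyM, cyTa, cyTb, sdRed, Prod.fst_sub, Prod.snd_sub, sub_zero, reduceCtorEq, false_and, or_false, false_or, true_and]
  · tauto
  · tauto
  · have := nq CyK.eh y.2 (by simp) (by simp)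
    by_cases p1 : CySyQ H S T CyK.up y.2 <;> by_cases p2 : CySyQ H S T CyK.dn (y.2 - 1) <;>
      simp only [p1, p2, this, and_true, and_false, not_true, not_false_iff, false_and, or_false, false_or, true_and, iff_false] <;> omega
  · have := nq CyK.ev y.2 (by simp) (by simp)
    by_cases p1 : CySyQ H S T CyK.up y.2 <;> by_cases p2 : CySyQ H S T CyK.dn y.2 <;>
      simp only [p1, p2, this, and_true, and_false, not_true, not_false_iff, false_and, or_false, false_or, true_and, iff_false] <;> omega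
  · have := nq CyK.ed y.2 (by simp) (by simp)
    by_cases p1 : CySyQ H S T CyK.up y.2 <;> by_cases p2 : CySyQ H S T CyK.dn y.2 <;>
      simp only [p1, p2, this, and_true, and_false, not_true, not_false_iff, false_and, or_false, false_or, true_and, iff_false] <;> omega
  · have := nq CyK.sn y.2 (by simp) (by simp)
    simp only [this, and_false, false_or, iff_false]
    omega
  · have := nq CyK.ss y.2 (by simp) (by simp)
    simp only [this, and_false, false_or, iff_false]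
    omega

/-- the unreduced sites of a triangle or an edge -/
def cySv0 (c : CyY) : Finset TV :=
  match c.1 with
  | .up => cellV c.2
  | .dn => cellD c.2
  | .eh => {c.2, c.2 + (1, 0)}
  | .ev => {c.2, c.2 + (0, 1)}
  | .ed => {c.2, c.2 + (-1, 1)}
  | _ => ∅

/-- not a spoke -/
def CyNs (k : CyK) : Prop := k ≠ CyK.sn ∧ k ≠ CyK.ss

theorem cy_sy_sv0 (L : ℕ) (c : CyY) (h : CyNs c.1) : cySv L c = (cySv0 c).image (sdRed L) := by
  obtain ⟨k, y⟩ := c
  obtain ⟨h1, h2⟩ := h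
  cases k <;> first | rfl | exact absurd rfl h1 | exact absurd rfl h2

theorem cy_sy_red_idem (L : ℕ) (z : TV) : sdRed L (sdRed L z) = sdRed L z := by
  have := cy_red_red L z 0
  simpa using this

theorem cy_sy_sv_red (L : ℕ) (k : CyK) (z : TV) : cySv L (k, sdRed L z) = cySv L (k, z) := by
  cases k <;> simp only [cySv, cellV, cellD, Finset.image_insert, Finset.image_singleton, cy_red_red, cy_sy_red_idem] <;> rfl

theorem cy_sy_sv_map {L : ℕ} (g : TV → TV) (hg : ∀ u, sdRed L (g (sdRed L u)) = sdRed L (g u)) (c c' : CyY) (h : CyNs c.1) (h' : CyNs c'.1)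
    (hc : (cySv0 c).image g = cySv0 c') : cySv L (c'.1, sdRed L c'.2) = (cySv L c).image (fun u => sdRed L (g u)) := by
  rw [cy_sy_sv_red, cy_sy_sv0 L c h, Finset.image_image]
  have e : cySv L (c'.1, c'.2) = (cySv0 c').image (sdRed L) := cy_sy_sv0 L c' h'
  rw [e, ← hc, Finset.image_image]
  refine Finset.image_congr fun u _ => ?_
  exact (hg u).symm

theorem cy_sy_M_ns {H : ℕ} {S T : Bool} {k : CyK} {j : ℤ} (h : CySyM H S T k j) : CyNs k := by
  constructor <;> rintro rfl <;> exact h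

/-- data of a symmetry of the cylinder: `g` acts on the sites, `p` on the cells (both before reduction) -/
structure CySy (L H : ℕ) (S T S' T' : Bool) (g : TV → TV) (p : CyY → CyY) : Prop where
  red : ∀ u, sdRed L (g (sdRed L u)) = sdRed L (g u)
  row : ∀ u : TV, 0 ≤ u.2 → u.2 ≤ H → 0 ≤ (g u).2 ∧ (g u).2 ≤ H
  injV : ∀ u v : TV, 0 ≤ u.1 → u.1 < L → 0 ≤ v.1 → v.1 < L → sdRed L (g u) = sdRed L (g v) → u = v
  injY : ∀ c c' : CyY, 0 ≤ c.2.1 → c.2.1 < L → 0 ≤ c'.2.1 → c'.2.1 < L → CyNs c.1 → CyNs c'.1 → (p c).1 = (p c').1 → sdRed L (p c).2 = sdRed L (p c').2 → c = c'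
  cell : ∀ c : CyY, CySyM H S T c.1 c.2.2 → CySyM H S' T' (p c).1 (p c).2.2
  sv : ∀ c : CyY, CyNs c.1 → (cySv0 c).image g = cySv0 (p c)
  tri : ∀ c : CyY, CyNs c.1 → (((p c).1 = CyK.up ∨ (p c).1 = CyK.dn) ↔ (c.1 = CyK.up ∨ c.1 = CyK.dn))

theorem cy_sy_maps {x : ℝ} {L H : ℕ} (hL : 0 < L) {S T S' T' : Bool} {g : TV → TV} {p : CyY → CyY} (h : CySy L H S T S' T' g p) :
    ∀ c ∈ (cyM x L H S T).C, ((p c).1, sdRed L (p c).2) ∈ (cyM x L H S' T').C := by
  intro c hc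
  rw [cy_sy_MC hL] at hc ⊢
  exact ⟨⟨Int.emod_nonneg _ (by exact_mod_cast hL.ne'), Int.emod_lt_of_pos _ (by exact_mod_cast hL)⟩, h.cell c hc.2⟩

theorem cy_sy_injY {x : ℝ} {L H : ℕ} (hL : 0 < L) {S T S' T' : Bool} {g : TV → TV} {p : CyY → CyY} (h : CySy L H S T S' T' g p) :
    Set.InjOn (fun c : CyY => ((p c).1, sdRed L (p c).2)) ↑(cyM x L H S T).C := by
  intro c hc c' hc' e
  have hc1 := (cy_sy_MC hL).1 (Finset.mem_coe.1 hc)
  have hc2 := (cy_sy_MC hL).1 (Finset.mem_coe.1 hc')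
  have e' : ((p c).1, sdRed L (p c).2) = ((p c').1, sdRed L (p c').2) := e
  exact h.injY c c' hc1.1.1 hc1.1.2 hc2.1.1 hc2.1.2 (cy_sy_M_ns hc1.2) (cy_sy_M_ns hc2.2) (Prod.ext_iff.1 e').1 (Prod.ext_iff.1 e').2

theorem cy_sy_card {x : ℝ} {L H : ℕ} (hL : 0 < L) {S T S' T' : Bool} {g : TV → TV} {p : CyY → CyY} (h : CySy L H S T S' T' g p) :
    (cyM x L H S T).C.card ≤ (cyM x L H S' T').C.card :=
  Finset.card_le_card_of_injOn _ (cy_sy_maps hL h) (cy_sy_injY hL h)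

theorem cy_sy_mapsV {L H : ℕ} (hL : 0 < L) {S T S' T' : Bool} {g : TV → TV} {p : CyY → CyY} (h : CySy L H S T S' T' g p) :
    ∀ u ∈ sdSites L 0 H, sdRed L (g u) ∈ sdSites L 0 H := by
  intro u hu
  rw [cy_mem_sites] at hu
  rw [cy_red_mem hL]
  exact h.row u hu.2.2.1 hu.2.2.2

theorem cy_sy_injV {L H : ℕ} {S T S' T' : Bool} {g : TV → TV} {p : CyY → CyY} (h : CySy L H S T S' T' g p) :
    Set.InjOn (fun u : TV => sdRed L (g u)) ↑(sdSites L 0 H) := by
  intro u hu v hv e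
  have hu' := cy_mem_sites.1 (Finset.mem_coe.1 hu)
  have hv' := cy_mem_sites.1 (Finset.mem_coe.1 hv)
  exact h.injV u v hu'.1 hu'.2.1 hv'.1 hv'.2.1 e

/-- a symmetry of the cylinder is an isomorphism of the systems -/
theorem cy_sy_cuiso {x : ℝ} {L H : ℕ} (hL : 0 < L) {S T S' T' : Bool} {g : TV → TV} {p : CyY → CyY} (h : CySy L H S T S' T' g p)
    (hc : (cyM x L H S' T').C.card ≤ (cyM x L H S T).C.card) :
    CuIso (cyM x L H S T) (cyM x L H S' T') (fun u => sdRed L (g u)) (fun c => ((p c).1, sdRed L (p c).2)) where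
  injV := cy_sy_injV h
  injY := cy_sy_injY hL h
  A := cy_sy_img (cy_sy_mapsV hL h) (cy_sy_injV h) le_rfl
  C := cy_sy_img (cy_sy_maps hL h) (cy_sy_injY hL h) hc
  sv := by
    intro c hc
    have hc1 := (cy_sy_MC hL).1 hc
    have hc2 := (cy_sy_MC hL).1 (cy_sy_maps (x := x) hL h c hc)
    exact cy_sy_sv_map g h.red c (p c) (cy_sy_M_ns hc1.2) (cy_sy_M_ns hc2.2) (h.sv c (cy_sy_M_ns hc1.2))
  q := by
    intro c hc
    have hc1 := (cy_sy_MC hL).1 hc
    have := h.tri c (cy_sy_M_ns hc1.2)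
    show (if ((p c).1, sdRed L (p c).2) ∈ (∅ : Finset CyY) then (1 : ℝ) else if (p c).1 = CyK.up ∨ (p c).1 = CyK.dn then x ^ 2 else x)
      = (if c ∈ (∅ : Finset CyY) then (1 : ℝ) else if c.1 = CyK.up ∨ c.1 = CyK.dn then x ^ 2 else x)
    simp only [Finset.notMem_empty, if_false, this]

/-- the pins on a row are transported -/
theorem cy_sy_pin {L H : ℕ} (hL : 0 < L) {S T S' T' : Bool} {g : TV → TV} {p : CyY → CyY} (h : CySy L H S T S' T' g p) (s : Bool) (j j' : ℤ)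
    (hj : 0 ≤ j ∧ j ≤ H) (hjj : ∀ u : TV, u.2 = j → (g u).2 = j') {B : Finset TV} (hB : B ⊆ sdSites L 0 H) :
    (∀ v ∈ sdRow L j', (v ∈ B.image (fun u => sdRed L (g u)) ↔ s = true)) ↔ ∀ v ∈ sdRow L j, (v ∈ B ↔ s = true) := by
  have hsub : sdRow L j ⊆ sdSites L 0 H := by
    intro v hv
    rw [cy_mem_row] at hv
    rw [cy_mem_sites]
    omega
  have himg : (sdRow L j).image (fun u => sdRed L (g u)) = sdRow L j' := by
    refine cy_sy_img ?_ ((cy_sy_injV h).mono (Finset.coe_subset.2 hsub)) ?_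
    · intro v hv
      rw [cy_mem_row] at hv ⊢
      exact ⟨Int.emod_nonneg _ (by exact_mod_cast hL.ne'), Int.emod_lt_of_pos _ (by exact_mod_cast hL), hjj v hv.2.2⟩
    · unfold sdRow
      simp
  rw [← himg]
  simp only [Finset.forall_mem_image]
  refine forall₂_congr fun v hv => ?_
  rw [am_t5_mem (cy_sy_injV h) hB (hsub hv)]

/-! #### horizontal translations -/

theorem cy_sy_shift (L H : ℕ) (hL : 0 < L) (S T : Bool) (a : ℤ) : CySy L H S T S T (fun u => u + (a, 0)) (fun c => (c.1, c.2 + (a, 0))) where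
  red := fun u => cy_red_red L u _
  row := fun u h1 h2 => by simpa using ⟨h1, h2⟩
  injV := by
    intro u v h1 h2 h3 h4 e
    have e1 := (Prod.ext_iff.1 e).1
    have e2 := (Prod.ext_iff.1 e).2
    simp only [sdRed, Prod.fst_add, Prod.snd_add, add_zero] at e1 e2
    exact Prod.ext (cy_sy_mod h1 h2 h3 h4 e1) e2
  injY := by
    intro c c' h1 h2 h3 h4 _ _ e0 e
    have e1 := (Prod.ext_iff.1 e).1
    have e2 := (Prod.ext_iff.1 e).2
    simp only [sdRed, Prod.fst_add, Prod.snd_add, add_zero] at e1 e2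
    exact Prod.ext e0 (Prod.ext (cy_sy_mod h1 h2 h3 h4 e1) e2)
  cell := fun c hc => by simpa using hc
  sv := by
    rintro ⟨k, y⟩ ⟨h1, h2⟩
    cases k <;> simp only [cySv0, cellV, cellD, Finset.image_insert, Finset.image_singleton, add_right_comm] <;> rfl
  tri := fun c _ => Iff.rfl

theorem cy_sy_shift_P (x : ℝ) {L H : ℕ} (hL : 3 ≤ L) (S T : Bool) (a : ℤ) (E : Set CyF) : cyP x L H S T (cyMv (a, 0) E) = cyP x L H S T E := by
  have hL0 : 0 < L := by omega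
  have hsy := cy_sy_shift L H hL0 S T (-a)
  have hiso := cy_sy_cuiso (x := x) hL0 hsy le_rfl
  have hS : ∀ y ∈ (cyM x L H S T).C, (cyM x L H S T).sv y ⊆ (cyM x L H S T).A := fun y hy => (Finset.mem_filter.1 hy).2
  unfold cyP
  symm
  refine cy_sy_iso hiso hS _ _ _ _ (fun ω hω _ => ?_) (fun ω hω _ => ?_)
  · obtain ⟨hB, -, -⟩ := (cl_mem_cfgs _ ω).1 hω
    unfold CyMix CuPin
    exact and_congr (cy_sy_pin hL0 hsy false 0 0 (by omega) (fun u hu => by simpa using hu) hB)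
      (cy_sy_pin hL0 hsy true H H (by omega) (fun u hu => by simpa using hu) hB)
  · have e : cyFld (cyM x L H S T) L T (ω.map (fun u => sdRed L (u + (-a, 0))) (fun c => (c.1, sdRed L (c.2 + (-a, 0)))))
        = fun u => cyFld (cyM x L H S T) L T ω (u + (a, 0)) := by
      funext u
      unfold cyFld
      have e1 : cyT T (sdRed L u) = (fun c : CyY => (c.1, sdRed L (c.2 + (-a, 0)))) (cyT T (sdRed L (u + (a, 0)))) := by
        unfold cyT
        simp only [cy_red_red]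
        congr 2
        ext <;> simp
      have e2 : cyT T (sdRed L u) ∈ (cyM x L H S T).C ↔ cyT T (sdRed L (u + (a, 0))) ∈ (cyM x L H S T).C := by
        rw [cy_sy_MC hL0, cy_sy_MC hL0]
        have n1 := Int.emod_nonneg u.1 (by exact_mod_cast hL0.ne' : (L : ℤ) ≠ 0)
        have n2 := Int.emod_lt_of_pos u.1 (by exact_mod_cast hL0 : (0 : ℤ) < L)
        have n3 := Int.emod_nonneg (u.1 + a) (by exact_mod_cast hL0.ne' : (L : ℤ) ≠ 0)
        have n4 := Int.emod_lt_of_pos (u.1 + a) (by exact_mod_cast hL0 : (0 : ℤ) < L)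
        simp only [cyT, sdRed, Prod.fst_add, Prod.snd_add, add_zero, n1, n2, n3, n4, true_and]
      by_cases hc : cyT T (sdRed L (u + (a, 0))) ∈ (cyM x L H S T).C
      · rw [if_pos (e2.2 hc), if_pos hc, e1, am_iso_tau _ _ _ _ hiso hS ω hω _ hc]
      · rw [if_neg (fun h => hc (e2.1 h)), if_neg hc]
    show _ ∈ E ↔ _ ∈ cyMv (a, 0) E
    rw [e]
    rfl

/-! #### reflection in the middle line -/

/-- the reflection on the sites -/
def cyRfV (H : ℤ) (u : TV) : TV := (u.1 + u.2, H - u.2)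

/-- the reflection on the cells -/
def cyRfY (H : ℤ) (c : CyY) : CyY :=
  match c.1 with
  | .up => (CyK.dn, cyRfV H c.2 + (0, -1))
  | .dn => (CyK.up, cyRfV H c.2 + (1, -1))
  | .eh => (CyK.eh, cyRfV H c.2)
  | .ev => (CyK.ed, cyRfV H c.2 + (1, -1))
  | .ed => (CyK.ev, cyRfV H c.2 + (0, -1))
  | .sn => c
  | .ss => c

theorem cy_sy_Q_up (H : ℕ) (S T : Bool) (j : ℤ) : CySyQ H (!S) (!T) CyK.dn ((H : ℤ) - j + -1) ↔ CySyQ H S T CyK.up j := by
  unfold CySyQ
  cases S <;> cases T <;> simp <;> omega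

theorem cy_sy_Q_dn (H : ℕ) (S T : Bool) (j : ℤ) : CySyQ H (!S) (!T) CyK.up ((H : ℤ) - j + -1) ↔ CySyQ H S T CyK.dn j := by
  unfold CySyQ
  cases S <;> cases T <;> simp <;> omega

theorem cy_sy_M_refl (H : ℕ) (S T : Bool) (c : CyY) : CySyM H (!S) (!T) (cyRfY H c).1 (cyRfY H c).2.2 ↔ CySyM H S T c.1 c.2.2 := by
  obtain ⟨k, y⟩ := c
  cases k <;> simp only [cyRfY, cyRfV, CySyM, Prod.snd_add, Prod.fst_add]
  · rw [cy_sy_Q_up]
    constructor <;> rintro ⟨h1, h2, h3⟩ <;> exact ⟨h1, by omega, by omega⟩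
  · rw [cy_sy_Q_dn]
    constructor <;> rintro ⟨h1, h2, h3⟩ <;> exact ⟨h1, by omega, by omega⟩
  · have e1 : (H : ℤ) - y.2 = (H : ℤ) - (y.2 - 1) + -1 := by ring
    have e2 : (H : ℤ) - y.2 - 1 = (H : ℤ) - y.2 + -1 := by ring
    rw [e2, cy_sy_Q_up, e1, cy_sy_Q_dn]
    constructor <;> rintro ⟨h1, h2, h3, h4⟩ <;> exact ⟨by omega, by omega, h4, h3⟩
  · rw [cy_sy_Q_up, cy_sy_Q_dn]
    constructor <;> rintro ⟨h1, h2, h3, h4⟩ <;> exact ⟨by omega, by omega, h4, h3⟩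
  · rw [cy_sy_Q_up, cy_sy_Q_dn]
    constructor <;> rintro ⟨h1, h2, h3, h4⟩ <;> exact ⟨by omega, by omega, h4, h3⟩

theorem cy_sy_rf_inj {L : ℕ} {H : ℤ} {y y' d : TV} (h1 : 0 ≤ y.1) (h2 : y.1 < L) (h3 : 0 ≤ y'.1) (h4 : y'.1 < L)
    (e : sdRed L (cyRfV H y + d) = sdRed L (cyRfV H y' + d)) : y = y' := by
  have e1 := (Prod.ext_iff.1 e).1
  have e2 := (Prod.ext_iff.1 e).2
  simp only [sdRed, cyRfV, Prod.fst_add, Prod.snd_add] at e1 e2
  have e3 : y.2 = y'.2 := by omega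
  rw [e3, add_assoc, add_assoc] at e1
  exact Prod.ext (cy_sy_mod h1 h2 h3 h4 e1) e3

theorem cy_sy_refl (L H : ℕ) (hL : 0 < L) (S T : Bool) : CySy L H S T (!S) (!T) (cyRfV H) (cyRfY H) where
  red := by
    intro u
    simp only [sdRed, cyRfV, Int.emod_add_emod]
  row := fun u h1 h2 => by simp only [cyRfV]; omega
  injV := by
    intro u v h1 h2 h3 h4 e
    have := cy_sy_rf_inj (d := 0) h1 h2 h3 h4 (by simpa using e)
    exact this
  injY := by
    rintro ⟨k, y⟩ ⟨k', y'⟩ h1 h2 h3 h4 ⟨n1, n2⟩ ⟨n3, n4⟩ e0 e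
    cases k <;> cases k' <;> simp only [cyRfY, reduceCtorEq] at e0 e <;>
      first
        | exact absurd rfl n1
        | exact absurd rfl n2
        | exact absurd rfl n3
        | exact absurd rfl n4
        | exact congrArg _ (cy_sy_rf_inj (y := y) (y' := y') h1 h2 h3 h4 e)
        | exact congrArg _ (cy_sy_rf_inj (y := y) (y' := y') (d := 0) h1 h2 h3 h4 (by simpa using e))
  cell := fun c hc => (cy_sy_M_refl H S T c).2 hc
  sv := by
    rintro ⟨k, y⟩ ⟨h1, h2⟩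
    cases k
    · ext w
      simp only [cySv0, cyRfY, cyRfV, cellV, cellD, Finset.image_insert, Finset.image_singleton, Finset.mem_insert, Finset.mem_singleton, Prod.ext_iff,
        Prod.fst_add, Prod.snd_add]
      omega
    · ext w
      simp only [cySv0, cyRfY, cyRfV, cellV, cellD, Finset.image_insert, Finset.image_singleton, Finset.mem_insert, Finset.mem_singleton, Prod.ext_iff,
        Prod.fst_add, Prod.snd_add]
      omega
    · ext w
      simp only [cySv0, cyRfY, cyRfV, cellV, cellD, Finset.image_insert, Finset.image_singleton, Finset.mem_insert, Finset.mem_singleton, Prod.ext_iff,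
        Prod.fst_add, Prod.snd_add]
      omega
    · ext w
      simp only [cySv0, cyRfY, cyRfV, cellV, cellD, Finset.image_insert, Finset.image_singleton, Finset.mem_insert, Finset.mem_singleton, Prod.ext_iff,
        Prod.fst_add, Prod.snd_add]
      omega
    · ext w
      simp only [cySv0, cyRfY, cyRfV, cellV, cellD, Finset.image_insert, Finset.image_singleton, Finset.mem_insert, Finset.mem_singleton, Prod.ext_iff,
        Prod.fst_add, Prod.snd_add]
      omega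
    · exact absurd rfl h1
    · exact absurd rfl h2
  tri := by
    rintro ⟨k, y⟩ _
    cases k <;> simp [cyRfY]

/-- flip of the first spin: the statuses change sign on the support (no hypothesis on the parameters) -/
theorem cy_sy_flip_tau (S : ClSys TV CyY) (hsub : ∀ y ∈ S.C, S.sv y ⊆ S.A) (hne : ∀ y ∈ S.C, (S.sv y).Nonempty) (ω : ClCfg TV CyY)
    (hω : S.wt ω ≠ 0) (y : CyY) (hy : y ∈ S.C) : clTau S (ω.flipB S.A) y = - clTau S ω y := by
  have hf : clCellW (S.q y) (ClConst ω.B (S.sv y)) (ClConst ω.W (S.sv y)) (y ∈ ω.O) ≠ 0 := by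
    unfold ClSys.wt at hω
    exact (Finset.prod_ne_zero_iff.1 hω) y hy
  obtain ⟨h1, -⟩ := am_t5_flip (B := ω.B) (hsub y hy)
  obtain ⟨v, hv⟩ := hne y hy
  unfold clTau
  show (if y ∈ ω.O then (if S.sv y ⊆ S.A \ ω.B then (1 : ℤ) else -1) else 0) = _
  by_cases hO : y ∈ ω.O
  · have hc : ClConst ω.B (S.sv y) := by
      by_contra hc
      apply hf
      unfold clCellW
      rw [if_pos hO, if_neg hc]
    rw [if_pos hO, if_pos hO]
    rcases hc with hc | hc
    · rw [if_pos hc, if_neg (fun h => (h1.1 h) v hv (hc hv))]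
    · rw [if_pos (h1.2 hc), if_neg (fun h => hc v hv (h hv))]
      norm_num
  · rw [if_neg hO, if_neg hO]
    norm_num

theorem cy_sy_sg_neg (t : ℤ) : cySg (-t) = - cySg t := by
  unfold cySg
  by_cases h1 : t = 1
  · subst h1
    simp
  · by_cases h2 : t = -1
    · subst h2
      simp
    · have h3 : ¬ -t = 1 := by omega
      have h4 : ¬ -t = -1 := by omega
      simp [h1, h2, h3, h4]

/-- pins after the flip -/
theorem cy_sy_pin_flip {L H : ℕ} (s : Bool) (j : ℤ) (hj : 0 ≤ j ∧ j ≤ H) (B : Finset TV) :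
    (∀ v ∈ sdRow L j, (v ∈ sdSites L 0 H \ B ↔ s = true)) ↔ ∀ v ∈ sdRow L j, (v ∈ B ↔ (!s) = true) := by
  refine forall₂_congr fun v hv => ?_
  have hv' : v ∈ sdSites L 0 H := by
    rw [cy_mem_row] at hv
    rw [cy_mem_sites]
    omega
  rw [Finset.mem_sdiff]
  cases s <;> simp [hv']

theorem cy_sy_refl_P (x : ℝ) {L H : ℕ} (hL : 3 ≤ L) (S T : Bool) : ∃ o : ℤ, ∀ E : Set CyF, cyP x L H S T E = cyP x L H (!S) (!T) (cyRf H o E) := by
  have hL0 : 0 < L := by omega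
  have hLz : (L : ℤ) ≠ 0 := by exact_mod_cast hL0.ne'
  have hLp : (0 : ℤ) < L := by exact_mod_cast hL0
  refine ⟨if T then 0 else 1, fun E => ?_⟩
  have hsy := cy_sy_refl L H hL0 S T
  have hsy' := cy_sy_refl L H hL0 (!S) (!T)
  rw [Bool.not_not, Bool.not_not] at hsy'
  have hiso := cy_sy_cuiso (x := x) hL0 hsy (cy_sy_card hL0 hsy')
  have hS : ∀ S T : Bool, ∀ y ∈ (cyM x L H S T).C, (cyM x L H S T).sv y ⊆ (cyM x L H S T).A := fun _ _ y hy => (Finset.mem_filter.1 hy).2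
  have hne : ∀ y ∈ (cyM x L H (!S) (!T)).C, ((cyM x L H (!S) (!T)).sv y).Nonempty := fun y _ => cy_sv_nonempty L y
  unfold cyP
  symm
  refine cy_sy_isoF hiso (hS S T) (hS _ _) _ _ _ _ (fun ω hω _ => ?_) (fun ω hω hw => ?_)
  · obtain ⟨hB, -, -⟩ := (cl_mem_cfgs _ ω).1 hω
    have p1 := cy_sy_pin hL0 hsy true H 0 (by omega) (fun u hu => by simp only [cyRfV]; omega) hB
    have p2 := cy_sy_pin hL0 hsy false 0 H (by omega) (fun u hu => by simp only [cyRfV]; omega) hB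
    have f1 := cy_sy_pin_flip (L := L) (H := H) false 0 (by omega) (ω.B.image fun u => sdRed L (cyRfV H u))
    have f2 := cy_sy_pin_flip (L := L) (H := H) true H (by omega) (ω.B.image fun u => sdRed L (cyRfV H u))
    unfold CyMix CuPin
    rw [and_comm]
    exact and_congr (f2.trans p2) (f1.trans p1)
  · have e : (fun u : TV => - cyFld (cyM x L H (!S) (!T)) L (!T)
          ((ω.map (fun u => sdRed L (cyRfV H u)) (fun c => ((cyRfY H c).1, sdRed L (cyRfY H c).2))).flipB (cyM x L H (!S) (!T)).A)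
          (u.1 + u.2 + (if T then 0 else 1), (H : ℤ) - 1 - u.2)) = cyFld (cyM x L H S T) L T ω := by
      funext u
      unfold cyFld
      have e1 : cyT (!T) (sdRed L (u.1 + u.2 + (if T then 0 else 1), (H : ℤ) - 1 - u.2))
          = (fun c : CyY => ((cyRfY H c).1, sdRed L (cyRfY H c).2)) (cyT T (sdRed L u)) := by
        cases T
        · simp only [cyT, cyRfY, cyRfV, sdRed, Bool.not_false, if_true, Bool.false_eq_true, if_false, Prod.fst_add, Prod.snd_add]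
          refine Prod.ext rfl (Prod.ext ?_ ?_)
          · show (u.1 + u.2 + 1) % (L : ℤ) = (u.1 % (L : ℤ) + u.2 + 1) % (L : ℤ)
            rw [add_assoc (u.1 % (L : ℤ)), Int.emod_add_emod, add_assoc]
          · show (H : ℤ) - 1 - u.2 = (H : ℤ) - u.2 + -1
            ring
        · simp only [cyT, cyRfY, cyRfV, sdRed, Bool.not_true, if_true, Bool.false_eq_true, if_false, Prod.fst_add, Prod.snd_add]
          refine Prod.ext rfl (Prod.ext ?_ ?_)
          · show (u.1 + u.2 + 0) % (L : ℤ) = (u.1 % (L : ℤ) + u.2 + 0) % (L : ℤ)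
            rw [add_assoc (u.1 % (L : ℤ)), Int.emod_add_emod, add_assoc]
          · show (H : ℤ) - 1 - u.2 = (H : ℤ) - u.2 + -1
            ring
      have e2 : (fun c : CyY => ((cyRfY H c).1, sdRed L (cyRfY H c).2)) (cyT T (sdRed L u)) ∈ (cyM x L H (!S) (!T)).C ↔
          cyT T (sdRed L u) ∈ (cyM x L H S T).C := by
        rw [cy_sy_MC hL0, cy_sy_MC hL0]
        have a1 : (0 ≤ (sdRed L (cyRfY H (cyT T (sdRed L u))).2).1 ∧ (sdRed L (cyRfY H (cyT T (sdRed L u))).2).1 < (L : ℤ)) :=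
          ⟨Int.emod_nonneg _ hLz, Int.emod_lt_of_pos _ hLp⟩
        have a2 : (0 ≤ (cyT T (sdRed L u)).2.1 ∧ (cyT T (sdRed L u)).2.1 < (L : ℤ)) := ⟨Int.emod_nonneg _ hLz, Int.emod_lt_of_pos _ hLp⟩
        exact and_congr (iff_of_true a1 a2) (cy_sy_M_refl H S T _)
      rw [e1]
      by_cases hc : cyT T (sdRed L u) ∈ (cyM x L H S T).C
      · have hw' : (cyM x L H (!S) (!T)).wt (ω.map (fun u => sdRed L (cyRfV H u)) (fun c => ((cyRfY H c).1, sdRed L (cyRfY H c).2))) ≠ 0 := by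
          rw [am_iso_wt _ _ _ _ hiso (hS S T) ω hω]
          exact hw
        rw [if_pos (e2.2 hc), if_pos hc, cy_sy_flip_tau _ (hS _ _) hne _ hw' _ (e2.2 hc), am_iso_tau _ _ _ _ hiso (hS S T) ω hω _ hc, cy_sy_sg_neg, neg_neg]
      · rw [if_neg (fun h => hc (e2.1 h)), if_neg hc, neg_zero]
    show _ ∈ cyRf H _ E ↔ _ ∈ E
    rw [← e]
    rfl

end Claimed.Agent.R291
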