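import Claimed.Agent.R291.Ann.CylDefs

/-!
# Row 291 (S0539), ANN block A4, LAW SIDE : THE HORIZONTAL REFLECTION OF THE CYLINDER, BLOCKED BANDS      (owner helper8, on order of 147; prefix `cyr_`, defs `cyrV`, `cyrY`, `Cyr…`)

TEX 09-annulus, proof of [annulus:first-seed] ("reflection followed by exchange of the two spin colors"; "horizontal reflection interchanges the two cell classes"), [annulus:search].   0 sorry.

## 1. `ρ` : row `r ↦ N - r`, slab `j ↦ N - 1 - j`, classes exchanged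
* `cyrV L N o u = sdRed L (u.1 + u.2 + o, N - u.2)` (sites), `cyrY L N o` (cells: `up ↔ dn`, `eh → eh`, `ev ↔ ed`); `o` = a free horizontal offset.
  **TRAP**: `ρ² ` = the horizontal shift by `N + 2 o`.   `ρ` is an involution only if `N + 2 o ≡ 0 mod L` (impossible for `N` odd, `L` even: glide reflection).   The INVERSE of `ρ_{N,o}` is `ρ_{N,-N-o}`
  (`cyr_V_V`, `cyr_V_V'`, `cyr_Y_Y'`, `cyr_Y_Y''`).   So use `ρ` as an isomorphism between TWO parts, never as an automorphism of one part.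
* **`cyr_iso`** : `CuIso ((cyS x L a b Q Γ).inn D) ((cyS x L (N-b) (N-a) (ρ Q) (ρ Γ)).inn (ρ D)) ρ ρ` for every `D ⊆ sdSites L a b`;   `cyr_val` (`CyVal` is transported)
* images: `cyr_im_sites`, `cyr_im_row`, `cyr_im_band` (`ρ (cyBand L T c d) = cyBand L (!T) (N-1-d) (N-1-c)`), `cyr_imY`, `cyr_imV` (`ρ⁻¹ ρ = id`)
* fields: **`cyr_fld`** (for ANY `CuIso S S' ρ ρ`): `cyFld S' L (!T) (ω.map ρ ρ) (cyPhi N (o + if T then 0 else 1) y) = cyFld S L T ω y`;   events: `cyr_VP_iff`, `cyr_Blk_iff` (no change of sign)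
  (`cy_refl` of `Ann/CylInst` = the case `N = H`, `D = sdSites L 0 H`, followed by the flip of `B`.)
## 2. a blocked band stops the invasion
* `CyrBand L T c d S` : `S` is a part (`S.sv = cySv L`, `S.C ⊆` cells) of a capped ambient whose family contains `cyBand L T c d`;   `cyr_band_amb`, `cyr_band_inn`
* `cyr_band_cell` : the only cells of the ambient which contain a slanted edge of the slabs `c..d` or a horizontal edge of the rows `c+1..d` are the triangles of the band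
* `cyr_lift` : triangles of one class which share a site of the cylinder have lifts with equal or adjacent indices
* **`cyr_blk_rows`**, `cyr_blk_sep`, `cyr_blk_inv` : `cyFld S L T ω ∈ cyBlk (cySg (clSg s)) c d` ⟹ the invasion `clStep S s E ω` from the rows `≤ c` stays in the rows `≤ d`  (`cyr_sg_true : cySg (clSg true) = 1`)
-/

set_option autoImplicit false
set_option linter.unusedSectionVars false
set_option linter.unusedVariables false
set_option linter.unusedSimpArgs false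

namespace Claimed.Agent.R291

open Claims Claims.C0467 Relation

/-! ## 0. reduction mod `(L, 0)` -/

theorem cyr_red_of {L : ℕ} {a a' b b' : ℤ} (h : a ≡ a' [ZMOD L]) (hb : b = b') : sdRed L (a, b) = sdRed L (a', b') := by
  subst hb
  unfold sdRed
  exact Prod.ext h rfl

theorem cyr_red_fst (L : ℕ) (u : TV) : (sdRed L u).1 ≡ u.1 [ZMOD L] := Int.mod_modEq _ _

theorem cyr_red_snd (L : ℕ) (u : TV) : (sdRed L u).2 = u.2 := rfl

theorem cyr_red_mem_cells {L : ℕ} (hL : 0 < L) {a b : ℤ} (u : TV) : sdRed L u ∈ sdCells L a b ↔ a ≤ u.2 ∧ u.2 < b := by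
  rw [cy_mem_cells]
  have h1 := Int.emod_nonneg u.1 (by exact_mod_cast hL.ne' : (L : ℤ) ≠ 0)
  have h2 := Int.emod_lt_of_pos u.1 (by exact_mod_cast hL : (0 : ℤ) < L)
  show (0 ≤ u.1 % (L : ℤ) ∧ u.1 % (L : ℤ) < L ∧ a ≤ u.2 ∧ u.2 < b) ↔ _
  tauto

theorem cyr_red_mem_row {L : ℕ} (hL : 0 < L) {j : ℤ} (u : TV) : sdRed L u ∈ sdRow L j ↔ u.2 = j := by
  rw [cy_mem_row]
  have h1 := Int.emod_nonneg u.1 (by exact_mod_cast hL.ne' : (L : ℤ) ≠ 0)
  have h2 := Int.emod_lt_of_pos u.1 (by exact_mod_cast hL : (0 : ℤ) < L)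
  show (0 ≤ u.1 % (L : ℤ) ∧ u.1 % (L : ℤ) < L ∧ u.2 = j) ↔ _
  tauto

/-- the sites of the five kinds of cells of the cylindrical part -/
theorem cyr_sv_up (L : ℕ) (y : TV) : cySv L (CyK.up, y) = {sdRed L y, sdRed L (y + (1, 0)), sdRed L (y + (0, 1))} := by
  simp [cySv, cellV, Finset.image_insert]

theorem cyr_sv_dn (L : ℕ) (y : TV) : cySv L (CyK.dn, y) = {sdRed L (y + (1, 0)), sdRed L (y + (0, 1)), sdRed L (y + (1, 1))} := by
  simp [cySv, cellD, Finset.image_insert]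

theorem cyr_sv_eh (L : ℕ) (y : TV) : cySv L (CyK.eh, y) = {sdRed L y, sdRed L (y + (1, 0))} := by
  simp [cySv, Finset.image_insert]

theorem cyr_sv_ev (L : ℕ) (y : TV) : cySv L (CyK.ev, y) = {sdRed L y, sdRed L (y + (0, 1))} := by
  simp [cySv, Finset.image_insert]

theorem cyr_sv_ed (L : ℕ) (y : TV) : cySv L (CyK.ed, y) = {sdRed L y, sdRed L (y + (-1, 1))} := by
  simp [cySv, Finset.image_insert]

/-! ## 1. the reflection `row r ↦ N - r` -/

/-- reflection of the sites (`o` = horizontal offset) -/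
def cyrV (L : ℕ) (N o : ℤ) (u : TV) : TV := sdRed L (u.1 + u.2 + o, N - u.2)

/-- reflection of the cells: the two classes of triangles are exchanged, slab `j ↦ N - 1 - j` -/
def cyrY (L : ℕ) (N o : ℤ) (c : CyY) : CyY :=
  match c.1 with
  | .up => (CyK.dn, sdRed L (c.2.1 + c.2.2 + o, N - 1 - c.2.2))
  | .dn => (CyK.up, sdRed L (c.2.1 + c.2.2 + o + 1, N - 1 - c.2.2))
  | .eh => (CyK.eh, sdRed L (c.2.1 + c.2.2 + o, N - c.2.2))
  | .ev => (CyK.ed, sdRed L (c.2.1 + c.2.2 + o + 1, N - 1 - c.2.2))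
  | .ed => (CyK.ev, sdRed L (c.2.1 + c.2.2 + o, N - 1 - c.2.2))
  | .sn => (CyK.ss, sdRed L (c.2.1 + c.2.2 + o, N - c.2.2))
  | .ss => (CyK.sn, sdRed L (c.2.1 + c.2.2 + o, N - c.2.2))

/-- the index of the cell is reduced -/
def CyrRed (L : ℕ) (c : CyY) : Prop := sdRed L c.2 = c.2

theorem cyr_V_red (L : ℕ) (N o : ℤ) (u : TV) : cyrV L N o (sdRed L u) = cyrV L N o u := by
  unfold cyrV
  exact cyr_red_of (((cyr_red_fst L u).add_right _).add_right _) rfl

theorem cyr_V_add (L : ℕ) (N o : ℤ) (u d : TV) : cyrV L N o (u + d) = sdRed L (cyrV L N o u + (d.1 + d.2, - d.2)) := by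
  unfold cyrV
  rw [cy_red_red]
  refine cyr_red_of ?_ ?_
  · show u.1 + d.1 + (u.2 + d.2) + o ≡ u.1 + u.2 + o + (d.1 + d.2) [ZMOD L]
    rw [show u.1 + d.1 + (u.2 + d.2) + o = u.1 + u.2 + o + (d.1 + d.2) by ring]
  · show N - (u.2 + d.2) = N - u.2 + - d.2
    ring

/-- the inverse of the reflection is the reflection with the offset `- N - o` -/
theorem cyr_V_V (L : ℕ) (N o : ℤ) (u : TV) : cyrV L N (-N - o) (cyrV L N o u) = sdRed L u := by
  unfold cyrV
  refine cyr_red_of ?_ ?_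
  · have h := ((cyr_red_fst L (u.1 + u.2 + o, N - u.2)).add_right (N - u.2)).add_right (-N - o)
    refine h.trans ?_
    show u.1 + u.2 + o + (N - u.2) + (-N - o) ≡ u.1 [ZMOD L]
    rw [show u.1 + u.2 + o + (N - u.2) + (-N - o) = u.1 by ring]
  · show N - (N - u.2) = u.2
    ring

theorem cyr_aux1 (L : ℕ) (A B t M : ℤ) (y : TV) (h1 : A + B + t = y.1) (h2 : M - B = y.2) :
    sdRed L ((sdRed L (A, B)).1 + (sdRed L (A, B)).2 + t, M - (sdRed L (A, B)).2) = sdRed L y := by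
  have hy : y = (y.1, y.2) := rfl
  rw [hy]
  refine cyr_red_of ?_ h2
  rw [← h1]
  exact ((cyr_red_fst L (A, B)).add_right B).add_right t

theorem cyr_aux2 (L : ℕ) (A B t t' M : ℤ) (y : TV) (h1 : A + B + t + t' = y.1) (h2 : M - B = y.2) :
    sdRed L ((sdRed L (A, B)).1 + (sdRed L (A, B)).2 + t + t', M - (sdRed L (A, B)).2) = sdRed L y := by
  have hy : y = (y.1, y.2) := rfl
  rw [hy]
  refine cyr_red_of ?_ h2
  rw [← h1]
  exact (((cyr_red_fst L (A, B)).add_right B).add_right t).add_right t'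

theorem cyr_Y_Y (L : ℕ) (N o : ℤ) (c : CyY) : cyrY L N (-N - o) (cyrY L N o c) = (c.1, sdRed L c.2) := by
  obtain ⟨k, y⟩ := c
  cases k <;> simp only [cyrY] <;> refine Prod.ext rfl ?_
  · exact cyr_aux2 L _ _ _ _ _ y (by ring) (by ring)
  · exact cyr_aux1 L _ _ _ _ y (by ring) (by ring)
  · exact cyr_aux1 L _ _ _ _ y (by ring) (by ring)
  · exact cyr_aux1 L _ _ _ _ y (by ring) (by ring)
  · exact cyr_aux2 L _ _ _ _ _ y (by ring) (by ring)
  · exact cyr_aux1 L _ _ _ _ y (by ring) (by ring)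
  · exact cyr_aux1 L _ _ _ _ y (by ring) (by ring)

theorem cyr_Y_red (L : ℕ) (N o : ℤ) (c : CyY) : CyrRed L (cyrY L N o c) := by
  obtain ⟨k, y⟩ := c
  cases k <;> exact cy_red_idem L _

/-- the reflection is injective on the cells with a reduced index -/
theorem cyr_Y_inj {L : ℕ} {N o : ℤ} {c c' : CyY} (hc : CyrRed L c) (hc' : CyrRed L c') (h : cyrY L N o c = cyrY L N o c') : c = c' := by
  have h1 := cyr_Y_Y L N o c
  rw [h, cyr_Y_Y, hc, hc'] at h1
  exact h1.symm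

theorem cyr_Y_Y' {L : ℕ} (N o : ℤ) {c : CyY} (hc : CyrRed L c) : cyrY L N (-N - o) (cyrY L N o c) = c := by
  rw [cyr_Y_Y, hc]

theorem cyr_Y_Y'' {L : ℕ} (N o : ℤ) {c : CyY} (hc : CyrRed L c) : cyrY L N o (cyrY L N (-N - o) c) = c := by
  have h := cyr_Y_Y' (L := L) N (-N - o) hc
  rwa [show -N - (-N - o) = o by ring] at h

theorem cyr_V_V' (L : ℕ) (N o : ℤ) (u : TV) : cyrV L N o (cyrV L N (-N - o) u) = sdRed L u := by
  have h := cyr_V_V L N (-N - o) u
  rwa [show -N - (-N - o) = o by ring] at h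

theorem cyr_V_inj {L : ℕ} {N o : ℤ} {u v : TV} (hu : sdRed L u = u) (hv : sdRed L v = v) (h : cyrV L N o u = cyrV L N o v) : u = v := by
  have h1 := cyr_V_V L N o u
  rw [h, cyr_V_V, hu, hv] at h1
  exact h1.symm

theorem cyr_sites_red {L : ℕ} {a b : ℤ} {u : TV} (hu : u ∈ sdSites L a b) : sdRed L u = u := by
  have h := cy_mem_sites.1 hu
  exact cy_red_self h.1 h.2.1

theorem cyr_V_mk (L : ℕ) (N o : ℤ) (u w : TV) (h1 : u.1 + u.2 + o = w.1) (h2 : N - u.2 = w.2) : cyrV L N o u = sdRed L w := by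
  unfold cyrV
  rw [h1, h2]

/-- the sites of the reflected cell -/
theorem cyr_sv (L : ℕ) (N o : ℤ) (c : CyY) (hc : c.1 ≠ CyK.sn ∧ c.1 ≠ CyK.ss) :
    cySv L (cyrY L N o c) = (cySv L c).image (cyrV L N o) := by
  obtain ⟨k, y⟩ := c
  cases k
  · show cySv L (CyK.dn, sdRed L (y.1 + y.2 + o, N - 1 - y.2)) = _
    rw [cyr_sv_dn, cyr_sv_up]
    simp only [Finset.image_insert, Finset.image_singleton, cyr_V_red, cy_red_red]
    rw [cyr_V_mk L N o y ((y.1 + y.2 + o, N - 1 - y.2) + (0, 1)) (by simp only [Prod.fst_add]; ring) (by simp only [Prod.snd_add]; ring),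
      cyr_V_mk L N o (y + (1, 0)) ((y.1 + y.2 + o, N - 1 - y.2) + (1, 1)) (by simp only [Prod.fst_add, Prod.snd_add]; ring)
        (by simp only [Prod.snd_add]; ring),
      cyr_V_mk L N o (y + (0, 1)) ((y.1 + y.2 + o, N - 1 - y.2) + (1, 0)) (by simp only [Prod.fst_add, Prod.snd_add]; ring)
        (by simp only [Prod.snd_add]; ring)]
    ext w
    simp only [Finset.mem_insert, Finset.mem_singleton]
    tauto
  · show cySv L (CyK.up, sdRed L (y.1 + y.2 + o + 1, N - 1 - y.2)) = _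
    rw [cyr_sv_dn, cyr_sv_up]
    simp only [Finset.image_insert, Finset.image_singleton, cyr_V_red, cy_red_red, cy_red_idem]
    rw [cyr_V_mk L N o (y + (1, 0)) ((y.1 + y.2 + o + 1, N - 1 - y.2) + (0, 1)) (by simp only [Prod.fst_add, Prod.snd_add]; ring)
        (by simp only [Prod.snd_add]; ring),
      cyr_V_mk L N o (y + (0, 1)) (y.1 + y.2 + o + 1, N - 1 - y.2) (by simp only [Prod.fst_add, Prod.snd_add]; ring)
        (by simp only [Prod.snd_add]; ring),
      cyr_V_mk L N o (y + (1, 1)) ((y.1 + y.2 + o + 1, N - 1 - y.2) + (1, 0)) (by simp only [Prod.fst_add, Prod.snd_add]; ring)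
        (by simp only [Prod.snd_add]; ring)]
    ext w
    simp only [Finset.mem_insert, Finset.mem_singleton]
    tauto
  · show cySv L (CyK.eh, sdRed L (y.1 + y.2 + o, N - y.2)) = _
    rw [cyr_sv_eh, cyr_sv_eh]
    simp only [Finset.image_insert, Finset.image_singleton, cyr_V_red, cy_red_red, cy_red_idem]
    rw [cyr_V_mk L N o y (y.1 + y.2 + o, N - y.2) rfl rfl,
      cyr_V_mk L N o (y + (1, 0)) ((y.1 + y.2 + o, N - y.2) + (1, 0)) (by simp only [Prod.fst_add, Prod.snd_add]; ring)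
        (by simp only [Prod.snd_add]; ring)]
  · show cySv L (CyK.ed, sdRed L (y.1 + y.2 + o + 1, N - 1 - y.2)) = _
    rw [cyr_sv_ed, cyr_sv_ev]
    simp only [Finset.image_insert, Finset.image_singleton, cyr_V_red, cy_red_red, cy_red_idem]
    rw [cyr_V_mk L N o y ((y.1 + y.2 + o + 1, N - 1 - y.2) + (-1, 1)) (by simp only [Prod.fst_add]; ring) (by simp only [Prod.snd_add]; ring),
      cyr_V_mk L N o (y + (0, 1)) (y.1 + y.2 + o + 1, N - 1 - y.2) (by simp only [Prod.fst_add, Prod.snd_add]; ring)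
        (by simp only [Prod.snd_add]; ring)]
    exact Finset.pair_comm _ _
  · show cySv L (CyK.ev, sdRed L (y.1 + y.2 + o, N - 1 - y.2)) = _
    rw [cyr_sv_ed, cyr_sv_ev]
    simp only [Finset.image_insert, Finset.image_singleton, cyr_V_red, cy_red_red, cy_red_idem]
    rw [cyr_V_mk L N o y ((y.1 + y.2 + o, N - 1 - y.2) + (0, 1)) (by simp only [Prod.fst_add]; ring) (by simp only [Prod.snd_add]; ring),
      cyr_V_mk L N o (y + (-1, 1)) (y.1 + y.2 + o, N - 1 - y.2) (by simp only [Prod.fst_add, Prod.snd_add]; ring)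
        (by simp only [Prod.snd_add]; ring)]
    exact Finset.pair_comm _ _
  · exact absurd rfl hc.1
  · exact absurd rfl hc.2

/-! ### the reflection of the standard sets -/

theorem cyr_mem_sites {L : ℕ} (hL : 0 < L) (N o : ℤ) {a b : ℤ} {u : TV} (hu : u ∈ sdSites L a b) : cyrV L N o u ∈ sdSites L (N - b) (N - a) := by
  have h := cy_mem_sites.1 hu
  unfold cyrV
  rw [cy_red_mem hL]
  constructor <;> simp only <;> omega

theorem cyr_mem_tris {L : ℕ} (hL : 0 < L) (N o : ℤ) {a b : ℤ} {c : CyY} (hc : c ∈ cyTris L a b) : cyrY L N o c ∈ cyTris L (N - b) (N - a) := by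
  obtain ⟨k, y⟩ := c
  obtain ⟨hk, hy⟩ := cy_mem_tris.1 hc
  simp only at hk hy
  have h := cy_mem_cells.1 hy
  rw [cy_mem_tris]
  rcases hk with rfl | rfl
  · refine ⟨Or.inr rfl, ?_⟩
    show sdRed L (y.1 + y.2 + o, N - 1 - y.2) ∈ _
    rw [cyr_red_mem_cells hL]
    constructor <;> simp only <;> omega
  · refine ⟨Or.inl rfl, ?_⟩
    show sdRed L (y.1 + y.2 + o + 1, N - 1 - y.2) ∈ _
    rw [cyr_red_mem_cells hL]
    constructor <;> simp only <;> omega

theorem cyr_mem_edges {L : ℕ} (hL : 0 < L) (N o : ℤ) {a b : ℤ} {c : CyY} (hc : c ∈ cyEdges L a b) : cyrY L N o c ∈ cyEdges L (N - b) (N - a) := by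
  obtain ⟨k, y⟩ := c
  rw [cy_mem_edges]
  rcases cy_mem_edges.1 hc with ⟨hk, hy⟩ | ⟨hk, hy⟩ | ⟨hk, hy⟩
  · simp only at hk hy
    subst hk
    have h := cy_mem_sites.1 hy
    refine Or.inl ⟨rfl, ?_⟩
    show sdRed L (y.1 + y.2 + o, N - y.2) ∈ _
    rw [cy_red_mem hL]
    constructor <;> simp only <;> omega
  · simp only at hk hy
    subst hk
    have h := cy_mem_cells.1 hy
    refine Or.inr (Or.inr ⟨rfl, ?_⟩)
    show sdRed L (y.1 + y.2 + o + 1, N - 1 - y.2) ∈ _
    rw [cyr_red_mem_cells hL]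
    constructor <;> simp only <;> omega
  · simp only at hk hy
    subst hk
    have h := cy_mem_cells.1 hy
    refine Or.inr (Or.inl ⟨rfl, ?_⟩)
    show sdRed L (y.1 + y.2 + o, N - 1 - y.2) ∈ _
    rw [cyr_red_mem_cells hL]
    constructor <;> simp only <;> omega

theorem cyr_tris_red {L : ℕ} {a b : ℤ} {c : CyY} (hc : c ∈ cyTris L a b) : CyrRed L c := by
  have h := cy_mem_cells.1 (cy_mem_tris.1 hc).2
  exact cy_red_self h.1 h.2.1

theorem cyr_edges_red {L : ℕ} {a b : ℤ} {c : CyY} (hc : c ∈ cyEdges L a b) : CyrRed L c := by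
  rcases cy_mem_edges.1 hc with ⟨_, hy⟩ | ⟨_, hy⟩ | ⟨_, hy⟩
  · have h := cy_mem_sites.1 hy
    exact cy_red_self h.1 h.2.1
  · have h := cy_mem_cells.1 hy
    exact cy_red_self h.1 h.2.1
  · have h := cy_mem_cells.1 hy
    exact cy_red_self h.1 h.2.1

theorem cyr_Ta_red {L : ℕ} {a b : ℤ} {e : CyY} (he : e ∈ cyEdges L a b) : CyrRed L (cyTa L e) := by
  have hr := cyr_edges_red he
  obtain ⟨k, y⟩ := e
  cases k <;> first | exact hr | exact cy_red_idem L _

theorem cyr_Tb_red {L : ℕ} {a b : ℤ} {e : CyY} (he : e ∈ cyEdges L a b) : CyrRed L (cyTb L e) := by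
  have hr := cyr_edges_red he
  obtain ⟨k, y⟩ := e
  cases k
  case eh =>
    have h1 : sdRed L y = y := hr
    show sdRed L (y - (0, 1)) = y - (0, 1)
    have h2 : y.1 % (L : ℤ) = y.1 := congrArg Prod.fst h1
    exact Prod.ext (by show (y.1 - 0) % (L : ℤ) = y.1 - 0; rw [sub_zero, h2]) rfl
  all_goals exact cy_red_idem L _

/-- the reflection exchanges the two triangles of an edge -/
theorem cyr_Ta (L : ℕ) (N o : ℤ) (e : CyY) (he : e.1 = CyK.eh ∨ e.1 = CyK.ev ∨ e.1 = CyK.ed) :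
    cyrY L N o (cyTa L e) = cyTb L (cyrY L N o e) := by
  obtain ⟨k, y⟩ := e
  rcases he with h | h | h <;> simp only at h <;> subst h
  · show (CyK.dn, sdRed L (y.1 + y.2 + o, N - 1 - y.2)) = (CyK.dn, sdRed L (y.1 + y.2 + o, N - y.2) - (0, 1))
    refine Prod.ext rfl (Prod.ext ?_ ?_)
    · show (y.1 + y.2 + o) % (L : ℤ) = (y.1 + y.2 + o) % (L : ℤ) - 0
      rw [sub_zero]
    · show N - 1 - y.2 = N - y.2 - 1
      ring
  · show (CyK.dn, sdRed L (y.1 + y.2 + o, N - 1 - y.2)) = (CyK.dn, sdRed L (sdRed L (y.1 + y.2 + o + 1, N - 1 - y.2) - (1, 0)))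
    rw [sub_eq_add_neg (sdRed L (y.1 + y.2 + o + 1, N - 1 - y.2)), cy_red_red]
    refine Prod.ext rfl (cyr_red_of ?_ ?_)
    · show y.1 + y.2 + o ≡ y.1 + y.2 + o + 1 + -1 [ZMOD L]
      rw [add_neg_cancel_right]
    · show N - 1 - y.2 = N - 1 - y.2 + -0
      ring
  · show (CyK.dn, sdRed L ((sdRed L (y - (1, 0))).1 + (sdRed L (y - (1, 0))).2 + o, N - 1 - (sdRed L (y - (1, 0))).2))
      = (CyK.dn, sdRed L (sdRed L (y.1 + y.2 + o, N - 1 - y.2) - (1, 0)))
    rw [sub_eq_add_neg (sdRed L (y.1 + y.2 + o, N - 1 - y.2)), cy_red_red]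
    refine Prod.ext rfl (cyr_red_of ?_ ?_)
    · refine (((cyr_red_fst L (y - (1, 0))).add_right _).add_right _).trans ?_
      show y.1 - 1 + (y.2 - 0) + o ≡ y.1 + y.2 + o + -1 [ZMOD L]
      rw [show y.1 - 1 + (y.2 - 0) + o = y.1 + y.2 + o + -1 by ring]
    · show N - 1 - (y.2 - 0) = N - 1 - y.2 + -0
      ring

theorem cyr_Tb (L : ℕ) (N o : ℤ) (e : CyY) (he : e.1 = CyK.eh ∨ e.1 = CyK.ev ∨ e.1 = CyK.ed) :
    cyrY L N o (cyTb L e) = cyTa L (cyrY L N o e) := by
  obtain ⟨k, y⟩ := e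
  rcases he with h | h | h <;> simp only at h <;> subst h
  · show (CyK.up, sdRed L ((y - (0, 1)).1 + (y - (0, 1)).2 + o + 1, N - 1 - (y - (0, 1)).2)) = (CyK.up, sdRed L (y.1 + y.2 + o, N - y.2))
    refine Prod.ext rfl (cyr_red_of ?_ ?_)
    · show y.1 - 0 + (y.2 - 1) + o + 1 ≡ y.1 + y.2 + o [ZMOD L]
      rw [show y.1 - 0 + (y.2 - 1) + o + 1 = y.1 + y.2 + o by ring]
    · show N - 1 - (y.2 - 1) = N - y.2
      ring
  · show (CyK.up, sdRed L ((sdRed L (y - (1, 0))).1 + (sdRed L (y - (1, 0))).2 + o + 1, N - 1 - (sdRed L (y - (1, 0))).2))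
      = (CyK.up, sdRed L (sdRed L (y.1 + y.2 + o + 1, N - 1 - y.2) - (1, 0)))
    rw [sub_eq_add_neg (sdRed L (y.1 + y.2 + o + 1, N - 1 - y.2)), cy_red_red]
    refine Prod.ext rfl (cyr_red_of ?_ ?_)
    · refine ((((cyr_red_fst L (y - (1, 0))).add_right _).add_right _).add_right _).trans ?_
      show y.1 - 1 + (y.2 - 0) + o + 1 ≡ y.1 + y.2 + o + 1 + -1 [ZMOD L]
      rw [show y.1 - 1 + (y.2 - 0) + o + 1 = y.1 + y.2 + o + 1 + -1 by ring]
    · show N - 1 - (y.2 - 0) = N - 1 - y.2 + -0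
      ring
  · show (CyK.up, sdRed L ((sdRed L (y - (1, 0))).1 + (sdRed L (y - (1, 0))).2 + o + 1, N - 1 - (sdRed L (y - (1, 0))).2))
      = (CyK.up, sdRed L (y.1 + y.2 + o, N - 1 - y.2))
    refine Prod.ext rfl (cyr_red_of ?_ ?_)
    · refine ((((cyr_red_fst L (y - (1, 0))).add_right _).add_right _).add_right _).trans ?_
      show y.1 - 1 + (y.2 - 0) + o + 1 ≡ y.1 + y.2 + o [ZMOD L]
      rw [show y.1 - 1 + (y.2 - 0) + o + 1 = y.1 + y.2 + o by ring]
    · show N - 1 - (y.2 - 0) = N - 1 - y.2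
      ring

/-! ### the isomorphism -/

/-- a cell of the ambient which lies inside the rows is a selected triangle or an uncovered edge -/
theorem cyr_cell_cases {x : ℝ} {L : ℕ} {a b : ℤ} {Q Γ : Finset CyY} {D : Finset TV} (hD : D ⊆ sdSites L a b) {c : CyY}
    (hc : c ∈ (cyS x L a b Q Γ).C) (hs : cySv L c ⊆ D) : c ∈ Q ∨ (c ∈ cyEdges L a b ∧ cyTa L c ∉ Q ∧ cyTb L c ∉ Q) := by
  rcases cy_mem_C.1 hc with h | h | h
  · exact Or.inl h
  · exact Or.inr h
  · exfalso
    obtain ⟨k, y⟩ := c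
    rcases cy_mem_spokes.1 h with ⟨hk, hy⟩ | ⟨hk, hy⟩
    · simp only at hk hy
      subst hk
      have h1 : ((0 : ℤ), y.2 + 1) ∈ cySv L (CyK.sn, y) := by simp [cySv]
      have h2 := cy_mem_sites.1 (hD (hs h1))
      have h3 := cy_mem_row.1 hy
      simp only at h2
      omega
    · simp only at hk hy
      subst hk
      have h1 : ((0 : ℤ), y.2 - 1) ∈ cySv L (CyK.ss, y) := by simp [cySv]
      have h2 := cy_mem_sites.1 (hD (hs h1))
      have h3 := cy_mem_row.1 hy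
      simp only at h2
      omega

theorem cyr_edge_kind {L : ℕ} {a b : ℤ} {c : CyY} (hc : c ∈ cyEdges L a b) : c.1 = CyK.eh ∨ c.1 = CyK.ev ∨ c.1 = CyK.ed := by
  rcases cy_mem_edges.1 hc with ⟨h, _⟩ | ⟨h, _⟩ | ⟨h, _⟩
  · exact Or.inl h
  · exact Or.inr (Or.inl h)
  · exact Or.inr (Or.inr h)

theorem cyr_cin_sub {x : ℝ} {L : ℕ} (hL : 0 < L) (N o : ℤ) {a b : ℤ} {Q Γ : Finset CyY} (Γ' : Finset CyY) (hQ : Q ⊆ cyTris L a b)
    {D : Finset TV} (hD : D ⊆ sdSites L a b) {c : CyY} (hc : c ∈ (cyS x L a b Q Γ).cin D) :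
    cyrY L N o c ∈ (cyS x L (N - b) (N - a) (Q.image (cyrY L N o)) Γ').cin (D.image (cyrV L N o)) ∧ CyrRed L c ∧
      (c.1 ≠ CyK.sn ∧ c.1 ≠ CyK.ss) := by
  obtain ⟨h1, h2⟩ := (am_mem_cin _ _ _).1 hc
  have h2' : cySv L c ⊆ D := h2
  rcases cyr_cell_cases hD h1 h2' with h | ⟨he, hTa, hTb⟩
  · have hk : c.1 ≠ CyK.sn ∧ c.1 ≠ CyK.ss := by
      rcases (cy_mem_tris.1 (hQ h)).1 with e | e <;> rw [e] <;> exact ⟨by decide, by decide⟩
    refine ⟨(am_mem_cin _ _ _).2 ⟨cy_mem_C.2 (Or.inl (Finset.mem_image_of_mem _ h)), ?_⟩, cyr_tris_red (hQ h), hk⟩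
    show cySv L (cyrY L N o c) ⊆ _
    rw [cyr_sv L N o c hk]
    exact Finset.image_subset_image h2'
  · have hk0 := cyr_edge_kind he
    have hk : c.1 ≠ CyK.sn ∧ c.1 ≠ CyK.ss := by
      rcases hk0 with e | e | e <;> rw [e] <;> exact ⟨by decide, by decide⟩
    refine ⟨(am_mem_cin _ _ _).2 ⟨cy_mem_C.2 (Or.inr (Or.inl ⟨cyr_mem_edges hL N o he, ?_, ?_⟩)), ?_⟩, cyr_edges_red he, hk⟩
    · rw [← cyr_Tb L N o c hk0]
      intro h
      obtain ⟨q, hq, e⟩ := Finset.mem_image.1 h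
      exact hTb (cyr_Y_inj (cyr_tris_red (hQ hq)) (cyr_Tb_red he) e ▸ hq)
    · rw [← cyr_Ta L N o c hk0]
      intro h
      obtain ⟨q, hq, e⟩ := Finset.mem_image.1 h
      exact hTa (cyr_Y_inj (cyr_tris_red (hQ hq)) (cyr_Ta_red he) e ▸ hq)
    · show cySv L (cyrY L N o c) ⊆ _
      rw [cyr_sv L N o c hk]
      exact Finset.image_subset_image h2'

theorem cyr_imY {L : ℕ} (N o : ℤ) {Q : Finset CyY} (hQ : ∀ c ∈ Q, CyrRed L c) : (Q.image (cyrY L N o)).image (cyrY L N (-N - o)) = Q := by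
  rw [Finset.image_image]
  conv_rhs => rw [← Finset.image_id (s := Q)]
  exact Finset.image_congr fun c hc => cyr_Y_Y' N o (hQ c hc)

theorem cyr_imV {L : ℕ} (N o : ℤ) {D : Finset TV} (hD : ∀ u ∈ D, sdRed L u = u) : (D.image (cyrV L N o)).image (cyrV L N (-N - o)) = D := by
  rw [Finset.image_image]
  conv_rhs => rw [← Finset.image_id (s := D)]
  exact Finset.image_congr fun u hu => (cyr_V_V L N o u).trans (hD u hu)

theorem cyr_imQ_sub {L : ℕ} (hL : 0 < L) (N o : ℤ) {a b : ℤ} {Q : Finset CyY} (hQ : Q ⊆ cyTris L a b) :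
    Q.image (cyrY L N o) ⊆ cyTris L (N - b) (N - a) := by
  intro c hc
  obtain ⟨q, hq, rfl⟩ := Finset.mem_image.1 hc
  exact cyr_mem_tris hL N o (hQ hq)

theorem cyr_imD_sub {L : ℕ} (hL : 0 < L) (N o : ℤ) {a b : ℤ} {D : Finset TV} (hD : D ⊆ sdSites L a b) :
    D.image (cyrV L N o) ⊆ sdSites L (N - b) (N - a) := by
  intro c hc
  obtain ⟨q, hq, rfl⟩ := Finset.mem_image.1 hc
  exact cyr_mem_sites hL N o (hD hq)

/-- **the reflection is an isomorphism** of the part `D` of the ambient `a..b` (families `Q`, `Γ`) onto the part `ρ D` of the ambient `N-b..N-a` (families `ρ Q`, `ρ Γ`).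
`ρ` is an involution iff `N + 2 o ≡ 0 mod L`; in general its inverse is the reflection with the offset `- N - o`. -/
theorem cyr_iso {x : ℝ} {L : ℕ} (hL : 0 < L) (N o : ℤ) {a b : ℤ} {Q Γ : Finset CyY} (hQ : Q ⊆ cyTris L a b) (hΓ : ∀ c ∈ Γ, CyrRed L c)
    {D : Finset TV} (hD : D ⊆ sdSites L a b) :
    CuIso ((cyS x L a b Q Γ).inn D)
      ((cyS x L (N - b) (N - a) (Q.image (cyrY L N o)) (Γ.image (cyrY L N o))).inn (D.image (cyrV L N o))) (cyrV L N o) (cyrY L N o) where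
  injV := fun u hu v hv h => cyr_V_inj (cyr_sites_red (hD hu)) (cyr_sites_red (hD hv)) h
  injY := fun c hc c' hc' h => cyr_Y_inj (cyr_cin_sub hL N o ∅ hQ hD hc).2.1 (cyr_cin_sub hL N o ∅ hQ hD hc').2.1 h
  A := rfl
  C := by
    ext c'
    constructor
    · intro h
      obtain ⟨c, hc, rfl⟩ := Finset.mem_image.1 h
      exact (cyr_cin_sub hL N o _ hQ hD hc).1
    · intro h
      have h' := cyr_cin_sub hL N (-N - o) Γ (cyr_imQ_sub hL N o hQ) (cyr_imD_sub hL N o hD) h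
      rw [cyr_imY N o (fun c hc => cyr_tris_red (hQ hc)), cyr_imV N o (fun u hu => cyr_sites_red (hD hu)), sub_sub_cancel, sub_sub_cancel] at h'
      exact Finset.mem_image.2 ⟨_, h'.1, cyr_Y_Y'' N o h'.2.1⟩
  sv := fun y hy => cyr_sv L N o y (cyr_cin_sub hL N o ∅ hQ hD hy).2.2
  q := by
    intro y hy
    have hr := (cyr_cin_sub hL N o ∅ hQ hD hy).2.1
    have e1 : cyrY L N o y ∈ Γ.image (cyrY L N o) ↔ y ∈ Γ := by
      constructor
      · intro h
        obtain ⟨g, hg, e⟩ := Finset.mem_image.1 h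
        exact cyr_Y_inj (hΓ g hg) hr e ▸ hg
      · exact Finset.mem_image_of_mem _
    have e2 : ((cyrY L N o y).1 = CyK.up ∨ (cyrY L N o y).1 = CyK.dn) ↔ (y.1 = CyK.up ∨ y.1 = CyK.dn) := by
      obtain ⟨k, z⟩ := y
      cases k <;> simp [cyrY]
    show (if cyrY L N o y ∈ Γ.image (cyrY L N o) then (1 : ℝ) else if (cyrY L N o y).1 = CyK.up ∨ (cyrY L N o y).1 = CyK.dn then x ^ 2 else x)
      = (if y ∈ Γ then (1 : ℝ) else if y.1 = CyK.up ∨ y.1 = CyK.dn then x ^ 2 else x)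
    simp only [e1, e2]

/-! ### images of the standard sets -/

theorem cyr_im_sites {L : ℕ} (hL : 0 < L) (N o a b : ℤ) : (sdSites L a b).image (cyrV L N o) = sdSites L (N - b) (N - a) := by
  refine Finset.Subset.antisymm (cyr_imD_sub hL N o (Finset.Subset.refl _)) ?_
  intro u hu
  have h := cyr_mem_sites hL N (-N - o) hu
  rw [sub_sub_cancel, sub_sub_cancel] at h
  exact Finset.mem_image.2 ⟨_, h, (cyr_V_V' L N o u).trans (cyr_sites_red hu)⟩

theorem cyr_row_eq (L : ℕ) (j : ℤ) : sdRow L j = sdSites L j j := by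
  ext u
  rw [cy_mem_row, cy_mem_sites]
  constructor
  · rintro ⟨h1, h2, h3⟩
    exact ⟨h1, h2, h3.ge, h3.le⟩
  · rintro ⟨h1, h2, h3, h4⟩
    exact ⟨h1, h2, le_antisymm h4 h3⟩

theorem cyr_im_row {L : ℕ} (hL : 0 < L) (N o j : ℤ) : (sdRow L j).image (cyrV L N o) = sdRow L (N - j) := by
  rw [cyr_row_eq, cyr_row_eq, cyr_im_sites hL]

theorem cyr_mem_band {L : ℕ} {T : Bool} {c d : ℤ} {y : CyY} : y ∈ cyBand L T c d ↔ y.1 = (if T then CyK.up else CyK.dn) ∧ y.2 ∈ sdCells L c (d + 1) := by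
  unfold cyBand cyT
  rw [Finset.mem_image]
  constructor
  · rintro ⟨u, hu, rfl⟩
    exact ⟨rfl, hu⟩
  · rintro ⟨h1, h2⟩
    exact ⟨y.2, h2, Prod.ext h1.symm rfl⟩

theorem cyr_band_sub {L : ℕ} (hL : 0 < L) (N o : ℤ) (T : Bool) (c d : ℤ) {y : CyY} (hy : y ∈ cyBand L T c d) :
    cyrY L N o y ∈ cyBand L (!T) (N - 1 - d) (N - 1 - c) := by
  obtain ⟨k, z⟩ := y
  obtain ⟨h1, h2⟩ := cyr_mem_band.1 hy
  simp only at h1 h2
  have h := cy_mem_cells.1 h2
  rw [cyr_mem_band]
  cases T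
  · simp only [Bool.false_eq_true, if_false] at h1
    subst h1
    refine ⟨rfl, ?_⟩
    show sdRed L (z.1 + z.2 + o + 1, N - 1 - z.2) ∈ _
    rw [cyr_red_mem_cells hL]
    constructor <;> simp only <;> omega
  · simp only [if_true] at h1
    subst h1
    refine ⟨rfl, ?_⟩
    show sdRed L (z.1 + z.2 + o, N - 1 - z.2) ∈ _
    rw [cyr_red_mem_cells hL]
    constructor <;> simp only <;> omega

theorem cyr_band_red {L : ℕ} {T : Bool} {c d : ℤ} {y : CyY} (hy : y ∈ cyBand L T c d) : CyrRed L y := by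
  have h := cy_mem_cells.1 (cyr_mem_band.1 hy).2
  exact cy_red_self h.1 h.2.1

/-- the reflection of a band of triangles: the class changes, slab `j ↦ N - 1 - j` -/
theorem cyr_im_band {L : ℕ} (hL : 0 < L) (N o : ℤ) (T : Bool) (c d : ℤ) :
    (cyBand L T c d).image (cyrY L N o) = cyBand L (!T) (N - 1 - d) (N - 1 - c) := by
  refine Finset.Subset.antisymm ?_ ?_
  · intro y hy
    obtain ⟨z, hz, rfl⟩ := Finset.mem_image.1 hy
    exact cyr_band_sub hL N o T c d hz
  · intro y hy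
    have h := cyr_band_sub hL N (-N - o) (!T) _ _ hy
    rw [Bool.not_not, sub_sub_cancel, sub_sub_cancel] at h
    exact Finset.mem_image.2 ⟨_, h, cyr_Y_Y'' N o (cyr_band_red hy)⟩

/-- admissible families are reflected to admissible families -/
theorem cyr_val {L : ℕ} (hL : 0 < L) (N o : ℤ) {a b : ℤ} {Q : Finset CyY} (hQ : CyVal L a b Q) : CyVal L (N - b) (N - a) (Q.image (cyrY L N o)) where
  sub := cyr_imQ_sub hL N o hQ.sub
  dis := by
    rintro e he ⟨h1, h2⟩
    have he' := cyr_mem_edges hL N (-N - o) he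
    rw [sub_sub_cancel, sub_sub_cancel] at he'
    have hk := cyr_edge_kind he
    have key : ∀ t : CyY, t ∈ Q.image (cyrY L N o) → cyrY L N (-N - o) t ∈ Q := by
      intro t ht
      obtain ⟨q, hq, rfl⟩ := Finset.mem_image.1 ht
      rw [cyr_Y_Y' N o (cyr_tris_red (hQ.sub hq))]
      exact hq
    refine hQ.dis _ he' ⟨?_, ?_⟩
    · rw [← cyr_Tb L N (-N - o) e hk]
      exact key _ h2
    · rw [← cyr_Ta L N (-N - o) e hk]
      exact key _ h1

/-! ### transport of the status fields -/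

/-- the index of the reflected triangle -/
theorem cyr_T (L : ℕ) (N o : ℤ) (T : Bool) (y : TV) :
    cyT (!T) (sdRed L (cyPhi N (o + if T then 0 else 1) y)) = cyrY L N o (cyT T (sdRed L y)) := by
  cases T
  · show (CyK.up, sdRed L (y.1 + y.2 + (o + 1), N - 1 - y.2)) = (CyK.up, sdRed L ((sdRed L y).1 + (sdRed L y).2 + o + 1, N - 1 - (sdRed L y).2))
    refine Prod.ext rfl (cyr_red_of ?_ rfl)
    refine Int.ModEq.trans ?_ ((((cyr_red_fst L y).add_right y.2).add_right o).add_right 1).symm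
    rw [show y.1 + y.2 + (o + 1) = y.1 + y.2 + o + 1 by ring]
  · show (CyK.dn, sdRed L (y.1 + y.2 + (o + 0), N - 1 - y.2)) = (CyK.dn, sdRed L ((sdRed L y).1 + (sdRed L y).2 + o, N - 1 - (sdRed L y).2))
    refine Prod.ext rfl (cyr_red_of ?_ rfl)
    refine Int.ModEq.trans ?_ (((cyr_red_fst L y).add_right y.2).add_right o).symm
    rw [add_zero]

/-- **transport of the field**: the field of class `!T` of the reflected configuration at the reflected index is the field of class `T` -/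
theorem cyr_fld {L : ℕ} {N o : ℤ} {S S' : ClSys TV CyY} (h : CuIso S S' (cyrV L N o) (cyrY L N o)) (hS : ∀ y ∈ S.C, S.sv y ⊆ S.A)
    (hr : ∀ c ∈ S.C, CyrRed L c) (T : Bool) {ω : ClCfg TV CyY} (hω : ω ∈ S.cfgs) (y : TV) :
    cyFld S' L (!T) (ω.map (cyrV L N o) (cyrY L N o)) (cyPhi N (o + if T then 0 else 1) y) = cyFld S L T ω y := by
  unfold cyFld
  rw [cyr_T]
  have hred : CyrRed L (cyT T (sdRed L y)) := by
    cases T <;> exact cy_red_idem L y
  by_cases hc : cyT T (sdRed L y) ∈ S.C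
  · have hc' : cyrY L N o (cyT T (sdRed L y)) ∈ S'.C := by
      rw [← h.C]
      exact Finset.mem_image_of_mem _ hc
    rw [if_pos hc, if_pos hc', am_iso_tau S S' _ _ h hS ω hω _ hc]
  · have hc' : cyrY L N o (cyT T (sdRed L y)) ∉ S'.C := by
      rw [← h.C]
      intro h'
      obtain ⟨q, hq, e⟩ := Finset.mem_image.1 h'
      exact hc (cyr_Y_inj (hr q hq) hred e ▸ hq)
    rw [if_neg hc, if_neg hc']

theorem cyr_on_iff {N o' : ℤ} {τ τ' : CyF} (h : ∀ y, τ' (cyPhi N o' y) = τ y) (s : SignType) (z : TV) : cyPhi N o' z ∈ cyOn s τ' ↔ z ∈ cyOn s τ := by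
  show τ' (cyPhi N o' z) = s ↔ τ z = s
  rw [h]

/-- reflection of the events, no change of sign -/
theorem cyr_VP_iff {N o' : ℤ} {τ τ' : CyF} (h : ∀ y, τ' (cyPhi N o' y) = τ y) (s : SignType) (c d : ℤ) :
    τ ∈ cyVP s c d ↔ τ' ∈ cyVP s (N - 1 - d) (N - 1 - c) :=
  cy_X_rf_iff N o' (fun z => and_congr (cy_rf_band N o' c d z) (cyr_on_iff h s z)) c d

theorem cyr_Blk_iff {N o' : ℤ} {τ τ' : CyF} (h : ∀ y, τ' (cyPhi N o' y) = τ y) (s : SignType) (c d : ℤ) :
    τ ∈ cyBlk s c d ↔ τ' ∈ cyBlk s (N - 1 - d) (N - 1 - c) :=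
  not_congr (cy_X_rf_iff N o' (fun z => and_congr (cy_rf_band N o' c d z) (not_congr (cyr_on_iff h s z))) c d)

/-! ## 2. a blocked band stops the invasion -/

theorem cyr_sg_iff (t : ℤ) (s : Bool) : cySg t = cySg (clSg s) ↔ t = clSg s := by
  cases s
  · show cySg t = cySg (-1) ↔ t = -1
    unfold cySg
    by_cases h1 : t = 1
    · subst h1; simp
    · by_cases h2 : t = -1
      · subst h2; simp
      · simp [h1, h2]
  · show cySg t = cySg 1 ↔ t = 1
    unfold cySg
    by_cases h1 : t = 1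
    · subst h1; simp
    · by_cases h2 : t = -1
      · subst h2; simp
      · simp [h1, h2]

/-- the rows of the sites of a triangle -/
theorem cyr_tri_rows {L : ℕ} {T : Bool} {z v : TV} (hv : v ∈ cySv L (cyT T z)) : z.2 ≤ v.2 ∧ v.2 ≤ z.2 + 1 := by
  cases T
  · have hv' : v ∈ cySv L (CyK.dn, z) := hv
    rw [cyr_sv_dn] at hv'
    simp only [Finset.mem_insert, Finset.mem_singleton] at hv'
    rcases hv' with rfl | rfl | rfl <;> simp only [cyr_red_snd, Prod.snd_add] <;> omega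
  · have hv' : v ∈ cySv L (CyK.up, z) := hv
    rw [cyr_sv_up] at hv'
    simp only [Finset.mem_insert, Finset.mem_singleton] at hv'
    rcases hv' with rfl | rfl | rfl <;> simp only [cyr_red_snd, Prod.snd_add] <;> omega

/-- the row changes by at most one inside a cell -/
theorem cyr_row_lip (L : ℕ) (c : CyY) {u v : TV} (hu : u ∈ cySv L c) (hv : v ∈ cySv L c) : v.2 ≤ u.2 + 1 := by
  obtain ⟨k, y⟩ := c
  cases k
  · have h1 := cyr_tri_rows (T := true) hu
    have h2 := cyr_tri_rows (T := true) hv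
    omega
  · have h1 := cyr_tri_rows (T := false) hu
    have h2 := cyr_tri_rows (T := false) hv
    omega
  · rw [cyr_sv_eh] at hu hv
    simp only [Finset.mem_insert, Finset.mem_singleton] at hu hv
    rcases hu with rfl | rfl <;> rcases hv with rfl | rfl <;> simp only [cyr_red_snd, Prod.snd_add] <;> omega
  · rw [cyr_sv_ev] at hu hv
    simp only [Finset.mem_insert, Finset.mem_singleton] at hu hv
    rcases hu with rfl | rfl <;> rcases hv with rfl | rfl <;> simp only [cyr_red_snd, Prod.snd_add] <;> omega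
  · rw [cyr_sv_ed] at hu hv
    simp only [Finset.mem_insert, Finset.mem_singleton] at hu hv
    rcases hu with rfl | rfl <;> rcases hv with rfl | rfl <;> simp only [cyr_red_snd, Prod.snd_add] <;> omega
  · simp only [cySv, Finset.mem_insert, Finset.mem_singleton] at hu hv
    rcases hu with rfl | rfl <;> rcases hv with rfl | rfl <;> simp only [cyr_red_snd] <;> omega
  · simp only [cySv, Finset.mem_insert, Finset.mem_singleton] at hu hv
    rcases hu with rfl | rfl <;> rcases hv with rfl | rfl <;> simp only [cyr_red_snd] <;> omega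

/-- the hypothesis on the rows of two sites: a slanted edge of the slabs `c..d` or a horizontal edge of the rows `c+1..d` -/
def CyrIn (c d : ℤ) (v w : TV) : Prop :=
  (v.2 ≠ w.2 ∧ c ≤ v.2 ∧ c ≤ w.2 ∧ v.2 ≤ d + 1 ∧ w.2 ≤ d + 1) ∨ (v.2 = w.2 ∧ c + 1 ≤ v.2 ∧ v.2 ≤ d)

theorem cyr_slab_up {L : ℕ} {c d : ℤ} {z v w : TV} (hv : v ∈ cySv L (CyK.up, z)) (hw : w ∈ cySv L (CyK.up, z)) (hne : v ≠ w) (h : CyrIn c d v w) :
    c ≤ z.2 ∧ z.2 ≤ d := by
  rw [cyr_sv_up] at hv hw
  simp only [Finset.mem_insert, Finset.mem_singleton] at hv hw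
  unfold CyrIn at h
  rcases hv with rfl | rfl | rfl <;> rcases hw with rfl | rfl | rfl <;> simp only [cyr_red_snd, Prod.snd_add] at h <;>
    first | exact absurd rfl hne | omega

theorem cyr_slab_dn {L : ℕ} {c d : ℤ} {z v w : TV} (hv : v ∈ cySv L (CyK.dn, z)) (hw : w ∈ cySv L (CyK.dn, z)) (hne : v ≠ w) (h : CyrIn c d v w) :
    c ≤ z.2 ∧ z.2 ≤ d := by
  rw [cyr_sv_dn] at hv hw
  simp only [Finset.mem_insert, Finset.mem_singleton] at hv hw
  unfold CyrIn at h
  rcases hv with rfl | rfl | rfl <;> rcases hw with rfl | rfl | rfl <;> simp only [cyr_red_snd, Prod.snd_add] at h <;>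
    first | exact absurd rfl hne | omega

theorem cyr_slab_ev {L : ℕ} {c d : ℤ} {z v w : TV} (hv : v ∈ cySv L (CyK.ev, z)) (hw : w ∈ cySv L (CyK.ev, z)) (hne : v ≠ w) (h : CyrIn c d v w) :
    c ≤ z.2 ∧ z.2 ≤ d := by
  rw [cyr_sv_ev] at hv hw
  simp only [Finset.mem_insert, Finset.mem_singleton] at hv hw
  unfold CyrIn at h
  rcases hv with rfl | rfl <;> rcases hw with rfl | rfl <;> simp only [cyr_red_snd, Prod.snd_add] at h <;>
    first | exact absurd rfl hne | omega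

theorem cyr_slab_ed {L : ℕ} {c d : ℤ} {z v w : TV} (hv : v ∈ cySv L (CyK.ed, z)) (hw : w ∈ cySv L (CyK.ed, z)) (hne : v ≠ w) (h : CyrIn c d v w) :
    c ≤ z.2 ∧ z.2 ≤ d := by
  rw [cyr_sv_ed] at hv hw
  simp only [Finset.mem_insert, Finset.mem_singleton] at hv hw
  unfold CyrIn at h
  rcases hv with rfl | rfl <;> rcases hw with rfl | rfl <;> simp only [cyr_red_snd, Prod.snd_add] at h <;>
    first | exact absurd rfl hne | omega

theorem cyr_slab_eh {L : ℕ} {c d : ℤ} {z v w : TV} (hv : v ∈ cySv L (CyK.eh, z)) (hw : w ∈ cySv L (CyK.eh, z)) (hne : v ≠ w) (h : CyrIn c d v w) :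
    c + 1 ≤ z.2 ∧ z.2 ≤ d := by
  rw [cyr_sv_eh] at hv hw
  simp only [Finset.mem_insert, Finset.mem_singleton] at hv hw
  unfold CyrIn at h
  rcases hv with rfl | rfl <;> rcases hw with rfl | rfl <;> simp only [cyr_red_snd, Prod.snd_add] at h <;>
    first | exact absurd rfl hne | omega

/-- **the cells of the ambient inside a selected band are the triangles of the band** -/
theorem cyr_band_cell {x : ℝ} {L : ℕ} (hL : 0 < L) {a b : ℤ} {Q Γ : Finset CyY} (hQ : CyVal L a b Q) {T : Bool} {c d : ℤ}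
    (hb : cyBand L T c d ⊆ Q) (hac : a ≤ c) (hdb : d + 1 ≤ b) {y : CyY} (hy : y ∈ (cyS x L a b Q Γ).C) {v w : TV} (hv : v ∈ cySv L y)
    (hw : w ∈ cySv L y) (hne : v ≠ w) (h : CyrIn c d v w) : y ∈ cyBand L T c d := by
  obtain ⟨k, z⟩ := y
  rcases cy_mem_C.1 hy with hq | ⟨he, hTa, hTb⟩ | hs
  · obtain ⟨hk, hz⟩ := cy_mem_tris.1 (hQ.sub hq)
    simp only at hk hz
    have hz' := cy_mem_cells.1 hz
    rcases hk with rfl | rfl
    · have hs := cyr_slab_up hv hw hne h
      cases T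
      · exfalso
        refine hQ.dis (CyK.ev, z) (cy_mem_edges.2 (Or.inr (Or.inl ⟨rfl, hz⟩))) ⟨hq, hb ?_⟩
        refine cyr_mem_band.2 ⟨rfl, ?_⟩
        show sdRed L (z - (1, 0)) ∈ _
        rw [cyr_red_mem_cells hL]
        constructor <;> simp only [Prod.snd_sub] <;> omega
      · exact cyr_mem_band.2 ⟨rfl, cy_mem_cells.2 ⟨hz'.1, hz'.2.1, hs.1, by simp only; omega⟩⟩
    · have hs := cyr_slab_dn hv hw hne h
      cases T
      · exact cyr_mem_band.2 ⟨rfl, cy_mem_cells.2 ⟨hz'.1, hz'.2.1, hs.1, by simp only; omega⟩⟩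
      · exfalso
        have he : (CyK.ev, sdRed L (z + (1, 0))) ∈ cyEdges L a b := by
          refine cy_mem_edges.2 (Or.inr (Or.inl ⟨rfl, ?_⟩))
          show sdRed L (z + (1, 0)) ∈ _
          rw [cyr_red_mem_cells hL]
          constructor <;> simp only [Prod.snd_add] <;> omega
        refine hQ.dis _ he ⟨hb ?_, ?_⟩
        · refine cyr_mem_band.2 ⟨rfl, ?_⟩
          show sdRed L (z + (1, 0)) ∈ _
          rw [cyr_red_mem_cells hL]
          constructor <;> simp only [Prod.snd_add] <;> omega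
        · show (CyK.dn, sdRed L (sdRed L (z + (1, 0)) - (1, 0))) ∈ Q
          rw [sub_eq_add_neg, cy_red_red, add_neg_cancel_right, cy_red_self hz'.1 hz'.2.1]
          exact hq
  · exfalso
    rcases cy_mem_edges.1 he with ⟨hk, hz⟩ | ⟨hk, hz⟩ | ⟨hk, hz⟩ <;> simp only at hk hz <;> subst hk
    · have hs := cyr_slab_eh hv hw hne h
      have hz' := cy_mem_sites.1 hz
      cases T
      · refine hTb (hb (cyr_mem_band.2 ⟨rfl, ?_⟩))
        show z - (0, 1) ∈ _
        refine cy_mem_cells.2 ⟨?_, ?_, ?_, ?_⟩ <;> simp only [Prod.fst_sub, Prod.snd_sub] <;> omega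
      · refine hTa (hb (cyr_mem_band.2 ⟨rfl, ?_⟩))
        show z ∈ _
        exact cy_mem_cells.2 ⟨hz'.1, hz'.2.1, by omega, by omega⟩
    · have hs := cyr_slab_ev hv hw hne h
      have hz' := cy_mem_cells.1 hz
      cases T
      · refine hTb (hb (cyr_mem_band.2 ⟨rfl, ?_⟩))
        show sdRed L (z - (1, 0)) ∈ _
        rw [cyr_red_mem_cells hL]
        constructor <;> simp only [Prod.snd_sub] <;> omega
      · refine hTa (hb (cyr_mem_band.2 ⟨rfl, ?_⟩))
        show z ∈ _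
        exact cy_mem_cells.2 ⟨hz'.1, hz'.2.1, by omega, by omega⟩
    · have hs := cyr_slab_ed hv hw hne h
      have hz' := cy_mem_cells.1 hz
      cases T
      · refine hTb (hb (cyr_mem_band.2 ⟨rfl, ?_⟩))
        show sdRed L (z - (1, 0)) ∈ _
        rw [cyr_red_mem_cells hL]
        constructor <;> simp only [Prod.snd_sub] <;> omega
      · refine hTa (hb (cyr_mem_band.2 ⟨rfl, ?_⟩))
        show sdRed L (z - (1, 0)) ∈ _
        rw [cyr_red_mem_cells hL]
        constructor <;> simp only [Prod.snd_sub] <;> omega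
  · exfalso
    unfold CyrIn at h
    rcases cy_mem_spokes.1 hs with ⟨hk, hz⟩ | ⟨hk, hz⟩ <;> simp only at hk hz <;> subst hk
    · have hz' := cy_mem_row.1 hz
      simp only [cySv, Finset.mem_insert, Finset.mem_singleton] at hv hw
      rcases hv with rfl | rfl <;> rcases hw with rfl | rfl <;> simp only [cyr_red_snd] at h <;>
        first | exact absurd rfl hne | omega
    · have hz' := cy_mem_row.1 hz
      simp only [cySv, Finset.mem_insert, Finset.mem_singleton] at hv hw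
      rcases hv with rfl | rfl <;> rcases hw with rfl | rfl <;> simp only [cyr_red_snd] at h <;>
        first | exact absurd rfl hne | omega

/-! ### lifting to the cover -/

theorem cyr_lift_aux {L : ℕ} {z z' d₁ d₂ : TV} (h : sdRed L (z + d₁) = sdRed L (z' + d₂)) : sdRed L (z + d₁ - d₂) = sdRed L z' := by
  rw [sub_eq_add_neg, ← cy_red_red, h, cy_red_red, add_neg_cancel_right]

/-- two triangles of one class which share a site of the cylinder have lifts whose indices are equal or adjacent -/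
theorem cyr_lift {L : ℕ} (T : Bool) {z z' v : TV} (h1 : v ∈ cySv L (cyT T (sdRed L z))) (h2 : v ∈ cySv L (cyT T z')) :
    ∃ z'' : TV, sdRed L z'' = sdRed L z' ∧ (z'' = z ∨ triAdj z z'') := by
  cases T
  · have h1' : v ∈ cySv L (CyK.dn, sdRed L z) := h1
    have h2' : v ∈ cySv L (CyK.dn, z') := h2
    rw [cyr_sv_dn] at h1' h2'
    simp only [Finset.mem_insert, Finset.mem_singleton, cy_red_red] at h1' h2'
    rcases h1' with e1 | e1 | e1 <;> rcases h2' with e2 | e2 | e2 <;> refine ⟨_, cyr_lift_aux (e1.symm.trans e2), ?_⟩ <;>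
      (rw [Prod.ext_iff, tsc_adj_iff]; simp only [Prod.fst_add, Prod.snd_add, Prod.fst_sub, Prod.snd_sub]; omega)
  · have h1' : v ∈ cySv L (CyK.up, sdRed L z) := h1
    have h2' : v ∈ cySv L (CyK.up, z') := h2
    rw [cyr_sv_up] at h1' h2'
    simp only [Finset.mem_insert, Finset.mem_singleton, cy_red_red, cy_red_idem] at h1' h2'
    have a0 : ∀ p : TV, sdRed L p = sdRed L (p + (0, 0)) := fun p => by rw [show ((0 : ℤ), (0 : ℤ)) = (0 : TV) from rfl, add_zero]
    rw [a0 z] at h1'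
    rw [a0 z'] at h2'
    rcases h1' with e1 | e1 | e1 <;> rcases h2' with e2 | e2 | e2 <;> refine ⟨_, cyr_lift_aux (e1.symm.trans e2), ?_⟩ <;>
      (rw [Prod.ext_iff, tsc_adj_iff]; simp only [Prod.fst_add, Prod.snd_add, Prod.fst_sub, Prod.snd_sub]; omega)

/-! ### the invasion -/

/-- the standing hypotheses: `S` is a part of a capped ambient in which the band `c..d` of class `T` is selected -/
structure CyrBand (L : ℕ) (T : Bool) (c d : ℤ) (S : ClSys TV CyY) : Prop where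
  L0 : 0 < L
  cd : c ≤ d
  sv : S.sv = cySv L
  amb : ∃ (x : ℝ) (a b : ℤ) (Q Γ : Finset CyY), CyVal L a b Q ∧ cyBand L T c d ⊆ Q ∧ a ≤ c ∧ d + 1 ≤ b ∧ S.C ⊆ (cyS x L a b Q Γ).C

theorem cyr_band_amb {x : ℝ} {L : ℕ} (hL : 0 < L) {a b : ℤ} {Q : Finset CyY} (Γ : Finset CyY) (hQ : CyVal L a b Q) {T : Bool} {c d : ℤ} (hcd : c ≤ d)
    (hb : cyBand L T c d ⊆ Q) (hac : a ≤ c) (hdb : d + 1 ≤ b) : CyrBand L T c d (cyS x L a b Q Γ) :=
  ⟨hL, hcd, rfl, x, a, b, Q, Γ, hQ, hb, hac, hdb, Finset.Subset.refl _⟩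

theorem cyr_band_inn {L : ℕ} {T : Bool} {c d : ℤ} {S : ClSys TV CyY} (h : CyrBand L T c d S) (I : Finset TV) : CyrBand L T c d (S.inn I) := by
  obtain ⟨x, a, b, Q, Γ, h1, h2, h3, h4, h5⟩ := h.amb
  exact ⟨h.L0, h.cd, h.sv, x, a, b, Q, Γ, h1, h2, h3, h4, (Finset.filter_subset _ _).trans h5⟩

/-- a cell of `S` which is not open of sign `s` and lies in the band: all the lifts of its index are in the set of the crossing -/
theorem cyr_mem_X {L : ℕ} {T : Bool} {c d : ℤ} {S : ClSys TV CyY} {s : Bool} {ω : ClCfg TV CyY} {y : CyY} (hy : y ∈ S.C)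
    (hyb : y ∈ cyBand L T c d) (hτ : clTau S ω y ≠ clSg s) {z : TV} (hz : sdRed L z = y.2) :
    z ∈ plsBand c d \ cyOn (cySg (clSg s)) (cyFld S L T ω) ∧ y = cyT T (sdRed L z) := by
  obtain ⟨h1, h2⟩ := cyr_mem_band.1 hyb
  have h3 := cy_mem_cells.1 h2
  have e : y = cyT T (sdRed L z) := by
    rw [hz]
    exact Prod.ext h1 rfl
  have hz2 : z.2 = y.2.2 := by rw [← hz]; rfl
  refine ⟨⟨⟨by rw [hz2]; exact h3.2.2.1, by rw [hz2]; omega⟩, ?_⟩, e⟩
  intro h
  have h' : cyFld S L T ω z = cySg (clSg s) := h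
  unfold cyFld at h'
  rw [← e, if_pos hy, cyr_sg_iff] at h'
  exact hτ h'

/-- **a blocked band stops the invasion**: if the cells of class `T` and sign `s` block the band of slabs `c..d`, the invasion (through the cells which are not open of sign `s`) from the rows `≤ c` stays in the rows `≤ d` -/
theorem cyr_blk_rows {L : ℕ} {T : Bool} {c d : ℤ} {S : ClSys TV CyY} (hS : CyrBand L T c d S) (s : Bool) (E : Finset (TV × TV))
    (hE : ∀ e ∈ E, (e.1.2 ≤ c ∧ e.2.2 ≤ c) ∨ (d < e.1.2 ∧ d < e.2.2)) (ω : ClCfg TV CyY)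
    (hblk : cyFld S L T ω ∈ cyBlk (cySg (clSg s)) c d) {u v : TV} (hu : u.2 ≤ c) (h : ReflTransGen (clStep S s E ω) u v) : v.2 ≤ d := by
  obtain ⟨x, a, b, Q, Γ, hQ, hb, hac, hdb, hC⟩ := hS.amb
  have hL := hS.L0
  have hcd := hS.cd
  set X : Set TV := plsBand c d \ cyOn (cySg (clSg s)) (cyFld S L T ω) with hX
  have key : v.2 ≤ c ∨ (c < v.2 ∧ v.2 ≤ d ∧ ∃ z₀ z : TV, z₀ ∈ X ∧ z₀.2 = c ∧ TscR tscG X z₀ z ∧ v ∈ cySv L (cyT T (sdRed L z))) := by
    -- closing a step: the new site lies in a cell of the set `X` joined to the bottom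
    have close : ∀ (w z₀ z : TV), c < w.2 → z₀ ∈ X → z₀.2 = c → TscR tscG X z₀ z → w ∈ cySv L (cyT T (sdRed L z)) →
        (c < w.2 ∧ w.2 ≤ d ∧ ∃ z₀ z : TV, z₀ ∈ X ∧ z₀.2 = c ∧ TscR tscG X z₀ z ∧ w ∈ cySv L (cyT T (sdRed L z))) := by
      intro w z₀ z hw hz₀ hz₀c hR hwz
      refine ⟨hw, ?_, z₀, z, hz₀, hz₀c, hR, hwz⟩
      by_contra hcon
      have hzX : z ∈ X := tsc_R_mem hR hz₀
      have hr := cyr_tri_rows hwz
      have hz2 : z.2 ≤ d := hzX.1.2
      have hr2 : w.2 ≤ z.2 + 1 := hr.2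
      exact hblk ⟨z₀, z, hz₀, hz₀c, by omega, hR⟩
    induction h with
    | refl => exact Or.inl hu
    | @tail v w _ hstep ih =>
      rcases hstep with ⟨y, hy, hvy, hwy, hτ⟩ | he | he
      · rw [hS.sv] at hvy hwy
        have hlip := cyr_row_lip L y hvy hwy
        by_cases hwc : w.2 ≤ c
        · exact Or.inl hwc
        · right
          rcases ih with h1 | ⟨h1, h2, z₀, z, hz₀, hz₀c, hR, hvz⟩
          · -- entering the band
            have hne : v ≠ w := fun e => hwc (e ▸ h1)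
            have hyb := cyr_band_cell (x := x) (Γ := Γ) hL hQ hb hac hdb (hC hy) hvy hwy hne (Or.inl ⟨by omega, by omega, by omega, by omega, by omega⟩)
            have hred : sdRed L y.2 = y.2 := by
              have h3 := cy_mem_cells.1 (cyr_mem_band.1 hyb).2
              exact cy_red_self h3.1 h3.2.1
            obtain ⟨hzX, e⟩ := cyr_mem_X hy hyb hτ hred
            have hrv := cyr_tri_rows (e ▸ hvy)
            have hrw := cyr_tri_rows (e ▸ hwy)
            have hr1 : (sdRed L y.2).2 = y.2.2 := rfl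
            refine close w y.2 y.2 (by omega) hzX ?_ (tsc_R_refl _) (e ▸ hwy)
            have := hzX.1.1
            omega
          · by_cases hne : v = w
            · subst hne
              exact ⟨h1, h2, z₀, z, hz₀, hz₀c, hR, hvz⟩
            · have hin : CyrIn c d v w := by
                unfold CyrIn
                by_cases hr : v.2 = w.2
                · exact Or.inr ⟨hr, by omega, h2⟩
                · exact Or.inl ⟨hr, by omega, by omega, by omega, by omega⟩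
              have hyb := cyr_band_cell (x := x) (Γ := Γ) hL hQ hb hac hdb (hC hy) hvy hwy hne hin
              have ey : y = cyT T y.2 := Prod.ext (cyr_mem_band.1 hyb).1 rfl
              obtain ⟨z'', hz'', hadj⟩ := cyr_lift T hvz (ey ▸ hvy)
              have hred : sdRed L y.2 = y.2 := by
                have h3 := cy_mem_cells.1 (cyr_mem_band.1 hyb).2
                exact cy_red_self h3.1 h3.2.1
              obtain ⟨hzX, e⟩ := cyr_mem_X hy hyb hτ (hz''.trans hred)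
              refine close w z₀ z'' (by omega) hz₀ hz₀c ?_ (e ▸ hwy)
              rcases hadj with rfl | hadj
              · exact hR
              · exact hR.tail ⟨hadj, tsc_R_mem hR hz₀, hzX⟩
      · rcases hE _ he with ⟨e1, e2⟩ | ⟨e1, e2⟩
        · exact Or.inl e2
        · exfalso
          simp only at e1
          rcases ih with h1 | ⟨_, h2, _⟩ <;> omega
      · rcases hE _ he with ⟨e1, e2⟩ | ⟨e1, e2⟩
        · exact Or.inl e1
        · exfalso
          simp only at e2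
          rcases ih with h1 | ⟨_, h2, _⟩ <;> omega
  rcases key with h1 | ⟨_, h2, _⟩
  · omega
  · exact h2

/-- separation form -/
theorem cyr_blk_sep {L : ℕ} {T : Bool} {c d : ℤ} {S : ClSys TV CyY} (hS : CyrBand L T c d S) (s : Bool) (E : Finset (TV × TV))
    (hE : ∀ e ∈ E, (e.1.2 ≤ c ∧ e.2.2 ≤ c) ∨ (d < e.1.2 ∧ d < e.2.2)) (ω : ClCfg TV CyY)
    (hblk : cyFld S L T ω ∈ cyBlk (cySg (clSg s)) c d) (O A : Finset TV) (hO : ∀ u ∈ O, u.2 ≤ c) (hA : ∀ v ∈ A, d < v.2) : ClSep S s E ω O A := by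
  intro u hu v hv h
  have := cyr_blk_rows hS s E hE ω hblk (hO u hu) h
  have := hA v hv
  omega

/-- the invaded set -/
theorem cyr_blk_inv {L : ℕ} {T : Bool} {c d : ℤ} {S : ClSys TV CyY} (hS : CyrBand L T c d S) (s : Bool) (E : Finset (TV × TV))
    (hE : ∀ e ∈ E, (e.1.2 ≤ c ∧ e.2.2 ≤ c) ∨ (d < e.1.2 ∧ d < e.2.2)) (ω : ClCfg TV CyY)
    (hblk : cyFld S L T ω ∈ cyBlk (cySg (clSg s)) c d) (O : Finset TV) (hO : ∀ u ∈ O, u.2 ≤ c) : ∀ v ∈ clInv S s E ω O, v.2 ≤ d := by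
  intro v hv
  classical
  unfold clInv at hv
  obtain ⟨_, u, hu, h⟩ := Finset.mem_filter.1 hv
  exact cyr_blk_rows hS s E hE ω hblk (hO u hu) h

theorem cyr_sg_true : cySg (clSg true) = 1 := rfl
theorem cyr_sg_false : cySg (clSg false) = -1 := rfl

/-- the equation lemmas of the definitions of this file are generated HERE -/
theorem cyr_defs_eqns_cite : True := by
  have := @cyrV.eq_1
  have := @cyrY.eq_1
  have := @CyrRed.eq_1
  have := @CyrIn.eq_1
  trivial

end Claimed.Agent.R291
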