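import Claimed.Agent.R291.Ann.ModelS
import Claimed.Agent.R291.Ann.CylPair

/-!
# Row 291 (S0539), Ann/ModelW : A0, RE-AUGMENTATION, NEUTRALISED CELLS, ONE WHITE CUT, SEARCH IN THE TWO-COLOUR LAW      (owner + architect helper22; prefix `amw_` / `Amw` / `amw`)

TEX[annulus:ambient] ("unused augmentations are marginalized"), TEX[annulus:one-white], TEX[annulus:slide] (annulus:slide-white), TEX[annulus:search] ("with the colors interchanged when necessary").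
Abstract tools asked by the LAW side of A4 (5, 147): any `ClSys`; the cylinder enters only through `ClDisk (cyS ..)` (160) and the choice of the cell family.

* (a) MARG / RE-AUGMENTATION = `cp_rc` of `Ann/CylPair` (147): two systems with the same sites, the same READ cells and equal pair weights of the unread parts have the same sums.   NOT retyped here
* (b) `S.neu Γ` the cells of `Γ` NEUTRALISED (parameter `1`);   `amw_neutB`: "observed open of sign `s`" = "neutralised + first spin `s` on the sites", up to the constant `∏ q`;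
      `CuPinW s T ω` the SECOND spin equals `s` on `T`;   **`cuEM S σ s ΓW I K F`** the law in `I` behind crossing cells of two kinds: `ΓW` (white cut: `W = s` on their sites) and the others (open of the sign `σ`: `B = σ` on their sites);
      **`amw_cutM`** MASTER FORMULA for both kinds (`ΓW = ∅`: `ams_cut`; `ΓW = S.cx I`: NEUT-W of 5)
* (c) **`amw_lbl`** exact label lemma, both signs (from `cp_lbl` of 147 + `am_flipW_N`): one tied connected set, no other label: `N(K) F = 2 N(K + label) F`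
* ONE WHITE: `K.tie S Γ` (ties inside the cells of `Γ`), `amw_hist` (the law `cuEM` is the law of the LEGAL history `(K.opnS ..).tie S ΓW` of the ambient system), `amw_fkg`, `amw_order`, `amw_dom_plus` (= (annulus:slide-white))
* (d) `CuIn2P`, **`amw_search2`** search of the colour `c` in the two-colour law, tests read both statuses;   (e) `amw_E2_fst`: the white cut law read in the first colour is `cuEM` with `ΓW = S.cx I`
-/

set_option autoImplicit false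
set_option linter.unusedSectionVars false
set_option linter.unusedVariables false

namespace Claimed.Agent.R291

open Relation Claims Claims.C0467

section abstract

variable {V Y : Type} [DecidableEq V] [DecidableEq Y]

/-! ## (a) marginals and re-augmentation: `cp_rc`, `cp_rc_E`, `S.pw`, `cp_sum_part` of `Ann/CylPair` (147) -/

/-! ## (b) neutralised cells -/

/-- the cells of `Γ` neutralised: parameter `1` -/
def ClSys.neu (S : ClSys V Y) (Γ : Finset Y) : ClSys V Y := ⟨S.A, S.C, S.sv, fun y => if y ∈ Γ then 1 else S.q y⟩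

theorem amw_neu_ok (S : ClSys V Y) (hS : ClOk S) (Γ : Finset Y) : ClOk (S.neu Γ) := by
  refine ⟨hS.sub, hS.ne, fun y hy => ?_, fun y hy => ?_⟩
  · show 0 < (if y ∈ Γ then 1 else S.q y)
    split_ifs
    · exact one_pos
    · exact hS.q0 y hy
  · show (if y ∈ Γ then 1 else S.q y) ≤ 1
    split_ifs
    · exact le_rfl
    · exact hS.q1 y hy

theorem amw_neu_disk (S : ClSys V Y) (hS : ClDisk S) (Γ : Finset Y) : ClDisk (S.neu Γ) := by
  exact { amw_neu_ok S hS.toClOk Γ with card := hS.card, conn := hS.conn, split := hS.split }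

theorem amw_mem_of_inter {α : Type} [DecidableEq α] {a b T : Finset α} (h : a ∩ T = b ∩ T) {v : α} (hv : v ∈ T) : v ∈ a ↔ v ∈ b := by
  have := Finset.ext_iff.1 h v
  simp only [Finset.mem_inter, hv, and_true] at this
  exact this

/-- the cells of `Γ` removed -/
def amwDel (S : ClSys V Y) (Γ : Finset Y) : ClSys V Y := ⟨S.A, S.C \ Γ, S.sv, S.q⟩

/-- the table of a cell depends on the truth value of "open" only -/
theorem amw_cellW_congr (q : ℝ) (bc wc o o' : Prop) [Decidable bc] [Decidable wc] {d : Decidable o} {d' : Decidable o'} (h : o ↔ o') :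
    @clCellW q bc wc o _ _ d = @clCellW q bc wc o' _ _ d' := by
  unfold clCellW
  by_cases ho : o
  · rw [if_pos ho, if_pos (h.1 ho)]
  · rw [if_neg ho, if_neg (fun h' => ho (h.2 h'))]

/-- **NEUT** (first colour): "the cells of `Γ` are open of sign `s`" = "neutralised, first spin `s` on their sites", for everything which does not read their statuses -/
theorem amw_neutB (S : ClSys V Y) (hS : ClOk S) (s : Bool) (Γ : Finset Y) (hΓ : Γ ⊆ S.C) (K : ClCfg V Y → Prop) (F : ClCfg V Y → ℝ)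
    (hK : ClLocP S.A (S.C \ Γ) K) (hF : ClLoc S.A (S.C \ Γ) F) :
    S.N (fun ω => (∀ y ∈ Γ, clTau S ω y = clSg s) ∧ K ω) F = (∏ y ∈ Γ, S.q y) * (S.neu Γ).N (fun ω => CuPin s (Γ.biUnion S.sv) ω ∧ K ω) F := by
  classical
  have hne : ∀ y ∈ Γ, (S.sv y).Nonempty := fun y hy => hS.ne y (hΓ hy)
  have hTA : Γ.biUnion S.sv ⊆ S.A := fun v hv => by
    obtain ⟨y, hy, hvy⟩ := Finset.mem_biUnion.1 hv
    exact hS.sub y (hΓ hy) hvy
  have hbc : ∀ ω : ClCfg V Y, CuPin s (Γ.biUnion S.sv) ω → ∀ y ∈ Γ, ClConst ω.B (S.sv y) := by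
    intro ω h y hy
    cases s
    · exact Or.inr fun v hv hvB => by simpa using (h v (Finset.mem_biUnion.2 ⟨y, hy, hv⟩)).1 hvB
    · exact Or.inl fun v hv => (h v (Finset.mem_biUnion.2 ⟨y, hy, hv⟩)).2 rfl
  -- right side: the neutral cells are removed
  have hR : (S.neu Γ).N (fun ω => CuPin s (Γ.biUnion S.sv) ω ∧ K ω) F = (amwDel S Γ).N (fun ω => CuPin s (Γ.biUnion S.sv) ω ∧ K ω) F := by
    refine cp_rc (S.neu Γ) (amwDel S Γ) rfl (S.C \ Γ) Finset.sdiff_subset (Finset.Subset.refl _) (fun _ _ => rfl)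
      (fun y hy => if_neg (Finset.mem_sdiff.1 hy).2) _ F ?_ hF ?_
    · intro ω ω' h1 h2 h3
      refine and_congr ?_ (hK ω ω' h1 h2 h3)
      unfold CuPin
      exact forall_congr' fun v => forall_congr' fun hv => by rw [amw_mem_of_inter h1 (hTA hv)]
    · intro ω _ _ hω
      have e2 : (amwDel S Γ).C \ (S.C \ Γ) = ∅ := Finset.sdiff_self _
      have e1 : (S.neu Γ).C \ (S.C \ Γ) = Γ := Finset.sdiff_sdiff_eq_self hΓ
      rw [e2, Finset.prod_empty, e1]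
      refine Finset.prod_eq_one fun y hy => ?_
      have hb : ClConst ω.B (S.sv y) := hbc ω hω.1 y hy
      show clPw (if y ∈ Γ then 1 else S.q y) (ClConst ω.B (S.sv y)) (ClConst ω.W (S.sv y)) = 1
      rw [if_pos hy]
      unfold clPw
      rw [if_pos hb]
      split_ifs <;> rfl
  rw [hR, dam_N_congr S (fun ω _ hw => and_congr (dam_cut_tau hΓ hne s hw) Iff.rfl) F]
  unfold ClSys.N
  rw [cl_sum_cfgs, cl_sum_cfgs, Finset.mul_sum]
  refine Finset.sum_congr rfl fun B _ => ?_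
  rw [Finset.mul_sum]
  refine Finset.sum_congr rfl fun W _ => ?_
  rw [am_sum_powerset_split S.C Γ hΓ, Finset.mul_sum]
  refine Finset.sum_congr rfl fun O₁ hO₁ => ?_
  have h1 : O₁ ⊆ S.C \ Γ := Finset.mem_powerset.1 hO₁
  rw [Finset.sum_eq_single Γ]
  · have eO : (O₁ ∪ Γ) ∩ (S.C \ Γ) = O₁ ∩ (S.C \ Γ) := by
      ext y
      simp only [Finset.mem_inter, Finset.mem_union, Finset.mem_sdiff]
      tauto
    have eK : K ⟨B, W, O₁ ∪ Γ⟩ ↔ K ⟨B, W, O₁⟩ := hK _ _ rfl rfl eO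
    have eF : F ⟨B, W, O₁ ∪ Γ⟩ = F ⟨B, W, O₁⟩ := hF _ _ rfl rfl eO
    have eD : DamCut S Γ s ⟨B, W, O₁ ∪ Γ⟩ ↔ CuPin s (Γ.biUnion S.sv) (⟨B, W, O₁⟩ : ClCfg V Y) :=
      ⟨fun h v hv => by
        obtain ⟨y, hy, hvy⟩ := Finset.mem_biUnion.1 hv
        exact (h y hy).2 v hvy,
       fun h y hy => ⟨Finset.mem_union_right _ hy, fun v hv => h v (Finset.mem_biUnion.2 ⟨y, hy, hv⟩)⟩⟩
    by_cases hc : CuPin s (Γ.biUnion S.sv) (⟨B, W, O₁⟩ : ClCfg V Y) ∧ K ⟨B, W, O₁⟩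
    · rw [if_pos hc, if_pos ⟨eD.2 hc.1, eK.2 hc.2⟩, eF]
      have hw : S.wt ⟨B, W, O₁ ∪ Γ⟩ = (∏ y ∈ Γ, S.q y) * (amwDel S Γ).wt ⟨B, W, O₁⟩ := by
        unfold ClSys.wt
        rw [← Finset.prod_sdiff hΓ, mul_comm]
        congr 1
        · refine Finset.prod_congr rfl fun y hy => ?_
          have hb : ClConst B (S.sv y) := hbc ⟨B, W, O₁⟩ hc.1 y hy
          unfold clCellW
          rw [if_pos (Finset.mem_union_right _ hy), if_pos hb]
        · refine Finset.prod_congr rfl fun y hy => amw_cellW_congr _ _ _ _ _ ?_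
          show y ∈ O₁ ∪ Γ ↔ y ∈ O₁
          rw [Finset.mem_union]
          exact ⟨fun hh => hh.elim id fun h3 => absurd h3 (Finset.mem_sdiff.1 hy).2, Or.inl⟩
      rw [hw]
      ring
    · rw [if_neg hc, if_neg (fun h => hc ⟨eD.1 h.1, eK.1 h.2⟩), mul_zero]
  · intro O₂ hO₂ hne2
    refine if_neg fun h => hne2 ?_
    have h2 := Finset.mem_powerset.1 hO₂
    refine Finset.Subset.antisymm h2 fun y hy => ?_
    rcases Finset.mem_union.1 (h.1 y hy).1 with h3 | h3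
    · exact absurd hy (Finset.mem_sdiff.1 (h1 h3)).2
    · exact h3
  · intro h
    exact absurd (Finset.mem_powerset.2 (Finset.Subset.refl _)) h

/-- the second spin equals `s` on `T` -/
def CuPinW (s : Bool) (T : Finset V) (ω : ClCfg V Y) : Prop := ∀ v ∈ T, (v ∈ ω.W ↔ s = true)

/-- **the law in `I` behind crossing cells of two kinds**: `W = s` on the sites of the white cut cells `ΓW`, `B = σ` on the sites of the other crossing cells -/
noncomputable def cuEM (S : ClSys V Y) (σ : V → Bool) (s : Bool) (ΓW : Finset Y) (I : Finset V) (K : ClCfg V Y → Prop) (F : ClCfg V Y → ℝ) : ℝ :=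
  (S.inn I).E (fun ω => CuPinS σ (((S.cx I \ ΓW).biUnion S.sv) ∩ I) ω ∧ CuPinW s ((ΓW.biUnion S.sv) ∩ I) ω ∧ K ω) F

/-- the ambient event of `cuEM` -/
def AmwCut (S : ClSys V Y) (σ : V → Bool) (s : Bool) (ΓW : Finset Y) (I : Finset V) (ω : ClCfg V Y) : Prop :=
  (∀ y ∈ S.cx I \ ΓW, ∀ v ∈ S.sv y, clTau S ω y = clSg (σ v)) ∧ CuPinW s (ΓW.biUnion S.sv) ω

/-- the layer = the sites of the crossing cells inside `I` -/
theorem amw_lay_eq (S : ClSys V Y) (I : Finset V) : ((S.cx I).biUnion S.sv) ∩ I = cuLay S I := by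
  ext u
  rw [Finset.mem_inter, Finset.mem_biUnion, am_mem_lay]
  constructor
  · rintro ⟨⟨y, hy, huy⟩, huI⟩
    obtain ⟨hyC, -, v, hv, hvI⟩ := Finset.mem_filter.1 hy
    exact ⟨huI, y, hyC, huy, fun h => hvI (h hv)⟩
  · rintro ⟨huI, y, hyC, huy, hn⟩
    obtain ⟨v, hv, hvI⟩ := Finset.not_subset.1 hn
    exact ⟨⟨y, Finset.mem_filter.2 ⟨hyC, ⟨u, huy, huI⟩, v, hv, hvI⟩, huy⟩, huI⟩

/-- no white cut: `cuEM` is `cuES` -/
theorem amw_cuEM_empty (S : ClSys V Y) (σ : V → Bool) (s : Bool) (I : Finset V) (K : ClCfg V Y → Prop) (F : ClCfg V Y → ℝ) :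
    cuEM S σ s ∅ I K F = cuES S σ I K F := by
  unfold cuEM cuES
  congr 1
  funext ω
  apply propext
  rw [Finset.sdiff_empty, amw_lay_eq]
  constructor
  · rintro ⟨h1, -, h3⟩
    exact ⟨h1, h3⟩
  · rintro ⟨h1, h3⟩
    exact ⟨h1, fun v hv => by simp at hv, h3⟩

/-- `cuEM` does not see the parameters of the cells which are not inside `I` -/
theorem amw_cuEM_neu (S : ClSys V Y) (Γ : Finset Y) (σ : V → Bool) (s : Bool) (ΓW : Finset Y) (I : Finset V) (hΓ : Disjoint Γ (S.cin I))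
    (K : ClCfg V Y → Prop) (F : ClCfg V Y → ℝ) : cuEM (S.neu Γ) σ s ΓW I K F = cuEM S σ s ΓW I K F := by
  unfold cuEM
  refine am_sys_E_congr ((S.neu Γ).inn I) (S.inn I) rfl rfl (fun _ _ => rfl) (fun y hy => ?_) _ F
  show (if y ∈ Γ then 1 else S.q y) = S.q y
  rw [if_neg fun h => Finset.disjoint_left.1 hΓ h hy]

theorem amw_locP_mono {T U : Finset V} {T' U' : Finset Y} {K : ClCfg V Y → Prop} (hT : T ⊆ U) (hT' : T' ⊆ U') (hK : ClLocP T T' K) :
    ClLocP U U' K :=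
  fun ω ω' h1 h2 h3 => hK ω ω' (dde_inter_mono hT h1) (dde_inter_mono hT h2) (dde_inter_mono hT' h3)

theorem amw_pinW_loc (s : Bool) {T U : Finset V} (hT : T ⊆ U) (U' : Finset Y) : ClLocP U U' (CuPinW (Y := Y) s T) := by
  intro ω ω' _ h2 _
  unfold CuPinW
  exact forall_congr' fun v => forall_congr' fun hv => by rw [amw_mem_of_inter h2 (hT hv)]

/-- the status of a cell is read on its sites and on the cell -/
theorem amw_tau_loc (S : ClSys V Y) {U : Finset V} {U' : Finset Y} {y : Y} (hy : S.sv y ⊆ U) (hy' : y ∈ U') {ω ω' : ClCfg V Y}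
    (h1 : ω.B ∩ U = ω'.B ∩ U) (h3 : ω.O ∩ U' = ω'.O ∩ U') : clTau S ω y = clTau S ω' y := by
  unfold clTau
  have e1 : y ∈ ω.O ↔ y ∈ ω'.O := amw_mem_of_inter h3 hy'
  have e2 : S.sv y ⊆ ω.B ↔ S.sv y ⊆ ω'.B :=
    ⟨fun h v hv => (amw_mem_of_inter h1 (hy hv)).1 (h hv), fun h v hv => (amw_mem_of_inter h1 (hy hv)).2 (h hv)⟩
  simp only [e1, e2]

/-- neutral cells on which the constraint forces `W` constant may be removed, if nobody reads their statuses -/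
theorem amw_del_N (S : ClSys V Y) (Γ : Finset Y) (hΓ : Γ ⊆ S.C) (hq : ∀ y ∈ Γ, S.q y = 1) (K : ClCfg V Y → Prop) (F : ClCfg V Y → ℝ)
    (hK : ClLocP S.A (S.C \ Γ) K) (hF : ClLoc S.A (S.C \ Γ) F) (hc : ∀ ω, K ω → ∀ y ∈ Γ, ClConst ω.W (S.sv y)) :
    S.N K F = (amwDel S Γ).N K F := by
  refine cp_rc S (amwDel S Γ) rfl (S.C \ Γ) Finset.sdiff_subset (Finset.Subset.refl _) (fun _ _ => rfl) (fun _ _ => rfl) K F hK hF ?_
  intro ω _ _ hω
  have e2 : (amwDel S Γ).C \ (S.C \ Γ) = ∅ := Finset.sdiff_self _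
  rw [e2, Finset.prod_empty, Finset.sdiff_sdiff_eq_self hΓ]
  refine Finset.prod_eq_one fun y hy => ?_
  unfold ClSys.pw
  rw [hq y hy]
  exact cp_pw_neutral _ _ (hc ω hω y hy)

/-- **MASTER PRODUCT FORMULA, two kinds of crossing cells**.   The white cut cells have the parameter `1`; nobody reads the statuses of the crossing cells.
PLAN: sum out the statuses of the cells of `ΓW` (with `W` constant and `q = 1` the sum is `1` for every `B`: `am_powerset_marg` of 26), then the swap of `ams_cut`.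
OR: `amw_neutB` (σ-version) for the cells of `S.cx I \ ΓW`, then `cp_neutW` of 147 with `hc` weakened to "`W` or `B` constant on every crossing cell" (`clPw 1 bc wc = 1` if `bc ∨ wc`). -/
theorem amw_cutM (S : ClSys V Y) (hS : ClOk S) (σ : V → Bool) (s : Bool) (I : Finset V) (hI : I ⊆ S.A) (ΓW : Finset Y) (hΓ : ΓW ⊆ S.cx I)
    (hq : ∀ y ∈ ΓW, S.q y = 1) (Kin Kout : ClCfg V Y → Prop) (hin : ClLocP I (S.cin I) Kin) (hout : ClLocP (S.A \ I) (S.cout I) Kout)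
    (F G : ClCfg V Y → ℝ) (hF : ClLoc I (S.cin I) F) (hG : ClLoc (S.A \ I) (S.cout I) G) :
    S.N (fun ω => AmwCut S σ s ΓW I ω ∧ Kin ω ∧ Kout ω) (fun ω => G ω * F ω) =
      S.N (fun ω => AmwCut S σ s ΓW I ω ∧ Kin ω ∧ Kout ω) G * cuEM S σ s ΓW I Kin F := by
  classical
  have hΓC : ΓW ⊆ S.C := fun y hy => (Finset.mem_filter.1 (hΓ hy)).1
  have hok : ClOk (amwDel S ΓW) :=
    ⟨fun y hy => hS.sub y (Finset.mem_sdiff.1 hy).1, fun y hy => hS.ne y (Finset.mem_sdiff.1 hy).1,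
      fun y hy => hS.q0 y (Finset.mem_sdiff.1 hy).1, fun y hy => hS.q1 y (Finset.mem_sdiff.1 hy).1⟩
  have hcin : (amwDel S ΓW).cin I = S.cin I := by
    ext y
    rw [am_mem_cin, am_mem_cin]
    constructor
    · rintro ⟨h1, h2⟩
      exact ⟨(Finset.mem_sdiff.1 h1).1, h2⟩
    · rintro ⟨h1, h2⟩
      refine ⟨Finset.mem_sdiff.2 ⟨h1, fun hy => ?_⟩, h2⟩
      obtain ⟨-, -, v, hv, hvI⟩ := Finset.mem_filter.1 (hΓ hy)
      exact hvI (h2 hv)
  have hcout : (amwDel S ΓW).cout I = S.cout I := by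
    ext y
    rw [am_mem_cout, am_mem_cout]
    constructor
    · rintro ⟨h1, h2⟩
      exact ⟨(Finset.mem_sdiff.1 h1).1, h2⟩
    · rintro ⟨h1, h2⟩
      exact ⟨Finset.mem_sdiff.2 ⟨h1, fun hy => h2.2 (Finset.mem_filter.1 (hΓ hy)).2⟩, h2⟩
  have hcx : (amwDel S ΓW).cx I = S.cx I \ ΓW := by
    ext y
    show y ∈ (S.C \ ΓW).filter (clCross S I) ↔ y ∈ S.C.filter (clCross S I) \ ΓW
    simp only [Finset.mem_filter, Finset.mem_sdiff]
    tauto
  have hinn : (amwDel S ΓW).inn I = S.inn I := by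
    show (⟨I, (amwDel S ΓW).cin I, S.sv, S.q⟩ : ClSys V Y) = ⟨I, S.cin I, S.sv, S.q⟩
    rw [hcin]
  have hlay : cuLay (amwDel S ΓW) I = ((S.cx I \ ΓW).biUnion S.sv) ∩ I := by
    rw [← amw_lay_eq (amwDel S ΓW) I, hcx]
    rfl
  have hTA : ΓW.biUnion S.sv ⊆ S.A := fun v hv => by
    obtain ⟨y, hy, hvy⟩ := Finset.mem_biUnion.1 hv
    exact hS.sub y (hΓC hy) hvy
  have hcinsub : S.cin I ⊆ S.C \ ΓW := hcin ▸ Finset.filter_subset _ _
  have hcoutsub : S.cout I ⊆ S.C \ ΓW := hcout ▸ Finset.filter_subset _ _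
  -- the event in the system without the white cut cells
  have hev : (fun ω => AmwCut S σ s ΓW I ω ∧ Kin ω ∧ Kout ω) = fun ω => ClCutS (amwDel S ΓW) σ I ω ∧
      (CuPinW s ((ΓW.biUnion S.sv) ∩ I) ω ∧ Kin ω) ∧ (CuPinW s ((ΓW.biUnion S.sv) \ I) ω ∧ Kout ω) := by
    funext ω
    apply propext
    have e1 : (∀ y ∈ S.cx I \ ΓW, ∀ v ∈ S.sv y, clTau S ω y = clSg (σ v)) ↔ ClCutS (amwDel S ΓW) σ I ω := by
      constructor
      · intro h y hy hc
        exact h y (hcx ▸ Finset.mem_filter.2 ⟨hy, hc⟩)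
      · intro h y hy
        have hy' := Finset.mem_filter.1 (hcx ▸ hy : y ∈ (amwDel S ΓW).cx I)
        exact h y hy'.1 hy'.2
    have e2 : CuPinW s (ΓW.biUnion S.sv) ω ↔ CuPinW s ((ΓW.biUnion S.sv) ∩ I) ω ∧ CuPinW s ((ΓW.biUnion S.sv) \ I) ω := by
      constructor
      · intro h
        exact ⟨fun v hv => h v (Finset.mem_inter.1 hv).1, fun v hv => h v (Finset.mem_sdiff.1 hv).1⟩
      · rintro ⟨h1, h2⟩ v hv
        by_cases hvI : v ∈ I
        · exact h1 v (Finset.mem_inter.2 ⟨hv, hvI⟩)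
        · exact h2 v (Finset.mem_sdiff.2 ⟨hv, hvI⟩)
    unfold AmwCut
    rw [e1, e2]
    tauto
  -- locality
  have hKa : ClLocP S.A (S.C \ ΓW) (fun ω => AmwCut S σ s ΓW I ω ∧ Kin ω ∧ Kout ω) := by
    intro ω ω' h1 h2 h3
    refine and_congr (and_congr ?_ (amw_pinW_loc s hTA (S.C \ ΓW) ω ω' h1 h2 h3))
      (and_congr (amw_locP_mono hI hcinsub hin ω ω' h1 h2 h3) (amw_locP_mono Finset.sdiff_subset hcoutsub hout ω ω' h1 h2 h3))
    refine forall_congr' fun y => forall_congr' fun hy => ?_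
    have hyC : y ∈ S.C := (Finset.mem_filter.1 (Finset.mem_sdiff.1 hy).1).1
    rw [amw_tau_loc S (hS.sub y hyC) (Finset.mem_sdiff.2 ⟨hyC, (Finset.mem_sdiff.1 hy).2⟩) h1 h3]
  have hF1 : ClLoc S.A (S.C \ ΓW) F := dde_loc_mono hI hcinsub hF
  have hG1 : ClLoc S.A (S.C \ ΓW) G := dde_loc_mono Finset.sdiff_subset hcoutsub hG
  have hc : ∀ ω, (AmwCut S σ s ΓW I ω ∧ Kin ω ∧ Kout ω) → ∀ y ∈ ΓW, ClConst ω.W (S.sv y) := by
    intro ω hω y hy
    have h := hω.1.2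
    cases s
    · exact Or.inr fun v hv hvW => by simpa using (h v (Finset.mem_biUnion.2 ⟨y, hy, hv⟩)).1 hvW
    · exact Or.inl fun v hv => (h v (Finset.mem_biUnion.2 ⟨y, hy, hv⟩)).2 rfl
  rw [amw_del_N S ΓW hΓC hq _ _ hKa (dde_loc_mul hG1 hF1) hc, amw_del_N S ΓW hΓC hq _ _ hKa hG1 hc, hev]
  have hin' : ClLocP I ((amwDel S ΓW).cin I) (fun ω => CuPinW s ((ΓW.biUnion S.sv) ∩ I) ω ∧ Kin ω) := by
    rw [hcin]
    intro ω ω' h1 h2 h3
    exact and_congr (amw_pinW_loc s Finset.inter_subset_right _ ω ω' h1 h2 h3) (hin ω ω' h1 h2 h3)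
  have hout' : ClLocP ((amwDel S ΓW).A \ I) ((amwDel S ΓW).cout I) (fun ω => CuPinW s ((ΓW.biUnion S.sv) \ I) ω ∧ Kout ω) := by
    rw [hcout]
    intro ω ω' h1 h2 h3
    exact and_congr (amw_pinW_loc s (Finset.sdiff_subset_sdiff hTA le_rfl) _ ω ω' h1 h2 h3) (hout ω ω' h1 h2 h3)
  rw [ams_cut (amwDel S ΓW) hok σ I hI _ _ hin' hout' F G (hcin.symm ▸ hF) (hcout.symm ▸ hG)]
  congr 1
  unfold cuES cuEM
  rw [hinn, hlay]

/-- a positive mass has a configuration of positive weight -/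
theorem amw_Z_pos_ex (S : ClSys V Y) (L : ClCfg V Y → Prop) (hf : 0 < S.Z L) : ∃ ω ∈ S.cfgs, L ω ∧ 0 < S.wt ω := by
  classical
  by_contra hn
  unfold ClSys.Z at hf
  refine absurd hf (not_lt.2 (Finset.sum_nonpos fun ω hω => ?_))
  split_ifs with h
  · exact not_lt.1 fun hp => hn ⟨ω, hω, h, hp⟩
  · exact le_rfl

/-- the status of an open cell on which the first spin is `σ`, `σ` constant -/
theorem amw_tau_sg (S : ClSys V Y) (σ : V → Bool) (ω : ClCfg V Y) (y : Y) (hB : ∀ v ∈ S.sv y, (v ∈ ω.B ↔ σ v = true))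
    (hσ : ∀ u ∈ S.sv y, ∀ v ∈ S.sv y, σ u = σ v) (hO : y ∈ ω.O) : ∀ v ∈ S.sv y, clTau S ω y = clSg (σ v) := by
  intro v hv
  cases h : σ v
  · refine (amo_tau_neg S ω y).2 ⟨hO, fun hh => ?_⟩
    have := (hB v hv).1 (hh hv)
    rw [h] at this
    exact Bool.false_ne_true this
  · exact (amo_tau_pos S ω y).2 ⟨hO, fun u hu => (hB u hu).2 ((hσ u hu v hv).trans h)⟩

/-- a spin which equals a constant `σ` on a set is constant there -/
theorem amw_const_sg (σ : V → Bool) (P t : Finset V) (hB : ∀ v ∈ t, (v ∈ P ↔ σ v = true)) (hσ : ∀ u ∈ t, ∀ v ∈ t, σ u = σ v) : ClConst P t := by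
  by_cases h : ∃ v ∈ t, σ v = true
  · obtain ⟨v, hv, h⟩ := h
    exact Or.inl fun u hu => (hB u hu).2 ((hσ u hu v hv).trans h)
  · exact Or.inr fun u hu hP => h ⟨u, hu, (hB u hu).1 hP⟩

/-- **FEASIBILITY GOES UP**: outside `I`: `B = σ`, `W = s`, every cell of `S.cout I` on which `σ` is constant is open -/
theorem amw_feas (S : ClSys V Y) (hS : ClOk S) (σ : V → Bool) (s : Bool) (I : Finset V) (hI : I ⊆ S.A) (ΓW : Finset Y) (hΓ : ΓW ⊆ S.cx I)
    (hq : ∀ y ∈ ΓW, S.q y = 1) (hσ : ∀ y ∈ S.cx I \ ΓW, ∀ u ∈ S.sv y, ∀ v ∈ S.sv y, σ u = σ v) (Kin : ClCfg V Y → Prop) (hin : ClLocP I (S.cin I) Kin)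
    (hf : 0 < (S.inn I).Z (fun ω => CuPinS σ (((S.cx I \ ΓW).biUnion S.sv) ∩ I) ω ∧ CuPinW s ((ΓW.biUnion S.sv) ∩ I) ω ∧ Kin ω)) :
    0 < S.Z (fun ω => AmwCut S σ s ΓW I ω ∧ Kin ω ∧ CuPinS σ (S.A \ I) ω ∧ CuPinW s (S.A \ I) ω ∧
      ∀ y ∈ S.cout I, (∀ u ∈ S.sv y, ∀ v ∈ S.sv y, σ u = σ v) → ∀ v ∈ S.sv y, clTau S ω y = clSg (σ v)) := by
  classical
  obtain ⟨ω, hω, ⟨hpB, hpW, hK⟩, hw⟩ := amw_Z_pos_ex _ _ hf
  rw [cl_mem_cfgs] at hω
  obtain ⟨hωB, hωW, hωO⟩ := hω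
  have hωB' : ω.B ⊆ I := hωB
  have hωW' : ω.W ⊆ I := hωW
  have hωO' : ω.O ⊆ S.cin I := hωO
  set Bn : Finset V := ω.B ∪ (S.A \ I).filter (fun v => σ v = true) with hBn
  set Wn : Finset V := ω.W ∪ (S.A \ I).filter (fun _ => s = true) with hWn
  set ω' : ClCfg V Y := ⟨Bn, Wn, ω.O ∪ (S.cno I).filter (fun y => ClConst Bn (S.sv y))⟩ with hω'
  have hmem : ω' ∈ S.cfgs := (cl_mem_cfgs S ω').2
    ⟨Finset.union_subset (hωB'.trans hI) ((Finset.filter_subset _ _).trans Finset.sdiff_subset),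
     Finset.union_subset (hωW'.trans hI) ((Finset.filter_subset _ _).trans Finset.sdiff_subset),
     Finset.union_subset (hωO'.trans (Finset.filter_subset _ _)) ((Finset.filter_subset _ _).trans (amo_cno_sub S I))⟩
  have hBI : ∀ v ∈ I, (v ∈ Bn ↔ v ∈ ω.B) := by
    intro v hv
    simp only [hBn, Finset.mem_union, Finset.mem_filter, Finset.mem_sdiff]
    tauto
  have hWI : ∀ v ∈ I, (v ∈ Wn ↔ v ∈ ω.W) := by
    intro v hv
    simp only [hWn, Finset.mem_union, Finset.mem_filter, Finset.mem_sdiff]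
    tauto
  have F1 : ∀ v ∈ S.A \ I, (v ∈ Bn ↔ σ v = true) := by
    intro v hv
    have hvI := (Finset.mem_sdiff.1 hv).2
    simp only [hBn, Finset.mem_union, Finset.mem_filter]
    exact ⟨fun h => h.elim (fun h => absurd (hωB' h) hvI) (fun h => h.2), fun h => Or.inr ⟨hv, h⟩⟩
  have F2 : ∀ v ∈ S.A \ I, (v ∈ Wn ↔ s = true) := by
    intro v hv
    have hvI := (Finset.mem_sdiff.1 hv).2
    simp only [hWn, Finset.mem_union, Finset.mem_filter]
    exact ⟨fun h => h.elim (fun h => absurd (hωW' h) hvI) (fun h => h.2), fun h => Or.inr ⟨hv, h⟩⟩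
  have F3 : ∀ y ∈ S.cx I \ ΓW, ∀ v ∈ S.sv y, (v ∈ Bn ↔ σ v = true) := by
    intro y hy v hv
    by_cases hvI : v ∈ I
    · rw [hBI v hvI]
      exact hpB v (Finset.mem_inter.2 ⟨Finset.mem_biUnion.2 ⟨y, hy, hv⟩, hvI⟩)
    · exact F1 v (Finset.mem_sdiff.2 ⟨hS.sub y (amo_cx_sub S I (Finset.mem_sdiff.1 hy).1) hv, hvI⟩)
  have F4 : ∀ y ∈ ΓW, ∀ v ∈ S.sv y, (v ∈ Wn ↔ s = true) := by
    intro y hy v hv
    by_cases hvI : v ∈ I
    · rw [hWI v hvI]
      exact hpW v (Finset.mem_inter.2 ⟨Finset.mem_biUnion.2 ⟨y, hy, hv⟩, hvI⟩)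
    · exact F2 v (Finset.mem_sdiff.2 ⟨hS.sub y (amo_cx_sub S I (hΓ hy)) hv, hvI⟩)
  have hB : ω.B ∩ I = ω'.B ∩ I := by
    ext v
    simp only [Finset.mem_inter]
    exact ⟨fun h => ⟨(hBI v h.2).2 h.1, h.2⟩, fun h => ⟨(hBI v h.2).1 h.1, h.2⟩⟩
  have hW : ω.W ∩ I = ω'.W ∩ I := by
    ext v
    simp only [Finset.mem_inter]
    exact ⟨fun h => ⟨(hWI v h.2).2 h.1, h.2⟩, fun h => ⟨(hWI v h.2).1 h.1, h.2⟩⟩
  have hO : ω.O ∩ S.cin I = ω'.O ∩ S.cin I := by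
    ext y
    simp only [hω', Finset.mem_inter, Finset.mem_union, ClSys.cno, ClSys.cin, Finset.mem_filter]
    tauto
  have hK' : Kin ω' := (hin ω ω' hB hW hO).1 hK
  have hopen : ∀ y ∈ S.cno I, ClConst Bn (S.sv y) → y ∈ ω'.O := fun y hy hc =>
    Finset.mem_union_right _ (Finset.mem_filter.2 ⟨hy, hc⟩)
  have hcno : S.cno I = S.cx I ∪ S.cout I := amo_cno_eq S I
  have hτx : ∀ y ∈ S.cx I \ ΓW, ∀ v ∈ S.sv y, clTau S ω' y = clSg (σ v) := by
    intro y hy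
    refine amw_tau_sg S σ ω' y (F3 y hy) (hσ y hy) (hopen y ?_ (amw_const_sg σ _ _ (F3 y hy) (hσ y hy)))
    rw [hcno]
    exact Finset.mem_union_left _ (Finset.mem_sdiff.1 hy).1
  have hτo : ∀ y ∈ S.cout I, (∀ u ∈ S.sv y, ∀ v ∈ S.sv y, σ u = σ v) → ∀ v ∈ S.sv y, clTau S ω' y = clSg (σ v) := by
    intro y hy hc
    have hb : ∀ v ∈ S.sv y, (v ∈ Bn ↔ σ v = true) := fun v hv => F1 v (amo_cout_sub S hS I hy hv)
    refine amw_tau_sg S σ ω' y hb hc (hopen y ?_ (amw_const_sg σ _ _ hb hc))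
    rw [hcno]
    exact Finset.mem_union_right _ hy
  have hwt : 0 < S.wt ω' := by
    refine Finset.prod_pos fun y hy => ?_
    by_cases hs : S.sv y ⊆ I
    · have hy' : y ∈ S.cin I := Finset.mem_filter.2 ⟨hy, hs⟩
      have h1 : clCellW (S.q y) (ClConst ω'.B (S.sv y)) (ClConst ω'.W (S.sv y)) (y ∈ ω'.O)
          = clCellW (S.q y) (ClConst ω.B (S.sv y)) (ClConst ω.W (S.sv y)) (y ∈ ω.O) :=
        dcu_cellW_congr _ (amo_const_congr fun v hv => hBI v (hs hv)) (amo_const_congr fun v hv => hWI v (hs hv))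
          (dcu_mem_of_inter hO hy').symm
      rw [h1]
      have h2 : clCellW (S.q y) (ClConst ω.B (S.sv y)) (ClConst ω.W (S.sv y)) (y ∈ ω.O) ≠ 0 :=
        (Finset.prod_ne_zero_iff.1 hw.ne') y hy'
      exact lt_of_le_of_ne (dis_cellW_nonneg (hS.q0 y hy).le (hS.q1 y hy) _ _ _) h2.symm
    · have hy' : y ∈ S.cno I := Finset.mem_filter.2 ⟨hy, hs⟩
      by_cases hc : ClConst Bn (S.sv y)
      · unfold clCellW
        rw [if_pos (hopen y hy' hc), if_pos hc]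
        exact hS.q0 y hy
      · have hnO : y ∉ ω'.O := by
          intro h
          rcases Finset.mem_union.1 h with h | h
          · exact hs (Finset.mem_filter.1 (hωO' h)).2
          · exact hc (Finset.mem_filter.1 h).2
        have hwc : ClConst Wn (S.sv y) := by
          have hall : ∀ v ∈ S.sv y, (v ∈ Wn ↔ s = true) := by
            rw [hcno] at hy'
            rcases Finset.mem_union.1 hy' with h | h
            · by_cases hG : y ∈ ΓW
              · exact F4 y hG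
              · exact absurd (amw_const_sg σ _ _ (F3 y (Finset.mem_sdiff.2 ⟨h, hG⟩)) (hσ y (Finset.mem_sdiff.2 ⟨h, hG⟩))) hc
            · exact fun v hv => F2 v (amo_cout_sub S hS I h hv)
          exact amw_const_sg (fun _ => s) _ _ hall (fun _ _ _ _ => rfl)
        unfold clCellW
        rw [if_neg hnO, if_pos hwc, if_neg hc]
        exact hS.q0 y hy
  refine lt_of_lt_of_le hwt (amo_Z_ge S hS _ hmem ⟨⟨hτx, ?_⟩, hK', F1, F2, hτo⟩)
  intro v hv
  obtain ⟨y, hy, hvy⟩ := Finset.mem_biUnion.1 hv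
  exact F4 y hy v hvy

/-! ## (c) the exact label lemma -/

/-- **LBL, exact**: one nonempty set tied by the equality edges, no label in `K`, `F` does not see `W` -/
theorem amw_lbl (S : ClSys V Y) (hS : ∀ y ∈ S.C, S.sv y ⊆ S.A) (K : ClCon V Y) (hE : ∀ e ∈ K.Eq, e.1 ∈ S.A ∧ e.2 ∈ S.A) (hp : K.Wp = ∅) (hm : K.Wm = ∅)
    (C : Finset V) (hCA : C ⊆ S.A) (hne : C.Nonempty) (hC : ∀ u ∈ C, ∀ v ∈ C, ReflTransGen (fun a b => (a, b) ∈ K.Eq ∨ (b, a) ∈ K.Eq) u v) (s : Bool)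
    (F : ClCfg V Y → ℝ) (hFW : ∀ ω ω' : ClCfg V Y, ω.B = ω'.B → ω.O = ω'.O → F ω = F ω') :
    S.N (K.Holds S) F = 2 * S.N (fun ω => K.Holds S ω ∧ CuPinW s C ω) F := by
  classical
  -- under `K` the second spin is constant on `C`
  have hconst : ∀ ω : ClCfg V Y, K.Holds S ω → ∀ u ∈ C, ∀ v ∈ C, (u ∈ ω.W ↔ v ∈ ω.W) := by
    intro ω hω u hu v hv
    have h3 := hω.2.2.1
    have hr := hC u hu v hv
    clear hv
    induction hr with
    | refl => exact Iff.rfl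
    | tail _ hbc ih =>
      rcases hbc with h | h
      · exact ih.trans (h3 _ h)
      · exact ih.trans (h3 _ h).symm
  obtain ⟨c, hc⟩ := hne
  have hone : ∀ (t : Bool) (ω : ClCfg V Y), K.Holds S ω → (CuPinW t C ω ↔ (c ∈ ω.W ↔ t = true)) := by
    intro t ω hω
    exact ⟨fun h => h c hc, fun h v hv => (hconst ω hω v hv c hc).trans h⟩
  have hsplit : S.N (K.Holds S) F = S.N (fun ω => K.Holds S ω ∧ CuPinW s C ω) F + S.N (fun ω => K.Holds S ω ∧ CuPinW (!s) C ω) F := by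
    unfold ClSys.N
    rw [← Finset.sum_add_distrib]
    refine Finset.sum_congr rfl fun ω _ => ?_
    by_cases hk : K.Holds S ω
    · by_cases hs : CuPinW s C ω
      · have hn : ¬ CuPinW (!s) C ω := by
          rw [hone _ ω hk] at hs ⊢
          cases s <;> simp_all
        rw [if_pos hk, if_pos ⟨hk, hs⟩, if_neg (fun h => hn h.2), add_zero]
      · have hn : CuPinW (!s) C ω := by
          rw [hone _ ω hk] at hs ⊢
          cases s <;> simp_all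
        rw [if_pos hk, if_neg (fun h => hs h.2), if_pos ⟨hk, hn⟩, zero_add]
    · rw [if_neg hk, if_neg (fun h => hk h.1), if_neg (fun h => hk h.1), add_zero]
  have hflip : S.N (fun ω => K.Holds S ω ∧ CuPinW (!s) C ω) F = S.N (fun ω => K.Holds S ω ∧ CuPinW s C ω) F := by
    rw [am_flipW_N S hS]
    congr 1
    · funext ω
      apply propext
      show (K.Holds S (ω.flipW S.A) ∧ CuPinW (!s) C (ω.flipW S.A)) ↔ _
      refine and_congr ?_ ?_
      · unfold ClCon.Holds ClCfg.flipW clTau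
        simp only [hp, hm, Finset.empty_subset, Finset.notMem_empty, false_imp_iff, implies_true, and_true]
        refine and_congr Iff.rfl (and_congr Iff.rfl (and_congr ?_ Iff.rfl))
        refine forall_congr' fun e => forall_congr' fun he => ?_
        obtain ⟨h1, h2⟩ := hE e he
        simp only [Finset.mem_sdiff, h1, h2, true_and]
        exact not_iff_not
      · unfold CuPinW ClCfg.flipW
        refine forall_congr' fun v => forall_congr' fun hv => ?_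
        have hvA : v ∈ S.A := hCA hv
        simp only [Finset.mem_sdiff, hvA, true_and]
        cases s <;> simp
    · funext ω
      exact hFW _ _ rfl rfl
  rw [hsplit, hflip]
  ring

/-- an increasing observable does not see `W` -/
theorem amw_mono_blind (S : ClSys V Y) (F : ClCfg V Y → ℝ) (hF : ClMono S F) (ω ω' : ClCfg V Y) (hB : ω.B = ω'.B) (hO : ω.O = ω'.O) : F ω = F ω' := by
  have ht : ∀ y, clTau S ω y = clTau S ω' y := fun y => by unfold clTau; rw [hB, hO]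
  exact le_antisymm (hF ω ω' hB.subset fun y _ => (ht y).le) (hF ω' ω hB.symm.subset fun y _ => (ht y).ge)

/-! ## ONE WHITE CUT (TEX[annulus:one-white]) -/

/-- all pairs of sites inside a cell of `Γ` -/
def amwTies (S : ClSys V Y) (Γ : Finset Y) : Finset (V × V) := Γ.biUnion (fun y => S.sv y ×ˢ S.sv y)

/-- add to a history: the second spin is constant on every cell of `Γ` -/
def ClCon.tie (K : ClCon V Y) (S : ClSys V Y) (Γ : Finset Y) : ClCon V Y := { K with Eq := K.Eq ∪ amwTies S Γ }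

/-- the cells of `Γ` hang together (consecutive cells share a site) -/
def AmwConn (S : ClSys V Y) (Γ : Finset Y) : Prop :=
  ∀ y ∈ Γ, ∀ y' ∈ Γ, ReflTransGen (fun a b => a ∈ Γ ∧ b ∈ Γ ∧ (S.sv a ∩ S.sv b).Nonempty) y y'

theorem amw_legal_tie (S : ClSys V Y) (K : ClCon V Y) (hK : ClLegal S K) (Γ : Finset Y) (hΓ : Γ ⊆ S.C) : ClLegal S (K.tie S Γ) := by
  refine ⟨hK.wp, hK.wm, hK.full, fun e he => ?_⟩
  rcases Finset.mem_union.1 he with he | he
  · exact hK.eq e he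
  · unfold amwTies at he
    obtain ⟨y, hy, hey⟩ := Finset.mem_biUnion.1 he
    exact ⟨y, hΓ hy, (Finset.mem_product.1 hey).1, (Finset.mem_product.1 hey).2⟩

/-- a history with ties, as an event -/
theorem amw_holds_tie (S : ClSys V Y) (K : ClCon V Y) (Γ : Finset Y) (ω : ClCfg V Y) :
    (K.tie S Γ).Holds S ω ↔ K.Holds S ω ∧ ∀ y ∈ Γ, ∀ u ∈ S.sv y, ∀ v ∈ S.sv y, (u ∈ ω.W ↔ v ∈ ω.W) := by
  unfold ClCon.tie ClCon.Holds amwTies
  simp only [Finset.mem_union, Finset.mem_biUnion, Finset.mem_product]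
  constructor
  · rintro ⟨h1, h2, h3, h4⟩
    exact ⟨⟨h1, h2, fun e he => h3 e (Or.inl he), h4⟩, fun y hy u hu v hv => h3 (u, v) (Or.inr ⟨y, hy, hu, hv⟩)⟩
  · rintro ⟨⟨h1, h2, h3, h4⟩, h5⟩
    refine ⟨h1, h2, fun e he => ?_, h4⟩
    rcases he with he | ⟨y, hy, hu, hv⟩
    · exact h3 e he
    · exact h5 y hy _ hu _ hv

/-- an extra event as an indicator in the observable -/
theorem amw_N_and (S : ClSys V Y) (L P : ClCfg V Y → Prop) (G : ClCfg V Y → ℝ) :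
    S.N (fun ω => L ω ∧ P ω) G = S.N L (fun ω => @ite _ (P ω) (Classical.propDecidable _) (G ω) 0) := by
  unfold ClSys.N
  refine Finset.sum_congr rfl fun ω _ => ?_
  by_cases hL : L ω <;> by_cases hP : P ω <;> simp [hL, hP]

/-- the sites of a connected family of cells are tied together -/
theorem amw_conn_tied (S : ClSys V Y) (Γ : Finset Y) (hc : AmwConn S Γ) (E : Finset (V × V)) (hE : amwTies S Γ ⊆ E) :
    ∀ u ∈ Γ.biUnion S.sv, ∀ v ∈ Γ.biUnion S.sv, ReflTransGen (fun a b => (a, b) ∈ E ∨ (b, a) ∈ E) u v := by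
  intro u hu v hv
  obtain ⟨y, hy, huy⟩ := Finset.mem_biUnion.1 hu
  obtain ⟨y', hy', hvy⟩ := Finset.mem_biUnion.1 hv
  have htie : ∀ z ∈ Γ, ∀ a ∈ S.sv z, ∀ b ∈ S.sv z, (a, b) ∈ E := fun z hz a ha b hb =>
    hE (Finset.mem_biUnion.2 ⟨z, hz, Finset.mem_product.2 ⟨ha, hb⟩⟩)
  have key : ∀ z, ReflTransGen (fun a b => a ∈ Γ ∧ b ∈ Γ ∧ (S.sv a ∩ S.sv b).Nonempty) y z →
      ∀ w ∈ S.sv z, ReflTransGen (fun a b => (a, b) ∈ E ∨ (b, a) ∈ E) u w := by
    intro z hz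
    induction hz with
    | refl => exact fun w hw => ReflTransGen.single (Or.inl (htie y hy u huy w hw))
    | tail _ hbc ih =>
      intro w hw
      obtain ⟨_, hcΓ, t, ht⟩ := hbc
      obtain ⟨ht1, ht2⟩ := Finset.mem_inter.1 ht
      exact (ih t ht1).tail (Or.inl (htie _ hcΓ t ht2 w hw))
  exact key y' (hc y hy y' hy') v hvy

/-- **the law behind one white cut is the law of a LEGAL history of the ambient system** (`F` does not see `W`; both signs `s` give the same value).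
PLAN: `amw_lbl` for `C = ΓW.biUnion S.sv` (tied by `AmwConn`), the ties follow from the label, `ams_N_opnS`, `amw_cutM`.   `ΓW = ∅`: `ams_hist`. -/
theorem amw_hist (S : ClSys V Y) (hS : ClOk S) (σ : V → Bool) (s : Bool) (I : Finset V) (hI : I ⊆ S.A) (ΓW : Finset Y) (hΓ : ΓW ⊆ S.cx I)
    (hq : ∀ y ∈ ΓW, S.q y = 1) (hc : AmwConn S ΓW) (hσ : ∀ y ∈ S.cx I \ ΓW, ∀ u ∈ S.sv y, ∀ v ∈ S.sv y, σ u = σ v)
    (K : ClCon V Y) (hKI : K.In S I) (hp : K.Wp = ∅) (hm : K.Wm = ∅)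
    (Xo : Finset Y) (hXo : Xo ⊆ S.cout I) (hσo : ∀ y ∈ Xo, ∀ u ∈ S.sv y, ∀ v ∈ S.sv y, σ u = σ v)
    (F : ClCfg V Y → ℝ) (hF : ClLoc I (S.cin I) F) (hFW : ∀ ω ω' : ClCfg V Y, ω.B = ω'.B → ω.O = ω'.O → F ω = F ω') :
    S.N (((K.opnS S σ (S.cx I \ ΓW ∪ Xo)).tie S ΓW).Holds S) F =
      S.Z (((K.opnS S σ (S.cx I \ ΓW ∪ Xo)).tie S ΓW).Holds S) * cuEM S σ s ΓW I (K.Holds S) F := by
  classical
  rcases ΓW.eq_empty_or_nonempty with rfl | hne
  · have hadm : AmsAdm S σ I := fun y hy hcr => hσ y (by rw [Finset.sdiff_empty]; exact Finset.mem_filter.2 ⟨hy, hcr⟩)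
    have e : ∀ K' : ClCon V Y, K'.tie S ∅ = K' := by
      intro K'
      unfold ClCon.tie amwTies
      simp
    rw [e, amw_cuEM_empty, Finset.sdiff_empty]
    exact ams_hist S hS σ I hI hadm K hKI Xo hXo hσo F hF
  have hΓC : ΓW ⊆ S.C := hΓ.trans (amo_cx_sub S I)
  have hXC : S.cx I \ ΓW ∪ Xo ⊆ S.C :=
    Finset.union_subset (Finset.sdiff_subset.trans (amo_cx_sub S I)) (hXo.trans (amo_cout_subC S I))
  have hσX : ∀ y ∈ S.cx I \ ΓW ∪ Xo, ∀ u ∈ S.sv y, ∀ v ∈ S.sv y, σ u = σ v := fun y hy =>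
    (Finset.mem_union.1 hy).elim (hσ y) (hσo y)
  set K' : ClCon V Y := (K.opnS S σ (S.cx I \ ΓW ∪ Xo)).tie S ΓW with hK'
  set C : Finset V := ΓW.biUnion S.sv with hC
  have hCA : C ⊆ S.A := Finset.biUnion_subset.2 fun y hy => hS.sub y (hΓC hy)
  have hCne : C.Nonempty := by
    obtain ⟨y, hy⟩ := hne
    obtain ⟨v, hv⟩ := hS.ne y (hΓC hy)
    exact ⟨v, Finset.mem_biUnion.2 ⟨y, hy, hv⟩⟩
  have hE : ∀ e ∈ K'.Eq, e.1 ∈ S.A ∧ e.2 ∈ S.A := by
    intro e he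
    rcases Finset.mem_union.1 he with he | he
    · exact ⟨hI (hKI.eq e he).1, hI (hKI.eq e he).2⟩
    · obtain ⟨y, hy, hey⟩ := Finset.mem_biUnion.1 he
      exact ⟨hS.sub y (hΓC hy) (Finset.mem_product.1 hey).1, hS.sub y (hΓC hy) (Finset.mem_product.1 hey).2⟩
  have htied := amw_conn_tied S ΓW hc K'.Eq Finset.subset_union_right
  have hout : ClLocP (S.A \ I) (S.cout I) (fun ω => ∀ y ∈ Xo, ∀ v ∈ S.sv y, clTau S ω y = clSg (σ v)) := by
    intro ω ω' hB hW hO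
    exact forall₂_congr fun y hy => by rw [amo_tau_loc S hB hO (hXo hy) (amo_cout_sub S hS I (hXo hy))]
  -- the labelled history is the ambient event of `cuEM`
  have key : ∀ G : ClCfg V Y → ℝ, S.N (fun ω => K'.Holds S ω ∧ CuPinW s C ω) G =
      S.N (fun ω => AmwCut S σ s ΓW I ω ∧ K.Holds S ω ∧ ∀ y ∈ Xo, ∀ v ∈ S.sv y, clTau S ω y = clSg (σ v)) G := by
    intro G
    have e1 : (fun ω => K'.Holds S ω ∧ CuPinW s C ω) = (fun ω => (K.opnS S σ (S.cx I \ ΓW ∪ Xo)).Holds S ω ∧ CuPinW s C ω) := by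
      funext ω
      apply propext
      rw [hK', amw_holds_tie]
      constructor
      · rintro ⟨⟨h1, _⟩, h2⟩
        exact ⟨h1, h2⟩
      · rintro ⟨h1, h2⟩
        refine ⟨⟨h1, fun y hy u hu v hv => ?_⟩, h2⟩
        rw [h2 u (Finset.mem_biUnion.2 ⟨y, hy, hu⟩), h2 v (Finset.mem_biUnion.2 ⟨y, hy, hv⟩)]
    rw [e1, amw_N_and, ams_N_opnS S K σ _ hXC (fun y hy => hS.ne y (hXC hy)) hσX, ← amw_N_and]
    congr 1
    funext ω
    apply propext
    unfold AmwCut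
    constructor
    · rintro ⟨⟨h1, h2⟩, h3⟩
      exact ⟨⟨fun y hy => h2 y (Finset.mem_union_left _ hy), h3⟩, h1, fun y hy => h2 y (Finset.mem_union_right _ hy)⟩
    · rintro ⟨⟨h1, h2⟩, h3, h4⟩
      exact ⟨⟨h3, fun y hy => (Finset.mem_union.1 hy).elim (h1 y) (h4 y)⟩, h2⟩
  have h := amw_cutM S hS σ s I hI ΓW hΓ hq (K.Holds S) (fun ω => ∀ y ∈ Xo, ∀ v ∈ S.sv y, clTau S ω y = clSg (σ v))
    (amo_holds_loc S K I hKI) hout F (fun _ => 1) hF (fun _ _ _ _ _ => rfl)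
  simp only [one_mul] at h
  rw [dis_Z_eq, amw_lbl S hS.sub K' hE hp hm C hCA hCne htied s F hFW,
    amw_lbl S hS.sub K' hE hp hm C hCA hCne htied s (fun _ => 1) (fun _ _ _ _ => rfl), key, key, h]
  ring

/-- the two enlargements of a history commute -/
theorem amw_tie_opnS (S : ClSys V Y) (K : ClCon V Y) (σ : V → Bool) (X Γ : Finset Y) : (K.opnS S σ X).tie S Γ = (K.tie S Γ).opnS S σ X := rfl

/-- the history which realises a feasible law `cuEM` is feasible -/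
theorem amw_hist_feas (S : ClSys V Y) (hS : ClOk S) (σ : V → Bool) (s : Bool) (I : Finset V) (hI : I ⊆ S.A) (ΓW : Finset Y) (hΓ : ΓW ⊆ S.cx I)
    (hq : ∀ y ∈ ΓW, S.q y = 1) (hσ : ∀ y ∈ S.cx I \ ΓW, ∀ u ∈ S.sv y, ∀ v ∈ S.sv y, σ u = σ v) (K : ClCon V Y) (hKI : K.In S I)
    (Xo : Finset Y) (hXo : Xo ⊆ S.cout I) (hσo : ∀ y ∈ Xo, ∀ u ∈ S.sv y, ∀ v ∈ S.sv y, σ u = σ v)
    (hf : 0 < (S.inn I).Z (fun ω => CuPinS σ (((S.cx I \ ΓW).biUnion S.sv) ∩ I) ω ∧ CuPinW s ((ΓW.biUnion S.sv) ∩ I) ω ∧ K.Holds S ω)) :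
    0 < S.Z (((K.opnS S σ (S.cx I \ ΓW ∪ Xo)).tie S ΓW).Holds S) := by
  have hXC : S.cx I \ ΓW ∪ Xo ⊆ S.C :=
    Finset.union_subset (Finset.sdiff_subset.trans (amo_cx_sub S I)) (hXo.trans (amo_cout_subC S I))
  have hσX : ∀ y ∈ S.cx I \ ΓW ∪ Xo, ∀ u ∈ S.sv y, ∀ v ∈ S.sv y, σ u = σ v := fun y hy =>
    (Finset.mem_union.1 hy).elim (hσ y) (hσo y)
  have h := amw_feas S hS σ s I hI ΓW hΓ hq hσ (K.Holds S) (amo_holds_loc S K I hKI) hf
  refine lt_of_lt_of_le h ?_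
  rw [amw_tie_opnS, dis_Z_eq (S := S) (K := ((K.tie S ΓW).opnS S σ (S.cx I \ ΓW ∪ Xo)).Holds S),
    ams_N_opnS S (K.tie S ΓW) σ _ hXC (fun y hy => hS.ne y (hXC hy)) hσX, ← dis_Z_eq]
  refine amo_Z_mono S hS ?_
  rintro ω ⟨⟨c1, c2⟩, hK, -, -, c5⟩
  refine ⟨(amw_holds_tie S K ΓW ω).2 ⟨hK, fun y hy u hu v hv => ?_⟩, fun y hy v hv => ?_⟩
  · rw [c2 u (Finset.mem_biUnion.2 ⟨y, hy, hu⟩), c2 v (Finset.mem_biUnion.2 ⟨y, hy, hv⟩)]
  · rcases Finset.mem_union.1 hy with hy | hy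
    · exact c1 y hy v hv
    · exact c5 y (hXo hy) (hσo y hy) v hv

theorem amw_cuEM_zero (S : ClSys V Y) (σ : V → Bool) (s : Bool) (ΓW : Finset Y) (I : Finset V) (K : ClCfg V Y → Prop)
    (hz : (S.inn I).Z (fun ω => CuPinS σ (((S.cx I \ ΓW).biUnion S.sv) ∩ I) ω ∧ CuPinW s ((ΓW.biUnion S.sv) ∩ I) ω ∧ K ω) = 0)
    (F : ClCfg V Y → ℝ) : cuEM S σ s ΓW I K F = 0 := by
  unfold cuEM
  rw [dis_E_eq, hz, div_zero]

/-- order of two histories of open cells with the same ties -/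
theorem amw_le_opnS (S : ClSys V Y) (K : ClCon V Y) (σ : V → Bool) (X₁ X₂ Γ : Finset Y) (n₁ : ∀ y ∈ X₁, (S.sv y).Nonempty)
    (n₂ : ∀ y ∈ X₂, (S.sv y).Nonempty) (h1 : ∀ y ∈ X₁, (∃ v ∈ S.sv y, σ v = true) → y ∈ X₂)
    (h2 : ∀ y ∈ X₂, (∃ v ∈ S.sv y, σ v = false) → y ∈ X₁) : ClLe ((K.opnS S σ X₁).tie S Γ) ((K.opnS S σ X₂).tie S Γ) where
  bp := by
    refine Finset.union_subset_union (Finset.Subset.refl _) fun v hv => ?_
    obtain ⟨hv1, hv2⟩ := Finset.mem_filter.1 hv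
    obtain ⟨y, hy, hvy⟩ := Finset.mem_biUnion.1 hv1
    exact Finset.mem_filter.2 ⟨Finset.mem_biUnion.2 ⟨y, h1 y hy ⟨v, hvy, hv2⟩, hvy⟩, hv2⟩
  bm := by
    refine Finset.union_subset_union (Finset.Subset.refl _) fun v hv => ?_
    obtain ⟨hv1, hv2⟩ := Finset.mem_filter.1 hv
    obtain ⟨y, hy, hvy⟩ := Finset.mem_biUnion.1 hv1
    exact Finset.mem_filter.2 ⟨Finset.mem_biUnion.2 ⟨y, h2 y hy ⟨v, hvy, hv2⟩, hvy⟩, hv2⟩
  op := by
    refine Finset.union_subset_union (Finset.Subset.refl _) fun y hy => ?_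
    obtain ⟨hy1, hy2⟩ := Finset.mem_filter.1 hy
    obtain ⟨v, hv⟩ := n₁ y hy1
    exact Finset.mem_filter.2 ⟨h1 y hy1 ⟨v, hv, hy2 v hv⟩, hy2⟩
  om := by
    refine Finset.union_subset_union (Finset.Subset.refl _) fun y hy => ?_
    obtain ⟨hy1, hy2⟩ := Finset.mem_filter.1 hy
    obtain ⟨v, hv⟩ := n₂ y hy1
    exact Finset.mem_filter.2 ⟨h2 y hy1 ⟨v, hv, hy2 v hv⟩, hy2⟩
  cl1 := Finset.subset_union_left
  cl2 := Finset.subset_union_left
  eq := rfl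

/-- more open cells: a stronger history -/
theorem amw_holds_anti (S : ClSys V Y) (K : ClCon V Y) (σ : V → Bool) {X X' : Finset Y} (h : X ⊆ X') (Γ : Finset Y) (ω : ClCfg V Y)
    (hω : ((K.opnS S σ X').tie S Γ).Holds S ω) : ((K.opnS S σ X).tie S Γ).Holds S ω := by
  obtain ⟨h1, h2, h3, h4, h5, h6⟩ := hω
  refine ⟨fun v hv => h1 ?_, fun v hv => h2 v ?_, h3, fun y hy => h4 y ?_, fun y hy => h5 y ?_, h6⟩
  · exact Finset.union_subset_union (Finset.Subset.refl _) (Finset.filter_subset_filter _ (Finset.biUnion_subset_biUnion_of_subset_left _ h)) hv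
  · exact Finset.union_subset_union (Finset.Subset.refl _) (Finset.filter_subset_filter _ (Finset.biUnion_subset_biUnion_of_subset_left _ h)) hv
  · exact Finset.union_subset_union (Finset.Subset.refl _) (Finset.filter_subset_filter _ h) hy
  · exact Finset.union_subset_union (Finset.Subset.refl _) (Finset.filter_subset_filter _ h) hy

/-- **ONE WHITE, FKG** -/
theorem amw_fkg (S : ClSys V Y) (hS : ClDisk S) (σ : V → Bool) (s : Bool) (I : Finset V) (hI : I ⊆ S.A) (ΓW : Finset Y) (hΓ : ΓW ⊆ S.cx I)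
    (hq : ∀ y ∈ ΓW, S.q y = 1) (hc : AmwConn S ΓW) (hσ : ∀ y ∈ S.cx I \ ΓW, ∀ u ∈ S.sv y, ∀ v ∈ S.sv y, σ u = σ v)
    (K : ClCon V Y) (hK : ClLegal S K) (hKI : K.In S I) (F G : ClCfg V Y → ℝ) (hF : ClMono S F) (hG : ClMono S G)
    (hFl : ClLoc I (S.cin I) F) (hGl : ClLoc I (S.cin I) G) :
    cuEM S σ s ΓW I (K.Holds S) F * cuEM S σ s ΓW I (K.Holds S) G ≤ cuEM S σ s ΓW I (K.Holds S) (fun ω => F ω * G ω) := by
  have hO : ClOk S := hS.toClOk
  by_cases hz : (S.inn I).Z (fun ω => CuPinS σ (((S.cx I \ ΓW).biUnion S.sv) ∩ I) ω ∧ CuPinW s ((ΓW.biUnion S.sv) ∩ I) ω ∧ K.Holds S ω) = 0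
  · rw [amw_cuEM_zero S σ s ΓW I _ hz, amw_cuEM_zero S σ s ΓW I _ hz, amw_cuEM_zero S σ s ΓW I _ hz, mul_zero]
  have hf := lt_of_le_of_ne (amo_Z_nonneg _ (amo_inn_ok S hO I) _) (Ne.symm hz)
  have he : ∀ y ∈ (∅ : Finset Y), ∀ u ∈ S.sv y, ∀ v ∈ S.sv y, σ u = σ v := fun y hy => absurd hy (Finset.notMem_empty _)
  have hZ := amw_hist_feas S hO σ s I hI ΓW hΓ hq hσ K hKI ∅ (Finset.empty_subset _) he hf
  have bF := amw_mono_blind S F hF
  have bG := amw_mono_blind S G hG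
  have e1 := amw_hist S hO σ s I hI ΓW hΓ hq hc hσ K hKI hK.wp hK.wm ∅ (Finset.empty_subset _) he F hFl bF
  have e2 := amw_hist S hO σ s I hI ΓW hΓ hq hc hσ K hKI hK.wp hK.wm ∅ (Finset.empty_subset _) he G hGl bG
  have e3 := amw_hist S hO σ s I hI ΓW hΓ hq hc hσ K hKI hK.wp hK.wm ∅ (Finset.empty_subset _) he _ (dde_loc_mul hFl hGl)
    (fun ω ω' h1 h2 => by rw [bF ω ω' h1 h2, bG ω ω' h1 h2])
  have h := dis_assoc S hS _ (amw_legal_tie S _ (ams_legal S K hK σ (S.cx I \ ΓW ∪ ∅)) ΓW (hΓ.trans (amo_cx_sub S I))) F G hF hG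
  rw [e1, e2, e3] at h
  refine le_of_mul_le_mul_left ?_ (mul_pos hZ hZ)
  linarith

/-- order of two histories of open cells with the same ties, two sign functions, two histories -/
theorem amw_le_opnS2 (S : ClSys V Y) {K₁ K₂ : ClCon V Y} (hle : ClLe K₁ K₂) (σ₁ σ₂ : V → Bool) (X Γ : Finset Y)
    (hs : ∀ y ∈ X, ∀ v ∈ S.sv y, σ₁ v ≤ σ₂ v) : ClLe ((K₁.opnS S σ₁ X).tie S Γ) ((K₂.opnS S σ₂ X).tie S Γ) where
  bp := by
    refine Finset.union_subset_union hle.bp fun v hv => ?_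
    obtain ⟨hv1, hv2⟩ := Finset.mem_filter.1 hv
    obtain ⟨y, hy, hvy⟩ := Finset.mem_biUnion.1 hv1
    exact Finset.mem_filter.2 ⟨hv1, cs_b_le_t (hs y hy v hvy) hv2⟩
  bm := by
    refine Finset.union_subset_union hle.bm fun v hv => ?_
    obtain ⟨hv1, hv2⟩ := Finset.mem_filter.1 hv
    obtain ⟨y, hy, hvy⟩ := Finset.mem_biUnion.1 hv1
    exact Finset.mem_filter.2 ⟨hv1, cs_b_le_f (hs y hy v hvy) hv2⟩
  op := by
    refine Finset.union_subset_union hle.op fun y hy => ?_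
    obtain ⟨hy1, hy2⟩ := Finset.mem_filter.1 hy
    exact Finset.mem_filter.2 ⟨hy1, fun v hv => cs_b_le_t (hs y hy1 v hv) (hy2 v hv)⟩
  om := by
    refine Finset.union_subset_union hle.om fun y hy => ?_
    obtain ⟨hy1, hy2⟩ := Finset.mem_filter.1 hy
    exact Finset.mem_filter.2 ⟨hy1, fun v hv => cs_b_le_f (hs y hy1 v hv) (hy2 v hv)⟩
  cl1 := hle.cl1.trans (Finset.union_subset_union (Finset.Subset.refl _) Finset.subset_union_left)
  cl2 := hle.cl2.trans (Finset.union_subset_union (Finset.Subset.refl _) Finset.subset_union_left)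
  eq := by
    show K₁.Eq ∪ amwTies S Γ = K₂.Eq ∪ amwTies S Γ
    rw [hle.eq]

/-- **ONE WHITE, ORDER** in the first-spin boundary condition and in the history -/
theorem amw_order (S : ClSys V Y) (hS : ClDisk S) (σ₁ σ₂ : V → Bool) (s : Bool) (I : Finset V) (hI : I ⊆ S.A) (ΓW : Finset Y) (hΓ : ΓW ⊆ S.cx I)
    (hq : ∀ y ∈ ΓW, S.q y = 1) (hc : AmwConn S ΓW) (a₁ : ∀ y ∈ S.cx I \ ΓW, ∀ u ∈ S.sv y, ∀ v ∈ S.sv y, σ₁ u = σ₁ v)
    (a₂ : ∀ y ∈ S.cx I \ ΓW, ∀ u ∈ S.sv y, ∀ v ∈ S.sv y, σ₂ u = σ₂ v) (hs : ∀ y ∈ S.cx I \ ΓW, ∀ v ∈ S.sv y, σ₁ v ≤ σ₂ v)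
    (K₁ K₂ : ClCon V Y) (h₁ : ClLegal S K₁) (h₂ : ClLegal S K₂) (hI₁ : K₁.In S I) (hI₂ : K₂.In S I) (hle : ClLe K₁ K₂)
    (f₁ : 0 < (S.inn I).Z (fun ω => CuPinS σ₁ (((S.cx I \ ΓW).biUnion S.sv) ∩ I) ω ∧ CuPinW s ((ΓW.biUnion S.sv) ∩ I) ω ∧ K₁.Holds S ω))
    (f₂ : 0 < (S.inn I).Z (fun ω => CuPinS σ₂ (((S.cx I \ ΓW).biUnion S.sv) ∩ I) ω ∧ CuPinW s ((ΓW.biUnion S.sv) ∩ I) ω ∧ K₂.Holds S ω))
    (F : ClCfg V Y → ℝ) (hF : ClMono S F) (hFl : ClLoc I (S.cin I) F) :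
    cuEM S σ₁ s ΓW I (K₁.Holds S) F ≤ cuEM S σ₂ s ΓW I (K₂.Holds S) F := by
  have hO : ClOk S := hS.toClOk
  have he₁ : ∀ y ∈ (∅ : Finset Y), ∀ u ∈ S.sv y, ∀ v ∈ S.sv y, σ₁ u = σ₁ v := fun y hy => absurd hy (Finset.notMem_empty _)
  have he₂ : ∀ y ∈ (∅ : Finset Y), ∀ u ∈ S.sv y, ∀ v ∈ S.sv y, σ₂ u = σ₂ v := fun y hy => absurd hy (Finset.notMem_empty _)
  have hZ₁ := amw_hist_feas S hO σ₁ s I hI ΓW hΓ hq a₁ K₁ hI₁ ∅ (Finset.empty_subset _) he₁ f₁
  have hZ₂ := amw_hist_feas S hO σ₂ s I hI ΓW hΓ hq a₂ K₂ hI₂ ∅ (Finset.empty_subset _) he₂ f₂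
  have bF := amw_mono_blind S F hF
  have e1 := amw_hist S hO σ₁ s I hI ΓW hΓ hq hc a₁ K₁ hI₁ h₁.wp h₁.wm ∅ (Finset.empty_subset _) he₁ F hFl bF
  have e2 := amw_hist S hO σ₂ s I hI ΓW hΓ hq hc a₂ K₂ hI₂ h₂.wp h₂.wm ∅ (Finset.empty_subset _) he₂ F hFl bF
  have h := dis_order S hS _ _ (amw_legal_tie S _ (ams_legal S K₁ h₁ σ₁ (S.cx I \ ΓW ∪ ∅)) ΓW (hΓ.trans (amo_cx_sub S I)))
    (amw_legal_tie S _ (ams_legal S K₂ h₂ σ₂ (S.cx I \ ΓW ∪ ∅)) ΓW (hΓ.trans (amo_cx_sub S I)))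
    (amw_le_opnS2 S hle σ₁ σ₂ _ ΓW fun y hy => hs y (by rwa [Finset.union_empty] at hy)) F hF
  rw [e1, e2] at h
  refine le_of_mul_le_mul_left ?_ (mul_pos hZ₁ hZ₂)
  linarith

/-- geometry of two nested domains: the non white crossing cells of the larger one -/
theorem amw_dom_geo (S : ClSys V Y) {I I' : Finset V} (hII : I ⊆ I') (ΓW : Finset Y) :
    S.cx I' \ ΓW ∪ ∅ ⊆ S.cx I \ ΓW ∪ (S.cx I' \ ΓW) ∩ S.cout I := by
  intro y hy
  rw [Finset.union_empty] at hy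
  obtain ⟨hy1, hy2⟩ := Finset.mem_sdiff.1 hy
  have := amo_cx_cno S hII hy1
  rw [amo_cno_eq] at this
  rcases Finset.mem_union.1 this with h | h
  · exact Finset.mem_union_left _ (Finset.mem_sdiff.2 ⟨h, hy2⟩)
  · exact Finset.mem_union_right _ (Finset.mem_inter.2 ⟨hy, h⟩)

/-- a crossing cell of `I` which is not inside `I' ⊇ I` crosses `I'` -/
theorem amw_cx_up (S : ClSys V Y) {I I' : Finset V} (hII : I ⊆ I') {y : Y} (hy : y ∈ S.cx I) (hn : ¬ S.sv y ⊆ I') : y ∈ S.cx I' := by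
  obtain ⟨hyC, ⟨u, hu, huI⟩, -⟩ := Finset.mem_filter.1 hy
  obtain ⟨v, hv, hvI⟩ := Finset.not_subset.1 hn
  exact Finset.mem_filter.2 ⟨hyC, ⟨u, hu, hII huI⟩, v, hv, hvI⟩

/-- **ONE WHITE, REVERSE SLIDE** (annulus:slide-white): the same white cut, `I ⊆ I'`, the other crossing cells of `I` inside `I'` have the sign plus: the law of the smaller domain is higher -/
theorem amw_dom_plus (S : ClSys V Y) (hS : ClDisk S) (σ : V → Bool) (s : Bool) (I I' : Finset V) (hII : I ⊆ I') (hI : I' ⊆ S.A) (ΓW : Finset Y)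
    (hΓ : ΓW ⊆ S.cx I) (hΓ' : ΓW ⊆ S.cx I') (hq : ∀ y ∈ ΓW, S.q y = 1) (hc : AmwConn S ΓW)
    (a : ∀ y ∈ S.cx I \ ΓW, ∀ u ∈ S.sv y, ∀ v ∈ S.sv y, σ u = σ v) (a' : ∀ y ∈ S.cx I' \ ΓW, ∀ u ∈ S.sv y, ∀ v ∈ S.sv y, σ u = σ v)
    (hp : ∀ y ∈ S.cx I \ ΓW, S.sv y ⊆ I' → ∀ v ∈ S.sv y, σ v = true) (K : ClCon V Y) (hK : ClLegal S K) (hKI : K.In S I)
    (hf : 0 < (S.inn I).Z (fun ω => CuPinS σ (((S.cx I \ ΓW).biUnion S.sv) ∩ I) ω ∧ CuPinW s ((ΓW.biUnion S.sv) ∩ I) ω ∧ K.Holds S ω))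
    (F : ClCfg V Y → ℝ) (hF : ClMono S F) (hFl : ClLoc I (S.cin I) F) :
    cuEM S σ s ΓW I' (K.Holds S) F ≤ cuEM S σ s ΓW I (K.Holds S) F := by
  have hO : ClOk S := hS.toClOk
  set Xo : Finset Y := (S.cx I' \ ΓW) ∩ S.cout I with hXo
  have hXo1 : Xo ⊆ S.cout I := Finset.inter_subset_right
  have hσo : ∀ y ∈ Xo, ∀ u ∈ S.sv y, ∀ v ∈ S.sv y, σ u = σ v := fun y hy => a' y (Finset.mem_inter.1 hy).1
  have he : ∀ y ∈ (∅ : Finset Y), ∀ u ∈ S.sv y, ∀ v ∈ S.sv y, σ u = σ v := fun y hy => absurd hy (Finset.notMem_empty _)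
  have hsub := amw_dom_geo S hII ΓW
  have hC1 : S.cx I' \ ΓW ∪ ∅ ⊆ S.C := by
    rw [Finset.union_empty]; exact Finset.sdiff_subset.trans (amo_cx_sub S I')
  have hC2 : S.cx I \ ΓW ∪ Xo ⊆ S.C :=
    Finset.union_subset (Finset.sdiff_subset.trans (amo_cx_sub S I)) (hXo1.trans (amo_cout_subC S I))
  have hZ₂ := amw_hist_feas S hO σ s I (hII.trans hI) ΓW hΓ hq a K hKI Xo hXo1 hσo hf
  have hZ₁ : 0 < S.Z (((K.opnS S σ (S.cx I' \ ΓW ∪ ∅)).tie S ΓW).Holds S) :=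
    lt_of_lt_of_le hZ₂ (amo_Z_mono S hO fun ω => amw_holds_anti S K σ hsub ΓW ω)
  have bF := amw_mono_blind S F hF
  have e1 := amw_hist S hO σ s I' hI ΓW hΓ' hq hc a' K (amo_in_mono S hII hKI) hK.wp hK.wm ∅ (Finset.empty_subset _) he F
    (dde_loc_mono hII (dde_cin_mono S hII) hFl) bF
  have e2 := amw_hist S hO σ s I (hII.trans hI) ΓW hΓ hq hc a K hKI hK.wp hK.wm Xo hXo1 hσo F hFl bF
  have h := dis_order S hS _ _ (amw_legal_tie S _ (ams_legal S K hK σ (S.cx I' \ ΓW ∪ ∅)) ΓW (hΓ.trans (amo_cx_sub S I)))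
    (amw_legal_tie S _ (ams_legal S K hK σ (S.cx I \ ΓW ∪ Xo)) ΓW (hΓ.trans (amo_cx_sub S I)))
    (amw_le_opnS S K σ _ _ ΓW (fun y hy => hO.ne y (hC1 hy)) (fun y hy => hO.ne y (hC2 hy)) (fun y hy _ => hsub hy) (by
      rintro y hy ⟨v, hv, hσv⟩
      rw [Finset.union_empty]
      rcases Finset.mem_union.1 hy with hy | hy
      · obtain ⟨hy1, hy2⟩ := Finset.mem_sdiff.1 hy
        refine Finset.mem_sdiff.2 ⟨amw_cx_up S hII hy1 fun hs => ?_, hy2⟩
        rw [hp y hy hs v hv] at hσv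
        exact Bool.noConfusion hσv
      · exact (Finset.mem_inter.1 hy).1)) F hF
  rw [e1, e2] at h
  refine le_of_mul_le_mul_left ?_ (mul_pos hZ₁ hZ₂)
  linarith

/-- ONE WHITE, domain monotonicity at a minus boundary -/
theorem amw_dom_minus (S : ClSys V Y) (hS : ClDisk S) (σ : V → Bool) (s : Bool) (I I' : Finset V) (hII : I ⊆ I') (hI : I' ⊆ S.A) (ΓW : Finset Y)
    (hΓ : ΓW ⊆ S.cx I) (hΓ' : ΓW ⊆ S.cx I') (hq : ∀ y ∈ ΓW, S.q y = 1) (hc : AmwConn S ΓW)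
    (a : ∀ y ∈ S.cx I \ ΓW, ∀ u ∈ S.sv y, ∀ v ∈ S.sv y, σ u = σ v) (a' : ∀ y ∈ S.cx I' \ ΓW, ∀ u ∈ S.sv y, ∀ v ∈ S.sv y, σ u = σ v)
    (hn : ∀ y ∈ S.cx I \ ΓW, S.sv y ⊆ I' → ∀ v ∈ S.sv y, σ v = false) (K : ClCon V Y) (hK : ClLegal S K) (hKI : K.In S I)
    (hf : 0 < (S.inn I).Z (fun ω => CuPinS σ (((S.cx I \ ΓW).biUnion S.sv) ∩ I) ω ∧ CuPinW s ((ΓW.biUnion S.sv) ∩ I) ω ∧ K.Holds S ω))
    (F : ClCfg V Y → ℝ) (hF : ClMono S F) (hFl : ClLoc I (S.cin I) F) :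
    cuEM S σ s ΓW I (K.Holds S) F ≤ cuEM S σ s ΓW I' (K.Holds S) F := by
  have hO : ClOk S := hS.toClOk
  set Xo : Finset Y := (S.cx I' \ ΓW) ∩ S.cout I with hXo
  have hXo1 : Xo ⊆ S.cout I := Finset.inter_subset_right
  have hσo : ∀ y ∈ Xo, ∀ u ∈ S.sv y, ∀ v ∈ S.sv y, σ u = σ v := fun y hy => a' y (Finset.mem_inter.1 hy).1
  have he : ∀ y ∈ (∅ : Finset Y), ∀ u ∈ S.sv y, ∀ v ∈ S.sv y, σ u = σ v := fun y hy => absurd hy (Finset.notMem_empty _)
  have hsub := amw_dom_geo S hII ΓW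
  have hC1 : S.cx I' \ ΓW ∪ ∅ ⊆ S.C := by
    rw [Finset.union_empty]; exact Finset.sdiff_subset.trans (amo_cx_sub S I')
  have hC2 : S.cx I \ ΓW ∪ Xo ⊆ S.C :=
    Finset.union_subset (Finset.sdiff_subset.trans (amo_cx_sub S I)) (hXo1.trans (amo_cout_subC S I))
  have hZ₂ := amw_hist_feas S hO σ s I (hII.trans hI) ΓW hΓ hq a K hKI Xo hXo1 hσo hf
  have hZ₁ : 0 < S.Z (((K.opnS S σ (S.cx I' \ ΓW ∪ ∅)).tie S ΓW).Holds S) :=
    lt_of_lt_of_le hZ₂ (amo_Z_mono S hO fun ω => amw_holds_anti S K σ hsub ΓW ω)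
  have bF := amw_mono_blind S F hF
  have e1 := amw_hist S hO σ s I' hI ΓW hΓ' hq hc a' K (amo_in_mono S hII hKI) hK.wp hK.wm ∅ (Finset.empty_subset _) he F
    (dde_loc_mono hII (dde_cin_mono S hII) hFl) bF
  have e2 := amw_hist S hO σ s I (hII.trans hI) ΓW hΓ hq hc a K hKI hK.wp hK.wm Xo hXo1 hσo F hFl bF
  have h := dis_order S hS _ _ (amw_legal_tie S _ (ams_legal S K hK σ (S.cx I \ ΓW ∪ Xo)) ΓW (hΓ.trans (amo_cx_sub S I)))
    (amw_legal_tie S _ (ams_legal S K hK σ (S.cx I' \ ΓW ∪ ∅)) ΓW (hΓ.trans (amo_cx_sub S I)))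
    (amw_le_opnS S K σ _ _ ΓW (fun y hy => hO.ne y (hC2 hy)) (fun y hy => hO.ne y (hC1 hy)) (by
      rintro y hy ⟨v, hv, hσv⟩
      rw [Finset.union_empty]
      rcases Finset.mem_union.1 hy with hy | hy
      · obtain ⟨hy1, hy2⟩ := Finset.mem_sdiff.1 hy
        refine Finset.mem_sdiff.2 ⟨amw_cx_up S hII hy1 fun hs => ?_, hy2⟩
        rw [hn y hy hs v hv] at hσv
        exact Bool.noConfusion hσv
      · exact (Finset.mem_inter.1 hy).1) (fun y hy _ => hsub hy)) F hF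
  rw [e1, e2] at h
  refine le_of_mul_le_mul_left ?_ (mul_pos hZ₁ hZ₂)
  linarith

/-- the sign of the white cut does not matter for observables which do not see `W` -/
theorem amw_flip (S : ClSys V Y) (hS : ClOk S) (σ : V → Bool) (s : Bool) (ΓW : Finset Y) (I : Finset V) (K : ClCon V Y) (hKI : K.In S I) (hp : K.Wp = ∅) (hm : K.Wm = ∅)
    (F : ClCfg V Y → ℝ) (hFW : ∀ ω ω' : ClCfg V Y, ω.B = ω'.B → ω.O = ω'.O → F ω = F ω') :
    cuEM S σ s ΓW I (K.Holds S) F = cuEM S σ (!s) ΓW I (K.Holds S) F := by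
  have hin : ∀ y ∈ (S.inn I).C, (S.inn I).sv y ⊆ (S.inn I).A := (am_inn_ok S hS I).sub
  have key : ∀ (G : ClCfg V Y → ℝ), (∀ ω ω' : ClCfg V Y, ω.B = ω'.B → ω.O = ω'.O → G ω = G ω') →
      (S.inn I).N (fun ω => CuPinS σ (((S.cx I \ ΓW).biUnion S.sv) ∩ I) ω ∧ CuPinW s ((ΓW.biUnion S.sv) ∩ I) ω ∧ K.Holds S ω) G =
      (S.inn I).N (fun ω => CuPinS σ (((S.cx I \ ΓW).biUnion S.sv) ∩ I) ω ∧ CuPinW (!s) ((ΓW.biUnion S.sv) ∩ I) ω ∧ K.Holds S ω) G := by
    intro G hG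
    rw [am_flipW_N (S.inn I) hin]
    congr 1
    · funext ω
      apply propext
      show (CuPinS σ _ (ω.flipW I) ∧ CuPinW s _ (ω.flipW I) ∧ K.Holds S (ω.flipW I)) ↔ _
      refine and_congr Iff.rfl (and_congr ?_ ?_)
      · unfold CuPinW ClCfg.flipW
        refine forall_congr' fun v => forall_congr' fun hv => ?_
        have hvI : v ∈ I := (Finset.mem_inter.1 hv).2
        simp only [Finset.mem_sdiff, hvI, true_and]
        cases s <;> simp
      · unfold ClCon.Holds ClCfg.flipW clTau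
        simp only [hp, hm, Finset.empty_subset, Finset.notMem_empty, false_imp_iff, implies_true, and_true]
        refine and_congr Iff.rfl (and_congr Iff.rfl (and_congr ?_ Iff.rfl))
        refine forall_congr' fun e => forall_congr' fun he => ?_
        obtain ⟨h1, h2⟩ := hKI.eq e he
        simp only [Finset.mem_sdiff, h1, h2, true_and]
        exact not_iff_not
    · funext ω
      exact hG _ _ rfl rfl
  unfold cuEM
  rw [dis_E_eq, dis_E_eq, dis_Z_eq, dis_Z_eq, key F hFW, key (fun _ => 1) fun _ _ _ _ => rfl]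

/-! ## (d), (e) the two-colour law -/

/-- `In(I)`-measurable two-status event -/
def CuIn2P (S : ClSys V Y) (I : Finset V) (K : ClCfg2 V Y → Prop) : Prop :=
  ∀ ω ω' : ClCfg2 V Y, ω.B ∩ I = ω'.B ∩ I → ω.W ∩ I = ω'.W ∩ I → ω.OB ∩ S.cin I = ω'.OB ∩ S.cin I →
    ω.OW ∩ S.cin I = ω'.OW ∩ S.cin I → (K ω ↔ K ω')

theorem amw_sdiff_inter {α : Type} [DecidableEq α] {A J P P' : Finset α} (hJ : J ⊆ A) (h : P \ (A \ J) = P' \ (A \ J)) : P ∩ J = P' ∩ J := by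
  ext v
  have := Finset.ext_iff.1 h v
  simp only [Finset.mem_sdiff, Finset.mem_inter, not_and, not_not] at this ⊢
  constructor
  · rintro ⟨h1, h2⟩
    exact ⟨(this.1 ⟨h1, fun _ => h2⟩).1, h2⟩
  · rintro ⟨h1, h2⟩
    exact ⟨(this.2 ⟨h1, fun _ => h2⟩).1, h2⟩

/-- **(d) SEARCH IN THE TWO-COLOUR LAW**: a search of the colour `c` and of the sign `s`; record and tests read the spins and the statuses of BOTH colours (not the statuses of the crossing cells).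
PLAN: `am_cut2` with `I = S.A \ J`, `am_inv_iff` for `ω.col c`, `S.cout (S.A \ J) = S.cin J`. -/
theorem amw_search2 (S : ClSys V Y) (hS : ClOk S) (h12 : ∀ y ∈ S.C, 1 / 2 ≤ S.q y) (c s : Bool) (O J : Finset V) (hO : O ⊆ J) (hJ : J ⊆ S.A)
    (Kin Kout : ClCfg2 V Y → Prop) (hin : CuIn2P S (S.A \ J) Kin) (hout : CuIn2P S J Kout) (G F : ClCfg2 V Y → ℝ) (hG : CuIn2 S J G) (hF : CuIn2 S (S.A \ J) F) :
    S.N2 (fun ω => Kin ω ∧ Kout ω) (fun ω => if clInv S s ∅ (ω.col c) O = J then G ω * F ω else 0) =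
      S.N2 (fun ω => Kin ω ∧ Kout ω) (fun ω => if clInv S s ∅ (ω.col c) O = J then G ω else 0) * cuE2 S c s (S.A \ J) Kin F := by
  classical
  have hIA : S.A \ J ⊆ S.A := Finset.sdiff_subset
  have hJI : S.A \ (S.A \ J) = J := Finset.sdiff_sdiff_eq_self hJ
  have hcc : S.cin J ⊆ S.cout (S.A \ J) := dde_cin_cout S hS hJI.ge
  set a : ClCfg2 V Y → ℝ := fun ω => if clInv (S.inn J) s ∅ (ω.col c) O = J then 1 else 0 with ha
  have key : ∀ H : ClCfg2 V Y → ℝ, S.N2 (fun ω => Kin ω ∧ Kout ω) (fun ω => if clInv S s ∅ (ω.col c) O = J then H ω else 0) =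
      S.N2 (fun ω => ClCut S s (S.A \ J) (ω.col c) ∧ Kin ω ∧ Kout ω) (fun ω => a ω * H ω) := by
    intro H
    unfold ClSys.N2
    refine Finset.sum_congr rfl fun ω _ => ?_
    have hiff := am_inv_iff S hS s ∅ (by simp) (ω.col c) O J hO hJ
    by_cases hK : Kin ω ∧ Kout ω
    · by_cases hc : ClCut S s (S.A \ J) (ω.col c)
      · by_cases hi : clInv (S.inn J) s ∅ (ω.col c) O = J
        · rw [if_pos hK, if_pos ⟨hc, hK⟩]
          beta_reduce
          rw [if_pos (hiff.2 ⟨hc, by simp, hi⟩)]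
          simp only [ha, if_pos hi, one_mul]
        · rw [if_pos hK, if_pos ⟨hc, hK⟩]
          beta_reduce
          rw [if_neg (fun h => hi (hiff.1 h).2.2)]
          simp only [ha, if_neg hi, zero_mul]
      · rw [if_pos hK, if_neg (fun h => hc h.1)]
        beta_reduce
        rw [if_neg (fun h => hc (hiff.1 h).1), mul_zero]
    · rw [if_neg hK, if_neg (fun h => hK h.2)]
  have haL : ∀ ω ω' : ClCfg2 V Y, ω.B ∩ J = ω'.B ∩ J → ω.W ∩ J = ω'.W ∩ J → ω.OB ∩ S.cin J = ω'.OB ∩ S.cin J →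
      ω.OW ∩ S.cin J = ω'.OW ∩ S.cin J → a ω = a ω' := by
    intro ω ω' h1 h2 h3 h4
    have e : clInv (S.inn J) s ∅ (ω.col c) O = clInv (S.inn J) s ∅ (ω'.col c) O := by
      refine dde_inv_congr (S.inn J) (am_inn_ok S hS J) s ∅ _ _ O ∅ (fun y hy _ => ?_) (fun v _ => Finset.notMem_empty v)
      have hy' : y ∈ S.cin J := hy
      show clTau S (ω.col c) y = clTau S (ω'.col c) y
      cases c
      · exact amo_tau_loc S (I := J) (T' := S.cin J) h2 h4 hy' ((am_mem_cin S J y).1 hy').2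
      · exact amo_tau_loc S (I := J) (T' := S.cin J) h1 h3 hy' ((am_mem_cin S J y).1 hy').2
    simp only [ha, e]
  rw [key, key]
  have := am_cut2 S hS h12 c s (S.A \ J) hIA Kin Kout hin
    (fun ω ω' h1 h2 h3 h4 => hout ω ω' (amw_sdiff_inter hJ h1) (amw_sdiff_inter hJ h2) (dde_inter_mono hcc h3) (dde_inter_mono hcc h4))
    F (fun ω => a ω * G ω) hF
    (fun ω ω' h1 h2 h3 h4 => by
      rw [haL ω ω' (amw_sdiff_inter hJ h1) (amw_sdiff_inter hJ h2) (dde_inter_mono hcc h3) (dde_inter_mono hcc h4),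
        hG ω ω' (amw_sdiff_inter hJ h1) (amw_sdiff_inter hJ h2) (dde_inter_mono hcc h3) (dde_inter_mono hcc h4)])
  rw [← this]
  congr 1
  funext ω
  ring

/-- **(e)** the white cut law, read in the first colour -/
theorem amw_E2_fst (S : ClSys V Y) (s : Bool) (I : Finset V) (K : ClCfg V Y → Prop) (F : ClCfg V Y → ℝ) :
    cuE2 S false s I (fun ω => K ω.fst) (fun ω => F ω.fst) = cuEM S (fun _ => true) s (S.cx I) I K F := by
  unfold cuE2 cuEM ClSys.E2 ClSys.Z2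
  rw [dis_E_eq, dis_Z_eq]
  have e : (fun ω : ClCfg V Y => CuPinS (fun _ => true) (((S.cx I \ S.cx I).biUnion S.sv) ∩ I) ω ∧ CuPinW s (((S.cx I).biUnion S.sv) ∩ I) ω ∧ K ω)
      = fun ω => CuPinW s (cuLay S I) ω ∧ K ω := by
    funext ω
    apply propext
    rw [Finset.sdiff_self, amw_lay_eq]
    constructor
    · rintro ⟨-, h⟩
      exact h
    · intro h
      exact ⟨fun v hv => by simp at hv, h⟩
  rw [e]
  have h1 := am_N2_fst (S.inn I) (fun ω => CuPinW s (cuLay S I) ω ∧ K ω) F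
  have h2 := am_N2_fst (S.inn I) (fun ω => CuPinW s (cuLay S I) ω ∧ K ω) (fun _ => 1)
  rw [← h1, ← h2]
  rfl

/-- (e') the cut law of the first colour, read in the first colour -/
theorem amw_E2_fst' (S : ClSys V Y) (s : Bool) (I : Finset V) (K : ClCfg V Y → Prop) (F : ClCfg V Y → ℝ) :
    cuE2 S true s I (fun ω => K ω.fst) (fun ω => F ω.fst) = cuE S s I K F := by
  unfold cuE2 cuE ClSys.E2 ClSys.Z2
  rw [dis_E_eq, dis_Z_eq]
  have h1 := am_N2_fst (S.inn I) (fun ω => CuPin s (cuLay S I) ω ∧ K ω) F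
  have h2 := am_N2_fst (S.inn I) (fun ω => CuPin s (cuLay S I) ω ∧ K ω) (fun _ => 1)
  rw [← h1, ← h2]
  rfl

/-- the equation lemmas of the definitions of this file are generated HERE -/
theorem amw_defs_eqns_cite : True := by
  have := @ClSys.neu.eq_1
  have := @CuPinW.eq_1
  have := @cuEM.eq_1
  have := @AmwCut.eq_1
  have := @amwDel.eq_1
  have := @amwTies.eq_1
  have := @ClCon.tie.eq_1
  have := @AmwConn.eq_1
  have := @CuIn2P.eq_1
  trivial

end abstract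

end Claimed.Agent.R291
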