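import Claimed.Agent.R291.Ann.CylSlide
import Claimed.Agent.R291.Ann.CylRho
import Claimed.Agent.R291.Ann.ModelW
import Claimed.Agent.R291.Ann.Basic

/-!
# Row 291 (S0539), ANN block A4, LAW SIDE : THE FIELD `sym` OF `CyLaw (cyP x L H)`      (cutter helper147, co-cutter helper8; prefix `cyw` / `cyw_`, abstract part `cpw_`)

TEX 09-annulus: annulus:duality + annulus:search + annulus:one-white + the symmetric domain of annulus:first-seed.      Design: this header + `origin/helper179:notes/R291/cy_sym_179.md` (rotation, symmetric family).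

NOTATION.  `T' = !T`, low band `k..k+m-1`, high band `κ..κ' = κ+m-1`, `N = 2κ+m`, ambient rows `-3..N+3`, `ρ_o = cyrV L N o` = REFLECTION of helper8 (`Ann/CylRho`, 0 sorry) `(i,j) ↦ (i+j+o, N-j)`; it exchanges the classes; NOT an involution: `ρ_o⁻¹ = ρ_{-N-o}`, so the symmetric law comes in a family `λ_o` (two-law form of helper8, msg 57209).
FAMILIES.  `Q0 = T@[-1..k+m] ∪ T'@[N-1-k-m..N]` (ρ-symmetric), `QH = Q0 ∪ T@{H}`, `Qa = QH ∪ T@[k+m+1..H-1]` (all `T` cells: the SEARCH lives there), `Q_U = QH ∪ T'@{N-1-H} ∪ U@[κ..κ']` (`ρ Q_T = Q_T'`).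
`M = cysIn x L Qa ∅ 0 H` = the mixed cylinder with all its `T` cells.      `Mx B W` = "`B = -` on row `0`, `B = +` on row `H`".

CHAIN (numbers; `Z = M.Z Mx`).
 (n1) ALT low [cp_alt + cy_alt_det]   `Z ≤ N_Mx(VP⁺) + N_Mx(VP⁻) + N_Mx~(Blk⁺) + N_Mx~(Blk⁻)`      (`Mx~` = colours exchanged: the configuration is `(W, B, O^W)`)
 (n2) flip of the first spin of `Mx~`: the last two are equal
 (n3) `N_Mx~(Blk⁺ low) ≤ 2 (N_Mx~(G_T) + N_Mx~(G_T'))`,      `G_U(ω) = cywG .. ω.W ω.B` = KERNEL of the high test of class `U` (a PAIR function: 147 S6; no two-colour search, no trap (RC1) of 179)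
        = search `am_search` in `M` under `Mx~` from the row `0` (record `J` = invaded set ⊆ rows `0..k+m`) + (perJ) `1/2 ≤ cuE M true (A \ J) .. (G_T + G_T')`
 (n4), (n5) TOWER + colour exchange: `N_Mx~(G_U) = Z * cyP T U (test)`
 (perJ)  `I_H = rows 0..H \ J`, `D_o = rows 0..N \ (J ∪ ρ_o J)`, `Iamb = rows 0..N+3 \ J + north pole`, `Σ_U = cyS x L (-3) (N+3) Q_U Γ_J`, `Γ_J` = crossing `T` cells (NEUTRALISED), `lay` = their sites off `J`.
   (p1) `cuE M true (A \ J) .. G_U = ν_U(test) := (Σ_U.inn I_H).E (B = + on row H, lay ⊆ W) test`      [cp_swap, cy_rc_inn, cp_tower]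
   (p2) `λ_U⁺(F) ≤ ν_U(F)`, `λ_{U,o}^s(F) := (Σ_U.inn D_o).E (B = s on ρ_o lay, lay ⊆ W) F` (every `o`)      [abstract `cpw_slide`: one-white with `W` tied on ALL the cells which meet `J` (no Timar, pockets harmless)]
   (p3) ALT in `λ_T⁺` on the high band      (p4) `ρ_o⁻¹` + colour exchange: `λ_{T,o}~(Blk^s_T) = λ_{T',-N-o}⁺(Blk^s_T')`      (p5) `λ_U⁺(E⁻) = λ_U⁻(E⁺) ≤ λ_U⁺(E⁺)` [flip + abstract `cpw_sign`]
-/

set_option autoImplicit false
set_option linter.unusedSectionVars false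
set_option linter.unusedVariables false
set_option linter.unusedSimpArgs false

namespace Claimed.Agent.R291

open Claims Claims.C0467 Relation

/-! ## 0. abstract: one white cut with a large tied set; cuts with a label; partitions -/

section abstract

variable {V Y : Type} [DecidableEq V] [DecidableEq Y]

theorem cpq_wt_pos (S : ClSys V Y) (hS : ClOk S) (s : Bool) :
    0 < S.wt (⟨if s = true then S.A else ∅, S.A, S.C⟩ : ClCfg V Y) := by
  unfold ClSys.wt
  refine Finset.prod_pos fun y hy => ?_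
  have h1 : ClConst (if s = true then S.A else ∅) (S.sv y) := anq_const s S.A _ (hS.sub y hy)
  unfold clCellW
  rw [if_pos hy, if_pos h1]
  exact hS.q0 y hy

theorem cpq_mem (S : ClSys V Y) (s : Bool) : (⟨if s = true then S.A else ∅, S.A, S.C⟩ : ClCfg V Y) ∈ S.cfgs := by
  rw [cl_mem_cfgs]
  refine ⟨?_, Finset.Subset.refl _, Finset.Subset.refl _⟩
  cases s
  · exact Finset.empty_subset _
  · exact Finset.Subset.refl _

/-- the constant configurations are feasible: label `Lw ⊆ W`, the cells of `X` open of sign `s`.      PLAN: witness `B = if s then A else ∅`, `W = A`, `O = C` (`anq_Z_pos_wit`; every factor is `q > 0`; `clTau = -1` needs `hS.ne`). -/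
theorem cpw_feas (S : ClSys V Y) (hS : ClOk S) (s : Bool) (X : Finset Y) (hX : X ⊆ S.C) (Lw : Finset V) (hL : Lw ⊆ S.A) :
    0 < S.Z (fun ω => Lw ⊆ ω.W ∧ ((clFree : ClCon V Y).opn S s X).Holds S ω) := by
  have hw := cpq_wt_pos S hS s
  refine anq_Z_pos_wit S hS _ (cpq_mem S s) ⟨hL, ?_⟩ hw
  rw [amo_holds_opn S _ s X hX _ hw.ne']
  refine ⟨?_, fun y hy => ?_⟩
  · simp [ClCon.Holds, clFree]
  · cases s
    · rw [show clSg false = -1 from rfl, amo_tau_neg]
      refine ⟨hX hy, fun h => ?_⟩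
      obtain ⟨v, hv⟩ := hS.ne y (hX hy)
      exact absurd (h hv) (by simp)
    · rw [show clSg true = 1 from rfl, amo_tau_pos]
      exact ⟨hX hy, by simpa using hS.sub y (hX hy)⟩

/-- the same for pins -/
theorem cpw_feas_pin (S : ClSys V Y) (hS : ClOk S) (s : Bool) (P Lw : Finset V) (hP : P ⊆ S.A) (hL : Lw ⊆ S.A) :
    0 < S.Z (fun ω => CuPin s P ω ∧ Lw ⊆ ω.W) := by
  refine anq_Z_pos_wit S hS _ (cpq_mem S s) ⟨fun v hv => ?_, hL⟩ (cpq_wt_pos S hS s)
  have := hP hv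
  cases s <;> simp [this]

/-- the history "the cells of `X` are open of sign `s`" lives in `I` if its cells do -/
theorem cpw_opn_in (S : ClSys V Y) (s : Bool) (I : Finset V) (X : Finset Y) (hX : X ⊆ S.cin I) : ((clFree : ClCon V Y).opn S s X).In S I := by
  have hb : X.biUnion S.sv ⊆ I := by
    intro v hv
    obtain ⟨y, hy, hv⟩ := Finset.mem_biUnion.1 hv
    exact (Finset.mem_filter.1 (hX hy)).2 hv
  cases s
  · simp only [ClCon.opn, Bool.false_eq_true, if_false]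
    refine ⟨by simp [clFree], ?_, by simp [clFree], by simp [clFree], ?_, by simp [clFree], by simp [clFree], by simp [clFree]⟩
    · simpa [clFree] using hb
    · simpa [clFree] using hX
  · simp only [ClCon.opn, if_true]
    refine ⟨?_, by simp [clFree], by simp [clFree], ?_, by simp [clFree], by simp [clFree], by simp [clFree], by simp [clFree]⟩
    · simpa [clFree] using hb
    · simpa [clFree] using hX

/-- the sites of the tied cells inside `I` are the layer -/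
theorem cpw_ow_lay (S : ClSys V Y) (I : Finset V) (X : Finset Y) (hX1 : S.cx I ⊆ X) (hX2 : X ⊆ S.cno I) (u : V) :
    u ∈ cuLay S I ↔ u ∈ X.biUnion S.sv ∧ u ∈ I := by
  rw [am_mem_lay, Finset.mem_biUnion]
  constructor
  · rintro ⟨hu, y, hy, huy, hn⟩
    refine ⟨⟨y, hX1 (Finset.mem_filter.2 ⟨hy, ⟨u, huy, hu⟩, ?_⟩), huy⟩, hu⟩
    by_contra hc
    push Not at hc
    exact hn hc
  · rintro ⟨⟨y, hy, huy⟩, hu⟩
    obtain ⟨h1, h2⟩ := Finset.mem_filter.1 (hX2 hy)
    exact ⟨hu, y, h1, huy, h2⟩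

/-- feasibility goes up behind one white cut: extend by `B = W = +` off `I`, a cell not inside `I` is open iff `B` is constant on it -/
theorem cpw_ow_feas (S : ClSys V Y) (hS : ClOk S) (I : Finset V) (hI : I ⊆ S.A) (Kin : ClCfg V Y → Prop) (hin : ClLocP I (S.cin I) Kin)
    (hf : 0 < (S.inn I).Z (fun ω => cuLay S I ⊆ ω.W ∧ Kin ω)) :
    0 < S.Z (fun ω => (cuLay S I ⊆ ω.W ∧ Kin ω) ∧ S.A \ I ⊆ ω.W) := by
  classical
  obtain ⟨ω, hω, ⟨hlay, hK⟩, hpos⟩ : ∃ ω ∈ (S.inn I).cfgs, (cuLay S I ⊆ ω.W ∧ Kin ω) ∧ 0 < (S.inn I).wt ω := by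
    by_contra hn
    unfold ClSys.Z at hf
    refine absurd hf (not_lt.2 (Finset.sum_nonpos fun ω hω => ?_))
    split_ifs with h
    · exact not_lt.1 fun hp => hn ⟨ω, hω, h, hp⟩
    · exact le_rfl
  rw [cl_mem_cfgs] at hω
  obtain ⟨hωB, hωW, hωO⟩ := hω
  have hωB' : ω.B ⊆ I := hωB
  have hωW' : ω.W ⊆ I := hωW
  have hωO' : ω.O ⊆ S.cin I := hωO
  set Bn : Finset V := ω.B ∪ (S.A \ I) with hBn
  set Wn : Finset V := ω.W ∪ (S.A \ I) with hWn
  set ω' : ClCfg V Y := ⟨Bn, Wn, ω.O ∪ (S.cno I).filter (fun y => ClConst Bn (S.sv y))⟩ with hω'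
  have hmem : ω' ∈ S.cfgs := (cl_mem_cfgs S ω').2 ⟨Finset.union_subset (hωB'.trans hI) Finset.sdiff_subset,
    Finset.union_subset (hωW'.trans hI) Finset.sdiff_subset,
    Finset.union_subset (hωO'.trans (Finset.filter_subset _ _)) ((Finset.filter_subset _ _).trans (amo_cno_sub S I))⟩
  have hb : ω.B ∩ I = ω'.B ∩ I := by
    ext v
    simp only [hω', hBn, Finset.mem_inter, Finset.mem_union, Finset.mem_sdiff]
    tauto
  have hw : ω.W ∩ I = ω'.W ∩ I := by
    ext v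
    simp only [hω', hWn, Finset.mem_inter, Finset.mem_union, Finset.mem_sdiff]
    tauto
  have hO : ω.O ∩ S.cin I = ω'.O ∩ S.cin I := by
    ext y
    simp only [hω', Finset.mem_inter, Finset.mem_union, ClSys.cno, ClSys.cin, Finset.mem_filter]
    tauto
  have hK' : Kin ω' := (hin ω ω' hb hw hO).1 hK
  have hlay' : cuLay S I ⊆ ω'.W := fun v hv => Finset.mem_union_left _ (hlay hv)
  have hout' : S.A \ I ⊆ ω'.W := Finset.subset_union_right
  have hwt : 0 < S.wt ω' := by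
    refine Finset.prod_pos fun y hy => ?_
    by_cases hs : S.sv y ⊆ I
    · have hy' : y ∈ S.cin I := Finset.mem_filter.2 ⟨hy, hs⟩
      have h1 : clCellW (S.q y) (ClConst ω'.B (S.sv y)) (ClConst ω'.W (S.sv y)) (y ∈ ω'.O)
          = clCellW (S.q y) (ClConst ω.B (S.sv y)) (ClConst ω.W (S.sv y)) (y ∈ ω.O) :=
        dcu_cellW_congr _ (amo_const_congr fun v hv => (dcu_mem_of_inter hb (hs hv)).symm)
          (amo_const_congr fun v hv => (dcu_mem_of_inter hw (hs hv)).symm) (dcu_mem_of_inter hO hy').symm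
      rw [h1]
      have h2 : clCellW (S.q y) (ClConst ω.B (S.sv y)) (ClConst ω.W (S.sv y)) (y ∈ ω.O) ≠ 0 :=
        (Finset.prod_ne_zero_iff.1 hpos.ne') y hy'
      exact lt_of_le_of_ne (dis_cellW_nonneg (hS.q0 y hy).le (hS.q1 y hy) _ _ _) h2.symm
    · have hy' : y ∈ S.cno I := Finset.mem_filter.2 ⟨hy, hs⟩
      have hWc : ClConst ω'.W (S.sv y) := by
        left
        intro v hv
        by_cases hvI : v ∈ I
        · exact hlay' (Finset.mem_filter.2 ⟨hvI, y, hy, hv, hs⟩)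
        · exact hout' (Finset.mem_sdiff.2 ⟨hS.sub y hy hv, hvI⟩)
      by_cases hBc : ClConst Bn (S.sv y)
      · have h1 : y ∈ ω'.O := Finset.mem_union_right _ (Finset.mem_filter.2 ⟨hy', hBc⟩)
        unfold clCellW
        rw [if_pos h1, if_pos hBc]
        exact hS.q0 y hy
      · have h1 : y ∉ ω'.O := by
          intro h
          rcases Finset.mem_union.1 h with h | h
          · exact hs (Finset.mem_filter.1 (hωO' h)).2
          · exact hBc (Finset.mem_filter.1 h).2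
        unfold clCellW
        rw [if_neg h1, if_pos hWc, if_neg hBc]
        exact hS.q0 y hy
  exact lt_of_lt_of_le hwt (amo_Z_ge S hS _ hmem ⟨⟨hlay', hK'⟩, hout'⟩)

/-- **(OW) ONE WHITE CUT** (TEX[annulus:one-white]).   The crossing cells of `I` are neutral; `W` is tied on the cells of `X`, `S.cx I ⊆ X ⊆ S.cno I`, which hang together.
Then the legal history `K.tie S X` of the ambient system realises, inside `I`, the law of `S.inn I` with `W = +` on the layer.
PLAN: `cp_lbl_E` (label on `U = X.biUnion S.sv`, tied by `hXc`), the labelled history = `Kin ∧ Kout`, `Kin = (cuLay S I ⊆ W ∧ K.Holds)`, `Kout = (U \ I ⊆ W)` (`U ∩ I = cuLay S I`), `cp_neutW_E`.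
Feasibility: extend a witness of `hf` by `B = W = +` off `I`, a cell not inside `I` is open iff `B` is constant on it. -/
theorem cpw_ow (S : ClSys V Y) (hS : ClOk S) (I : Finset V) (hI : I ⊆ S.A) (hq : ∀ y ∈ S.cx I, S.q y = 1)
    (X : Finset Y) (hX1 : S.cx I ⊆ X) (hX2 : X ⊆ S.cno I) (hXn : X.Nonempty) (hXc : AmwConn S X)
    (K : ClCon V Y) (hKI : K.In S I) (hp : K.Wp = ∅) (hm : K.Wm = ∅)
    (hf : 0 < (S.inn I).Z (fun ω => cuLay S I ⊆ ω.W ∧ K.Holds S ω))
    (F : ClCfg V Y → ℝ) (hF : ClLoc I (S.cin I) F) (hFW : ∀ ω ω' : ClCfg V Y, ω.B = ω'.B → ω.O = ω'.O → F ω = F ω') :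
    0 < S.Z ((K.tie S X).Holds S) ∧
      S.E ((K.tie S X).Holds S) F = (S.inn I).E (fun ω => cuLay S I ⊆ ω.W ∧ K.Holds S ω) F := by
  classical
  set U : Finset V := X.biUnion S.sv with hU
  have hXC : X ⊆ S.C := hX2.trans (amo_cno_sub S I)
  have hUA : U ⊆ S.A := Finset.biUnion_subset.2 fun y hy => hS.sub y (hXC hy)
  have hUn : U.Nonempty := by
    obtain ⟨y, hy⟩ := hXn
    obtain ⟨v, hv⟩ := hS.ne y (hXC hy)
    exact ⟨v, Finset.mem_biUnion.2 ⟨y, hy, hv⟩⟩
  have hE : ∀ e ∈ (K.tie S X).Eq, e.1 ∈ S.A ∧ e.2 ∈ S.A := by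
    intro e he
    rcases Finset.mem_union.1 he with he | he
    · exact ⟨hI (hKI.eq e he).1, hI (hKI.eq e he).2⟩
    · obtain ⟨y, hy, hey⟩ := Finset.mem_biUnion.1 he
      exact ⟨hS.sub y (hXC hy) (Finset.mem_product.1 hey).1, hS.sub y (hXC hy) (Finset.mem_product.1 hey).2⟩
  have htied := amw_conn_tied S X hXc (K.tie S X).Eq Finset.subset_union_right
  set Kin : ClCfg V Y → Prop := fun ω => cuLay S I ⊆ ω.W ∧ K.Holds S ω with hKin
  set Kout : ClCfg V Y → Prop := fun ω => U \ I ⊆ ω.W with hKout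
  have hUW : ∀ ω : ClCfg V Y, (U ⊆ ω.W ↔ cuLay S I ⊆ ω.W ∧ U \ I ⊆ ω.W) := by
    intro ω
    constructor
    · intro h
      exact ⟨fun v hv => h ((cpw_ow_lay S I X hX1 hX2 v).1 hv).1, fun v hv => h (Finset.mem_sdiff.1 hv).1⟩
    · rintro ⟨h1, h2⟩ v hv
      by_cases hvI : v ∈ I
      · exact h1 ((cpw_ow_lay S I X hX1 hX2 v).2 ⟨hv, hvI⟩)
      · exact h2 (Finset.mem_sdiff.2 ⟨hv, hvI⟩)
  have hiff : ∀ ω : ClCfg V Y, (({ K.tie S X with Wp := U } : ClCon V Y).Holds S ω ↔ Kin ω ∧ Kout ω) := by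
    intro ω
    have h1 : (({ K.tie S X with Wp := U } : ClCon V Y).Holds S ω ↔ (K.tie S X).Holds S ω ∧ U ⊆ ω.W) := by
      unfold ClCon.Holds
      have : (K.tie S X).Wp = ∅ := hp
      simp only [this, Finset.empty_subset, true_and]
      tauto
    rw [h1, amw_holds_tie, hUW]
    constructor
    · rintro ⟨⟨h2, _⟩, h3, h4⟩
      exact ⟨⟨h3, h2⟩, h4⟩
    · rintro ⟨⟨h3, h2⟩, h4⟩
      have hW := (hUW ω).2 ⟨h3, h4⟩
      refine ⟨⟨h2, fun y hy u hu v hv => ?_⟩, h3, h4⟩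
      exact ⟨fun _ => hW (Finset.mem_biUnion.2 ⟨y, hy, hv⟩), fun _ => hW (Finset.mem_biUnion.2 ⟨y, hy, hu⟩)⟩
  have hfun : (({ K.tie S X with Wp := U } : ClCon V Y).Holds S) = fun ω => Kin ω ∧ Kout ω := funext fun ω => propext (hiff ω)
  have hlayI : cuLay S I ⊆ I := Finset.filter_subset _ _
  have hin : ClLocP I (S.cin I) Kin := by
    intro ω ω' a b c
    refine and_congr ?_ (amo_holds_loc S K I hKI ω ω' a b c)
    constructor
    · intro h v hv
      exact (dcu_mem_of_inter b (hlayI hv)).1 (h hv)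
    · intro h v hv
      exact (dcu_mem_of_inter b (hlayI hv)).2 (h hv)
  have hout : ClLocP (S.A \ I) (S.cout I) Kout := by
    intro ω ω' a b c
    have hs : U \ I ⊆ S.A \ I := Finset.sdiff_subset_sdiff hUA (Finset.Subset.refl I)
    constructor
    · intro h v hv
      exact (dcu_mem_of_inter b (hs hv)).1 (h hv)
    · intro h v hv
      exact (dcu_mem_of_inter b (hs hv)).2 (h hv)
  have hc : ∀ ω, Kin ω → Kout ω → ∀ y ∈ S.cx I, ClConst ω.W (S.sv y) := by
    intro ω h1 h2 y hy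
    left
    intro v hv
    exact (hUW ω).2 ⟨h1.1, h2⟩ (Finset.mem_biUnion.2 ⟨y, hX1 hy, hv⟩)
  have hpos : 0 < S.Z (fun ω => Kin ω ∧ Kout ω) := by
    refine lt_of_lt_of_le (cpw_ow_feas S hS I hI (K.Holds S) (amo_holds_loc S K I hKI) hf) (amo_Z_mono S hS fun ω h => ⟨h.1, ?_⟩)
    exact (Finset.sdiff_subset_sdiff hUA (Finset.Subset.refl I)).trans h.2
  constructor
  · rw [dis_Z_eq, cp_lbl S hS.sub (K.tie S X) hp hm hE U hUA hUn htied (fun _ => 1) (fun _ _ _ _ => rfl), hfun, ← dis_Z_eq]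
    linarith
  · rw [cp_lbl_E S hS.sub (K.tie S X) hp hm hE U hUA hUn htied F hFW, hfun]
    exact cp_neutW_E S hS I hI hq Kin Kout hin hout hc hpos.ne' F hF

/-- **(OWO) ORDER BEHIND ONE WHITE CUT**.      PLAN: `cpw_ow` twice, `amw_legal_tie`, `ClLe (K₁.tie S X) (K₂.tie S X)`, `cys_E_le`, `amw_mono_blind`. -/
theorem cpw_order (S : ClSys V Y) (hS : ClDisk S) (I : Finset V) (hI : I ⊆ S.A) (hq : ∀ y ∈ S.cx I, S.q y = 1)
    (X : Finset Y) (hX1 : S.cx I ⊆ X) (hX2 : X ⊆ S.cno I) (hXn : X.Nonempty) (hXc : AmwConn S X)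
    (K₁ K₂ : ClCon V Y) (h₁ : ClLegal S K₁) (h₂ : ClLegal S K₂) (hI₁ : K₁.In S I) (hI₂ : K₂.In S I) (hle : ClLe K₁ K₂)
    (f₁ : 0 < (S.inn I).Z (fun ω => cuLay S I ⊆ ω.W ∧ K₁.Holds S ω)) (f₂ : 0 < (S.inn I).Z (fun ω => cuLay S I ⊆ ω.W ∧ K₂.Holds S ω))
    (F : ClCfg V Y → ℝ) (hF : ClMono S F) (hFl : ClLoc I (S.cin I) F) :
    (S.inn I).E (fun ω => cuLay S I ⊆ ω.W ∧ K₁.Holds S ω) F ≤ (S.inn I).E (fun ω => cuLay S I ⊆ ω.W ∧ K₂.Holds S ω) F := by
  have hO : ClOk S := hS.toClOk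
  have hXC : X ⊆ S.C := hX2.trans (amo_cno_sub S I)
  obtain ⟨z₁, e₁⟩ := cpw_ow S hO I hI hq X hX1 hX2 hXn hXc K₁ hI₁ h₁.wp h₁.wm f₁ F hFl (amw_mono_blind S F hF)
  obtain ⟨z₂, e₂⟩ := cpw_ow S hO I hI hq X hX1 hX2 hXn hXc K₂ hI₂ h₂.wp h₂.wm f₂ F hFl (amw_mono_blind S F hF)
  rw [← e₁, ← e₂]
  refine cys_E_le S hS _ _ (amw_legal_tie S K₁ h₁ X hXC) (amw_legal_tie S K₂ h₂ X hXC) ?_ z₁ z₂ F hF
  exact ⟨hle.bp, hle.bm, hle.op, hle.om, hle.cl1, hle.cl2, by show K₁.Eq ∪ _ = K₂.Eq ∪ _; rw [hle.eq]⟩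

/-- the labelled history -/
theorem cpw_lbl_holds (S : ClSys V Y) (s : Bool) (Lw : Finset V) (X : Finset Y) (ω : ClCfg V Y) :
    (({ (clFree : ClCon V Y) with Wp := Lw } : ClCon V Y).opn S s X).Holds S ω ↔
      (Lw ⊆ ω.W ∧ ((clFree : ClCon V Y).opn S s X).Holds S ω) := by
  cases s <;> simp [ClCon.opn, ClCon.Holds, clFree] <;> tauto

theorem cpw_lbl_holds0 (S : ClSys V Y) (Lw : Finset V) (ω : ClCfg V Y) :
    ({ (clFree : ClCon V Y) with Wp := Lw } : ClCon V Y).Holds S ω ↔ Lw ⊆ ω.W := by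
  simp [ClCon.Holds, clFree]

/-- **a first-spin cut in the presence of a label**.      PLAN: `amo_cut` for `K = { clFree with Wp := Lw }` (`K.In S I₂` from `hL`); `(K.opn S s X).Holds ↔ Lw ⊆ W ∧ (clFree.opn S s X).Holds`; divide by `Z > 0` (`cpw_feas`). -/
theorem cpw_cut (S : ClSys V Y) (hS : ClOk S) (s : Bool) (I₂ : Finset V) (hI : I₂ ⊆ S.A) (Lw : Finset V) (hL : Lw ⊆ I₂) (Xo : Finset Y) (hXo : Xo ⊆ S.cout I₂)
    (F : ClCfg V Y → ℝ) (hF : ClLoc I₂ (S.cin I₂) F) :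
    S.E (fun ω => Lw ⊆ ω.W ∧ ((clFree : ClCon V Y).opn S s (S.cx I₂ ∪ Xo)).Holds S ω) F =
      (S.inn I₂).E (fun ω => CuPin s (cuLay S I₂) ω ∧ Lw ⊆ ω.W) F := by
  have hKI : ({ (clFree : ClCon V Y) with Wp := Lw } : ClCon V Y).In S I₂ :=
    ⟨by simp [clFree], by simp [clFree], by simp [clFree], by simp [clFree], by simp [clFree], by simp [clFree], hL, by simp [clFree]⟩
  have h := amo_cut S hS s I₂ hI _ hKI Xo hXo F hF
  have hX : S.cx I₂ ∪ Xo ⊆ S.C := Finset.union_subset (amo_cx_sub S I₂) (hXo.trans (amo_cout_subC S I₂))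
  have hZ := cpw_feas S hS s _ hX Lw (hL.trans hI)
  have e1 : (({ (clFree : ClCon V Y) with Wp := Lw } : ClCon V Y).opn S s (S.cx I₂ ∪ Xo)).Holds S
      = fun ω => Lw ⊆ ω.W ∧ ((clFree : ClCon V Y).opn S s (S.cx I₂ ∪ Xo)).Holds S ω :=
    funext fun ω => propext (cpw_lbl_holds S s Lw _ ω)
  have e2 : ({ (clFree : ClCon V Y) with Wp := Lw } : ClCon V Y).Holds S = fun ω => Lw ⊆ ω.W :=
    funext fun ω => propext (cpw_lbl_holds0 S Lw ω)
  rw [e1, e2] at h
  rw [dis_E_eq, h, mul_div_cancel_left₀ _ hZ.ne']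
  rfl

theorem cpq_inn_cin (S : ClSys V Y) {I D : Finset V} (h : I ⊆ D) : (S.inn D).cin I = S.cin I :=
  congrArg ClSys.C (am_inn_inn S h)

/-- **(annulus:slide-white), abstract**: behind one white cut, the plus cut around `I₂` is farther than the plus cut around `I₁`: the law of `I₁` is higher.
PLAN: `S' = S.inn I`; `cpw_cut S'` for `(I₁, Xo = S'.cx I₂)` and for `(I₂, Xo = ∅)`; `am_inn_inn`; `cpw_order` for `K₁ = clFree.opn S true (S'.cx I₂ ∪ ∅)`, `K₂ = clFree.opn S true (S'.cx I₁ ∪ S'.cx I₂)`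
(`amo_le_opn`, `amo_legal_opn`, `cys_free_legal`, `cpw_opn_in`: the cells of `S'` are inside `I`; `cpw_feas`).   `K.Holds (S.inn I)` and `K.Holds S`, `K.opn (S.inn I)` and `K.opn S` are equal by `rfl`. -/
theorem cpw_slide (S : ClSys V Y) (hS : ClDisk S) (I : Finset V) (hI : I ⊆ S.A) (hq : ∀ y ∈ S.cx I, S.q y = 1)
    (X : Finset Y) (hX1 : S.cx I ⊆ X) (hX2 : X ⊆ S.cno I) (hXn : X.Nonempty) (hXc : AmwConn S X)
    (I₁ I₂ : Finset V) (h₁ : I₁ ⊆ I) (h₂ : I₂ ⊆ I) (l₁ : cuLay S I ⊆ I₁) (l₂ : cuLay S I ⊆ I₂) (hfar : (S.inn I).cx I₂ ⊆ (S.inn I).cout I₁)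
    (F : ClCfg V Y → ℝ) (hF : ClMono S F) (hF₁ : ClLoc I₁ (S.cin I₁) F) (hF₂ : ClLoc I₂ (S.cin I₂) F) :
    (S.inn I₂).E (fun ω => CuPin true (cuLay (S.inn I) I₂) ω ∧ cuLay S I ⊆ ω.W) F ≤
      (S.inn I₁).E (fun ω => CuPin true (cuLay (S.inn I) I₁) ω ∧ cuLay S I ⊆ ω.W) F := by
  have hS' : ClOk (S.inn I) := amo_inn_ok S hS.toClOk I
  have c₂ := cpw_cut (S.inn I) hS' true I₂ h₂ (cuLay S I) l₂ ∅ (Finset.empty_subset _) F
    (by rw [cpq_inn_cin S h₂]; exact hF₂)
  have c₁ := cpw_cut (S.inn I) hS' true I₁ h₁ (cuLay S I) l₁ ((S.inn I).cx I₂) hfar F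
    (by rw [cpq_inn_cin S h₁]; exact hF₁)
  rw [am_inn_inn S h₂] at c₂
  rw [am_inn_inn S h₁] at c₁
  rw [← c₂, ← c₁]
  have s₂ : (S.inn I).cx I₂ ∪ ∅ ⊆ S.cin I := Finset.union_subset (amo_cx_sub (S.inn I) I₂) (Finset.empty_subset _)
  have s₁ : (S.inn I).cx I₁ ∪ (S.inn I).cx I₂ ⊆ S.cin I :=
    Finset.union_subset (amo_cx_sub (S.inn I) I₁) (amo_cx_sub (S.inn I) I₂)
  have hlay : cuLay S I ⊆ I := Finset.filter_subset _ _
  exact cpw_order S hS I hI hq X hX1 hX2 hXn hXc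
    ((clFree : ClCon V Y).opn S true ((S.inn I).cx I₂ ∪ ∅)) ((clFree : ClCon V Y).opn S true ((S.inn I).cx I₁ ∪ (S.inn I).cx I₂))
    (amo_legal_opn S _ (cys_free_legal S) true _) (amo_legal_opn S _ (cys_free_legal S) true _)
    (cpw_opn_in S true I _ s₂) (cpw_opn_in S true I _ s₁)
    (amo_le_opn S (amo_le_refl _) true true _ _
      (fun _ => ⟨rfl, Finset.union_subset Finset.subset_union_right (Finset.empty_subset _)⟩) (fun h => absurd h (by simp)))
    (cpw_feas (S.inn I) hS' true _ s₂ (cuLay S I) hlay) (cpw_feas (S.inn I) hS' true _ s₁ (cuLay S I) hlay)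
    F hF (dde_loc_mono h₁ (dde_cin_mono S h₁) hF₁)

/-- **order in the sign of the far cut, behind one white cut**.      PLAN: as `cpw_slide` with `K₁ = clFree.opn S false (S'.cx I₂ ∪ ∅)`, `K₂ = clFree.opn S true (S'.cx I₂ ∪ ∅)`. -/
theorem cpw_sign (S : ClSys V Y) (hS : ClDisk S) (I : Finset V) (hI : I ⊆ S.A) (hq : ∀ y ∈ S.cx I, S.q y = 1)
    (X : Finset Y) (hX1 : S.cx I ⊆ X) (hX2 : X ⊆ S.cno I) (hXn : X.Nonempty) (hXc : AmwConn S X)
    (I₂ : Finset V) (h₂ : I₂ ⊆ I) (l₂ : cuLay S I ⊆ I₂)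
    (F : ClCfg V Y → ℝ) (hF : ClMono S F) (hF₂ : ClLoc I₂ (S.cin I₂) F) :
    (S.inn I₂).E (fun ω => CuPin false (cuLay (S.inn I) I₂) ω ∧ cuLay S I ⊆ ω.W) F ≤
      (S.inn I₂).E (fun ω => CuPin true (cuLay (S.inn I) I₂) ω ∧ cuLay S I ⊆ ω.W) F := by
  have hS' : ClOk (S.inn I) := am_inn_ok S hS.toClOk I
  have hF' : ClLoc I₂ ((S.inn I).cin I₂) F := by rw [ams_cin_inn S h₂]; exact hF₂
  have c := fun s => cpw_cut (S.inn I) hS' s I₂ h₂ (cuLay S I) l₂ ∅ (Finset.empty_subset _) F hF'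
  rw [am_inn_inn S h₂] at c
  rw [← c false, ← c true]
  have hXs : (S.inn I).cx I₂ ∪ ∅ ⊆ S.cin I := Finset.union_subset (amo_cx_sub (S.inn I) I₂) (Finset.empty_subset _)
  have hlay : cuLay S I ⊆ I := Finset.filter_subset _ _
  exact cpw_order S hS I hI hq X hX1 hX2 hXn hXc
    ((clFree : ClCon V Y).opn S false ((S.inn I).cx I₂ ∪ ∅)) ((clFree : ClCon V Y).opn S true ((S.inn I).cx I₂ ∪ ∅))
    (amo_legal_opn S _ (cys_free_legal S) _ _) (amo_legal_opn S _ (cys_free_legal S) _ _)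
    (cpw_opn_in S _ I _ hXs) (cpw_opn_in S _ I _ hXs)
    (amo_le_opn S (amo_le_refl _) _ _ _ _ (by simp) (by simp))
    (cpw_feas (S.inn I) hS' false _ hXs _ hlay) (cpw_feas (S.inn I) hS' true _ hXs _ hlay)
    F hF (dde_loc_mono h₂ (dde_cin_mono S h₂) hF₂)

open Classical in
open Classical in

/-- partition by the value of a record, upper bound -/
theorem cpw_part_le (S : ClSys V Y) (hS : ClOk S) (K : ClCfg V Y → Prop) (f : ClCfg V Y → Finset V) (Js : Finset (Finset V)) (G : ClCfg V Y → ℝ)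
    (hG : ∀ ω, 0 ≤ G ω) : ∑ J ∈ Js, S.N K (fun ω => if f ω = J then G ω else 0) ≤ S.N K G := by
  unfold ClSys.N
  rw [Finset.sum_comm]
  refine Finset.sum_le_sum fun ω _ => ?_
  by_cases hK : K ω
  · simp only [if_pos hK]
    rw [← Finset.mul_sum, Finset.sum_ite_eq]
    refine mul_le_mul_of_nonneg_left ?_ (dis_wt_nonneg S hS ω)
    split_ifs
    · exact le_rfl
    · exact hG ω
  · simp only [if_neg hK]
    simp

open Classical in

open Classical in
/-- partition by the value of a record, lower bound -/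
theorem cpw_part_ge (S : ClSys V Y) (hS : ClOk S) (K : ClCfg V Y → Prop) (f : ClCfg V Y → Finset V) (Js : Finset (Finset V)) (G : ClCfg V Y → ℝ)
    (hG : ∀ ω, G ω ≠ 0 → f ω ∈ Js) : S.N K G = ∑ J ∈ Js, S.N K (fun ω => if f ω = J then G ω else 0) := by
  unfold ClSys.N
  rw [Finset.sum_comm]
  refine Finset.sum_congr rfl fun ω _ => ?_
  by_cases hK : K ω
  · simp only [if_pos hK]
    rw [← Finset.mul_sum, Finset.sum_ite_eq]
    split_ifs with h
    · rfl
    · have : G ω = 0 := by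
        by_contra hne
        exact h (hG ω hne)
      rw [this]
  · simp only [if_neg hK]
    simp

theorem cpw_N_add (S : ClSys V Y) (K : ClCfg V Y → Prop) (F G : ClCfg V Y → ℝ) : S.N K (fun ω => F ω + G ω) = S.N K F + S.N K G := by
  classical
  unfold ClSys.N
  rw [← Finset.sum_add_distrib]
  refine Finset.sum_congr rfl fun ω _ => ?_
  split_ifs <;> ring

theorem cpw_E_add (S : ClSys V Y) (K : ClCfg V Y → Prop) (F G : ClCfg V Y → ℝ) : S.E K (fun ω => F ω + G ω) = S.E K F + S.E K G := by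
  rw [dis_E_eq, dis_E_eq, dis_E_eq, cpw_N_add, add_div]

/-- a constraint may be replaced by an equivalent one -/
theorem cpw_E_congr (S : ClSys V Y) {K K' : ClCfg V Y → Prop} (h : ∀ ω, K ω ↔ K' ω) (F : ClCfg V Y → ℝ) : S.E K F = S.E K' F := by
  have : K = K' := funext fun ω => propext (h ω)
  rw [this]

end abstract

/-! ## 1. definitions -/

/-- the height of the symmetric ambient -/
def cywN (κ m : ℤ) : ℤ := 2 * κ + m

/-- the ρ-symmetric base family -/
noncomputable def cywQ0 (L : ℕ) (T : Bool) (k m κ : ℤ) : Finset CyY :=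
  cyBand L T (-1) (k + m) ∪ cyBand L (!T) (cywN κ m - 1 - (k + m)) (cywN κ m)

/-- base family + the upper cut of the mixed law -/
noncomputable def cywQH (L H : ℕ) (T : Bool) (k m κ : ℤ) : Finset CyY := cywQ0 L T k m κ ∪ cyBand L T H H

/-- all the cells of class `T` of the mixed cylinder: the family of the search -/
noncomputable def cywQa (L H : ℕ) (T : Bool) (k m κ : ℤ) : Finset CyY := cywQH L H T k m κ ∪ cyBand L T (k + m + 1) ((H : ℤ) - 1)

/-- the family of the comparisons, tests of class `U` -/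
noncomputable def cywQ (L H : ℕ) (T U : Bool) (k m κ : ℤ) : Finset CyY :=
  cywQH L H T k m κ ∪ cyBand L (!T) (cywN κ m - 1 - H) (cywN κ m - 1 - H) ∪ cyBand L U κ (κ + m - 1)

/-- the mixed cylinder with all its cells of class `T` -/
noncomputable def cywM (x : ℝ) (L H : ℕ) (T : Bool) (k m κ : ℤ) : ClSys TV CyY := cysIn x L (cywQa L H T k m κ) ∅ 0 H

/-- mixed boundary condition as a predicate of the pair -/
def cywMx (L H : ℕ) (B W : Finset TV) : Prop := (∀ v ∈ sdRow L 0, v ∉ B) ∧ sdRow L H ⊆ B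

/-- the mixed boundary condition on the SECOND spin, as a constraint -/
noncomputable def cywKW (L H : ℕ) : ClCon TV CyY := ⟨∅, ∅, ∅, ∅, ∅, ∅, sdRow L H, sdRow L 0⟩

/-- reference system of the kernels (only `sv`, `q` matter) -/
def cywR (x : ℝ) (L : ℕ) : ClSys TV CyY := ⟨∅, ∅, cySv L, fun c => if c.1 = CyK.up ∨ c.1 = CyK.dn then x ^ 2 else x⟩

/-- the KERNEL of a test of class `U` in the slabs `c..d`: a function of the pair -/
noncomputable def cywG (x : ℝ) (L : ℕ) (U : Bool) (c d : ℤ) (E : Set CyF) (B W : Finset TV) : ℝ :=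
  clKer (cywR x L) (cyBand L U c d) (cysF L U c d E) B W

/-- the crossing cells of the record `J` -/
noncomputable def cywGam (L : ℕ) (T : Bool) (k m : ℤ) (J : Finset TV) : Finset CyY :=
  (cyBand L T 0 (k + m)).filter (fun y => (∃ u ∈ cySv L y, u ∈ J) ∧ ∃ v ∈ cySv L y, v ∉ J)

/-- the cells which meet the record `J`: `W` is tied on them -/
noncomputable def cywX (L : ℕ) (T : Bool) (k m : ℤ) (J : Finset TV) : Finset CyY :=
  (cyBand L T (-1) (k + m)).filter (fun y => ∃ u ∈ cySv L y, u ∈ J)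

/-- the layer of the record `J` -/
noncomputable def cywLay (L : ℕ) (T : Bool) (k m : ℤ) (J : Finset TV) : Finset TV := (cywGam L T k m J).biUnion (cySv L) \ J

/-- the part of the ambient above the record -/
noncomputable def cywIa (L : ℕ) (κ m : ℤ) (J : Finset TV) : Finset TV := cysUp L 0 (cywN κ m + 3) \ J

/-- the part of the mixed cylinder above the record -/
noncomputable def cywIH (L H : ℕ) (J : Finset TV) : Finset TV := sdSites L 0 H \ J

/-- the symmetric domain -/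
noncomputable def cywD (L : ℕ) (κ m o : ℤ) (J : Finset TV) : Finset TV := sdSites L 0 (cywN κ m) \ (J ∪ J.image (cyrV L (cywN κ m) o))

/-- the ambient of the comparisons: tests of class `U`, the crossing cells of the record neutralised -/
noncomputable def cywS (x : ℝ) (L H : ℕ) (T U : Bool) (k m κ : ℤ) (J : Finset TV) : ClSys TV CyY :=
  cyS x L (-3) (cywN κ m + 3) (cywQ L H T U k m κ) (cywGam L T k m J)

/-- `ν_U`: above the white cut, below the original plus cut -/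
noncomputable def cywNu (x : ℝ) (L H : ℕ) (T U : Bool) (k m κ : ℤ) (J : Finset TV) (F : ClCfg TV CyY → ℝ) : ℝ :=
  ((cywS x L H T U k m κ J).inn (cywIH L H J)).E (fun ω => CuPin true (sdRow L H) ω ∧ cywLay L T k m J ⊆ ω.W) F

/-- `λ_{U,o}^s`: the symmetric domain, first spin `s` on the reflected layer -/
noncomputable def cywLam (x : ℝ) (L H : ℕ) (T U : Bool) (k m κ o : ℤ) (J : Finset TV) (s : Bool) (F : ClCfg TV CyY → ℝ) : ℝ :=
  ((cywS x L H T U k m κ J).inn (cywD L κ m o J)).E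
    (fun ω => CuPin s ((cywLay L T k m J).image (cyrV L (cywN κ m) o)) ω ∧ cywLay L T k m J ⊆ ω.W) F

/-- `λ_{U,o}~`: the same law with the colours exchanged -/
noncomputable def cywLamW (x : ℝ) (L H : ℕ) (T U : Bool) (k m κ o : ℤ) (J : Finset TV) (F : ClCfg TV CyY → ℝ) : ℝ :=
  ((cywS x L H T U k m κ J).inn (cywD L κ m o J)).E
    (fun ω => (cywLay L T k m J).image (cyrV L (cywN κ m) o) ⊆ ω.W ∧ cywLay L T k m J ⊆ ω.B) F

/-- the records -/
structure CywRec (x : ℝ) (L H : ℕ) (T : Bool) (k m κ : ℤ) (J : Finset TV) : Prop where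
  bot : sdRow L 0 ⊆ J
  low : J ⊆ sdSites L 0 (k + m)
  inv : ∃ ω : ClCfg TV CyY, clInv (cywM x L H T k m κ) true ∅ ω (sdRow L 0) = J

/-- the standing hypotheses -/
structure CywHyp (x : ℝ) (L H : ℕ) (k m κ : ℤ) : Prop where
  hx : 1 / Real.sqrt 2 ≤ x
  hx1 : x ≤ 1
  hL : 3 ≤ L
  hH : 20 ≤ H
  hm : 1 ≤ m
  hk : 3 ≤ k
  h1 : k + m + 3 ≤ κ
  h2 : κ + m - 1 ≤ (H : ℤ) - 4
  h3 : (H : ℤ) + k + 4 ≤ 2 * κ

variable {x : ℝ} {L H : ℕ} {k m κ : ℤ}

/-! ## 2. general adapters (any system on the cells `CyY`) -/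

/-- flip of the signs of an event -/
def cyNeg (E : Set CyF) : Set CyF := {τ | (fun u => - τ u) ∈ E}

theorem cyw88_on_neg (s : SignType) (τ : CyF) : cyOn s (fun u => - τ u) = cyOn (-s) τ := by
  ext u
  show - τ u = s ↔ τ u = -s
  cases τ u <;> cases s <;> decide

theorem cyw_neg_VP (c d : ℤ) : cyNeg (cyVP 1 c d) = cyVP (-1) c d := by
  ext τ
  show CyX (plsBand c d ∩ cyOn 1 (fun u => - τ u)) c d ↔ CyX (plsBand c d ∩ cyOn (-1) τ) c d
  rw [cyw88_on_neg]

theorem cyw_neg_Blk (c d : ℤ) : cyNeg (cyBlk 1 c d) = cyBlk (-1) c d := by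
  ext τ
  show ¬ CyX (plsBand c d \ cyOn 1 (fun u => - τ u)) c d ↔ ¬ CyX (plsBand c d \ cyOn (-1) τ) c d
  rw [cyw88_on_neg]

/-- a site of the lifted triangle, reduced, is a site of the reduced triangle -/
theorem cyw88_mem (L : ℕ) (T : Bool) (u e : TV) (he : if T then (e = 0 ∨ e = (1, 0) ∨ e = (0, 1)) else (e = (1, 0) ∨ e = (0, 1) ∨ e = (1, 1))) :
    sdRed L (u + e) ∈ cySv L (cyT T (sdRed L u)) := by
  cases T
  · simp only [Bool.false_eq_true, if_false] at he
    show sdRed L (u + e) ∈ (cellD (sdRed L u)).image (sdRed L)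
    refine Finset.mem_image.2 ⟨sdRed L u + e, ?_, cy_red_red L u e⟩
    rcases he with rfl | rfl | rfl <;> simp [cellD]
  · simp only [if_true] at he
    show sdRed L (u + e) ∈ (cellV (sdRed L u)).image (sdRed L)
    refine Finset.mem_image.2 ⟨sdRed L u + e, ?_, cy_red_red L u e⟩
    rcases he with rfl | rfl | rfl <;> simp [cellV]

/-- two cells of one class whose indices are adjacent share a site -/
theorem cyw88_adj (L : ℕ) (T : Bool) {u v : TV} (h : triAdj u v) : ∃ w, w ∈ cySv L (cyT T (sdRed L u)) ∧ w ∈ cySv L (cyT T (sdRed L v)) := by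
  have key : ∃ e e' : TV, u + e = v + e' ∧
      (if T then (e = 0 ∨ e = (1, 0) ∨ e = (0, 1)) else (e = (1, 0) ∨ e = (0, 1) ∨ e = (1, 1))) ∧
      (if T then (e' = 0 ∨ e' = (1, 0) ∨ e' = (0, 1)) else (e' = (1, 0) ∨ e' = (0, 1) ∨ e' = (1, 1))) := by
    obtain ⟨u1, u2⟩ := u
    obtain ⟨v1, v2⟩ := v
    unfold triAdj at h
    simp only [Prod.mk_sub_mk, Prod.mk.injEq] at h
    cases T
    · simp only [Bool.false_eq_true, if_false]
      rcases h with h | h | h | h | h | h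
      · exact ⟨(1, 1), (0, 1), by ext <;> simp <;> omega, by simp, by simp⟩
      · exact ⟨(1, 1), (1, 0), by ext <;> simp <;> omega, by simp, by simp⟩
      · exact ⟨(0, 1), (1, 0), by ext <;> simp <;> omega, by simp, by simp⟩
      · exact ⟨(0, 1), (1, 1), by ext <;> simp <;> omega, by simp, by simp⟩
      · exact ⟨(1, 0), (1, 1), by ext <;> simp <;> omega, by simp, by simp⟩
      · exact ⟨(1, 0), (0, 1), by ext <;> simp <;> omega, by simp, by simp⟩
    · simp only [if_true]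
      rcases h with h | h | h | h | h | h
      · exact ⟨(1, 0), 0, by ext <;> simp <;> omega, by simp, by simp⟩
      · exact ⟨(0, 1), 0, by ext <;> simp <;> omega, by simp, by simp⟩
      · exact ⟨(0, 1), (1, 0), by ext <;> simp <;> omega, by simp, by simp⟩
      · exact ⟨0, (1, 0), by ext <;> simp <;> omega, by simp, by simp⟩
      · exact ⟨0, (0, 1), by ext <;> simp <;> omega, by simp, by simp⟩
      · exact ⟨(1, 0), (0, 1), by ext <;> simp <;> omega, by simp, by simp⟩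
  obtain ⟨e, e', h1, h2, h3⟩ := key
  exact ⟨sdRed L (u + e), cyw88_mem L T u e h2, h1 ▸ cyw88_mem L T v e' h3⟩

/-- the status field of a band: value in the band -/
theorem cyw88_fld (L : ℕ) (U : Bool) {c d : ℤ} (ω : ClCfg TV CyY) {u : TV} (hu : u ∈ plsBand c d) :
    cysFld L U c d ω u = if cyT U (sdRed L u) ∈ ω.O then (if cySv L (cyT U (sdRed L u)) ⊆ ω.B then 1 else -1) else 0 := by
  unfold cysFld
  rw [if_pos (show c ≤ u.2 ∧ u.2 ≤ d from hu)]
  unfold clTau cySg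
  show (if (if cyT U (sdRed L u) ∈ ω.O then (if cySv L (cyT U (sdRed L u)) ⊆ ω.B then (1 : ℤ) else -1) else 0) = 1 then (1 : SignType) else
    if (if cyT U (sdRed L u) ∈ ω.O then (if cySv L (cyT U (sdRed L u)) ⊆ ω.B then (1 : ℤ) else -1) else 0) = -1 then -1 else 0) = _
  split_ifs <;> first | rfl | omega

/-- adjacent open cells of one colour have the same sign -/
theorem cyw88_same (L : ℕ) (U : Bool) {c d : ℤ} (ω : ClCfg TV CyY)
    (hc : ∀ u ∈ plsBand c d, cyT U (sdRed L u) ∈ ω.O → ClConst ω.B (cySv L (cyT U (sdRed L u))))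
    (u : TV) (hu : u ∈ plsBand c d) (v : TV) (hv : v ∈ plsBand c d) (huv : triAdj u v)
    (h1 : cysFld L U c d ω u ≠ 0) (h2 : cysFld L U c d ω v ≠ 0) : cysFld L U c d ω u = cysFld L U c d ω v := by
  rw [cyw88_fld L U ω hu] at h1 ⊢
  rw [cyw88_fld L U ω hv] at h2 ⊢
  by_cases o1 : cyT U (sdRed L u) ∈ ω.O
  · by_cases o2 : cyT U (sdRed L v) ∈ ω.O
    · rw [if_pos o1, if_pos o2]
      obtain ⟨w, hw1, hw2⟩ := cyw88_adj L U huv
      rcases hc u hu o1 with a1 | a1 <;> rcases hc v hv o2 with a2 | a2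
      · rw [if_pos a1, if_pos a2]
      · exact absurd (a1 hw1) (a2 w hw2)
      · exact absurd (a2 hw2) (a1 w hw1)
      · rw [if_neg (fun hh => a1 w hw1 (hh hw1)), if_neg (fun hh => a2 w hw2 (hh hw2))]
    · rw [if_neg o2] at h2; exact absurd rfl h2
  · rw [if_neg o1] at h1; exact absurd rfl h1

/-- **ALT, adapter**: on the support of the two-colour weight the two status fields of a band of cells of the system satisfy the four-way alternative.
PLAN: `cy_alt_det` for `τB = cysFld L U c d ω.fst`, `τW = cysFld L U c d ω.snd` (periodic: `sdRed L (u + (L,0)) = sdRed L u`); cover and "open ⟹ own spin constant": `am_wt2_cover`;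
two cells of one class with `triAdj` indices share a site (`cySv`), so two open cells have the same sign. -/
theorem cyw_alt_cfg (hL : 3 ≤ L) (S : ClSys TV CyY) (hsv : S.sv = cySv L) (U : Bool) {c d : ℤ} (hcd : c ≤ d) (hU : cyBand L U c d ⊆ S.C)
    (ω : ClCfg2 TV CyY) (hω : S.wt2 ω ≠ 0) :
    cysFld L U c d ω.fst ∈ cyVP 1 c d ∨ cysFld L U c d ω.fst ∈ cyVP (-1) c d ∨
      cysFld L U c d ω.snd ∈ cyBlk 1 c d ∨ cysFld L U c d ω.snd ∈ cyBlk (-1) c d := by
  have hL0 : 0 < L := by omega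
  have hmem : ∀ u ∈ plsBand c d, cyT U (sdRed L u) ∈ S.C := fun u hu =>
    hU (Finset.mem_image.2 ⟨sdRed L u, cys_red_cell hL0 u hu.1 hu.2, rfl⟩)
  refine cy_alt_det (L := (L : ℤ)) (by exact_mod_cast hL0) hcd _ _ ?_ ?_ ?_ ?_
  · intro u
    have e : sdRed L (u + ((L : ℤ), 0)) = sdRed L u := by
      unfold sdRed
      ext <;> simp
    unfold cysFld
    rw [e]
    simp
  · intro u hu
    have h := (am_wt2_cover S ω hω _ (hmem u hu)).1
    rw [cyw88_fld L U _ hu, cyw88_fld L U _ hu]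
    rcases h with h | h
    · left
      have h' : cyT U (sdRed L u) ∈ ω.fst.O := h
      rw [if_pos h']
      split_ifs <;> decide
    · right
      have h' : cyT U (sdRed L u) ∈ ω.snd.O := h
      rw [if_pos h']
      split_ifs <;> decide
  · refine cyw88_same L U ω.fst fun u hu ho => ?_
    have := (am_wt2_cover S ω hω _ (hmem u hu)).2.1 ho
    rwa [hsv] at this
  · refine cyw88_same L U ω.snd fun u hu ho => ?_
    have := (am_wt2_cover S ω hω _ (hmem u hu)).2.2.1 ho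
    rwa [hsv] at this

/-- **ALT, number form on a band** (from `cp_alt` + `cyw_alt_cfg`) -/
theorem cyw_alt (hL : 3 ≤ L) (S : ClSys TV CyY) (hsv : S.sv = cySv L) (h0 : ∀ y ∈ S.C, 1 / 2 ≤ S.q y) (h1 : ∀ y ∈ S.C, S.q y ≤ 1) (U : Bool) {c d : ℤ} (hcd : c ≤ d)
    (hU : cyBand L U c d ⊆ S.C) (κp : Finset TV → Finset TV → Prop) :
    S.Z (fun ω => κp ω.B ω.W) ≤
      S.N (fun ω => κp ω.B ω.W) (cysF L U c d (cyVP 1 c d)) + S.N (fun ω => κp ω.B ω.W) (cysF L U c d (cyVP (-1) c d)) +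
        S.N (fun ω => κp ω.W ω.B) (cysF L U c d (cyBlk 1 c d)) + S.N (fun ω => κp ω.W ω.B) (cysF L U c d (cyBlk (-1) c d)) :=
  cp_alt S h0 h1 κp _ _ _ _ fun ω _ hω => cyw_alt_cfg hL S hsv U hcd hU ω hω

theorem cyw88_sg_neg (t : ℤ) : cySg (-t) = - cySg t := by
  unfold cySg
  split_ifs <;> first | rfl | omega

/-- **FLIP, adapter**.      PLAN: `am_flipB_N`; on the support `cysFld L U c d (ω.flipB S.A) = - cysFld L U c d ω` (`am_flipB_tau`, `clTau` reads `sv` only); off the support both terms vanish (`am_flipB_wt`). -/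
theorem cyw_flipB (S : ClSys TV CyY) (hS : ClOk S) (hsv : S.sv = cySv L) (U : Bool) (c d : ℤ) (hU : cyBand L U c d ⊆ S.C) (K : ClCfg TV CyY → Prop) (E : Set CyF) :
    S.N K (cysF L U c d (cyNeg E)) = S.N (fun ω => K (ω.flipB S.A)) (cysF L U c d E) := by
  classical
  rw [am_flipB_N S hS.sub]
  unfold ClSys.N
  refine Finset.sum_congr rfl fun ω hωc => ?_
  by_cases hK : K (ω.flipB S.A)
  · rw [if_pos hK, if_pos hK]
    by_cases hw : S.wt ω = 0
    · rw [hw, zero_mul, zero_mul]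
    · congr 1
      have hO : ω.O ⊆ S.C := ((cl_mem_cfgs S ω).1 hωc).2.2
      have hτ : ∀ (ω' : ClCfg TV CyY) (y : CyY), clTau (cysR L) ω' y = clTau S ω' y := by
        intro ω' y
        unfold clTau
        rw [hsv]
        rfl
      have key : (fun u => - cysFld L U c d (ω.flipB S.A) u) = cysFld L U c d ω := by
        funext u
        unfold cysFld
        by_cases hu : c ≤ u.2 ∧ u.2 ≤ d
        · rw [if_pos hu, if_pos hu, hτ, hτ]
          by_cases hy : cyT U (sdRed L u) ∈ S.C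
          · rw [am_flipB_tau S hS ω hw _ hy, cyw88_sg_neg, neg_neg]
          · have h1 : cyT U (sdRed L u) ∉ ω.O := fun h => hy (hO h)
            have h2 : cyT U (sdRed L u) ∉ (ω.flipB S.A).O := h1
            unfold clTau
            rw [if_neg h1, if_neg h2]
            rfl
        · rw [if_neg hu, if_neg hu]
          rfl
      unfold cysF
      have e : cysFld L U c d (ω.flipB S.A) ∈ cyNeg E ↔ cysFld L U c d ω ∈ E := by
        show (fun u => - cysFld L U c d (ω.flipB S.A) u) ∈ E ↔ _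
        rw [key]
      simp only [e]
  · rw [if_neg hK, if_neg hK]

/-- the parameters are at least `1/2` -/
theorem cyw_q_half (hx : 1 / Real.sqrt 2 ≤ x) (hx1 : x ≤ 1) (a b : ℤ) (Q Γ : Finset CyY) (c : CyY) : 1 / 2 ≤ (cyS x L a b Q Γ).q c ∧ (cyS x L a b Q Γ).q c ≤ 1 := by
  have hx0 : 0 < x := lt_of_lt_of_le (by positivity) hx
  have h2 : 1 / 2 ≤ x ^ 2 := by
    have hs : (1 / Real.sqrt 2) ^ 2 = 1 / 2 := by
      rw [div_pow, Real.sq_sqrt (by norm_num), one_pow]
    calc (1 : ℝ) / 2 = (1 / Real.sqrt 2) ^ 2 := hs.symm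
      _ ≤ x ^ 2 := pow_le_pow_left₀ (by positivity) hx 2
  have h3 : x ^ 2 ≤ x := by nlinarith
  show 1 / 2 ≤ (if c ∈ Γ then (1 : ℝ) else if c.1 = CyK.up ∨ c.1 = CyK.dn then x ^ 2 else x) ∧
    (if c ∈ Γ then (1 : ℝ) else if c.1 = CyK.up ∨ c.1 = CyK.dn then x ^ 2 else x) ≤ 1
  split_ifs
  · norm_num
  · exact ⟨h2, by linarith⟩
  · exact ⟨by linarith, hx1⟩

/-- sums only see the configurations of the system -/
theorem cywi_N_cfgs {V Y : Type} [DecidableEq V] [DecidableEq Y] (S : ClSys V Y) {K K' : ClCfg V Y → Prop} {F F' : ClCfg V Y → ℝ}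
    (hK : ∀ ω ∈ S.cfgs, (K ω ↔ K' ω)) (hF : ∀ ω ∈ S.cfgs, F ω = F' ω) : S.N K F = S.N K' F' := by
  classical
  unfold ClSys.N
  refine Finset.sum_congr rfl fun ω hω => ?_
  rw [hF ω hω]
  exact if_congr (hK ω hω) rfl rfl

/-- the pair weight in the expanded form of `cy_pw_tri` -/
theorem cywi_pw_exp (q : ℝ) (bc wc : Prop) [Decidable bc] [Decidable wc] :
    clPw q bc wc = (if bc then q else 0) + (if wc then (if bc then 1 - q else q) else 0) := by
  unfold clPw
  split_ifs <;> ring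

/-- the factor of a cell in the re-celling inside `I`: the pair weight if the cell lies inside `I`, else `1` -/
noncomputable def cywiG (x : ℝ) (L : ℕ) (I B W : Finset TV) (c : CyY) : ℝ :=
  if cySv L c ⊆ I then clPw (if c.1 = CyK.up ∨ c.1 = CyK.dn then x ^ 2 else x) (ClConst B (cySv L c)) (ClConst W (cySv L c)) else 1

/-- the same factor, triangles replaced by the product over their three edges -/
noncomputable def cywiF (x : ℝ) (L : ℕ) (I B W : Finset TV) (c : CyY) : ℝ :=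
  match c.1 with
  | .up => cywiG x L I B W (CyK.eh, c.2) * cywiG x L I B W (CyK.ev, c.2) * cywiG x L I B W (CyK.ed, sdRed L (c.2 + (1, 0)))
  | .dn => cywiG x L I B W (CyK.eh, c.2 + (0, 1)) * cywiG x L I B W (CyK.ev, sdRed L (c.2 + (1, 0))) * cywiG x L I B W (CyK.ed, sdRed L (c.2 + (1, 0)))
  | _ => cywiG x L I B W c

theorem cywi_sv_ed (L : ℕ) (y : TV) : cySv L (CyK.ed, sdRed L (y + (1, 0))) = {sdRed L (y + (1, 0)), sdRed L (y + (0, 1))} := by
  rw [cyr_sv_ed, cy_red_idem, cy_red_red]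
  have : y + (1, 0) + (-1, 1) = y + (0, 1) := by ext <;> simp
  rw [this]

theorem cywi_sv_ev (L : ℕ) (y : TV) : cySv L (CyK.ev, sdRed L (y + (1, 0))) = {sdRed L (y + (1, 0)), sdRed L (y + (1, 1))} := by
  rw [cyr_sv_ev, cy_red_idem, cy_red_red]
  have : y + (1, 0) + (0, 1) = y + (1, 1) := by ext <;> simp
  rw [this]

theorem cywi_sv_eh (L : ℕ) (y : TV) : cySv L (CyK.eh, y + (0, 1)) = {sdRed L (y + (0, 1)), sdRed L (y + (1, 1))} := by
  rw [cyr_sv_eh]
  have : y + (0, 1) + (1, 0) = y + (1, 1) := by ext <;> simp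
  rw [this]

/-- a triangle inside `I` or off `I`: its factor is the product of the factors of its edges -/
theorem cywi_tri (x : ℝ) (L : ℕ) (I B W : Finset TV) (c : CyY) (hk : c.1 = CyK.up ∨ c.1 = CyK.dn)
    (hin : cySv L c ⊆ I ∨ Disjoint (cySv L c) I) : cywiF x L I B W c = cywiG x L I B W c := by
  obtain ⟨k, y⟩ := c
  simp only at hk
  have hE : ∀ (e : CyY) (p q : TV), (e.1 = CyK.eh ∨ e.1 = CyK.ev ∨ e.1 = CyK.ed) → cySv L e = {p, q} →
      cywiG x L I B W e = if ({p, q} : Finset TV) ⊆ I then clPw x (ClConst B {p, q}) (ClConst W {p, q}) else 1 := by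
    intro e p q he hs
    unfold cywiG
    have h0 : ¬ (e.1 = CyK.up ∨ e.1 = CyK.dn) := by
      rintro (h | h) <;> rcases he with h' | h' | h' <;> rw [h] at h' <;> cases h'
    rw [if_neg h0, hs]
  rcases hk with rfl | rfl
  · show cywiG x L I B W (CyK.eh, y) * cywiG x L I B W (CyK.ev, y) * cywiG x L I B W (CyK.ed, sdRed L (y + (1, 0))) = _
    rw [hE _ _ _ (Or.inl rfl) (cyr_sv_eh L y), hE _ _ _ (Or.inr (Or.inl rfl)) (cyr_sv_ev L y), hE _ _ _ (Or.inr (Or.inr rfl)) (cywi_sv_ed L y)]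
    unfold cywiG
    rw [cyr_sv_up] at hin ⊢
    rw [if_pos (Or.inl rfl)]
    rcases hin with h | h
    · have h' := h
      simp only [Finset.insert_subset_iff, Finset.singleton_subset_iff] at h'
      have n1 : ({sdRed L y, sdRed L (y + (1, 0))} : Finset TV) ⊆ I := by simp [Finset.insert_subset_iff, h'.1, h'.2.1]
      have n2 : ({sdRed L y, sdRed L (y + (0, 1))} : Finset TV) ⊆ I := by simp [Finset.insert_subset_iff, h'.1, h'.2.2]
      have n3 : ({sdRed L (y + (1, 0)), sdRed L (y + (0, 1))} : Finset TV) ⊆ I := by simp [Finset.insert_subset_iff, h'.2.1, h'.2.2]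
      rw [if_pos h, if_pos n1, if_pos n2, if_pos n3]
      simp only [cywi_pw_exp]
      exact (cy_pw_tri x B W _ _ _).symm
    · have h' := h
      simp only [Finset.disjoint_insert_left, Finset.disjoint_singleton_left] at h'
      have n0 : ¬ ({sdRed L y, sdRed L (y + (1, 0)), sdRed L (y + (0, 1))} : Finset TV) ⊆ I := fun hs => h'.1 (hs (by simp))
      have n1 : ¬ ({sdRed L y, sdRed L (y + (1, 0))} : Finset TV) ⊆ I := fun hs => h'.1 (hs (by simp))
      have n2 : ¬ ({sdRed L y, sdRed L (y + (0, 1))} : Finset TV) ⊆ I := fun hs => h'.1 (hs (by simp))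
      have n3 : ¬ ({sdRed L (y + (1, 0)), sdRed L (y + (0, 1))} : Finset TV) ⊆ I := fun hs => h'.2.1 (hs (by simp))
      rw [if_neg n0, if_neg n1, if_neg n2, if_neg n3]
      ring
  · show cywiG x L I B W (CyK.eh, y + (0, 1)) * cywiG x L I B W (CyK.ev, sdRed L (y + (1, 0))) * cywiG x L I B W (CyK.ed, sdRed L (y + (1, 0))) = _
    rw [hE _ _ _ (Or.inl rfl) (cywi_sv_eh L y), hE _ _ _ (Or.inr (Or.inl rfl)) (cywi_sv_ev L y), hE _ _ _ (Or.inr (Or.inr rfl)) (cywi_sv_ed L y)]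
    unfold cywiG
    rw [cyr_sv_dn] at hin ⊢
    rw [if_pos (Or.inr rfl)]
    rcases hin with h | h
    · have h' := h
      simp only [Finset.insert_subset_iff, Finset.singleton_subset_iff] at h'
      have n1 : ({sdRed L (y + (0, 1)), sdRed L (y + (1, 1))} : Finset TV) ⊆ I := by simp [Finset.insert_subset_iff, h'.2.1, h'.2.2]
      have n2 : ({sdRed L (y + (1, 0)), sdRed L (y + (1, 1))} : Finset TV) ⊆ I := by simp [Finset.insert_subset_iff, h'.1, h'.2.2]
      have n3 : ({sdRed L (y + (1, 0)), sdRed L (y + (0, 1))} : Finset TV) ⊆ I := by simp [Finset.insert_subset_iff, h'.1, h'.2.1]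
      rw [if_pos h, if_pos n1, if_pos n2, if_pos n3]
      simp only [cywi_pw_exp]
      rw [cy_pw_tri x B W _ _ _]
      ring
    · have h' := h
      simp only [Finset.disjoint_insert_left, Finset.disjoint_singleton_left] at h'
      have n0 : ¬ ({sdRed L (y + (1, 0)), sdRed L (y + (0, 1)), sdRed L (y + (1, 1))} : Finset TV) ⊆ I := fun hs => h'.1 (hs (by simp))
      have n1 : ¬ ({sdRed L (y + (0, 1)), sdRed L (y + (1, 1))} : Finset TV) ⊆ I := fun hs => h'.2.1 (hs (by simp))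
      have n2 : ¬ ({sdRed L (y + (1, 0)), sdRed L (y + (1, 1))} : Finset TV) ⊆ I := fun hs => h'.1 (hs (by simp))
      have n3 : ¬ ({sdRed L (y + (1, 0)), sdRed L (y + (0, 1))} : Finset TV) ⊆ I := fun hs => h'.1 (hs (by simp))
      rw [if_neg n0, if_neg n1, if_neg n2, if_neg n3]
      ring

theorem cywi_other (x : ℝ) (L : ℕ) (I B W : Finset TV) (c : CyY) (hk : ¬ (c.1 = CyK.up ∨ c.1 = CyK.dn)) :
    cywiF x L I B W c = cywiG x L I B W c := by
  obtain ⟨k, y⟩ := c
  cases k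
  · exact absurd (Or.inl rfl) hk
  · exact absurd (Or.inr rfl) hk
  all_goals rfl

/-- the product of the pair weights of the unread cells inside `I` -/
theorem cywi_prod (x : ℝ) (L : ℕ) (a b : ℤ) (Q₀ Q Γ : Finset CyY) (I B W : Finset TV) (hΓ : ∀ y ∈ Γ, ¬ cySv L y ⊆ I) :
    ∏ y ∈ ((cyS x L a b Q Γ).inn I).C \ Q₀.filter (fun y => cySv L y ⊆ I), ((cyS x L a b Q Γ).inn I).pw B W y =
      ∏ y ∈ (cyS x L a b Q Γ).C \ Q₀, cywiG x L I B W y := by
  have e : ((cyS x L a b Q Γ).inn I).C \ Q₀.filter (fun y => cySv L y ⊆ I) = ((cyS x L a b Q Γ).C \ Q₀).filter (fun y => cySv L y ⊆ I) := by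
    ext y
    rw [Finset.mem_sdiff, Finset.mem_filter, Finset.mem_filter, Finset.mem_sdiff]
    show (y ∈ (cyS x L a b Q Γ).cin I ∧ _) ↔ _
    rw [am_mem_cin]
    show ((y ∈ (cyS x L a b Q Γ).C ∧ cySv L y ⊆ I) ∧ _) ↔ _
    tauto
  rw [e, Finset.prod_filter]
  refine Finset.prod_congr rfl fun y _ => ?_
  unfold cywiG
  by_cases h : cySv L y ⊆ I
  · rw [if_pos h, if_pos h]
    show clPw (if y ∈ Γ then (1 : ℝ) else if y.1 = CyK.up ∨ y.1 = CyK.dn then x ^ 2 else x) _ _ = _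
    rw [if_neg (fun hy => hΓ y hy h)]
    rfl
  · rw [if_neg h, if_neg h]

/-- the statuses of the cells which are not inside `I` are erased -/
def cywiE (L : ℕ) (I : Finset TV) (ω : ClCfg TV CyY) : ClCfg TV CyY := ⟨ω.B, ω.W, ω.O.filter (fun y => cySv L y ⊆ I)⟩

theorem cywi_erase (x : ℝ) (L : ℕ) (a b : ℤ) (Q Γ : Finset CyY) (I : Finset TV) (ω : ClCfg TV CyY) (hω : ω ∈ ((cyS x L a b Q Γ).inn I).cfgs) :
    cywiE L I ω = ω := by
  obtain ⟨_, _, hO⟩ := (cl_mem_cfgs _ ω).1 hω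
  have : ω.O.filter (fun y => cySv L y ⊆ I) = ω.O :=
    Finset.filter_true_of_mem fun y hy => ((am_mem_cin _ _ _).1 (hO hy)).2
  unfold cywiE
  rw [this]

theorem cywi_N (x : ℝ) (L : ℕ) (a b : ℤ) (Q Γ : Finset CyY) (I : Finset TV) (K : ClCfg TV CyY → Prop) (F : ClCfg TV CyY → ℝ) :
    ((cyS x L a b Q Γ).inn I).N K F = ((cyS x L a b Q Γ).inn I).N (fun ω => K (cywiE L I ω)) (fun ω => F (cywiE L I ω)) :=
  cywi_N_cfgs _ (fun ω hω => by rw [cywi_erase x L a b Q Γ I ω hω]) (fun ω hω => by rw [cywi_erase x L a b Q Γ I ω hω])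

theorem cywi_cap (L : ℕ) (I : Finset TV) (Q : Finset CyY) (ω ω' : ClCfg TV CyY)
    (h : ω.O ∩ Q.filter (fun y => cySv L y ⊆ I) = ω'.O ∩ Q.filter (fun y => cySv L y ⊆ I)) : (cywiE L I ω).O ∩ Q = (cywiE L I ω').O ∩ Q := by
  ext y
  have := Finset.ext_iff.1 h y
  simp only [cywiE, Finset.mem_inter, Finset.mem_filter] at this ⊢
  tauto

/-- the products of the factors agree -/
theorem cywi_key (x : ℝ) {L : ℕ} (hL0 : 0 < L) {a b : ℤ} {Q Q' Γ Γ' : Finset CyY} (hQ : CyVal L a b Q) (hQ' : CyVal L a b Q') (hsub : Q ⊆ Q') (I : Finset TV)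
    (hin : ∀ y ∈ Q' \ Q, cySv L y ⊆ I ∨ Disjoint (cySv L y) I) (B W : Finset TV) :
    ∏ c ∈ (cyS x L a b Q' Γ').C \ Q, cywiG x L I B W c = ∏ c ∈ (cyS x L a b Q Γ).C \ Q, cywiG x L I B W c := by
  have key := cy_prod_recell (x := x) (Γ := Γ) hL0 hQ hQ' hsub (cywiF x L I B W) (fun y _ _ => rfl) (fun y _ _ => rfl)
  have e1 : ∏ c ∈ (cyS x L a b Q' Γ').C \ Q, cywiG x L I B W c = ∏ c ∈ (cyS x L a b Q' Γ).C \ Q, cywiF x L I B W c := by
    refine Finset.prod_congr rfl fun c hc => ?_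
    obtain ⟨hc1, hc2⟩ := Finset.mem_sdiff.1 hc
    by_cases hk : c.1 = CyK.up ∨ c.1 = CyK.dn
    · refine (cywi_tri x L I _ _ c hk (hin c (Finset.mem_sdiff.2 ⟨?_, hc2⟩))).symm
      rcases cy_mem_C.1 hc1 with h | h | h
      · exact h
      · exfalso
        rcases cyr_edge_kind h.1 with h' | h' | h' <;> rcases hk with h'' | h'' <;> rw [h'] at h'' <;> cases h''
      · exfalso
        rcases cy_mem_spokes.1 h with ⟨h', _⟩ | ⟨h', _⟩ <;> rcases hk with h'' | h'' <;> rw [h'] at h'' <;> cases h''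
    · exact (cywi_other x L I _ _ c hk).symm
  have e2 : ∏ c ∈ (cyS x L a b Q Γ).C \ Q, cywiG x L I B W c = ∏ c ∈ (cyS x L a b Q Γ).C \ Q, cywiF x L I B W c := by
    refine Finset.prod_congr rfl fun c hc => ?_
    obtain ⟨hc1, hc2⟩ := Finset.mem_sdiff.1 hc
    refine (cywi_other x L I _ _ c ?_).symm
    intro hk
    rcases cy_mem_C.1 hc1 with h | h | h
    · exact hc2 h
    · rcases cyr_edge_kind h.1 with h' | h' | h' <;> rcases hk with h'' | h'' <;> rw [h'] at h'' <;> cases h''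
    · rcases cy_mem_spokes.1 h with ⟨h', _⟩ | ⟨h', _⟩ <;> rcases hk with h'' | h'' <;> rw [h'] at h'' <;> cases h''
  rw [e1, e2, key]

theorem cywi_eqns_cite : True := by
  have := @cywiG.eq_1
  have := @cywiF.eq_1
  have := @cywiE.eq_1
  trivial

/-- **(RC) inside a domain** (generalises `cy_rc` of 43: `I` = all the sites).   Triangles which nobody reads and which lie inside `I` or off `I` may be dissolved; neutralised cells which are not inside `I` do not matter.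
PLAN: `cp_rc` (or `cy_recell`) for the two systems `(cyS ..).inn I`, read cells `T = Q.filter (inside I)`; the products of the pair weights: `cy_prod_recell` with `f c = if cySv L c ⊆ I then pair weight else 1`
(its hypotheses `hup`, `hdn` are only used for the triangles of `Q' \ Q`: weaken them there), `cy_pw_tri`. -/
theorem cy_rc_inn (x : ℝ) (hL : 3 ≤ L) {a b : ℤ} {Q Q' Γ Γ' : Finset CyY} (hQ : CyVal L a b Q) (hQ' : CyVal L a b Q') (hsub : Q ⊆ Q') (I : Finset TV)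
    (hI : I ⊆ sdSites L a b) (hin : ∀ y ∈ Q' \ Q, cySv L y ⊆ I ∨ Disjoint (cySv L y) I) (hΓ : ∀ y ∈ Γ, ¬ cySv L y ⊆ I) (hΓ' : ∀ y ∈ Γ', ¬ cySv L y ⊆ I)
    (K : ClCfg TV CyY → Prop) (F : ClCfg TV CyY → ℝ) (hK : ClLocP I Q K) (hF : ClLoc I Q F) :
    ((cyS x L a b Q' Γ').inn I).N K F = ((cyS x L a b Q Γ).inn I).N K F := by
  have hL0 : 0 < L := by omega
  rw [cywi_N x L a b Q' Γ' I K F, cywi_N x L a b Q Γ I K F]
  have hA : ((cyS x L a b Q' Γ').inn I).A = ((cyS x L a b Q Γ).inn I).A := rfl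
  have hsv : ∀ y ∈ Q.filter (fun y => cySv L y ⊆ I), ((cyS x L a b Q' Γ').inn I).sv y = ((cyS x L a b Q Γ).inn I).sv y := fun _ _ => rfl
  refine cp_rc ((cyS x L a b Q' Γ').inn I) ((cyS x L a b Q Γ).inn I) hA (Q.filter (fun y => cySv L y ⊆ I)) ?_ ?_ hsv ?_
    (fun ω => K (cywiE L I ω)) (fun ω => F (cywiE L I ω)) ?_ ?_ ?_
  · intro y hy
    obtain ⟨h1, h2⟩ := Finset.mem_filter.1 hy
    exact (am_mem_cin _ _ _).2 ⟨cy_mem_C.2 (Or.inl (hsub h1)), h2⟩
  · intro y hy
    obtain ⟨h1, h2⟩ := Finset.mem_filter.1 hy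
    exact (am_mem_cin _ _ _).2 ⟨cy_mem_C.2 (Or.inl h1), h2⟩
  · intro y hy
    obtain ⟨h1, h2⟩ := Finset.mem_filter.1 hy
    show (if y ∈ Γ' then (1 : ℝ) else _) = (if y ∈ Γ then (1 : ℝ) else _)
    rw [if_neg (fun h => hΓ' y h h2), if_neg (fun h => hΓ y h h2)]
  · intro ω ω' h1 h2 h3
    exact hK _ _ h1 h2 (cywi_cap L I Q ω ω' h3)
  · intro ω ω' h1 h2 h3
    exact hF _ _ h1 h2 (cywi_cap L I Q ω ω' h3)
  · intro ω _ _ _
    rw [cywi_prod x L a b Q Q' Γ' I ω.B ω.W hΓ', cywi_prod x L a b Q Q Γ I ω.B ω.W hΓ]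
    exact cywi_key x hL0 hQ hQ' hsub I hin ω.B ω.W

/-! ## 3. the families, the mixed cylinder `M` -/

theorem cyw_val (h : CywHyp x L H k m κ) (T U : Bool) : CyVal L (-3) (cywN κ m + 3) (cywQ L H T U k m κ) := by
  obtain ⟨-, -, -, hH, hm, hk, h1, h2, h3⟩ := h
  refine cys_val_of ?_ ?_
  · unfold cywQ cywQH cywQ0 cywN
    refine Finset.union_subset (Finset.union_subset (Finset.union_subset (Finset.union_subset ?_ ?_) ?_) ?_) ?_ <;>
      exact cys_band_tris (by omega) (by omega)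
  · intro y z hy hz
    unfold cywQ cywQH cywQ0 cywN at hy hz
    cases T <;> cases U <;> simp [Finset.mem_union, cys_mem_band] at hy hz <;> omega

theorem cyw_val_a (h : CywHyp x L H k m κ) (T : Bool) : CyVal L (-3) (cywN κ m + 3) (cywQa L H T k m κ) := by
  obtain ⟨-, -, -, hH, hm, hk, h1, h2, h3⟩ := h
  refine cys_val_of ?_ ?_
  · unfold cywQa cywQH cywQ0 cywN
    refine Finset.union_subset (Finset.union_subset (Finset.union_subset ?_ ?_) ?_) ?_ <;>
      exact cys_band_tris (by omega) (by omega)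
  · intro y z hy hz
    unfold cywQa cywQH cywQ0 cywN at hy hz
    cases T <;> simp [Finset.mem_union, cys_mem_band] at hy hz <;> omega

theorem cyw_val_H (h : CywHyp x L H k m κ) (T : Bool) : CyVal L (-3) (cywN κ m + 3) (cywQH L H T k m κ) := by
  exact cys_val_mono Finset.subset_union_left (cyw_val_a h T)

theorem cyw_mx_iff (ω : ClCfg TV CyY) : CyMix L 0 H ω ↔ cywMx L H ω.B ω.W := by
  unfold CyMix cywMx CuPin
  constructor
  · rintro ⟨a, b⟩
    exact ⟨fun v hv hb => by simpa using (a v hv).1 hb, fun v hv => (b v hv).2 rfl⟩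
  · rintro ⟨a, b⟩
    exact ⟨fun v hv => ⟨fun hb => absurd hb (a v hv), fun e => by simp at e⟩, fun v hv => ⟨fun _ => rfl, fun _ => b hv⟩⟩

theorem cyw_KW_iff (S : ClSys TV CyY) (ω : ClCfg TV CyY) : (cywKW L H).Holds S ω ↔ cywMx L H ω.W ω.B := by
  unfold ClCon.Holds cywKW cywMx
  simp only [Finset.empty_subset, Finset.notMem_empty, false_imp_iff, implies_true, true_and]
  exact and_comm

theorem cyw_M_ok (h : CywHyp x L H k m κ) (T : Bool) : ClOk (cywM x L H T k m κ) := by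
  have hx0 : 0 < x := lt_of_lt_of_le (by positivity) h.hx
  have hL0 : 0 < L := by have := h.hL; omega
  refine ⟨cys_In_sub x hL0 _ _ _ _, fun c _ => cy_sv_nonempty L c, fun c _ => ?_, fun c _ => ?_⟩
  · show 0 < (if c ∈ (∅ : Finset CyY) then (1 : ℝ) else if c.1 = CyK.up ∨ c.1 = CyK.dn then x ^ 2 else x)
    split_ifs <;> positivity
  · show (if c ∈ (∅ : Finset CyY) then (1 : ℝ) else if c.1 = CyK.up ∨ c.1 = CyK.dn then x ^ 2 else x) ≤ 1
    have := h.hx1
    split_ifs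
    · exact le_rfl
    · nlinarith
    · exact this

/-- all the cells of class `T` of the slabs `-1..H` are in the family of the search -/
theorem cyw_Qa_all (h : CywHyp x L H k m κ) (T : Bool) : cyBand L T (-1) H ⊆ cywQa L H T k m κ := by
  obtain ⟨-, -, -, hH, hm, hk, h1, h2, h3⟩ := h
  intro c hc
  rw [cys_mem_band] at hc
  unfold cywQa cywQH cywQ0
  simp only [Finset.mem_union, cys_mem_band]
  obtain ⟨c1, c2, c3, c4⟩ := hc
  by_cases a1 : c.2.2 ≤ k + m
  · exact Or.inl (Or.inl (Or.inl ⟨c1, c2, c3, a1⟩))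
  · by_cases a2 : c.2.2 ≤ (H : ℤ) - 1
    · exact Or.inr ⟨c1, c2, by omega, a2⟩
    · exact Or.inl (Or.inr ⟨c1, c2, by omega, c4⟩)

/-- the cells of `M` are the cells of class `T` of the slabs `0..H-1` -/
theorem cyw_M_C (h : CywHyp x L H k m κ) (T : Bool) : (cywM x L H T k m κ).C = cyBand L T 0 ((H : ℤ) - 1) := by
  have hL0 : 0 < L := by have := h.hL; omega
  have hall := cyw_Qa_all (x := x) h T
  obtain ⟨-, -, -, hH, hm, hk, h1, h2, h3⟩ := h
  ext c
  show c ∈ (cywQa L H T k m κ ∩ cyTris L 0 H) ∪ (cyEdges L 0 H).filter (fun e => cyTa L e ∉ cywQa L H T k m κ ∧ cyTb L e ∉ cywQa L H T k m κ) ↔ _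
  rw [Finset.mem_union, Finset.mem_inter, Finset.mem_filter]
  constructor
  · rintro (⟨hc, ht⟩ | ⟨he, hn1, hn2⟩)
    · rw [cys_mem_tris] at ht
      unfold cywQa cywQH cywQ0 cywN at hc
      simp only [Finset.mem_union, cys_mem_band] at hc
      rw [cys_mem_band]
      rcases hc with ((hc | hc) | hc) | hc
      · exact ⟨hc.1, hc.2.1, by omega, by omega⟩
      · omega
      · omega
      · exact ⟨hc.1, hc.2.1, by omega, by omega⟩
    · exfalso
      obtain ⟨kd, y⟩ := c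
      cases T
      · refine hn2 (hall ?_)
        rcases cy_mem_edges.1 he with ⟨hk', hy⟩ | ⟨hk', hy⟩ | ⟨hk', hy⟩
        · simp only at hk' hy
          subst hk'
          rw [cy_mem_sites] at hy
          rw [cys_mem_band]
          refine ⟨rfl, ⟨?_, ?_⟩, ?_, ?_⟩
          · show 0 ≤ y.1 - 0
            omega
          · show y.1 - 0 < L
            omega
          · show -1 ≤ y.2 - 1
            omega
          · show y.2 - 1 ≤ H
            omega
        · simp only at hk' hy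
          subst hk'
          rw [cy_mem_cells] at hy
          rw [cys_mem_band]
          refine ⟨rfl, cys_red_fst hL0 _, ?_, ?_⟩
          · show -1 ≤ y.2 - 0
            omega
          · show y.2 - 0 ≤ H
            omega
        · simp only at hk' hy
          subst hk'
          rw [cy_mem_cells] at hy
          rw [cys_mem_band]
          refine ⟨rfl, cys_red_fst hL0 _, ?_, ?_⟩
          · show -1 ≤ y.2 - 0
            omega
          · show y.2 - 0 ≤ H
            omega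
      · refine hn1 (hall ?_)
        rcases cy_mem_edges.1 he with ⟨hk', hy⟩ | ⟨hk', hy⟩ | ⟨hk', hy⟩
        · simp only at hk' hy
          subst hk'
          rw [cy_mem_sites] at hy
          rw [cys_mem_band]
          exact ⟨rfl, ⟨hy.1, hy.2.1⟩, by show -1 ≤ y.2; omega, by show y.2 ≤ H; omega⟩
        · simp only at hk' hy
          subst hk'
          rw [cy_mem_cells] at hy
          rw [cys_mem_band]
          exact ⟨rfl, ⟨hy.1, hy.2.1⟩, by show -1 ≤ y.2; omega, by show y.2 ≤ H; omega⟩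
        · simp only at hk' hy
          subst hk'
          rw [cy_mem_cells] at hy
          rw [cys_mem_band]
          refine ⟨rfl, cys_red_fst hL0 _, ?_, ?_⟩
          · show -1 ≤ y.2 - 0
            omega
          · show y.2 - 0 ≤ H
            omega
  · intro hc
    refine Or.inl ⟨hall (cys_band_mono L T (by omega) (by omega) hc), cys_band_tris (by omega) (by omega) hc⟩

theorem cyw_x_pos (h : CywHyp x L H k m κ) : 0 < x :=
  lt_of_lt_of_le (by positivity) h.hx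

theorem cyw_x_sq (h : CywHyp x L H k m κ) : 1 / 2 ≤ x ^ 2 := by
  have h1 : (1 / Real.sqrt 2) ^ 2 ≤ x ^ 2 := pow_le_pow_left₀ (by positivity) h.hx 2
  have h2 : (1 / Real.sqrt 2) ^ 2 = 1 / 2 := by
    rw [div_pow, one_pow, Real.sq_sqrt (by norm_num)]
  rwa [h2] at h1

theorem cyw_mx_eq (L H : ℕ) : (fun ω : ClCfg TV CyY => cywMx L H ω.B ω.W) = CyMix L 0 H :=
  funext fun ω => propext (cyw_mx_iff ω).symm

/-- a band of class `T` inside the mixed cylinder belongs to the family of the search -/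
theorem cyw_band_Qa (T : Bool) {c d : ℤ} (hc : -1 ≤ c) (hd : d ≤ (H : ℤ)) : cyBand L T c d ⊆ cywQa L H T k m κ := by
  intro y hy
  obtain ⟨h1, h2, h3, h4⟩ := cys_mem_band.1 hy
  unfold cywQa cywQH cywQ0
  simp only [Finset.mem_union]
  by_cases a1 : y.2.2 ≤ k + m
  · exact Or.inl (Or.inl (Or.inl (cys_mem_band.2 ⟨h1, h2, by omega, a1⟩)))
  · by_cases a2 : y.2.2 ≤ (H : ℤ) - 1
    · exact Or.inr (cys_mem_band.2 ⟨h1, h2, by omega, a2⟩)
    · exact Or.inl (Or.inr (cys_mem_band.2 ⟨h1, h2, by omega, by omega⟩))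

/-- the two cut bands belong to the families of the comparisons -/
theorem cyw_band_QH (T : Bool) (hk : 0 ≤ k + m) : cyBand L T (0 - 1) (0 - 1) ⊆ cywQH L H T k m κ ∧ cyBand L T H H ⊆ cywQH L H T k m κ := by
  constructor
  · intro y hy
    obtain ⟨h1, h2, h3, h4⟩ := cys_mem_band.1 hy
    unfold cywQH cywQ0
    simp only [Finset.mem_union]
    exact Or.inl (Or.inl (cys_mem_band.2 ⟨h1, h2, by omega, by omega⟩))
  · intro y hy
    unfold cywQH
    exact Finset.mem_union_right _ hy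

/-- (n0) -/
theorem cyw_Z_pos (h : CywHyp x L H k m κ) (T : Bool) : 0 < (cywM x L H T k m κ).Z (fun ω => cywMx L H ω.B ω.W) := by
  have hx0 := cyw_x_pos h
  have hH : (20 : ℤ) ≤ H := by exact_mod_cast h.hH
  have h1 := h.h1
  have h3 := h.h3
  have hm := h.hm
  have hk := h.hk
  have A1 := cys_amb hx0 h.hx1 h.hL (a := -3) (b := cywN κ m + 3) (r0 := 0) (r1 := H) (by norm_num) (by omega) (by unfold cywN; omega) (cyw_val_a h T) ∅ T T
    (cyw_band_Qa T (by norm_num) (by omega)) (cyw_band_Qa T (by omega) le_rfl)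
    (M' := ∅) (P' := ∅) (Finset.empty_subset _)
      (fun y hy => absurd hy (Finset.notMem_empty _)) (Finset.empty_subset _) (fun y hy => absurd hy (Finset.notMem_empty _)) (fun _ => 1)
      (fun _ _ _ _ _ => rfl)
  have e1 := A1.2
  rw [dis_E_eq, ← dis_Z_eq, div_self A1.1.ne'] at e1
  rw [cyw_mx_eq]
  have hnn := amo_Z_nonneg (cywM x L H T k m κ) (cyw_M_ok h T) (CyMix L 0 H)
  rcases hnn.lt_or_eq with h' | h'
  · exact h'
  · exfalso
    have e2 : (cysIn x L (cywQa L H T k m κ) ∅ 0 H).Z (CyMix L 0 H) = 0 := h'.symm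
    rw [dis_E_eq, e2, div_zero] at e1
    exact one_ne_zero e1

/-- (n6) `cyP` on the diagonal, read in `M`.      PLAN: `cys_P_eq`, `cys_rc_in` (`Q = cyQ L H T T`, `Q' = cywQa`), `cyw_mx_iff`, `dis_E_eq`. -/
theorem cyw_P_diag (h : CywHyp x L H k m κ) (T : Bool) {c d : ℤ} (hc : 2 ≤ c) (hd : d ≤ (H : ℤ) - 3) {E : Set CyF} (hs : CySup c d E) :
    (cywM x L H T k m κ).N (fun ω => cywMx L H ω.B ω.W) (cysF L T c d E) =
      (cywM x L H T k m κ).Z (fun ω => cywMx L H ω.B ω.W) * cyP x L H T T E := by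
  have hx0 := cyw_x_pos h
  have hL0 : 0 < L := by have := h.hL; omega
  have hH : (20 : ℤ) ≤ H := by exact_mod_cast h.hH
  have h1 := h.h1
  have h3 := h.h3
  have hm := h.hm
  have hk := h.hk
  have hZ := cyw_Z_pos h T
  have q1 : cyBand L T (0 - 1) (0 - 1) ⊆ cyQ L H T T := fun y hy => by
    have z1 : (0 : ℤ) - 1 = -1 := by norm_num
    rw [z1] at hy
    unfold cyQ; simp only [Finset.mem_union]; tauto
  have q2 : cyBand L T H H ⊆ cyQ L H T T := fun y hy => by
    unfold cyQ; simp only [Finset.mem_union]; tauto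
  have r := cys_rc_in hx0 h.hx1 h.hL (a := -3) (b := cywN κ m + 3) (a' := -3) (b' := (H : ℤ) + 3) (r0 := 0) (r1 := H) (c := c) (d := d) (by norm_num) (by norm_num)
    (by omega) (by unfold cywN; omega) (by omega) (cyw_val_a h T) (cys_Q_val L H T T) T T T
    (cyw_band_Qa T (by norm_num) (by omega)) (cyw_band_Qa T (by omega) le_rfl) (cyw_band_Qa T (by omega) (by omega))
    q1 q2 (cys_Q_band L H T T hc hd) (by omega) (by omega) (cysF L T c d E) (cys_F_loc hL0 T (by omega) (by omega) E)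
  rw [cys_P_eq x hL0 H T T hc hd hs, ← r]
  rw [cyw_mx_eq] at hZ ⊢
  show (cywM x L H T k m κ).N (CyMix L 0 H) (cysF L T c d E) = (cywM x L H T k m κ).Z (CyMix L 0 H) * (cywM x L H T k m κ).E (CyMix L 0 H) (cysF L T c d E)
  rw [dis_E_eq, mul_div_cancel₀ _ hZ.ne']

/-- (n4), (n5) **TOWER + COLOUR EXCHANGE**: the kernel of a high test, integrated with the colours exchanged, is `cyP`.
PLAN: `cp_swap`; `M.E Mx g = (cysIn x L (cywQ .. U) ∅ 0 H).E (CyMix L 0 H) g` for the pair function `g` (`cys_rc_in`, common band `T@[0..k+m]`, `g` reads no status); `cp_tower` there (`cp_ker_congr`: `cywR` and `cysIn` have the same `sv`, `q` on the band);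
`cys_rc_in` + `cys_P_eq` back to `cyQ L H T U`. -/
theorem cyw_tower (h : CywHyp x L H k m κ) (T U : Bool) {E : Set CyF} (hs : CySup κ (κ + m - 1) E) :
    (cywM x L H T k m κ).N (fun ω => cywMx L H ω.W ω.B) (fun ω => cywG x L U κ (κ + m - 1) E ω.W ω.B) =
      (cywM x L H T k m κ).Z (fun ω => cywMx L H ω.B ω.W) * cyP x L H T U E := by
  have hL := h.hL
  have hL0 : 0 < L := by omega
  have hx0 : 0 < x := lt_of_lt_of_le (by positivity) h.hx
  have a1 := h.h1; have a2 := h.h2; have a3 := h.h3; have a4 := h.hk; have a5 := h.hm; have a6 := h.hH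
  have hN : (H : ℤ) < cywN κ m + 3 := by unfold cywN; omega
  have hHpos : (0 : ℤ) < H := by omega
  -- the family of the comparisons contains what is needed
  have q0 : ∀ {c d : ℤ}, -1 ≤ c → d ≤ k + m → cyBand L T c d ⊆ cywQ L H T U k m κ := by
    intro c d hc hd y hy
    unfold cywQ cywQH cywQ0
    exact Finset.mem_union_left _ (Finset.mem_union_left _ (Finset.mem_union_left _ (Finset.mem_union_left _ (cys_band_mono L T hc hd hy))))
  have qH : cyBand L T H H ⊆ cywQ L H T U k m κ := by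
    intro y hy
    unfold cywQ cywQH
    exact Finset.mem_union_left _ (Finset.mem_union_left _ (Finset.mem_union_right _ hy))
  have qU : cyBand L U κ (κ + m - 1) ⊆ cywQ L H T U k m κ := fun y hy => Finset.mem_union_right _ hy
  set MU := cysIn x L (cywQ L H T U k m κ) ∅ 0 H with hMU
  -- the kernel is a local pair function
  have hsvU : ∀ y ∈ cyBand L U κ (κ + m - 1), (cywR x L).sv y ⊆ sdSites L 0 H := by
    intro y hy
    have hy' := cys_mem_band.1 hy
    refine (cys_sv_sub hL0 y 0 H).2 ⟨?_, ?_⟩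
    · unfold cysLo; rw [hy'.1]; cases U <;> simp <;> omega
    · unfold cysHi; rw [hy'.1]; cases U <;> simp <;> omega
  have hFl := cys_F_loc hL0 U (r0 := 0) (r1 := H) (c := κ) (d := κ + m - 1) (by omega) (by omega) E
  have hgl : ClLoc (sdSites L 0 H) (cyBand L T 0 (k + m)) (fun ω : ClCfg TV CyY => cywG x L U κ (κ + m - 1) E ω.B ω.W) := by
    intro ω ω' hB hW _
    exact cp_ker_loc (cywR x L) _ (sdSites L 0 H) hsvU _ (fun ω ω' hB hW hO => hFl ω ω' hB hW (by rw [hO])) _ _ _ _ hB hW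
  -- (1) change of family for the pair function
  have e1 := cys_rc_in hx0 h.hx1 hL (a := -3) (b := cywN κ m + 3) (a' := -3) (b' := cywN κ m + 3) (r0 := 0) (r1 := H) (c := 0) (d := k + m)
    (by norm_num) (by norm_num) hHpos hN hN (cyw_val_a h T) (cyw_val h T U) T T T
    (cyw_band_Qa T (by norm_num) (by omega)) (cyw_band_Qa T (by omega) le_rfl) (cyw_band_Qa T (by norm_num) (by omega))
    (q0 (by norm_num) (by omega)) qH (q0 (by norm_num) le_rfl) le_rfl (by omega) _ hgl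
  -- (2) tower in `MU`
  have hT : cyBand L U κ (κ + m - 1) ⊆ MU.C := fun y hy =>
    Finset.mem_union_left _ (Finset.mem_inter.2 ⟨qU hy, cys_band_tris (by omega) (by omega) hy⟩)
  have e2 := cp_tower MU (cyBand L U κ (κ + m - 1)) hT (cywMx L H) (cysF L U κ (κ + m - 1) E)
    (fun B W O => hFl _ _ rfl rfl (by simp))
  have e3 : (fun ω : ClCfg TV CyY => clKer MU (cyBand L U κ (κ + m - 1)) (cysF L U κ (κ + m - 1) E) ω.B ω.W) =
      fun ω => cywG x L U κ (κ + m - 1) E ω.B ω.W := by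
    funext ω
    unfold cywG
    refine cp_ker_congr _ _ _ (fun _ _ => rfl) (fun y _ => ?_) _ _ _
    simp [hMU, cysIn, cywR]
  rw [e3] at e2
  -- (3) back to the family of `cyP`
  have e4 := cys_rc_in hx0 h.hx1 hL (a := -3) (b := cywN κ m + 3) (a' := -3) (b' := (H : ℤ) + 3) (r0 := 0) (r1 := H) (c := κ) (d := κ + m - 1)
    (by norm_num) (by norm_num) hHpos hN (by omega) (cyw_val h T U) (cys_Q_val L H T U) T T U
    (q0 (by norm_num) (by omega)) qH qU
    (by
      unfold cyQ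
      exact fun y hy => Finset.mem_union_left _ (Finset.mem_union_left _ (by simpa using hy)))
    (by
      unfold cyQ
      exact fun y hy => Finset.mem_union_left _ (Finset.mem_union_right _ hy))
    (cys_Q_band L H T U (by omega) (by omega)) (by omega) (by omega) _ hFl
  rw [cp_swap (cywM x L H T k m κ) (cywMx L H) (cywG x L U κ (κ + m - 1) E), cys_P_eq x hL0 H T U (by omega) (by omega) hs, ← e4]
  have hZ := cyw_Z_pos h T
  rw [← cyw_mx_eq] at e1 ⊢
  have e5 : (cywM x L H T k m κ).E (fun ω => cywMx L H ω.B ω.W) (fun ω => cywG x L U κ (κ + m - 1) E ω.B ω.W) =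
      MU.E (fun ω => cywMx L H ω.B ω.W) (cysF L U κ (κ + m - 1) E) := by
    refine e1.trans ?_
    rw [dis_E_eq, dis_E_eq, e2]
  rw [← e5, dis_E_eq]
  field_simp

theorem cyw_M_band (h : CywHyp x L H k m κ) (T : Bool) {c d : ℤ} (hc : 0 ≤ c) (hd : d ≤ (H : ℤ) - 1) : cyBand L T c d ⊆ (cywM x L H T k m κ).C := by
  rw [cyw_M_C h T]
  exact cys_band_mono L T hc hd

theorem cyw_M_q (h : CywHyp x L H k m κ) (T : Bool) (y : CyY) : 1 / 2 ≤ (cywM x L H T k m κ).q y ∧ (cywM x L H T k m κ).q y ≤ 1 := by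
  have h2 := cyw_x_sq h
  have hx0 := cyw_x_pos h
  have hx1 := h.hx1
  show 1 / 2 ≤ (if y ∈ (∅ : Finset CyY) then (1 : ℝ) else if y.1 = CyK.up ∨ y.1 = CyK.dn then x ^ 2 else x) ∧
    (if y ∈ (∅ : Finset CyY) then (1 : ℝ) else if y.1 = CyK.up ∨ y.1 = CyK.dn then x ^ 2 else x) ≤ 1
  split_ifs
  · norm_num
  · exact ⟨h2, by nlinarith⟩
  · exact ⟨by nlinarith, hx1⟩

/-- (n1) ALT in the low band -/
theorem cyw_alt_low (h : CywHyp x L H k m κ) (T : Bool) :
    (cywM x L H T k m κ).Z (fun ω => cywMx L H ω.B ω.W) ≤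
      (cywM x L H T k m κ).N (fun ω => cywMx L H ω.B ω.W) (cysF L T k (k + m - 1) (cyVP 1 k (k + m - 1))) +
        (cywM x L H T k m κ).N (fun ω => cywMx L H ω.B ω.W) (cysF L T k (k + m - 1) (cyVP (-1) k (k + m - 1))) +
        (cywM x L H T k m κ).N (fun ω => cywMx L H ω.W ω.B) (cysF L T k (k + m - 1) (cyBlk 1 k (k + m - 1))) +
        (cywM x L H T k m κ).N (fun ω => cywMx L H ω.W ω.B) (cysF L T k (k + m - 1) (cyBlk (-1) k (k + m - 1))) := by
  have h1 := h.h1
  have h2 := h.h2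
  have hm := h.hm
  have hk := h.hk
  exact cyw_alt h.hL (cywM x L H T k m κ) rfl (fun y _ => (cyw_M_q h T y).1) (fun y _ => (cyw_M_q h T y).2) T (by omega)
    (cyw_M_band h T (by omega) (by omega)) (cywMx L H)

/-- (n2) the two white windings have the same weight.      PLAN: `cyw_flipB` (`K` reads `ω.W` only), `cyw_neg_Blk`. -/
theorem cyw_flip_low (h : CywHyp x L H k m κ) (T : Bool) :
    (cywM x L H T k m κ).N (fun ω => cywMx L H ω.W ω.B) (cysF L T k (k + m - 1) (cyBlk (-1) k (k + m - 1))) =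
      (cywM x L H T k m κ).N (fun ω => cywMx L H ω.W ω.B) (cysF L T k (k + m - 1) (cyBlk 1 k (k + m - 1))) := by
  have h1 := h.h1
  have h2 := h.h2
  have hm := h.hm
  have hk := h.hk
  rw [← cyw_neg_Blk, cyw_flipB (cywM x L H T k m κ) (cyw_M_ok h T) rfl T k (k + m - 1) (cyw_M_band h T (by omega) (by omega))]
  rfl

/-! ## 4. the search -/

/-- (s1) **a plus winding of the low band stops the invasion**.
PLAN: `row 0 ⊆ clInv` (`dde_mem_inv`, refl).   If a site of a row `≥ k+m+1` is invaded: the chain of `clStep`s gives a chain of cells of class `T` with status `≠ 1`, consecutive cells share a site, so their indices (lifted to `ℤ × ℤ`, step by step) are equal or `triAdj`;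
the lifted path goes from a slab `≤ k` to a slab `≥ k+m-1`: `cy_sub_v` gives `CyX (plsBand .. \ cyOn 1 τ) k (k+m-1)`.   (The same lemma serves (R1) of `cy_recov`.) -/
theorem cyw_inv_low (h : CywHyp x L H k m κ) (T : Bool) (ω : ClCfg TV CyY) (hω : cysFld L T k (k + m - 1) ω ∈ cyBlk 1 k (k + m - 1)) :
    sdRow L 0 ⊆ clInv (cywM x L H T k m κ) true ∅ ω (sdRow L 0) ∧ clInv (cywM x L H T k m κ) true ∅ ω (sdRow L 0) ⊆ sdSites L 0 (k + m) := by
  have hL0 : 0 < L := by have := h.hL; omega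
  have hH : (20 : ℤ) ≤ H := by exact_mod_cast h.hH
  have h1 := h.h1
  have h2 := h.h2
  have h3 := h.h3
  have hm := h.hm
  have hk := h.hk
  constructor
  · intro v hv
    rw [dde_mem_inv]
    refine ⟨?_, v, hv, ReflTransGen.refl⟩
    show v ∈ sdSites L 0 H
    obtain ⟨a1, a2, a3⟩ := cy_mem_row.1 hv
    exact cy_mem_sites.2 ⟨a1, a2, by omega, by omega⟩
  · have hI : cyI x L (-3) (cywN κ m + 3) (cywQa L H T k m κ) ∅ 0 H = cywM x L H T k m κ :=
      cys_I_eq x hL0 (by norm_num) (by unfold cywN; omega) (cyw_val_a h T).sub ∅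
    have hB : CyrBand L T k (k + m - 1) (cywM x L H T k m κ) := by
      rw [← hI]
      exact cyr_band_inn (cyr_band_amb hL0 ∅ (cyw_val_a h T) (by omega) (cyw_band_Qa T (by omega) (by omega)) (by omega) (by unfold cywN; omega)) _
    have hblk : cyFld (cywM x L H T k m κ) L T ω ∈ cyBlk (cySg (clSg true)) k (k + m - 1) := by
      rw [cyr_sg_true]
      exact (cys_fld_iff hL0 _ rfl (cyw_M_band h T (by omega) (by omega)) (cy_sup_Blk 1 k (k + m - 1)) ω).2 hω
    intro v hv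
    have hr := cyr_blk_inv hB true ∅ (fun e he => absurd he (Finset.notMem_empty _)) ω hblk (sdRow L 0)
      (fun u hu => by have := (cy_mem_row.1 hu).2.2; omega) v hv
    have hA : v ∈ sdSites L 0 H := ((dde_mem_inv _ _ _ _ _ _).1 hv).1
    obtain ⟨a1, a2, a3, a4⟩ := cy_mem_sites.1 hA
    exact cy_mem_sites.2 ⟨a1, a2, a3, by omega⟩

theorem cyw_R_q (h : CywHyp x L H k m κ) (y : CyY) : 0 ≤ (cywR x L).q y ∧ (cywR x L).q y ≤ 1 := by
  have hx0 := cyw_x_pos h
  have hx1 := h.hx1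
  show 0 ≤ (if y.1 = CyK.up ∨ y.1 = CyK.dn then x ^ 2 else x) ∧ (if y.1 = CyK.up ∨ y.1 = CyK.dn then x ^ 2 else x) ≤ 1
  split_ifs
  · exact ⟨by positivity, by nlinarith⟩
  · exact ⟨hx0.le, hx1⟩

theorem cyw_G_nonneg (h : CywHyp x L H k m κ) (U : Bool) (c d : ℤ) (E : Set CyF) (B W : Finset TV) : 0 ≤ cywG x L U c d E B W := by
  unfold cywG
  refine cp_ker_nonneg _ _ (fun y _ => (cyw_R_q h y).1) (fun y _ => (cyw_R_q h y).2) _ (fun ω => ?_) B W
  unfold cysF
  split_ifs <;> norm_num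

/-- the kernel of a test in the slabs `c..d` reads the spins of the rows `c..d+1` only -/
theorem cyw_G_rows (hL : 0 < L) (U : Bool) (c d : ℤ) (E : Set CyF) {B W B' W' : Finset TV} (hB : B ∩ sdSites L c (d + 1) = B' ∩ sdSites L c (d + 1))
    (hW : W ∩ sdSites L c (d + 1) = W' ∩ sdSites L c (d + 1)) : cywG x L U c d E B W = cywG x L U c d E B' W' := by
  unfold cywG
  refine cp_ker_loc _ _ (sdSites L c (d + 1)) (fun y hy => ?_) _ (fun ω ω' a b e => ?_) B W B' W' hB hW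
  · show cySv L y ⊆ sdSites L c (d + 1)
    rw [cys_sv_sub hL]
    obtain ⟨e1, e2⟩ := cys_band_lohi hy
    obtain ⟨_, _, b3, b4⟩ := cys_mem_band.1 hy
    omega
  · exact cys_F_loc hL U (r0 := c) (r1 := d + 1) le_rfl (by omega) E ω ω' a b (by rw [e])

/-- the kernel of a high test reads the spins above the record only.      PLAN: `cp_ker_loc` with `U = sdSites L κ (κ+m)`. -/
theorem cyw_G_loc (h : CywHyp x L H k m κ) (T U : Bool) (E : Set CyF) (J : Finset TV) (hJ : J ⊆ sdSites L 0 (k + m)) :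
    ClLoc ((cywM x L H T k m κ).A \ J) ((cywM x L H T k m κ).cin ((cywM x L H T k m κ).A \ J)) (fun ω => cywG x L U κ (κ + m - 1) E ω.W ω.B) := by
  have hL0 : 0 < L := by have := h.hL; omega
  have h1 := h.h1
  have h2 := h.h2
  have hm := h.hm
  have hk := h.hk
  have hsub : sdSites L κ (κ + m - 1 + 1) ⊆ (cywM x L H T k m κ).A \ J := by
    intro v hv
    obtain ⟨a1, a2, a3, a4⟩ := cy_mem_sites.1 hv
    refine Finset.mem_sdiff.2 ⟨?_, fun hvJ => ?_⟩
    · show v ∈ sdSites L 0 H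
      exact cy_mem_sites.2 ⟨a1, a2, by omega, by omega⟩
    · have := (cy_mem_sites.1 (hJ hvJ)).2.2.2
      omega
  intro ω ω' a b _
  exact cyw_G_rows hL0 U κ (κ + m - 1) E (cp_inter_sub hsub b) (cp_inter_sub hsub a)

/-! ### helpers of the layers (18) -/

/-- (18) a cell of the ambient with a site in the rows `c+1..d` of a band of the family belongs to the band -/
theorem cyw18_cell_band (hL : 3 ≤ L) {a b c d : ℤ} (hac : a ≤ c) (hdb : d < b) {Q : Finset CyY} (hQ : CyVal L a b Q) (Γ : Finset CyY) (T : Bool)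
    (hT : cyBand L T c d ⊆ Q) {y : CyY} (hy : y ∈ (cyS x L a b Q Γ).C) {v : TV} (hv : v ∈ cySv L y) (h1 : c + 1 ≤ v.2) (h2 : v.2 ≤ d) :
    y ∈ cyBand L T c d := by
  have hL0 : 0 < L := by omega
  have hr := ((cys_sv_rows hL0 y).1 v hv).2
  by_cases hk : y.1 = CyK.eh
  · exfalso
    obtain ⟨k', z⟩ := y
    simp only at hk
    subst hk
    have hz : z.2 = v.2 := by
      simp only [cysLo, cysHi] at hr
      omega
    rcases cy_mem_C.1 hy with h | ⟨h, ha, hb⟩ | h
    · have := (cys_mem_tris.1 (hQ.sub h)).1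
      simp at this
    · rcases cy_mem_edges.1 h with ⟨-, hs⟩ | ⟨hk, -⟩ | ⟨hk, -⟩
      · have hs' := cy_mem_sites.1 hs
        simp only at hs'
        cases T
        · refine hb (hT (cys_mem_band.2 ⟨rfl, ⟨?_, ?_⟩, ?_, ?_⟩))
          · simpa [cyTb] using hs'.1
          · simpa [cyTb] using hs'.2.1
          · simp [cyTb]; omega
          · simp [cyTb]; omega
        · refine ha (hT (cys_mem_band.2 ⟨rfl, ⟨hs'.1, hs'.2.1⟩, ?_, ?_⟩))
          · simp only [cyTa]; omega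
          · simp only [cyTa]; omega
      · simp at hk
      · simp at hk
    · rcases cy_mem_spokes.1 h with ⟨hk, -⟩ | ⟨hk, -⟩ <;> simp at hk
  · have hlh : cysHi y = cysLo y + 1 := by
      obtain ⟨k', z⟩ := y
      cases k' <;> simp_all [cysLo, cysHi]
    have hlo : c ≤ cysLo y ∧ cysLo y ≤ d := by omega
    exact cys_band_mono L T hlo.1 hlo.2
      (cys_slab hL (by omega) (by omega) hQ Γ T ((cys_band_mono L T hlo.1 hlo.2).trans hT) hy le_rfl (by omega))

theorem cyw18_Q_low (L H : ℕ) (T U : Bool) (k m κ : ℤ) : cyBand L T (-1) (k + m) ⊆ cywQ L H T U k m κ := by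
  intro y hy
  unfold cywQ cywQH cywQ0
  simp only [Finset.mem_union]
  tauto

theorem cyw18_Q_hi (L H : ℕ) (T U : Bool) (k m κ : ℤ) : cyBand L (!T) (cywN κ m - 1 - (k + m)) (cywN κ m) ⊆ cywQ L H T U k m κ := by
  intro y hy
  unfold cywQ cywQH cywQ0
  simp only [Finset.mem_union]
  tauto

theorem cyw18_Q_H (L H : ℕ) (T U : Bool) (k m κ : ℤ) : cyBand L T H H ⊆ cywQ L H T U k m κ := by
  intro y hy
  unfold cywQ cywQH
  simp only [Finset.mem_union]
  tauto

theorem cyw18_mem_Ia {L : ℕ} {κ m : ℤ} {J : Finset TV} {v : TV} :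
    v ∈ cywIa L κ m J ↔ (v ∈ sdSites L 0 (cywN κ m + 3) ∨ v = (0, cywN κ m + 3 + 1)) ∧ v ∉ J := by
  unfold cywIa cysUp
  rw [Finset.mem_sdiff, Finset.mem_union, Finset.mem_singleton]

theorem cyw18_mem_Gam {L : ℕ} {T : Bool} {k m : ℤ} {J : Finset TV} {y : CyY} :
    y ∈ cywGam L T k m J ↔ y ∈ cyBand L T 0 (k + m) ∧ (∃ u ∈ cySv L y, u ∈ J) ∧ ∃ v ∈ cySv L y, v ∉ J := by
  unfold cywGam
  rw [Finset.mem_filter]

theorem cyw18_mem_Lay {L : ℕ} {T : Bool} {k m : ℤ} {J : Finset TV} {u : TV} :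
    u ∈ cywLay L T k m J ↔ (∃ y ∈ cywGam L T k m J, u ∈ cySv L y) ∧ u ∉ J := by
  unfold cywLay
  rw [Finset.mem_sdiff, Finset.mem_biUnion]

theorem cyw18_V_snd (L : ℕ) (N o : ℤ) (u : TV) : (cyrV L N o u).2 = N - u.2 := rfl

/-! ## 5. one record: geometry -/

section geometry

variable (h : CywHyp x L H k m κ) (T U : Bool) {J : Finset TV} (hJ : CywRec x L H T k m κ J)

theorem cyw_disk (h : CywHyp x L H k m κ) (T U : Bool) (J : Finset TV) : ClDisk (cywS x L H T U k m κ J) := by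
  have hx0 : 0 < x := lt_of_lt_of_le (by positivity) h.hx
  have h1 := h.h1; have h2 := h.hm; have h3 := h.hk
  exact cy_S_disk hx0 h.hx1 h.hL (by unfold cywN; omega) (cyw_val h T U) _ (cy_S_card _ _ _ _ _ _)

/-- the low band of class `T` belongs to the family of the comparisons -/
theorem cyw137_low_Q (L H : ℕ) (T U : Bool) (k m κ : ℤ) : cyBand L T (-1) (k + m) ⊆ cywQ L H T U k m κ := fun y hy =>
  Finset.mem_union_left _ (Finset.mem_union_left _ (Finset.mem_union_left _ (Finset.mem_union_left _ hy)))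

theorem cyw137_band_mono {T : Bool} {c d c' d' : ℤ} (h0 : c' ≤ c) (h1 : d ≤ d') : cyBand L T c d ⊆ cyBand L T c' d' := fun y hy => by
  obtain ⟨a1, a2, a3, a4⟩ := cys_mem_band.1 hy
  exact cys_mem_band.2 ⟨a1, a2, by omega, by omega⟩

/-- a cell of the ambient which has a site in the rows `0..k+m` and is not contained in the row `-1..0` part: it is a triangle of class `T` -/
theorem cyw137_cell_low (h : CywHyp x L H k m κ) (T U : Bool) (J : Finset TV) {y : CyY} (hy : y ∈ (cywS x L H T U k m κ J).C) {v : TV} (hv : v ∈ cySv L y)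
    (h0 : -1 ≤ v.2) (h1 : v.2 ≤ k + m) (hh : 0 ≤ cysHi y) : y ∈ cyBand L T (-1) (k + m) := by
  have hL0 : 0 < L := by have := h.hL; omega
  have a1 := h.hm; have a2 := h.hk; have a3 := h.h1
  have hV := cyw_val h T U
  have hrow := ((cys_sv_rows hL0 y).1 v hv).2
  by_cases he : y.1 = CyK.eh
  · exfalso
    obtain ⟨ky, z⟩ := y
    simp only at he
    subst he
    have hz : z.2 = v.2 := by
      simp only [cysLo, cysHi] at hrow
      omega
    have hz0 : 0 ≤ z.2 := hh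
    rcases cy_mem_C.1 hy with hq | ⟨hq, ha, hb⟩ | hq
    · have := (cys_mem_tris.1 (hV.sub hq)).1
      simp at this
    · rcases cy_mem_edges.1 hq with ⟨-, hs⟩ | ⟨hk, -⟩ | ⟨hk, -⟩
      · have hs' := cys_mem_sites.1 hs
        simp only at hs'
        cases T
        · exact hb (cyw137_low_Q L H false U k m κ (cys_mem_band.2 ⟨rfl, ⟨by show 0 ≤ z.1 - 0; have := hs'.1.1; omega, by show z.1 - 0 < L; have := hs'.1.2; omega⟩, by show -1 ≤ z.2 - 1; omega, by show z.2 - 1 ≤ k + m; omega⟩))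
        · exact ha (cyw137_low_Q L H true U k m κ (cys_mem_band.2 ⟨rfl, hs'.1, by show -1 ≤ z.2; omega, by show z.2 ≤ k + m; omega⟩))
      · simp at hk
      · simp at hk
    · rcases cy_mem_spokes.1 hq with ⟨hk, -⟩ | ⟨hk, -⟩ <;> simp at hk
  · have hlh : cysHi y = cysLo y + 1 := by
      obtain ⟨ky, z⟩ := y
      simp only at he
      cases ky <;> simp [cysLo, cysHi] at he ⊢
    have hj0 : -1 ≤ cysLo y := by omega
    have hj1 : cysLo y ≤ k + m := by omega
    have := cys_slab (x := x) h.hL (a := -3) (b := cywN κ m + 3) (j := cysLo y) (by omega) (by unfold cywN; omega) hV (cywGam L T k m J) T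
      ((cyw137_band_mono hj0 hj1).trans (cyw137_low_Q L H T U k m κ)) hy le_rfl (by omega)
    exact cyw137_band_mono hj0 hj1 this

theorem cyw_Ia_sub (h : CywHyp x L H k m κ) (T U : Bool) (J : Finset TV) : cywIa L κ m J ⊆ (cywS x L H T U k m κ J).A :=
  Finset.sdiff_subset.trans (cys_up_sub x L (by norm_num) _ _)

/-- (g3) the crossing cells of the part above the record.      PLAN: a cell of the ambient with a site in the rows `0..k+m` belongs to `T@[-1..k+m]` (`cys_slab`, validity); `row 0 ⊆ J`: a cell of the slab `-1` has no site above the record. -/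
theorem cyw_cx (h : CywHyp x L H k m κ) (T U : Bool) {J : Finset TV} (hJ : CywRec x L H T k m κ J) :
    (cywS x L H T U k m κ J).cx (cywIa L κ m J) = cywGam L T k m J := by
  have hL0 : 0 < L := by have := h.hL; omega
  have a1 := h.hm; have a2 := h.hk; have a3 := h.h1
  have hOk := (cyw_disk h T U J).toClOk
  ext y
  constructor
  · intro hy
    obtain ⟨hyC, ⟨u, hu, huI⟩, v, hv, hvI⟩ := Finset.mem_filter.1 hy
    have hu' : u ∈ cySv L y := hu
    have hv' : v ∈ cySv L y := hv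
    obtain ⟨huU, huJ⟩ := Finset.mem_sdiff.1 huI
    have huA : u ∈ (cywS x L H T U k m κ J).A := hOk.sub y hyC hu
    have hvA : v ∈ (cywS x L H T U k m κ J).A := hOk.sub y hyC hv
    have hu0 : 0 ≤ u.2 := (cys_mem_up x hL0 (a := -3) (b := cywN κ m + 3) (r := 0) (by norm_num) (by unfold cywN; omega) _ _ huA).1 huU
    have hrows := (cys_sv_rows hL0 y).1
    have hhi : 0 ≤ cysHi y := by have := (hrows u hu').2; omega
    -- a site of the cell in the rows `-1..k+m`
    have key : ∃ w ∈ cySv L y, -1 ≤ w.2 ∧ w.2 ≤ k + m ∧ (w ∈ J ∨ w.2 = -1) := by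
      by_cases hvJ : v ∈ J
      · have := (cys_mem_sites.1 (hJ.low hvJ)).2
        exact ⟨v, hv', by omega, this.2, Or.inl hvJ⟩
      · have hvU : v ∉ cysUp L 0 (cywN κ m + 3) := fun hh => hvI (Finset.mem_sdiff.2 ⟨hh, hvJ⟩)
        have hv0 : ¬ 0 ≤ v.2 := fun hh => hvU ((cys_mem_up x hL0 (a := -3) (b := cywN κ m + 3) (r := 0) (by norm_num) (by unfold cywN; omega) _ _ hvA).2 hh)
        have b1 := (hrows v hv').2
        have b2 := (hrows u hu').2
        have hlh : cysHi y ≤ cysLo y + 1 := by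
          obtain ⟨ky, z⟩ := y
          cases ky <;> simp [cysLo, cysHi]
        exact ⟨v, hv', by omega, by omega, Or.inr (by omega)⟩
    obtain ⟨w, hw, hw0, hw1, hwJ⟩ := key
    have hband := cyw137_cell_low h T U J hyC hw hw0 hw1 hhi
    obtain ⟨c1, c2, c3, c4⟩ := cys_mem_band.1 hband
    have hlohi := cys_band_lohi hband
    -- the slab `-1` is impossible
    have hne : y.2.2 ≠ -1 := by
      intro hm1
      have b2 := (hrows u hu')
      have : u ∈ sdRow L 0 := cys_mem_row.2 ⟨b2.1, by omega⟩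
      exact huJ (hJ.bot this)
    have hwJ' : w ∈ J := by
      rcases hwJ with hh | hh
      · exact hh
      · exfalso
        have := (hrows w hw).2
        omega
    exact Finset.mem_filter.2 ⟨cys_mem_band.2 ⟨c1, c2, by omega, c4⟩, ⟨w, hw, hwJ'⟩, u, hu', huJ⟩
  · intro hy
    obtain ⟨hb, ⟨u, hu, huJ⟩, v, hv, hvJ⟩ := Finset.mem_filter.1 hy
    refine Finset.mem_filter.2 ⟨cys_Q_sub _ _ _ _ _ _ (cyw137_low_Q L H T U k m κ (cyw137_band_mono (by norm_num) le_rfl hb)), ⟨v, hv, ?_⟩, u, hu, ?_⟩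
    · refine Finset.mem_sdiff.2 ⟨Finset.mem_union_left _ (cys_mem_sites.2 ⟨((cys_sv_rows hL0 y).1 v hv).1, ?_⟩), hvJ⟩
      have := cys_band_rows hL0 hb hv
      unfold cywN
      omega
    · exact fun hh => (Finset.mem_sdiff.1 hh).2 huJ

theorem cyw_neutral (h : CywHyp x L H k m κ) (T U : Bool) {J : Finset TV} (hJ : CywRec x L H T k m κ J) :
    ∀ y ∈ (cywS x L H T U k m κ J).cx (cywIa L κ m J), (cywS x L H T U k m κ J).q y = 1 := by
  intro y hy
  rw [cyw_cx h T U hJ] at hy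
  show (if y ∈ cywGam L T k m J then (1 : ℝ) else _) = 1
  rw [if_pos hy]

theorem cyw_Gam_X (T : Bool) (k m : ℤ) (J : Finset TV) : cywGam L T k m J ⊆ cywX L T k m J := by
  intro y hy
  obtain ⟨h1, h2, -⟩ := Finset.mem_filter.1 hy
  exact Finset.mem_filter.2 ⟨cyw137_band_mono (by norm_num) le_rfl h1, h2⟩

theorem cyw_X_cno (h : CywHyp x L H k m κ) (T U : Bool) {J : Finset TV} (hJ : CywRec x L H T k m κ J) :
    cywX L T k m J ⊆ (cywS x L H T U k m κ J).cno (cywIa L κ m J) := by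
  intro y hy
  unfold cywX at hy
  rw [Finset.mem_filter] at hy
  obtain ⟨hy1, u, hu, huJ⟩ := hy
  unfold ClSys.cno
  rw [Finset.mem_filter]
  refine ⟨?_, fun hsub => ?_⟩
  · show y ∈ cywQ L H T U k m κ ∪ _ ∪ _
    refine Finset.mem_union_left _ (Finset.mem_union_left _ ?_)
    unfold cywQ cywQH cywQ0
    simp only [Finset.mem_union]
    exact Or.inl (Or.inl (Or.inl (Or.inl hy1)))
  · have : u ∈ cywIa L κ m J := hsub hu
    unfold cywIa at this
    exact (Finset.mem_sdiff.1 this).2 huJ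

theorem cyw_X_ne (h : CywHyp x L H k m κ) (T : Bool) {J : Finset TV} (hJ : CywRec x L H T k m κ J) : (cywX L T k m J).Nonempty := by
  have hL := h.hL
  have h2 := h.hm; have h3 := h.hk
  have h0 : ((0, 0) : TV) ∈ J := hJ.bot (by
    unfold sdRow
    simp only [Finset.mem_product, Finset.mem_Ico, Finset.mem_singleton]
    exact ⟨⟨le_refl _, by omega⟩, trivial⟩)
  have hred : sdRed L (0, 0) = (0, 0) := by simp [sdRed]
  refine ⟨cyT T (0, if T then 0 else -1), ?_⟩
  unfold cywX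
  rw [Finset.mem_filter]
  refine ⟨?_, (0, 0), ?_, h0⟩
  · unfold cyBand
    refine Finset.mem_image_of_mem _ ?_
    unfold sdCells
    simp only [Finset.mem_product, Finset.mem_Ico]
    cases T <;> simp <;> omega
  · cases T
    · show (0, 0) ∈ (cellD (0, -1)).image (sdRed L)
      exact Finset.mem_image.2 ⟨(0, 0), by simp [cellD], hred⟩
    · show (0, 0) ∈ (cellV (0, 0)).image (sdRed L)
      exact Finset.mem_image.2 ⟨(0, 0), by simp [cellV], hred⟩

/-- the cell of class `T` which contains the sites `(i,0)`, `(i+1,0)` of the row `0` -/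
def cywxC (T : Bool) (i : ℤ) : CyY := cyT T (i, if T then 0 else -1)

theorem cywxC_eqns_cite (T : Bool) (i : ℤ) : cywxC T i = cyT T (i, if T then 0 else -1) := rfl

theorem cywx_C_sv (T : Bool) (i : ℤ) : sdRed L (i, 0) ∈ cySv L (cywxC T i) ∧ sdRed L (i + 1, 0) ∈ cySv L (cywxC T i) := by
  cases T
  · constructor
    · refine Finset.mem_image.2 ⟨(i, 0), ?_, rfl⟩
      simp [cellD, cywxC, cyT]
    · refine Finset.mem_image.2 ⟨(i + 1, 0), ?_, rfl⟩
      simp [cellD, cywxC, cyT]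
  · constructor
    · refine Finset.mem_image.2 ⟨(i, 0), ?_, rfl⟩
      simp [cellV, cywxC, cyT]
    · refine Finset.mem_image.2 ⟨(i + 1, 0), ?_, rfl⟩
      simp [cellV, cywxC, cyT]

theorem cywx_C_X (h : CywHyp x L H k m κ) (T : Bool) {J : Finset TV} (hJ : CywRec x L H T k m κ J) {i : ℤ} (h0 : 0 ≤ i) (h1 : i < L) :
    cywxC T i ∈ cywX L T k m J := by
  obtain ⟨-, -, -, hH, hm, hk, -, -, -⟩ := h
  unfold cywX
  rw [Finset.mem_filter, cys_mem_band]
  refine ⟨⟨rfl, ⟨h0, h1⟩, ?_, ?_⟩, sdRed L (i, 0), (cywx_C_sv T i).1, hJ.bot ?_⟩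
  · cases T
    · show (-1 : ℤ) ≤ -1
      omega
    · show (-1 : ℤ) ≤ 0
      omega
  · cases T
    · show (-1 : ℤ) ≤ k + m
      omega
    · show (0 : ℤ) ≤ k + m
      omega
  · rw [cys_mem_row]
    exact ⟨cys_red_fst (by omega) _, rfl⟩

/-- (g4) **the cells which meet the record hang together**.
PLAN: `hJ.inv`: every site of `J` is joined to the row `0` by `clStep`s; each step lies in a cell of `M` (class `T`, slabs `0..k+m`) all of whose sites are invaded; consecutive cells share a site.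
The cells of the slabs `-1` / `0` along the row `0` hang together (consecutive sites of the row `0` lie in a common cell of class `T`). -/
theorem cyw_X_conn (h : CywHyp x L H k m κ) (T U : Bool) {J : Finset TV} (hJ : CywRec x L H T k m κ J) : AmwConn (cywS x L H T U k m κ J) (cywX L T k m J) := by
  have hL0 : 0 < L := by have := h.hL; omega
  have hL' : (0 : ℤ) < L := by exact_mod_cast hL0
  obtain ⟨ω, hω⟩ := hJ.inv
  set M := cywM x L H T k m κ with hM
  have hok : ClOk M := cyw_M_ok h T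
  have hMC : M.C = cyBand L T 0 ((H : ℤ) - 1) := cyw_M_C h T
  set X := cywX L T k m J with hX
  set R : CyY → CyY → Prop := fun a b => a ∈ X ∧ b ∈ X ∧ (cySv L a ∩ cySv L b).Nonempty with hR
  have hsym : Std.Symm R := ⟨fun a b hab => ⟨hab.2.1, hab.1, by rw [Finset.inter_comm]; exact hab.2.2⟩⟩
  have hred : ∀ i : ℤ, 0 ≤ i → i < L → sdRed L (i, 0) = (i, 0) := fun i a b => by
    unfold sdRed
    rw [Int.emod_eq_of_lt a b]
  -- the cells along the row `0`
  have hrow : ∀ i : ℕ, i < L → ReflTransGen R (cywxC T 0) (cywxC T i) := by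
    intro i
    induction i with
    | zero => intro _; exact ReflTransGen.refl
    | succ n ih =>
      intro hn
      refine (ih (by omega)).tail ⟨cywx_C_X h T hJ (by omega) (by exact_mod_cast (by omega : n < L)), cywx_C_X h T hJ (by positivity) (by exact_mod_cast hn), ?_⟩
      refine ⟨sdRed L ((n : ℤ) + 1, 0), Finset.mem_inter.2 ⟨(cywx_C_sv T n).2, ?_⟩⟩
      have := (cywx_C_sv (L := L) T ((n + 1 : ℕ) : ℤ)).1
      push_cast at this
      exact this
  have hmemJ : ∀ v, v ∈ J ↔ v ∈ M.A ∧ ∃ u ∈ sdRow L 0, ReflTransGen (clStep M true ∅ ω) u v := by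
    intro v
    rw [← hω]
    exact dde_mem_inv _ _ _ _ _ _
  have key : ∀ u ∈ sdRow L 0, ∀ v, ReflTransGen (clStep M true ∅ ω) u v → ∀ y ∈ X, v ∈ cySv L y → ReflTransGen R (cywxC T 0) y := by
    intro u hu v hv
    induction hv with
    | refl =>
      intro y hy huy
      obtain ⟨⟨u0, u1⟩, u2⟩ := cys_mem_row.1 hu
      obtain ⟨i, hi⟩ := Int.eq_ofNat_of_zero_le u0
      have hiL : i < L := by
        have : (i : ℤ) < L := by rw [← hi]; exact u1
        exact_mod_cast this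
      refine (hrow i hiL).tail ⟨cywx_C_X h T hJ (by positivity) (by exact_mod_cast hiL), hy, u, Finset.mem_inter.2 ⟨?_, huy⟩⟩
      have := (cywx_C_sv (L := L) T (i : ℤ)).1
      rw [hred _ (by positivity) (by exact_mod_cast hiL)] at this
      have e : u = ((i : ℤ), 0) := Prod.ext hi u2
      rw [e]
      exact this
    | tail hab hbc ih =>
      rename_i b c
      intro y hy hcy
      rcases hbc with ⟨yy, hyy, hb, hc, ht⟩ | hE | hE
      · have hb' : b ∈ cySv L yy := hb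
        have hc' : c ∈ cySv L yy := hc
        have hbJ : b ∈ J := (hmemJ b).2 ⟨hok.sub yy hyy hb, u, hu, hab⟩
        obtain ⟨-, -, w, hw, hw2⟩ := cys_sv_rows hL0 yy
        have hwJ : w ∈ J := (hmemJ w).2 ⟨hok.sub yy hyy hw, u, hu, hab.tail (Or.inl ⟨yy, hyy, hb, hw, ht⟩)⟩
        have hyb : yy ∈ cyBand L T 0 ((H : ℤ) - 1) := hMC ▸ hyy
        have hlh := cys_band_lohi hyb
        have hwr := (cys_mem_sites.1 (hJ.low hwJ)).2.2
        have hyyX : yy ∈ X := by
          rw [hX]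
          unfold cywX
          rw [Finset.mem_filter]
          refine ⟨?_, b, hb', hbJ⟩
          rw [cys_mem_band] at hyb ⊢
          exact ⟨hyb.1, hyb.2.1, by omega, by omega⟩
        exact (ih yy hyyX hb').tail ⟨hyyX, hy, c, Finset.mem_inter.2 ⟨hc', hcy⟩⟩
      · exact absurd hE (Finset.notMem_empty _)
      · exact absurd hE (Finset.notMem_empty _)
  have all : ∀ y ∈ X, ReflTransGen R (cywxC T 0) y := by
    intro y hy
    have hy' := hy
    rw [hX] at hy'
    unfold cywX at hy'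
    obtain ⟨-, u', hu', hu'J⟩ := Finset.mem_filter.1 hy'
    obtain ⟨-, u, hu, hr⟩ := (hmemJ u').1 hu'J
    exact key u hu u' hr y hy hu'
  intro y hy y' hy'
  exact (ReflTransGen.stdSymm.symm _ _ (all y hy)).trans (all y' hy')

/-- (g5) -/
theorem cyw_lay (h : CywHyp x L H k m κ) (T U : Bool) {J : Finset TV} (hJ : CywRec x L H T k m κ J) :
    cuLay (cywS x L H T U k m κ J) (cywIa L κ m J) = cywLay L T k m J := by
  have hL0 : 0 < L := by have := h.hL; omega
  ext u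
  rw [am_mem_lay, cyw18_mem_Lay]
  constructor
  · rintro ⟨hu, y, hy, huy, hns⟩
    obtain ⟨v, hv, hv'⟩ := Finset.not_subset.1 hns
    have hcx : y ∈ (cywS x L H T U k m κ J).cx (cywIa L κ m J) := Finset.mem_filter.2 ⟨hy, ⟨u, huy, hu⟩, ⟨v, hv, hv'⟩⟩
    rw [cyw_cx h T U hJ] at hcx
    exact ⟨⟨y, hcx, huy⟩, (cyw18_mem_Ia.1 hu).2⟩
  · rintro ⟨⟨y, hy, huy⟩, huJ⟩
    have hcx := hy
    rw [← cyw_cx h T U hJ] at hcx
    obtain ⟨hyC, -, ⟨v, hv, hv'⟩⟩ := Finset.mem_filter.1 hcx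
    have hb := (cyw18_mem_Gam.1 hy).1
    have h1 := cys_band_rows hL0 hb huy
    have h2 := ((cys_sv_rows hL0 y).1 u huy).1
    have a1 := h.h1; have a3 := h.hm; have a4 := h.hk
    refine ⟨cyw18_mem_Ia.2 ⟨Or.inl (cys_mem_sites.2 ⟨h2, h1.1, by unfold cywN; omega⟩), huJ⟩, y, hyC, huy, fun hs => hv' (hs hv)⟩

/-- (g9) the layer found by the search -/
theorem cyw_lay_M (h : CywHyp x L H k m κ) (T : Bool) {J : Finset TV} (hJ : CywRec x L H T k m κ J) :
    cuLay (cywM x L H T k m κ) ((cywM x L H T k m κ).A \ J) = cywLay L T k m J := by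
  have hL0 : 0 < L := by have := h.hL; omega
  have a1 := h.h1; have a2 := h.h2; have a3 := h.hm; have a4 := h.hk
  have hA : (cywM x L H T k m κ).A = sdSites L 0 H := rfl
  have hsv : (cywM x L H T k m κ).sv = cySv L := rfl
  ext u
  rw [am_mem_lay, cyw18_mem_Lay, cyw_M_C h T, hA, hsv]
  constructor
  · rintro ⟨hu, y, hy, huy, hns⟩
    obtain ⟨v, hv, hv'⟩ := Finset.not_subset.1 hns
    have huJ := (Finset.mem_sdiff.1 hu).2
    have hvr := cys_band_rows hL0 hy hv
    have hv2 := ((cys_sv_rows hL0 y).1 v hv).1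
    have hvJ : v ∈ J := by
      by_contra hc
      exact hv' (Finset.mem_sdiff.2 ⟨cys_mem_sites.2 ⟨hv2, hvr.1, by omega⟩, hc⟩)
    have hvl := (cys_mem_sites.1 (hJ.low hvJ)).2
    have hlo := cys_band_lohi hy
    have hvv := ((cys_sv_rows hL0 y).1 v hv).2
    have hy' := cys_mem_band.1 hy
    refine ⟨⟨y, cyw18_mem_Gam.2 ⟨cys_mem_band.2 ⟨hy'.1, hy'.2.1, hy'.2.2.1, by omega⟩, ⟨v, hv, hvJ⟩, ⟨u, huy, huJ⟩⟩, huy⟩, huJ⟩
  · rintro ⟨⟨y, hy, huy⟩, huJ⟩
    obtain ⟨hb, ⟨v, hv, hvJ⟩, -⟩ := cyw18_mem_Gam.1 hy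
    have h1 := cys_band_rows hL0 hb huy
    have h2 := ((cys_sv_rows hL0 y).1 u huy).1
    refine ⟨Finset.mem_sdiff.2 ⟨cys_mem_sites.2 ⟨h2, h1.1, by omega⟩, huJ⟩, y, cys_band_mono L T le_rfl (by omega) hb, huy, fun hs => ?_⟩
    exact (Finset.mem_sdiff.1 (hs hv)).2 hvJ

theorem cyw_lay_rows (h : CywHyp x L H k m κ) (T : Bool) {J : Finset TV} (hJ : CywRec x L H T k m κ J) : cywLay L T k m J ⊆ sdSites L 0 (k + m + 1) \ J := by
  have hL0 : 0 < L := by have := h.hL; omega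
  intro u hu
  obtain ⟨⟨y, hy, huy⟩, huJ⟩ := cyw18_mem_Lay.1 hu
  have hb := (cyw18_mem_Gam.1 hy).1
  have h1 := cys_band_rows hL0 hb huy
  have h2 := ((cys_sv_rows hL0 y).1 u huy).1
  exact Finset.mem_sdiff.2 ⟨cys_mem_sites.2 ⟨h2, h1.1, h1.2⟩, huJ⟩

theorem cyw_IH_sub (h : CywHyp x L H k m κ) (J : Finset TV) : cywIH L H J ⊆ cywIa L κ m J := by
  unfold cywIH cywIa
  refine Finset.sdiff_subset_sdiff (cys_rows_up L ?_) (Finset.Subset.refl _)
  have := h.h3; have := h.hk; have := h.hm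
  unfold cywN
  omega

theorem cyw_D_sub (h : CywHyp x L H k m κ) (o : ℤ) (J : Finset TV) : cywD L κ m o J ⊆ cywIa L κ m J := by
  unfold cywD cywIa
  exact Finset.sdiff_subset_sdiff (cys_rows_up L (by omega)) Finset.subset_union_left

theorem cyw_lay_IH (h : CywHyp x L H k m κ) (T : Bool) {J : Finset TV} (hJ : CywRec x L H T k m κ J) : cywLay L T k m J ⊆ cywIH L H J := by
  intro u hu
  obtain ⟨h1, h2⟩ := Finset.mem_sdiff.1 (cyw_lay_rows h T hJ hu)
  have h3 := cys_mem_sites.1 h1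
  have := h.h1; have := h.h2; have := h.hm
  exact Finset.mem_sdiff.2 ⟨cys_mem_sites.2 ⟨h3.1, h3.2.1, by omega⟩, h2⟩

theorem cyw_lay_D (h : CywHyp x L H k m κ) (T : Bool) (o : ℤ) {J : Finset TV} (hJ : CywRec x L H T k m κ J) : cywLay L T k m J ⊆ cywD L κ m o J := by
  intro u hu
  obtain ⟨h1, h2⟩ := Finset.mem_sdiff.1 (cyw_lay_rows h T hJ hu)
  have h3 := cys_mem_sites.1 h1
  have a1 := h.h1; have a2 := h.h2; have a3 := h.hm; have a4 := h.hk
  unfold cywD
  refine Finset.mem_sdiff.2 ⟨cys_mem_sites.2 ⟨h3.1, h3.2.1, by unfold cywN; omega⟩, ?_⟩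
  rw [Finset.mem_union, not_or]
  refine ⟨h2, fun hc => ?_⟩
  obtain ⟨w, hw, rfl⟩ := Finset.mem_image.1 hc
  have h4 := (cys_mem_sites.1 (hJ.low hw)).2
  have h5 := h3.2.2
  rw [cyw18_V_snd] at h5
  unfold cywN at h5
  omega

/-- (g6) the layer of the original plus cut -/
theorem cyw_lay_IH' (h : CywHyp x L H k m κ) (T U : Bool) {J : Finset TV} (hJ : CywRec x L H T k m κ J) :
    cuLay ((cywS x L H T U k m κ J).inn (cywIa L κ m J)) (cywIH L H J) = sdRow L H := by
  have hL0 : 0 < L := by have := h.hL; omega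
  have a1 := h.h1; have a2 := h.h2; have a3 := h.hm; have a4 := h.hk; have a5 := h.h3
  have hN : cywN κ m = 2 * κ + m := rfl
  have hval := cyw_val h T U
  ext u
  rw [am_mem_lay]
  constructor
  · rintro ⟨hu, y, hy, huy, hns⟩
    obtain ⟨v, hv, hv'⟩ := Finset.not_subset.1 hns
    obtain ⟨hyC, hsub⟩ := (am_mem_cin _ _ _).1 hy
    obtain ⟨hv1, hvJ⟩ := cyw18_mem_Ia.1 (hsub hv)
    obtain ⟨hu1, huJ⟩ := Finset.mem_sdiff.1 hu
    have hu2 := cys_mem_sites.1 hu1
    have hvr := (cys_sv_rows hL0 y).1 v hv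
    have hur := (cys_sv_rows hL0 y).1 u huy
    have hv4 : (H : ℤ) < v.2 := by
      by_contra hcon
      refine hv' (Finset.mem_sdiff.2 ⟨cys_mem_sites.2 ⟨hvr.1, ?_, by omega⟩, hvJ⟩)
      rcases hv1 with hv1 | rfl
      · exact (cys_mem_sites.1 hv1).2.1
      · simp only at hcon ⊢; omega
    have hb := cys_slab (x := x) h.hL (by omega) (by omega) hval (cywGam L T k m J) T (cyw18_Q_H L H T U k m κ) hyC (by omega : cysLo y ≤ (H : ℤ)) (by omega)
    have := cys_band_rows hL0 hb huy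
    exact cys_mem_row.2 ⟨hu2.1, by omega⟩
  · intro hu
    have hu0 := cys_mem_row.1 hu
    obtain ⟨y, hy, huy⟩ := cys_slab_bot hL0 T hu
    have hyC : y ∈ (cywS x L H T U k m κ J).C := cys_Q_sub x L _ _ _ _ (cyw18_Q_H L H T U k m κ hy)
    obtain ⟨h1', h2'⟩ := cys_slab_lohi hy
    obtain ⟨hall, -, ⟨v, hv, hv2⟩⟩ := cys_sv_rows hL0 y
    have hnJ : ∀ w : TV, (H : ℤ) ≤ w.2 → w ∉ J := fun w hw hc => by
      have := (cys_mem_sites.1 (hJ.low hc)).2
      omega
    refine ⟨Finset.mem_sdiff.2 ⟨cys_mem_sites.2 ⟨hu0.1, by omega, by omega⟩, hnJ u (by omega)⟩, y, (am_mem_cin _ _ _).2 ⟨hyC, fun w hw => ?_⟩, huy, fun hsub => ?_⟩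
    · have := hall w hw
      exact cyw18_mem_Ia.2 ⟨Or.inl (cys_mem_sites.2 ⟨this.1, by omega, by omega⟩), hnJ w (by omega)⟩
    · have := (cys_mem_sites.1 (Finset.mem_sdiff.1 (hsub hv)).1).2
      omega

/-- (g7) the layer of the reflected cut.      PLAN: mirror image of `cyw_cx`, `cyw_lay` (a cell with a site in the rows `N-k-m..N` belongs to `T'@[N-1-k-m..N] = (T@[-1..k+m]).image (cyrY L N o)`, `cyr_im_band`; `row N ⊆ ρ_o J`, `cyr_im_row`; `cyr_sv`). -/
theorem cyw_lay_D' (h : CywHyp x L H k m κ) (T U : Bool) (o : ℤ) {J : Finset TV} (hJ : CywRec x L H T k m κ J) :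
    cuLay ((cywS x L H T U k m κ J).inn (cywIa L κ m J)) (cywD L κ m o J) = (cywLay L T k m J).image (cyrV L (cywN κ m) o) := by
  have hL0 : 0 < L := by have := h.hL; omega
  have a1 := h.h1; have a2 := h.h2; have a3 := h.hm; have a4 := h.hk; have a5 := h.h3
  have hN : cywN κ m = 2 * κ + m := rfl
  have hval := cyw_val h T U
  have hJred : ∀ w ∈ J, sdRed L w = w := fun w hw => cyr_sites_red (hJ.low hw)
  have hred' : ∀ (y' : CyY), ∀ p ∈ cySv L y', sdRed L p = p := fun y' p hp =>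
    cy_red_self ((cys_sv_rows hL0 y').1 p hp).1.1 ((cys_sv_rows hL0 y').1 p hp).1.2
  have hkind : ∀ {c d : ℤ} {y' : CyY}, y' ∈ cyBand L T c d → y'.1 ≠ CyK.sn ∧ y'.1 ≠ CyK.ss := by
    intro c d y' hy'
    have := (cys_mem_band.1 hy').1
    cases T <;> simp_all
  ext u
  rw [am_mem_lay, Finset.mem_image]
  constructor
  · rintro ⟨hu, y, hy, huy, hns⟩
    obtain ⟨v, hv, hv'⟩ := Finset.not_subset.1 hns
    obtain ⟨hyC, hsub⟩ := (am_mem_cin _ _ _).1 hy
    obtain ⟨hv1, hvJ⟩ := cyw18_mem_Ia.1 (hsub hv)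
    obtain ⟨hu1, huJ'⟩ := Finset.mem_sdiff.1 hu
    rw [Finset.mem_union, not_or] at huJ'
    obtain ⟨huJ, huR⟩ := huJ'
    have hu2 := cys_mem_sites.1 hu1
    have hvr := (cys_sv_rows hL0 y).1 v hv
    have hur := (cys_sv_rows hL0 y).1 u huy
    have hrowN : ∀ w : TV, w ∈ sdRow L (cywN κ m) → w ∈ J.image (cyrV L (cywN κ m) o) := by
      intro w hw
      have : w ∈ (sdRow L 0).image (cyrV L (cywN κ m) o) := by
        rw [cyr_im_row hL0, sub_zero]; exact hw
      exact Finset.image_subset_image hJ.bot this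
    have hvN : v.2 ≤ cywN κ m := by
      by_contra hcon
      have hb := cys_slab (x := x) h.hL (by omega) (by omega) hval (cywGam L T k m J) (!T)
        ((cys_band_mono L (!T) (by omega) le_rfl).trans (cyw18_Q_hi L H T U k m κ)) hyC (by omega : cysLo y ≤ cywN κ m) (by omega)
      have := cys_band_rows hL0 hb huy
      exact huR (hrowN u (cys_mem_row.2 ⟨hu2.1, by omega⟩))
    have hvR : v ∈ J.image (cyrV L (cywN κ m) o) := by
      by_contra hc
      refine hv' (Finset.mem_sdiff.2 ⟨cys_mem_sites.2 ⟨hvr.1, ?_, hvN⟩, ?_⟩)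
      · rcases hv1 with hv1 | rfl
        · exact (cys_mem_sites.1 hv1).2.1
        · simp only at hvN; omega
      · rw [Finset.mem_union, not_or]; exact ⟨hvJ, hc⟩
    obtain ⟨w, hwJ, rfl⟩ := Finset.mem_image.1 hvR
    have hwl := (cys_mem_sites.1 (hJ.low hwJ)).2
    have hyb : y ∈ cyBand L (!T) (cywN κ m - 1 - (k + m)) (cywN κ m) :=
      cyw18_cell_band (x := x) h.hL (by omega) (by omega) hval (cywGam L T k m J) (!T) (cyw18_Q_hi L H T U k m κ) hyC hv
        (by rw [cyw18_V_snd]; omega) (by rw [cyw18_V_snd]; omega)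
    have hyb' : y ∈ (cyBand L T (-1) (k + m)).image (cyrY L (cywN κ m) o) := by
      rw [cyr_im_band hL0]
      have e : cywN κ m - 1 - -1 = cywN κ m := by ring
      rw [e]; exact hyb
    obtain ⟨y', hy', rfl⟩ := Finset.mem_image.1 hyb'
    change u ∈ cySv L (cyrY L (cywN κ m) o y') at huy
    change cyrV L (cywN κ m) o w ∈ cySv L (cyrY L (cywN κ m) o y') at hv
    rw [cyr_sv L _ o y' (hkind hy')] at huy hv
    obtain ⟨u', hu', rfl⟩ := Finset.mem_image.1 huy
    obtain ⟨w', hw', hww⟩ := Finset.mem_image.1 hv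
    have hw'w : w' = w := cyr_V_inj (hred' y' w' hw') (hJred w hwJ) hww
    subst hw'w
    have hu'J : u' ∉ J := fun hc => huR (Finset.mem_image_of_mem _ hc)
    have hb1 := cys_mem_band.1 hy'
    have hy0 : 0 ≤ y'.2.2 := by
      by_contra hcon
      have hlohi := cys_band_lohi hy'
      have hr' := (cys_sv_rows hL0 y').1 u' hu'
      have : (cyrV L (cywN κ m) o u').2 ≤ cywN κ m := hu2.2.2
      rw [cyw18_V_snd] at this
      exact hu'J (hJ.bot (cys_mem_row.2 ⟨hr'.1, by omega⟩))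
    exact ⟨u', cyw18_mem_Lay.2 ⟨⟨y', cyw18_mem_Gam.2 ⟨cys_mem_band.2 ⟨hb1.1, hb1.2.1, hy0, hb1.2.2.2⟩, ⟨w', hw', hwJ⟩, ⟨u', hu', hu'J⟩⟩, hu'⟩, hu'J⟩, rfl⟩
  · rintro ⟨u', hu', rfl⟩
    obtain ⟨⟨y', hy', hu'y⟩, hu'J⟩ := cyw18_mem_Lay.1 hu'
    obtain ⟨hb, ⟨w', hw', hw'J⟩, -⟩ := cyw18_mem_Gam.1 hy'
    have hyb := cyr_band_sub hL0 (cywN κ m) o T 0 (k + m) hb
    have hyQ : cyrY L (cywN κ m) o y' ∈ cywQ L H T U k m κ := cyw18_Q_hi L H T U k m κ (cys_band_mono L (!T) le_rfl (by omega) hyb)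
    have hyC : cyrY L (cywN κ m) o y' ∈ (cywS x L H T U k m κ J).C := cys_Q_sub x L _ _ _ _ hyQ
    have hsv := cyr_sv L (cywN κ m) o y' (hkind hb)
    have hrows : ∀ p ∈ cySv L y', 0 ≤ p.2 ∧ p.2 ≤ k + m + 1 := fun p hp => cys_band_rows hL0 hb hp
    have hnJ : ∀ p : TV, p.2 ≤ k + m + 1 → cyrV L (cywN κ m) o p ∉ J := fun p hp hc => by
      have := (cys_mem_sites.1 (hJ.low hc)).2
      rw [cyw18_V_snd] at this
      omega
    have hsite : ∀ p ∈ cySv L y', cyrV L (cywN κ m) o p ∈ sdSites L 0 (cywN κ m) := fun p hp => by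
      have := hrows p hp
      exact (cys_red_mem hL0 _ 0 (cywN κ m)).2 ⟨by simp only; omega, by simp only; omega⟩
    refine ⟨Finset.mem_sdiff.2 ⟨hsite u' hu'y, ?_⟩, cyrY L (cywN κ m) o y', (am_mem_cin _ _ _).2 ⟨hyC, ?_⟩, ?_, ?_⟩
    · rw [Finset.mem_union, not_or]
      refine ⟨hnJ u' (hrows u' hu'y).2, fun hc => ?_⟩
      obtain ⟨p, hp, hpe⟩ := Finset.mem_image.1 hc
      exact hu'J ((cyr_V_inj (hJred p hp) (hred' y' u' hu'y) hpe) ▸ hp)
    · intro q hq
      change q ∈ cySv L (cyrY L (cywN κ m) o y') at hq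
      rw [hsv] at hq
      obtain ⟨p, hp, rfl⟩ := Finset.mem_image.1 hq
      have := cys_mem_sites.1 (hsite p hp)
      exact cyw18_mem_Ia.2 ⟨Or.inl (cys_mem_sites.2 ⟨this.1, this.2.1, by omega⟩), hnJ p (hrows p hp).2⟩
    · show _ ∈ cySv L (cyrY L (cywN κ m) o y')
      rw [hsv]; exact Finset.mem_image_of_mem _ hu'y
    · intro hs
      have h1 : cyrV L (cywN κ m) o w' ∈ cySv L (cyrY L (cywN κ m) o y') := by
        rw [hsv]; exact Finset.mem_image_of_mem _ hw'
      exact (Finset.mem_sdiff.1 (hs h1)).2 (Finset.mem_union_right _ (Finset.mem_image_of_mem _ hw'J))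

/-- rows of the reflected record (130) -/
theorem cyw_rJ_rows (h : CywHyp x L H k m κ) (T : Bool) (o : ℤ) {J : Finset TV} (hJ : CywRec x L H T k m κ J) {v : TV}
    (hv : v ∈ J.image (cyrV L (cywN κ m) o)) : cywN κ m - (k + m) ≤ v.2 := by
  obtain ⟨u, hu, rfl⟩ := Finset.mem_image.1 hv
  have h1 := (cys_mem_sites.1 (hJ.low hu)).2
  show cywN κ m - (k + m) ≤ cywN κ m - u.2
  omega

/-- the sites of the high band (130) -/
theorem cyw_band_sites (h : CywHyp x L H k m κ) (U : Bool) {y : CyY} (hy : y ∈ cyBand L U κ (κ + m - 1)) : cySv L y ⊆ sdSites L κ (κ + m) := by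
  have hL : 0 < L := by have := h.hL; omega
  intro v hv
  have h1 := cys_band_rows hL hy hv
  have h2 := ((cys_sv_rows hL y).1 v hv).1
  exact cys_mem_sites.2 ⟨h2, h1.1, by omega⟩

/-- the rows of the high band lie above the record, below the plus cut (130) -/
theorem cyw_rows_IH (h : CywHyp x L H k m κ) (T : Bool) {J : Finset TV} (hJ : CywRec x L H T k m κ J) : sdSites L κ (κ + m) ⊆ cywIH L H J := by
  intro v hv
  have h1 := cys_mem_sites.1 hv
  have a1 := h.h1
  have a2 := h.h2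
  have a3 := h.hm
  have a4 := h.hk
  refine Finset.mem_sdiff.2 ⟨cys_mem_sites.2 ⟨h1.1, by omega, by omega⟩, fun hvJ => ?_⟩
  have h2 := (cys_mem_sites.1 (hJ.low hvJ)).2
  omega

/-- the rows of the high band lie in the symmetric domain (130) -/
theorem cyw_rows_D (h : CywHyp x L H k m κ) (T : Bool) (o : ℤ) {J : Finset TV} (hJ : CywRec x L H T k m κ J) : sdSites L κ (κ + m) ⊆ cywD L κ m o J := by
  intro v hv
  have h1 := cys_mem_sites.1 hv
  have a1 := h.h1
  have a2 := h.h2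
  have a3 := h.hm
  have a4 := h.hk
  have eN : cywN κ m = 2 * κ + m := rfl
  refine Finset.mem_sdiff.2 ⟨cys_mem_sites.2 ⟨h1.1, by omega, by omega⟩, fun hvJ => ?_⟩
  rcases Finset.mem_union.1 hvJ with hvJ | hvJ
  · have h2 := (cys_mem_sites.1 (hJ.low hvJ)).2
    omega
  · have h2 := cyw_rJ_rows h T o hJ hvJ
    omega

/-- the high band consists of cells of the ambient (130) -/
theorem cyw_band_C (T U : Bool) (J : Finset TV) : cyBand L U κ (κ + m - 1) ⊆ (cywS x L H T U k m κ J).C :=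
  fun _ hy => cys_Q_sub x L _ _ _ _ (Finset.mem_union_right _ hy)

/-- (g7') the cells of the reflected cut are far above the original plus cut -/
theorem cyw_far (h : CywHyp x L H k m κ) (T U : Bool) (o : ℤ) {J : Finset TV} (hJ : CywRec x L H T k m κ J) :
    ((cywS x L H T U k m κ J).inn (cywIa L κ m J)).cx (cywD L κ m o J) ⊆ ((cywS x L H T U k m κ J).inn (cywIa L κ m J)).cout (cywIH L H J) := by
  intro y hy
  obtain ⟨hyC, -, v, hv, hvD⟩ := Finset.mem_filter.1 hy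
  have hyI : cySv L y ⊆ cywIa L κ m J := (Finset.mem_filter.1 hyC).2
  have a3 := h.h3
  have a4 := h.hk
  have a5 := h.hm
  have eN : cywN κ m = 2 * κ + m := rfl
  -- the bad site is high
  have hrow : (H : ℤ) + 4 ≤ v.2 := by
    have hvI := Finset.mem_sdiff.1 (hyI hv)
    by_contra hlt
    refine hvD (Finset.mem_sdiff.2 ⟨?_, fun hvJ => ?_⟩)
    · rcases Finset.mem_union.1 hvI.1 with h1 | h1
      · have h2 := cys_mem_sites.1 h1
        exact cys_mem_sites.2 ⟨h2.1, h2.2.1, by omega⟩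
      · rw [Finset.mem_singleton] at h1
        subst h1
        exfalso
        apply hlt
        show (H : ℤ) + 4 ≤ cywN κ m + 3 + 1
        omega
    · rcases Finset.mem_union.1 hvJ with hvJ | hvJ
      · exact hvI.2 hvJ
      · have h2 := cyw_rJ_rows h T o hJ hvJ
        omega
  have hall : ∀ u ∈ cySv L y, u ∉ cywIH L H J := by
    intro u hu huI
    have h1 := (cys_mem_sites.1 (Finset.mem_sdiff.1 huI).1).2
    have h2 := cyr_row_lip L y hu hv
    omega
  refine Finset.mem_filter.2 ⟨hyC, fun hsub => hall v hv (hsub hv), ?_⟩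
  rintro ⟨⟨u, hu, huI⟩, -⟩
  exact hall u hu huI

/-- (g8) the high tests -/
theorem cyw_F_mono (h : CywHyp x L H k m κ) (T U : Bool) (J : Finset TV) {E : Set CyF} (hE : CyInc E) :
    ClMono (cywS x L H T U k m κ J) (cysF L U κ (κ + m - 1) E) :=
  cys_F_mono (by have := h.hL; omega) _ rfl (cyw_band_C T U J) hE

theorem cyw_F_IH (h : CywHyp x L H k m κ) (T U : Bool) {J : Finset TV} (hJ : CywRec x L H T k m κ J) (E : Set CyF) :
    ClLoc (cywIH L H J) ((cywS x L H T U k m κ J).cin (cywIH L H J)) (cysF L U κ (κ + m - 1) E) :=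
  dde_loc_mono (cyw_rows_IH h T hJ)
    (fun y hy => Finset.mem_filter.2 ⟨cyw_band_C T U J hy, (cyw_band_sites h U hy).trans (cyw_rows_IH h T hJ)⟩)
    (cys_F_loc (by have := h.hL; omega) U le_rfl (by omega) E)

theorem cyw_F_D (h : CywHyp x L H k m κ) (T U : Bool) (o : ℤ) {J : Finset TV} (hJ : CywRec x L H T k m κ J) (E : Set CyF) :
    ClLoc (cywD L κ m o J) ((cywS x L H T U k m κ J).cin (cywD L κ m o J)) (cysF L U κ (κ + m - 1) E) :=
  dde_loc_mono (cyw_rows_D h T o hJ)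
    (fun y hy => Finset.mem_filter.2 ⟨cyw_band_C T U J hy, (cyw_band_sites h U hy).trans (cyw_rows_D h T o hJ)⟩)
    (cys_F_loc (by have := h.hL; omega) U le_rfl (by omega) E)

/-- the high band consists of cells inside the symmetric domain -/
theorem cyw_band_D (h : CywHyp x L H k m κ) (T U : Bool) (o : ℤ) {J : Finset TV} (hJ : CywRec x L H T k m κ J) :
    cyBand L U κ (κ + m - 1) ⊆ ((cywS x L H T U k m κ J).inn (cywD L κ m o J)).C :=
  fun y hy => Finset.mem_filter.2 ⟨cyw_band_C T U J hy, (cyw_band_sites h U hy).trans (cyw_rows_D h T o hJ)⟩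

theorem cyw_band_IH (h : CywHyp x L H k m κ) (T U : Bool) {J : Finset TV} (hJ : CywRec x L H T k m κ J) :
    cyBand L U κ (κ + m - 1) ⊆ ((cywS x L H T U k m κ J).inn (cywIH L H J)).C :=
  fun y hy => Finset.mem_filter.2 ⟨cyw_band_C T U J hy, (cyw_band_sites h U hy).trans (cyw_rows_IH h T hJ)⟩

/-- the reflected layer lies in the symmetric domain -/
theorem cyw_rlay_D (h : CywHyp x L H k m κ) (T : Bool) (o : ℤ) {J : Finset TV} (hJ : CywRec x L H T k m κ J) :
    (cywLay L T k m J).image (cyrV L (cywN κ m) o) ⊆ cywD L κ m o J := by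
  have hL : 0 < L := by have := h.hL; omega
  intro w hw
  obtain ⟨v, hv, rfl⟩ := Finset.mem_image.1 hw
  obtain ⟨hv1, hvJ⟩ := Finset.mem_sdiff.1 hv
  obtain ⟨y, hy, hvy⟩ := Finset.mem_biUnion.1 hv1
  have hyB := (Finset.mem_filter.1 hy).1
  have r1 := cys_band_rows hL hyB hvy
  have r2 := ((cys_sv_rows hL y).1 v hvy).1
  have hvS : v ∈ sdSites L 0 (k + m + 1) := cys_mem_sites.2 ⟨r2, r1.1, r1.2⟩
  have a1 := h.h1
  have a3 := h.hm
  have a4 := h.hk
  have eN : cywN κ m = 2 * κ + m := rfl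
  have hw1 := cys_mem_sites.1 (cyr_mem_sites hL (cywN κ m) o hvS)
  refine Finset.mem_sdiff.2 ⟨cys_mem_sites.2 ⟨hw1.1, by omega, by omega⟩, fun hwJ => ?_⟩
  rcases Finset.mem_union.1 hwJ with hwJ | hwJ
  · have h2 := (cys_mem_sites.1 (hJ.low hwJ)).2
    omega
  · obtain ⟨u, hu, hEq⟩ := Finset.mem_image.1 hwJ
    have := cyr_V_inj (cyr_sites_red (hJ.low hu)) (cyr_sites_red hvS) hEq
    exact hvJ (this ▸ hu)

theorem cyw_rowH_IH (h : CywHyp x L H k m κ) (T : Bool) {J : Finset TV} (hJ : CywRec x L H T k m κ J) : sdRow L H ⊆ cywIH L H J := by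
  intro v hv
  have h1 := cys_mem_row.1 hv
  have a1 := h.h1
  have a2 := h.h2
  have a3 := h.hm
  have a4 := h.hk
  refine Finset.mem_sdiff.2 ⟨cys_mem_sites.2 ⟨h1.1, by omega, by omega⟩, fun hvJ => ?_⟩
  have h2 := (cys_mem_sites.1 (hJ.low hvJ)).2
  omega

theorem cyw_inn_ok (h : CywHyp x L H k m κ) (T U : Bool) (J I : Finset TV) : ClOk ((cywS x L H T U k m κ J).inn I) :=
  am_inn_ok _ (cyw_disk h T U J).toClOk I

end geometry

/-! ## 6. one record: the laws -/

section laws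

/-- (p1a) the law found by the search, colours exchanged back.
PLAN: unfold `cuE`; `(cywM ..).A = sdSites L 0 H` (rfl), so `(cywM ..).A \ J = cywIH L H J` (rfl); `cyw_lay_M`; `((cywKW L H).res M I).Holds M ω ↔ sdRow L H ⊆ ω.W` (`row H ⊆ I`: `cyw_rowH_IH`; `row 0 ∩ I = ∅`: `hJ.bot`);
`dis_E_eq`, `dis_Z_eq`, `cp_swap` for `κp B W = (sdRow L H ⊆ B ∧ lay ⊆ W)` with `g = cywG ..` and with `g = 1`. -/
theorem cyw_swap_J (h : CywHyp x L H k m κ) (T U : Bool) {J : Finset TV} (hJ : CywRec x L H T k m κ J) (E : Set CyF) :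
    cuE (cywM x L H T k m κ) true ((cywM x L H T k m κ).A \ J) (((cywKW L H).res (cywM x L H T k m κ) ((cywM x L H T k m κ).A \ J)).Holds (cywM x L H T k m κ))
        (fun ω => cywG x L U κ (κ + m - 1) E ω.W ω.B) =
      ((cywM x L H T k m κ).inn (cywIH L H J)).E (fun ω => CuPin true (sdRow L H) ω ∧ cywLay L T k m J ⊆ ω.W) (fun ω => cywG x L U κ (κ + m - 1) E ω.B ω.W) := by
  unfold cuE
  rw [cyw_lay_M h T hJ]
  have hA : (cywM x L H T k m κ).A \ J = cywIH L H J := rfl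
  rw [hA]
  obtain ⟨S', hS'⟩ : ∃ S', S' = (cywM x L H T k m κ).inn (cywIH L H J) := ⟨_, rfl⟩
  rw [← hS']
  have e : (fun ω : ClCfg TV CyY => CuPin true (sdRow L H) ω ∧ cywLay L T k m J ⊆ ω.W) =
      (fun ω => (fun B W : Finset TV => sdRow L H ⊆ B ∧ cywLay L T k m J ⊆ W) ω.B ω.W) := by
    funext ω
    refine propext (and_congr ?_ Iff.rfl)
    exact ⟨fun h1 v hv => (h1 v hv).2 rfl, fun h1 v hv => ⟨fun _ => rfl, fun _ => h1 hv⟩⟩
  have hr : sdRow L H ∩ cywIH L H J = sdRow L H := Finset.inter_eq_left.2 (cyw_rowH_IH h T hJ)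
  have h0 : sdRow L 0 ∩ cywIH L H J = ∅ := by
    ext v
    simp only [Finset.mem_inter, Finset.notMem_empty, iff_false, not_and]
    intro hv hv'
    exact (Finset.mem_sdiff.1 hv').2 (hJ.bot hv)
  have e' : (fun ω : ClCfg TV CyY => CuPin true (cywLay L T k m J) ω ∧ ((cywKW L H).res (cywM x L H T k m κ) (cywIH L H J)).Holds (cywM x L H T k m κ) ω) =
      (fun ω => (fun B W : Finset TV => sdRow L H ⊆ B ∧ cywLay L T k m J ⊆ W) ω.W ω.B) := by
    funext ω
    refine propext ?_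
    have e1 : CuPin true (cywLay L T k m J) ω ↔ cywLay L T k m J ⊆ ω.B :=
      ⟨fun h1 v hv => (h1 v hv).2 rfl, fun h1 v hv => ⟨fun _ => rfl, fun _ => h1 hv⟩⟩
    have e2 : ((cywKW L H).res (cywM x L H T k m κ) (cywIH L H J)).Holds (cywM x L H T k m κ) ω ↔ sdRow L H ⊆ ω.W := by
      unfold ClCon.Holds ClCon.res cywKW
      simp only [hr, h0]
      simp
    rw [e1, e2]
    exact and_comm
  rw [e, e', dis_E_eq, dis_E_eq, dis_Z_eq, dis_Z_eq]
  rw [cp_swap S' (fun B W : Finset TV => sdRow L H ⊆ B ∧ cywLay L T k m J ⊆ W) (fun B W => cywG x L U κ (κ + m - 1) E B W)]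
  congr 1
  exact cp_swap S' (fun B W : Finset TV => sdRow L H ⊆ B ∧ cywLay L T k m J ⊆ W) (fun _ _ => 1)

/-- (p1b) RE-CELLING above the record: from the family of the search to the family of the comparisons.
PLAN: `cywM = cyI x L (-3) (N+3) Qa ∅ 0 H` (`cys_I_eq`), `am_inn_inn`: `M.inn I_H = (cyS x L (-3) (N+3) Qa ∅).inn I_H`; `cy_rc_inn` twice (`QH ⊆ Qa`, `QH ⊆ Q_U`) for `N` and for `Z` (`dis_E_eq`, `dis_Z_eq`);
`Qa \ QH ⊆ T@[k+m+1..H-1]`, `Q_U \ QH ⊆ T'@{N-1-H} ∪ U@[κ..κ']`: all their sites lie in the rows `k+m+1..H`, inside `I_H`; a cell of `Γ_J` has a site in `J`; the constraint and the test read no status and only the spins of `I_H` (`cp_ker_loc`). -/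
theorem cyw_rc (h : CywHyp x L H k m κ) (T U : Bool) {J : Finset TV} (hJ : CywRec x L H T k m κ J) (E : Set CyF) :
    ((cywM x L H T k m κ).inn (cywIH L H J)).E (fun ω => CuPin true (sdRow L H) ω ∧ cywLay L T k m J ⊆ ω.W) (fun ω => cywG x L U κ (κ + m - 1) E ω.B ω.W) =
      ((cywS x L H T U k m κ J).inn (cywIH L H J)).E (fun ω => CuPin true (sdRow L H) ω ∧ cywLay L T k m J ⊆ ω.W) (fun ω => cywG x L U κ (κ + m - 1) E ω.B ω.W) := by
  have hL0 : 0 < L := by have := h.hL; omega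
  have a1 := h.h1; have a2 := h.h2; have a3 := h.hm; have a4 := h.hk; have a5 := h.h3
  have hN : cywN κ m = 2 * κ + m := rfl
  have hM : cywM x L H T k m κ = (cyS x L (-3) (cywN κ m + 3) (cywQa L H T k m κ) ∅).inn (sdSites L 0 H) :=
    (cys_I_eq x hL0 (by omega) (by omega) (cyw_val_a h T).sub ∅).symm
  have hsubI : cywIH L H J ⊆ sdSites L 0 H := Finset.sdiff_subset
  have hI : cywIH L H J ⊆ sdSites L (-3) (cywN κ m + 3) := fun v hv => by
    have := cys_mem_sites.1 (hsubI hv)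
    exact cys_mem_sites.2 ⟨this.1, by omega, by omega⟩
  rw [hM, am_inn_inn _ hsubI]
  -- rows above the record are inside
  have hrows : ∀ {T' : Bool} {c d : ℤ} {y : CyY}, k + m + 1 ≤ c → d + 1 ≤ H → y ∈ cyBand L T' c d → cySv L y ⊆ cywIH L H J := by
    intro T' c d y hc hd hy v hv
    have h1 := cys_band_rows hL0 hy hv
    have h2 := ((cys_sv_rows hL0 y).1 v hv).1
    refine Finset.mem_sdiff.2 ⟨cys_mem_sites.2 ⟨h2, by omega, by omega⟩, fun hvJ => ?_⟩
    have := (cys_mem_sites.1 (hJ.low hvJ)).2.2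
    omega
  have hK : ClLocP (cywIH L H J) (cywQH L H T k m κ) (fun ω : ClCfg TV CyY => CuPin true (sdRow L H) ω ∧ cywLay L T k m J ⊆ ω.W) := by
    intro ω ω' hB hW _
    have hr := cyw_rowH_IH h T hJ
    have hl := cyw_lay_IH h T hJ
    have eB : ∀ v ∈ cywIH L H J, (v ∈ ω.B ↔ v ∈ ω'.B) := fun v hv => by
      have := Finset.ext_iff.1 hB v
      simpa [hv] using this
    have eW : ∀ v ∈ cywIH L H J, (v ∈ ω.W ↔ v ∈ ω'.W) := fun v hv => by
      have := Finset.ext_iff.1 hW v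
      simpa [hv] using this
    refine and_congr ⟨fun h1 v hv => ?_, fun h1 v hv => ?_⟩ ⟨fun h1 v hv => ?_, fun h1 v hv => ?_⟩
    · rw [← eB v (hr hv)]; exact h1 v hv
    · rw [eB v (hr hv)]; exact h1 v hv
    · exact (eW v (hl hv)).1 (h1 hv)
    · exact (eW v (hl hv)).2 (h1 hv)
  have hF : ClLoc (cywIH L H J) (cywQH L H T k m κ) (fun ω : ClCfg TV CyY => cywG x L U κ (κ + m - 1) E ω.B ω.W) := by
    intro ω ω' hB hW _
    exact cyw_G_loc h T U E J hJ.low ⟨ω.W, ω.B, ∅⟩ ⟨ω'.W, ω'.B, ∅⟩ hW hB rfl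
  have h1F : ClLoc (cywIH L H J) (cywQH L H T k m κ) (fun _ : ClCfg TV CyY => (1 : ℝ)) := fun _ _ _ _ _ => rfl
  have hina : ∀ y ∈ cywQa L H T k m κ \ cywQH L H T k m κ, cySv L y ⊆ cywIH L H J ∨ Disjoint (cySv L y) (cywIH L H J) := by
    intro y hy
    obtain ⟨hy1, hy2⟩ := Finset.mem_sdiff.1 hy
    rcases Finset.mem_union.1 hy1 with hy1 | hy1
    · exact absurd hy1 hy2
    · exact Or.inl (hrows (by omega) (by omega) hy1)
  have hinU : ∀ y ∈ cywQ L H T U k m κ \ cywQH L H T k m κ, cySv L y ⊆ cywIH L H J ∨ Disjoint (cySv L y) (cywIH L H J) := by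
    intro y hy
    obtain ⟨hy1, hy2⟩ := Finset.mem_sdiff.1 hy
    rcases Finset.mem_union.1 hy1 with hy1 | hy1
    · rcases Finset.mem_union.1 hy1 with hy1 | hy1
      · exact absurd hy1 hy2
      · exact Or.inl (hrows (by omega) (by omega) hy1)
    · exact Or.inl (hrows (by omega) (by omega) hy1)
  have hG : ∀ y ∈ cywGam L T k m J, ¬ cySv L y ⊆ cywIH L H J := by
    intro y hy hs
    obtain ⟨u, hu, huJ⟩ := (Finset.mem_filter.1 hy).2.1
    exact (Finset.mem_sdiff.1 (hs hu)).2 huJ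
  have hE : ∀ y ∈ (∅ : Finset CyY), ¬ cySv L y ⊆ cywIH L H J := fun y hy => absurd hy (Finset.notMem_empty _)
  have suba : cywQH L H T k m κ ⊆ cywQa L H T k m κ := Finset.subset_union_left
  have subU : cywQH L H T k m κ ⊆ cywQ L H T U k m κ := fun y hy => Finset.mem_union_left _ (Finset.mem_union_left _ hy)
  unfold cywS
  rw [dis_E_eq, dis_E_eq, dis_Z_eq, dis_Z_eq,
    cy_rc_inn x h.hL (cyw_val_H h T) (cyw_val_a h T) suba _ hI hina hE hE _ _ hK hF,
    cy_rc_inn x h.hL (cyw_val_H h T) (cyw_val_a h T) suba _ hI hina hE hE _ _ hK h1F,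
    cy_rc_inn x h.hL (cyw_val_H h T) (cyw_val h T U) subU _ hI hinU hE hG _ _ hK hF,
    cy_rc_inn x h.hL (cyw_val_H h T) (cyw_val h T U) subU _ hI hinU hE hG _ _ hK h1F]

/-- (p1c) TOWER above the record.      PLAN: `dis_E_eq`; `cp_tower` with `T = cyBand L U κ κ'` (`cyw_band_IH`), `κp B W = (CuPin .. ∧ ..)`; `cp_ker_congr` (`cywR` and `cywS` have the same `sv`, `q` on the band: the band is disjoint from `Γ_J`). -/
theorem cyw_tower_J (h : CywHyp x L H k m κ) (T U : Bool) {J : Finset TV} (hJ : CywRec x L H T k m κ J) (E : Set CyF) :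
    ((cywS x L H T U k m κ J).inn (cywIH L H J)).E (fun ω => CuPin true (sdRow L H) ω ∧ cywLay L T k m J ⊆ ω.W) (fun ω => cywG x L U κ (κ + m - 1) E ω.B ω.W) =
      cywNu x L H T U k m κ J (cysF L U κ (κ + m - 1) E) := by
  unfold cywNu
  obtain ⟨S', hS'⟩ : ∃ S', S' = (cywS x L H T U k m κ J).inn (cywIH L H J) := ⟨_, rfl⟩
  have hband : cyBand L U κ (κ + m - 1) ⊆ S'.C := hS' ▸ cyw_band_IH h T U hJ
  have hL : 0 < L := by have := h.hL; omega
  rw [← hS']
  have e : (fun ω : ClCfg TV CyY => CuPin true (sdRow L H) ω ∧ cywLay L T k m J ⊆ ω.W) =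
      (fun ω => (fun B W : Finset TV => sdRow L H ⊆ B ∧ cywLay L T k m J ⊆ W) ω.B ω.W) := by
    funext ω
    refine propext (and_congr ?_ Iff.rfl)
    exact ⟨fun h1 v hv => (h1 v hv).2 rfl, fun h1 v hv => ⟨fun _ => rfl, fun _ => h1 hv⟩⟩
  have hF : ∀ B W O, cysF L U κ (κ + m - 1) E ⟨B, W, O⟩ = cysF L U κ (κ + m - 1) E ⟨B, W, O ∩ cyBand L U κ (κ + m - 1)⟩ := fun B W O =>
    cys_F_loc hL U (r0 := κ) (r1 := κ + m) le_rfl (by omega) E _ _ rfl rfl (by simp)
  rw [e, dis_E_eq, dis_E_eq]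
  congr 1
  refine Eq.trans ?_ (cp_tower S' (cyBand L U κ (κ + m - 1)) hband (fun B W : Finset TV => sdRow L H ⊆ B ∧ cywLay L T k m J ⊆ W) (cysF L U κ (κ + m - 1) E) hF).symm
  congr 1
  funext ω
  unfold cywG
  refine cp_ker_congr (cywR x L) S' _ (fun y _ => by rw [hS']; rfl) (fun y hy => ?_) _ _ _
  have hn : y ∉ cywGam L T k m J := fun hy' => by
    have h1 := (cys_mem_band.1 (Finset.mem_filter.1 hy').1).2.2.2
    have h2 := (cys_mem_band.1 hy).2.2.1
    have := h.h1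
    omega
  rw [hS']
  show _ = if y ∈ cywGam L T k m J then 1 else _
  rw [if_neg hn]
  rfl

/-- (p1) **the law found by the search is `ν_U`** -/
theorem cyw_bridge (h : CywHyp x L H k m κ) (T U : Bool) {J : Finset TV} (hJ : CywRec x L H T k m κ J) (E : Set CyF) :
    cuE (cywM x L H T k m κ) true ((cywM x L H T k m κ).A \ J) (((cywKW L H).res (cywM x L H T k m κ) ((cywM x L H T k m κ).A \ J)).Holds (cywM x L H T k m κ))
        (fun ω => cywG x L U κ (κ + m - 1) E ω.W ω.B) = cywNu x L H T U k m κ J (cysF L U κ (κ + m - 1) E) :=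
  (cyw_swap_J h T U hJ E).trans ((cyw_rc h T U hJ E).trans (cyw_tower_J h T U hJ E))

/-- (p2) **SLIDE behind the white cut** -/
theorem cyw_nu_ge (h : CywHyp x L H k m κ) (T U : Bool) (o : ℤ) {J : Finset TV} (hJ : CywRec x L H T k m κ J) {E : Set CyF} (hE : CyInc E) :
    cywLam x L H T U k m κ o J true (cysF L U κ (κ + m - 1) E) ≤ cywNu x L H T U k m κ J (cysF L U κ (κ + m - 1) E) := by
  have key := cpw_slide (cywS x L H T U k m κ J) (cyw_disk h T U J) (cywIa L κ m J) (cyw_Ia_sub h T U J) (cyw_neutral h T U hJ) (cywX L T k m J)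
    (by rw [cyw_cx h T U hJ]; exact cyw_Gam_X T k m J) (cyw_X_cno h T U hJ) (cyw_X_ne h T hJ) (cyw_X_conn h T U hJ) (cywIH L H J) (cywD L κ m o J)
    (cyw_IH_sub h J) (cyw_D_sub h o J) (by rw [cyw_lay h T U hJ]; exact cyw_lay_IH h T hJ) (by rw [cyw_lay h T U hJ]; exact cyw_lay_D h T o hJ)
    (cyw_far h T U o hJ) (cysF L U κ (κ + m - 1) E) (cyw_F_mono h T U J hE) (cyw_F_IH h T U hJ E) (cyw_F_D h T U o hJ E)
  rw [cyw_lay h T U hJ, cyw_lay_IH' h T U hJ, cyw_lay_D' h T U o hJ] at key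
  exact key

/-- (p5b) **order in the sign of the far cut** -/
theorem cyw_sign (h : CywHyp x L H k m κ) (T U : Bool) (o : ℤ) {J : Finset TV} (hJ : CywRec x L H T k m κ J) {E : Set CyF} (hE : CyInc E) :
    cywLam x L H T U k m κ o J false (cysF L U κ (κ + m - 1) E) ≤ cywLam x L H T U k m κ o J true (cysF L U κ (κ + m - 1) E) := by
  have key := cpw_sign (cywS x L H T U k m κ J) (cyw_disk h T U J) (cywIa L κ m J) (cyw_Ia_sub h T U J) (cyw_neutral h T U hJ) (cywX L T k m J)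
    (by rw [cyw_cx h T U hJ]; exact cyw_Gam_X T k m J) (cyw_X_cno h T U hJ) (cyw_X_ne h T hJ) (cyw_X_conn h T U hJ) (cywD L κ m o J)
    (cyw_D_sub h o J) (by rw [cyw_lay h T U hJ]; exact cyw_lay_D h T o hJ)
    (cysF L U κ (κ + m - 1) E) (cyw_F_mono h T U J hE) (cyw_F_D h T U o hJ E)
  rw [cyw_lay h T U hJ, cyw_lay_D' h T U o hJ] at key
  exact key

/-- (p5a) **flip of the first spin in the symmetric law**.
PLAN: `dis_E_eq`; numerator: `cyw_flipB` (`cyw_inn_ok`, `cyw_band_D`); denominator: `dis_Z_eq`, `am_flipB_N`; `CuPin true P (ω.flipB D) ↔ CuPin false P ω` for `P ⊆ D` (`cyw_rlay_D`), `(ω.flipB D).W = ω.W` (rfl). -/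
theorem cyw_flip_hi (h : CywHyp x L H k m κ) (T U : Bool) (o : ℤ) {J : Finset TV} (hJ : CywRec x L H T k m κ J) (E : Set CyF) :
    cywLam x L H T U k m κ o J true (cysF L U κ (κ + m - 1) (cyNeg E)) = cywLam x L H T U k m κ o J false (cysF L U κ (κ + m - 1) E) := by
  unfold cywLam
  obtain ⟨S', hS'⟩ : ∃ S', S' = (cywS x L H T U k m κ J).inn (cywD L κ m o J) := ⟨_, rfl⟩
  obtain ⟨P, hPdef⟩ : ∃ P, P = (cywLay L T k m J).image (cyrV L (cywN κ m) o) := ⟨_, rfl⟩
  have hok : ClOk S' := hS' ▸ cyw_inn_ok h T U J _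
  have hA : S'.A = cywD L κ m o J := by rw [hS']; rfl
  have hsv : S'.sv = cySv L := by rw [hS']; rfl
  have hP : P ⊆ S'.A := by rw [hA, hPdef]; exact cyw_rlay_D h T o hJ
  have hband : cyBand L U κ (κ + m - 1) ⊆ S'.C := hS' ▸ cyw_band_D h T U o hJ
  rw [← hS', ← hPdef]
  have e : (fun ω : ClCfg TV CyY => CuPin true P (ω.flipB S'.A) ∧ cywLay L T k m J ⊆ (ω.flipB S'.A).W) =
      (fun ω => CuPin false P ω ∧ cywLay L T k m J ⊆ ω.W) := by
    funext ω
    refine propext (and_congr ?_ Iff.rfl)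
    constructor
    · intro h1 v hv
      have h2 : v ∈ S'.A \ ω.B := (h1 v hv).2 rfl
      exact ⟨fun hb => absurd hb (Finset.mem_sdiff.1 h2).2, fun hf => by simp at hf⟩
    · intro h1 v hv
      refine ⟨fun _ => rfl, fun _ => ?_⟩
      show v ∈ S'.A \ ω.B
      exact Finset.mem_sdiff.2 ⟨hP hv, fun hb => by have := (h1 v hv).1 hb; simp at this⟩
  have n1 := cyw_flipB S' hok hsv U κ (κ + m - 1) hband (fun ω => CuPin true P ω ∧ cywLay L T k m J ⊆ ω.W) E
  have n2 := am_flipB_N S' hok.sub (fun ω => CuPin true P ω ∧ cywLay L T k m J ⊆ ω.W) (fun _ => 1)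
  rw [e] at n1 n2
  rw [dis_E_eq, dis_E_eq, dis_Z_eq, dis_Z_eq, n1, n2]

/-- (p3) **ALT in the symmetric law, high band**.
PLAN: `cyw_alt` for `S = (cywS .. T T ..).inn (cywD ..)`, `κp B W = (CuPin-form: ρ lay ⊆ B) ∧ lay ⊆ W` (`cyw_q_half`, `cyw_band_D`); divide by `Z(κp) > 0` (`cpw_feas_pin`, `cyw_rlay_D`, `cyw_lay_D`); `Z(κp~) = Z(κp)` (`cp_swap`, `g = 1`);
`CuPin true P ω ↔ P ⊆ ω.B`. -/
theorem cyw_alt_hi (h : CywHyp x L H k m κ) (T : Bool) (o : ℤ) {J : Finset TV} (hJ : CywRec x L H T k m κ J) :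
    1 ≤ cywLam x L H T T k m κ o J true (cysF L T κ (κ + m - 1) (cyVP 1 κ (κ + m - 1))) + cywLam x L H T T k m κ o J true (cysF L T κ (κ + m - 1) (cyVP (-1) κ (κ + m - 1))) +
      cywLamW x L H T T k m κ o J (cysF L T κ (κ + m - 1) (cyBlk 1 κ (κ + m - 1))) + cywLamW x L H T T k m κ o J (cysF L T κ (κ + m - 1) (cyBlk (-1) κ (κ + m - 1))) := by
  unfold cywLam cywLamW
  obtain ⟨S', hS'⟩ : ∃ S', S' = (cywS x L H T T k m κ J).inn (cywD L κ m o J) := ⟨_, rfl⟩
  obtain ⟨P, hPdef⟩ : ∃ P, P = (cywLay L T k m J).image (cyrV L (cywN κ m) o) := ⟨_, rfl⟩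
  have hok : ClOk S' := hS' ▸ cyw_inn_ok h T T J _
  have hA : S'.A = cywD L κ m o J := by rw [hS']; rfl
  have hsv : S'.sv = cySv L := by rw [hS']; rfl
  have hP : P ⊆ S'.A := by rw [hA, hPdef]; exact cyw_rlay_D h T o hJ
  have hLy : cywLay L T k m J ⊆ S'.A := by rw [hA]; exact cyw_lay_D h T o hJ
  have hband : cyBand L T κ (κ + m - 1) ⊆ S'.C := hS' ▸ cyw_band_D h T T o hJ
  have hq : ∀ y, 1 / 2 ≤ S'.q y ∧ S'.q y ≤ 1 := fun y => by
    rw [hS']; exact cyw_q_half (L := L) h.hx h.hx1 (-3) (cywN κ m + 3) (cywQ L H T T k m κ) (cywGam L T k m J) y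
  rw [← hS', ← hPdef]
  have e : (fun ω : ClCfg TV CyY => CuPin true P ω ∧ cywLay L T k m J ⊆ ω.W) =
      (fun ω => (fun B W : Finset TV => P ⊆ B ∧ cywLay L T k m J ⊆ W) ω.B ω.W) := by
    funext ω
    refine propext (and_congr ?_ Iff.rfl)
    exact ⟨fun h1 v hv => (h1 v hv).2 rfl, fun h1 v hv => ⟨fun _ => rfl, fun _ => h1 hv⟩⟩
  have hZ := cpw_feas_pin S' hok true P (cywLay L T k m J) hP hLy
  have hm := h.hm
  have key := cyw_alt h.hL S' hsv (fun y _ => (hq y).1) (fun y _ => (hq y).2) T (c := κ) (d := κ + m - 1) (by omega) hband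
    (fun B W : Finset TV => P ⊆ B ∧ cywLay L T k m J ⊆ W)
  have hsw := cp_swap S' (fun B W : Finset TV => P ⊆ B ∧ cywLay L T k m J ⊆ W) (fun _ _ => 1)
  rw [e] at hZ ⊢
  have hZ' : S'.Z (fun ω => P ⊆ ω.W ∧ cywLay L T k m J ⊆ ω.B) = S'.Z (fun ω => P ⊆ ω.B ∧ cywLay L T k m J ⊆ ω.W) := by
    rw [dis_Z_eq, dis_Z_eq]; exact hsw
  rw [dis_E_eq, dis_E_eq, dis_E_eq, dis_E_eq, hZ', ← add_div, ← add_div, ← add_div, le_div_iff₀ hZ, one_mul]
  exact key

theorem cpw_N_congr {V Y : Type} [DecidableEq V] [DecidableEq Y] (S : ClSys V Y) {K K' : ClCfg V Y → Prop} {F F' : ClCfg V Y → ℝ}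
    (hK : ∀ ω ∈ S.cfgs, (K ω ↔ K' ω)) (hF : ∀ ω ∈ S.cfgs, F ω = F' ω) : S.N K F = S.N K' F' := by
  classical
  unfold ClSys.N
  refine Finset.sum_congr rfl fun ω hω => ?_
  rw [hF ω hω]
  by_cases h : K ω
  · rw [if_pos h, if_pos ((hK ω hω).1 h)]
  · rw [if_neg h, if_neg (fun h' => h ((hK ω hω).2 h'))]

/-- (r1) the reflection exchanges the two families of the comparisons -/
theorem cyw_rot_Q (hL : 0 < L) (H : ℕ) (T : Bool) (k m κ o : ℤ) :
    (cywQ L H T T k m κ).image (cyrY L (cywN κ m) o) = cywQ L H T (!T) k m κ := by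
  unfold cywQ cywQH cywQ0
  simp only [Finset.image_union, cyr_im_band hL, Bool.not_not]
  have e1 : cywN κ m - 1 - (k + m) = cywN κ m - 1 - (k + m) := rfl
  have e2 : cywN κ m - 1 - -1 = cywN κ m := by ring
  have e3 : cywN κ m - 1 - cywN κ m = -1 := by ring
  have e4 : cywN κ m - 1 - (cywN κ m - 1 - (k + m)) = k + m := by ring
  have e5 : cywN κ m - 1 - (cywN κ m - 1 - (H : ℤ)) = H := by ring
  have e6 : cywN κ m - 1 - (κ + m - 1) = κ := by unfold cywN; ring
  have e7 : cywN κ m - 1 - κ = κ + m - 1 := by unfold cywN; ring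
  rw [e2, e3, e4, e5, e6, e7]
  ext y
  simp only [Finset.mem_union]
  tauto

/-- (r2) the reflection exchanges the two symmetric domains -/
theorem cyw_rot_D (hL : 0 < L) (κ m o : ℤ) {c : ℤ} {J : Finset TV} (hJ : J ⊆ sdSites L 0 c) :
    (cywD L κ m o J).image (cyrV L (cywN κ m) (-cywN κ m - o)) = cywD L κ m (-cywN κ m - o) J := by
  set N := cywN κ m with hN
  have hred : ∀ j ∈ J, sdRed L j = j := fun j hj => cyr_sites_red (hJ hj)
  ext v
  unfold cywD
  rw [← hN]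
  simp only [Finset.mem_image, Finset.mem_sdiff, Finset.mem_union, not_or, not_exists, not_and]
  constructor
  · rintro ⟨u, ⟨hu, hu1, hu2⟩, rfl⟩
    have hur : sdRed L u = u := cyr_sites_red hu
    refine ⟨?_, ?_, ?_⟩
    · have := cyr_mem_sites hL N (-N - o) hu
      rwa [sub_self, sub_zero] at this
    · intro hj
      refine hu2 _ hj ?_
      rw [cyr_V_V', hur]
    · intro j hj e
      exact hu1 (cyr_V_inj (hred j hj) hur e ▸ hj)
  · rintro ⟨hv, hv1, hv2⟩
    have hvr : sdRed L v = v := cyr_sites_red hv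
    refine ⟨cyrV L N o v, ⟨?_, ?_, ?_⟩, ?_⟩
    · have := cyr_mem_sites hL N o hv
      rwa [sub_self, sub_zero] at this
    · intro hj
      refine hv2 _ hj ?_
      rw [cyr_V_V, hvr]
    · intro j hj e
      exact hv1 (cyr_V_inj (hred j hj) hvr e ▸ hj)
    · rw [cyr_V_V, hvr]


/-- (p4) **REFLECTION + COLOUR EXCHANGE**.
PLAN: `φ = cyrV L N (-N-o)`, `ψ = cyrY L N (-N-o)`.   `cyr_iso` at `a = -3`, `b = N+3`, `Q = cywQ .. T T`, `Γ = Γ_J`, `D = cywD .. o J`: the image system is `(cyS x L (-3) (N+3) (Q.image ψ) (Γ.image ψ)).inn (D.image φ)`;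
`Q.image ψ = cywQ .. T (!T)` (`cyr_im_band`, `Finset.image_union`, `N-1-κ' = κ`); `D.image φ = cywD .. (-N-o) J` (`cyr_im_sites`, `cyr_V_V`, injectivity); the neutralised cells are not inside the domain (`am_sys_N_congr`).
`am_iso` for `N` and `Z`; constraint: `lay ⊆ B ↔ φ lay ⊆ φ B`, `ρ_o lay ⊆ W ↔ lay ⊆ φ W`; test: `cyr_fld` + `cyr_Blk_iff` (`cysFld` = `cyFld` cut to the band: `cys_val_of` / `CySup`). -/
theorem cyw_rot (h : CywHyp x L H k m κ) (T : Bool) (o : ℤ) {J : Finset TV} (hJ : CywRec x L H T k m κ J) (s : SignType) :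
    cywLamW x L H T T k m κ o J (cysF L T κ (κ + m - 1) (cyBlk s κ (κ + m - 1))) =
      cywLam x L H T (!T) k m κ (-cywN κ m - o) J true (cysF L (!T) κ (κ + m - 1) (cyBlk s κ (κ + m - 1))) := by
  have hL0 : 0 < L := by have := h.hL; omega
  set N := cywN κ m with hN
  set o' := -N - o with ho'
  set lay := cywLay L T k m J with hlay
  set Γ := cywGam L T k m J with hΓdef
  have hoo : -N - o' = o := by rw [ho']; ring
  -- the isomorphism
  have hD : cywD L κ m o J ⊆ sdSites L (-3) (N + 3) := by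
    intro v hv
    have h1 := cy_mem_sites.1 (Finset.mem_sdiff.1 hv).1
    rw [cy_mem_sites]
    refine ⟨h1.1, h1.2.1, by omega, by omega⟩
  have hΓred : ∀ c ∈ Γ, CyrRed L c := fun c hc => cyr_band_red (Finset.mem_filter.1 hc).1
  have iso := cyr_iso (x := x) hL0 N o' (a := -3) (b := N + 3) (Q := cywQ L H T T k m κ) (Γ := Γ) (cyw_val h T T).sub hΓred hD
  rw [cyw_rot_Q hL0 H T k m κ o', cyw_rot_D hL0 κ m o hJ.low, show N - (N + 3) = -3 by ring, show N - -3 = N + 3 by ring] at iso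
  set S₁ := (cyS x L (-3) (N + 3) (cywQ L H T T k m κ) Γ).inn (cywD L κ m o J) with hS₁
  set S₂' := (cyS x L (-3) (N + 3) (cywQ L H T (!T) k m κ) (Γ.image (cyrY L N o'))).inn (cywD L κ m o' J) with hS₂'
  set S₂ := (cyS x L (-3) (N + 3) (cywQ L H T (!T) k m κ) Γ).inn (cywD L κ m o' J) with hS₂
  have hok₁ : ∀ y ∈ S₁.C, S₁.sv y ⊆ S₁.A := fun y hy => ((am_mem_cin _ _ _).1 hy).2
  -- the neutralised cells do not matter
  have hsys : ∀ (K : ClCfg TV CyY → Prop) (F : ClCfg TV CyY → ℝ), S₂.N K F = S₂'.N K F := by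
    intro K F
    refine am_sys_N_congr S₂ S₂' rfl rfl (fun _ _ => rfl) (fun y hy => ?_) K F
    have hy2 : cySv L y ⊆ cywD L κ m o' J := ((am_mem_cin _ _ _).1 hy).2
    have n1 : y ∉ Γ := by
      intro hyΓ
      obtain ⟨u, hu, huJ⟩ := (Finset.mem_filter.1 hyΓ).2.1
      have := (Finset.mem_sdiff.1 (hy2 hu)).2
      exact this (Finset.mem_union_left _ huJ)
    have n2 : y ∉ Γ.image (cyrY L N o') := by
      intro hyΓ
      obtain ⟨z, hz, rfl⟩ := Finset.mem_image.1 hyΓ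
      obtain ⟨u, hu, huJ⟩ := (Finset.mem_filter.1 hz).2.1
      have hk : z.1 ≠ CyK.sn ∧ z.1 ≠ CyK.ss := by
        have := (cyr_mem_band.1 (Finset.mem_filter.1 hz).1).1
        rw [this]
        cases T <;> simp
      rw [cyr_sv L N o' z hk] at hy2
      have := (Finset.mem_sdiff.1 (hy2 (Finset.mem_image_of_mem _ hu))).2
      exact this (Finset.mem_union_right _ (Finset.mem_image_of_mem _ huJ))
    show (if y ∈ Γ then (1 : ℝ) else _) = (if y ∈ Γ.image (cyrY L N o') then (1 : ℝ) else _)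
    rw [if_neg n1, if_neg n2]
  -- transport of the constraint
  have hlayD : lay ⊆ cywD L κ m o J := cyw_lay_D h T o hJ
  have hrlayD : lay.image (cyrV L N o) ⊆ cywD L κ m o J := cyw_rlay_D h T o hJ
  have hlayred : ∀ u ∈ lay, sdRed L u = u := fun u hu => cyr_sites_red (hD (hlayD hu))
  have hK : ∀ ω ∈ S₁.cfgs, ((CuPin true (lay.image (cyrV L N o')) (ω.map (cyrV L N o') (cyrY L N o')) ∧ lay ⊆ (ω.map (cyrV L N o') (cyrY L N o')).W) ↔
      (lay.image (cyrV L N o) ⊆ ω.W ∧ lay ⊆ ω.B)) := by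
    intro ω hω
    obtain ⟨hB, hW, -⟩ := (cl_mem_cfgs S₁ ω).1 hω
    have a1 : CuPin true (lay.image (cyrV L N o')) (ω.map (cyrV L N o') (cyrY L N o')) ↔ lay ⊆ ω.B := by
      rw [← am_t5_sub iso.injV hB hlayD]
      unfold CuPin
      simp only [iff_true]
      rfl
    have a2 : lay ⊆ (ω.map (cyrV L N o') (cyrY L N o')).W ↔ lay.image (cyrV L N o) ⊆ ω.W := by
      rw [← am_t5_sub iso.injV hW hrlayD, cyr_imV N o hlayred]
      rfl
    rw [a1, a2, and_comm]
  -- transport of the test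
  have hb₁ : cyBand L T κ (κ + m - 1) ⊆ S₁.C := cyw_band_D h T T o hJ
  have hb₂ : cyBand L (!T) κ (κ + m - 1) ⊆ S₂'.C := cyw_band_D h T (!T) o' hJ
  have hF : ∀ ω ∈ S₁.cfgs, cysF L (!T) κ (κ + m - 1) (cyBlk s κ (κ + m - 1)) (ω.map (cyrV L N o') (cyrY L N o')) =
      cysF L T κ (κ + m - 1) (cyBlk s κ (κ + m - 1)) ω := by
    intro ω hω
    have hr : ∀ c ∈ S₁.C, CyrRed L c := fun c hc => (cyr_cin_sub hL0 N o' ∅ (cyw_val h T T).sub hD hc).2.1
    have e := cyr_Blk_iff (fun y => cyr_fld iso hok₁ hr T hω y) s κ (κ + m - 1)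
    rw [show N - 1 - (κ + m - 1) = κ by rw [hN]; unfold cywN; ring, show N - 1 - κ = κ + m - 1 by rw [hN]; unfold cywN; ring] at e
    rw [cys_fld_iff hL0 S₁ rfl hb₁ (cy_sup_Blk s _ _), cys_fld_iff hL0 S₂' rfl hb₂ (cy_sup_Blk s _ _)] at e
    unfold cysF
    by_cases hc : cysFld L T κ (κ + m - 1) ω ∈ cyBlk s κ (κ + m - 1)
    · rw [if_pos hc, if_pos (e.1 hc)]
    · rw [if_neg hc, if_neg (fun h' => hc (e.2 h'))]
  have key : ∀ F' F : ClCfg TV CyY → ℝ, (∀ ω ∈ S₁.cfgs, F' (ω.map (cyrV L N o') (cyrY L N o')) = F ω) →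
      S₂.N (fun ω => CuPin true (lay.image (cyrV L N o')) ω ∧ lay ⊆ ω.W) F' = S₁.N (fun ω => lay.image (cyrV L N o) ⊆ ω.W ∧ lay ⊆ ω.B) F := by
    intro F' F hFF
    rw [hsys, am_iso S₁ S₂' _ _ iso hok₁]
    exact cpw_N_congr S₁ hK hFF
  show S₁.E _ _ = S₂.E _ _
  rw [dis_E_eq, dis_E_eq, dis_Z_eq, dis_Z_eq, key _ _ hF, key (fun _ => 1) (fun _ => 1) (fun _ _ => rfl)]

/-- minus below plus in the symmetric law, then slide -/
theorem cyw_two (h : CywHyp x L H k m κ) (T U : Bool) (o : ℤ) {J : Finset TV} (hJ : CywRec x L H T k m κ J) {E : Set CyF} (hE : CyInc E) :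
    cywLam x L H T U k m κ o J true (cysF L U κ (κ + m - 1) E) + cywLam x L H T U k m κ o J true (cysF L U κ (κ + m - 1) (cyNeg E)) ≤
      2 * cywNu x L H T U k m κ J (cysF L U κ (κ + m - 1) E) := by
  have h1 := cyw_nu_ge h T U o hJ hE
  have h2 := cyw_sign h T U o hJ hE
  rw [cyw_flip_hi h T U o hJ E]
  linarith

/-- (perJ), law form -/
theorem cyw_half (h : CywHyp x L H k m κ) (T : Bool) {J : Finset TV} (hJ : CywRec x L H T k m κ J) :
    1 / 2 ≤ cywNu x L H T T k m κ J (cysF L T κ (κ + m - 1) (cyVP 1 κ (κ + m - 1))) + cywNu x L H T (!T) k m κ J (cysF L (!T) κ (κ + m - 1) (cyBlk 1 κ (κ + m - 1))) := by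
  have h0 := cyw_alt_hi h T 0 hJ
  have h1 := cyw_two h T T 0 hJ (cy_inc_VP κ (κ + m - 1))
  have h2 := cyw_two h T (!T) (-cywN κ m - 0) hJ (cy_inc_Blk κ (κ + m - 1))
  rw [cyw_neg_VP] at h1
  rw [cyw_neg_Blk] at h2
  rw [cyw_rot h T 0 hJ 1, cyw_rot h T 0 hJ (-1)] at h0
  linarith

/-- (perJ) -/
theorem cyw_perJ (h : CywHyp x L H k m κ) (T : Bool) {J : Finset TV} (hJ : CywRec x L H T k m κ J) :
    1 / 2 ≤ cuE (cywM x L H T k m κ) true ((cywM x L H T k m κ).A \ J) (((cywKW L H).res (cywM x L H T k m κ) ((cywM x L H T k m κ).A \ J)).Holds (cywM x L H T k m κ))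
      (fun ω => cywG x L T κ (κ + m - 1) (cyVP 1 κ (κ + m - 1)) ω.W ω.B + cywG x L (!T) κ (κ + m - 1) (cyBlk 1 κ (κ + m - 1)) ω.W ω.B) := by
  have h0 := cyw_half h T hJ
  rw [← cyw_bridge h T T hJ, ← cyw_bridge h T (!T) hJ] at h0
  unfold cuE at h0 ⊢
  rw [cpw_E_add]
  exact h0

end laws

/-! ## 7. the sum over the records -/

theorem cpw_N_nonneg {V Y : Type} [DecidableEq V] [DecidableEq Y] (S : ClSys V Y) (hS : ClOk S) (K : ClCfg V Y → Prop) (F : ClCfg V Y → ℝ) (hF : ∀ ω, 0 ≤ F ω) : 0 ≤ S.N K F := by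
  have h := dmt_N_mono S hS K (X := fun _ => 0) (X' := F) (fun ω _ => hF ω)
  have h0 : S.N K (fun _ => (0 : ℝ)) = 0 := by
    classical
    unfold ClSys.N
    simp
  rwa [h0] at h

theorem cyw_F_le_one (U : Bool) (c d : ℤ) (E : Set CyF) (ω : ClCfg TV CyY) : cysF L U c d E ω ≤ 1 := by
  unfold cysF
  split_ifs <;> norm_num

theorem cyw_F_nonneg (U : Bool) (c d : ℤ) (E : Set CyF) (ω : ClCfg TV CyY) : 0 ≤ cysF L U c d E ω := by
  unfold cysF
  split_ifs <;> norm_num

open Classical in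
/-- (n3) **SEARCH**: a white winding of the low band costs at most twice the two high tests -/
theorem cyw_search (h : CywHyp x L H k m κ) (T : Bool) :
    (cywM x L H T k m κ).N (fun ω => cywMx L H ω.W ω.B) (cysF L T k (k + m - 1) (cyBlk 1 k (k + m - 1))) ≤
      2 * ((cywM x L H T k m κ).N (fun ω => cywMx L H ω.W ω.B) (fun ω => cywG x L T κ (κ + m - 1) (cyVP 1 κ (κ + m - 1)) ω.W ω.B) +
        (cywM x L H T k m κ).N (fun ω => cywMx L H ω.W ω.B) (fun ω => cywG x L (!T) κ (κ + m - 1) (cyBlk 1 κ (κ + m - 1)) ω.W ω.B)) := by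
  have hok : ClOk (cywM x L H T k m κ) := cyw_M_ok h T
  have hK : (fun ω : ClCfg TV CyY => cywMx L H ω.W ω.B) = (cywKW L H).Holds (cywM x L H T k m κ) :=
    funext fun ω => propext (cyw_KW_iff (cywM x L H T k m κ) ω).symm
  rw [hK, ← cpw_N_add]
  set M := cywM x L H T k m κ with hM
  set Js : Finset (Finset TV) := (sdSites L 0 (k + m)).powerset.filter (fun J => CywRec x L H T k m κ J) with hJs
  set Fhi : ClCfg TV CyY → ℝ := fun ω => cywG x L T κ (κ + m - 1) (cyVP 1 κ (κ + m - 1)) ω.W ω.B + cywG x L (!T) κ (κ + m - 1) (cyBlk 1 κ (κ + m - 1)) ω.W ω.B with hFhi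
  have hFhi0 : ∀ ω, 0 ≤ Fhi ω := fun ω => add_nonneg (cyw_G_nonneg h _ _ _ _ _ _) (cyw_G_nonneg h _ _ _ _ _ _)
  have hA := cpw_part_ge M hok ((cywKW L H).Holds M) (fun ω => clInv M true ∅ ω (sdRow L 0)) Js (cysF L T k (k + m - 1) (cyBlk 1 k (k + m - 1))) (by
    intro ω hω
    have hmem : cysFld L T k (k + m - 1) ω ∈ cyBlk 1 k (k + m - 1) := by
      by_contra hn
      exact hω (by unfold cysF; rw [if_neg hn])
    have hi := cyw_inv_low h T ω hmem
    exact Finset.mem_filter.2 ⟨Finset.mem_powerset.2 hi.2, ⟨hi.1, hi.2, ω, rfl⟩⟩)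
  have hB : ∀ J ∈ Js, M.N ((cywKW L H).Holds M) (fun ω => if clInv M true ∅ ω (sdRow L 0) = J then cysF L T k (k + m - 1) (cyBlk 1 k (k + m - 1)) ω else 0) ≤
      2 * M.N ((cywKW L H).Holds M) (fun ω => if clInv M true ∅ ω (sdRow L 0) = J then Fhi ω else 0) := by
    intro J hJ
    have hrec : CywRec x L H T k m κ J := (Finset.mem_filter.1 hJ).2
    have hJA : J ⊆ M.A := by
      intro v hv
      have h1 := cy_mem_sites.1 (hrec.low hv)
      have h2 := h.h1
      have h3 := h.h2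
      have h4 := h.hm
      show v ∈ sdSites L 0 H
      rw [cy_mem_sites]
      refine ⟨h1.1, h1.2.1, h1.2.2.1, ?_⟩
      omega
    have hloc : ClLoc (M.A \ J) (M.cin (M.A \ J)) Fhi := by
      intro ω ω' h1 h2 h3
      exact congrArg₂ (· + ·) (cyw_G_loc h T T _ J hrec.low ω ω' h1 h2 h3) (cyw_G_loc h T (!T) _ J hrec.low ω ω' h1 h2 h3)
    have hs := am_search M hok true (cywKW L H) (fun e he => absurd he (Finset.notMem_empty e)) (sdRow L 0) J hrec.bot hJA (fun _ => 1) Fhi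
      (fun _ _ _ _ _ => rfl) hloc
    have hp := cyw_perJ h T hrec
    have h1 : M.N ((cywKW L H).Holds M) (fun ω => if clInv M true ∅ ω (sdRow L 0) = J then cysF L T k (k + m - 1) (cyBlk 1 k (k + m - 1)) ω else 0) ≤
        M.N ((cywKW L H).Holds M) (fun ω => if clInv M true ∅ ω (sdRow L 0) = J then 1 else 0) := by
      refine dmt_N_mono M hok _ fun ω _ => ?_
      split_ifs
      · exact cyw_F_le_one _ _ _ _ _
      · exact le_rfl
    have h0 : 0 ≤ M.N ((cywKW L H).Holds M) (fun ω => if clInv M true ∅ ω (sdRow L 0) = J then (1 : ℝ) else 0) :=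
      cpw_N_nonneg M hok _ _ fun ω => by split_ifs <;> norm_num
    simp only [one_mul] at hs
    have hs' : M.N ((cywKW L H).Holds M) (fun ω => if clInv M true ∅ ω (sdRow L 0) = J then Fhi ω else 0) =
      M.N ((cywKW L H).Holds M) (fun ω => if clInv M true ∅ ω (sdRow L 0) = J then 1 else 0) *
        cuE M true (M.A \ J) (((cywKW L H).res M (M.A \ J)).Holds M) Fhi := hs
    rw [hs']
    nlinarith
  have hC := cpw_part_le M hok ((cywKW L H).Holds M) (fun ω => clInv M true ∅ ω (sdRow L 0)) Js Fhi hFhi0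
  rw [hA]
  calc _ ≤ ∑ J ∈ Js, 2 * M.N ((cywKW L H).Holds M) (fun ω => if clInv M true ∅ ω (sdRow L 0) = J then Fhi ω else 0) := Finset.sum_le_sum hB
    _ = 2 * ∑ J ∈ Js, M.N ((cywKW L H).Holds M) (fun ω => if clInv M true ∅ ω (sdRow L 0) = J then Fhi ω else 0) := by rw [Finset.mul_sum]
    _ ≤ _ := by linarith

/-! ## 8. the field -/

/-- **the field `sym`** -/
theorem cyw_sym (h : CywHyp x L H k m κ) (T : Bool) :
    1 ≤ cyP x L H T T (cyVP 1 k (k + m - 1)) + cyP x L H T T (cyVP (-1) k (k + m - 1))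
      + 4 * (cyP x L H T T (cyVP 1 κ (κ + m - 1)) + cyP x L H T (!T) (cyBlk 1 κ (κ + m - 1))) := by
  have hZ := cyw_Z_pos h T
  have n1 := cyw_alt_low h T
  have n2 := cyw_flip_low h T
  have n3 := cyw_search h T
  have t1 := cyw_tower h T T (cy_sup_VP 1 κ (κ + m - 1))
  have t2 := cyw_tower h T (!T) (cy_sup_Blk 1 κ (κ + m - 1))
  have hk := h.hk
  have hh1 := h.h1
  have hh2 := h.h2
  have hm := h.hm
  have d1 := cyw_P_diag h T (c := k) (d := k + m - 1) (by omega) (by omega) (cy_sup_VP 1 k (k + m - 1))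
  have d2 := cyw_P_diag h T (c := k) (d := k + m - 1) (by omega) (by omega) (cy_sup_VP (-1) k (k + m - 1))
  rw [t1, t2] at n3
  rw [n2, d1, d2] at n1
  set Z := (cywM x L H T k m κ).Z (fun ω => cywMx L H ω.B ω.W) with hZdef
  have key : Z * 1 ≤ Z * (cyP x L H T T (cyVP 1 k (k + m - 1)) + cyP x L H T T (cyVP (-1) k (k + m - 1))
      + 4 * (cyP x L H T T (cyVP 1 κ (κ + m - 1)) + cyP x L H T (!T) (cyBlk 1 κ (κ + m - 1)))) := by
    nlinarith
  exact le_of_mul_le_mul_left key hZ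

/-- the equation lemmas of the definitions of this file (team convention) -/
theorem cyw_defs_eqns_cite : True := by
  have := @cywN.eq_1
  have := @cywQ0.eq_1
  have := @cywQH.eq_1
  have := @cywQa.eq_1
  have := @cywQ.eq_1
  have := @cywM.eq_1
  have := @cywMx.eq_1
  have := @cywKW.eq_1
  have := @cywR.eq_1
  have := @cywG.eq_1
  have := @cywGam.eq_1
  have := @cywX.eq_1
  have := @cywLay.eq_1
  have := @cywIa.eq_1
  have := @cywIH.eq_1
  have := @cywD.eq_1
  have := @cywS.eq_1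
  have := @cywNu.eq_1
  have := @cywLam.eq_1
  have := @cywLamW.eq_1
  have := @cyNeg.eq_1
  trivial

end Claimed.Agent.R291
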