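import Claimed.Agent.R291.Ann.CylDefs
import Claimed.Agent.R291.Ann.CylIso
import Claimed.Agent.R291.Ann.CylSlide
import Claimed.Agent.R291.Ann.CylRecov
import Claimed.Agent.R291.Ann.CylSym
import Claimed.Agent.R291.Ann.Basic

/-!
# Row 291 (S0539), ANN block A4, LAW SIDE : `CyLaw L H (cyP x L H)`      (head helper5, with 147 + 22; prefix `cy_`)

TEX 09-annulus Sec. 9.1 (annulus:ambient, one-white, slide, search, duality) + the probabilistic halves of annulus:first-seed and annulus:seed.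
Design: `origin/helper5:notes/R291/ann_A4_5.md` Sec. 2, `origin/helper147:notes/R291/ann_A4_147.md`.

METHOD.  Every law is a HISTORY in a capped ambient `cyS x L a b Q Γ` (`ClDisk`: `cy_S_disk`), so `dis_assoc`, `dis_order`, `dis_cut_law`, `dis_dec`, `am_*` apply verbatim.
The workhorse is **`cy_rep`**: `cyP x L H S T E` = probability of `E` (moved to the rows `r0..r0+H`) in ANY ambient which contains these rows with 3 spare rows, for ANY admissible family `Q` which contains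
the two cuts (class `S`, slabs `r0-1` and `r0+H`) and the cells of class `T` in the slabs read by `E`.   After `cy_rep` each field of `CyLaw` is a comparison of histories in ONE system.
-/

set_option autoImplicit false
set_option linter.unusedSectionVars false
set_option linter.unusedVariables false

namespace Claimed.Agent.R291

open Claims Claims.C0467 Relation

/-! ## 0. `cyP` is a probability carried by periodic fields -/

theorem cy_red_per (L : ℕ) (u : TV) : sdRed L (u + ((L : ℤ), 0)) = sdRed L u := by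
  unfold sdRed
  ext <;> simp

/-- the field is periodic -/
theorem cy_fld_per (S : ClSys TV CyY) {L : ℕ} (hL : 0 < L) (T : Bool) (ω : ClCfg TV CyY) : CyPer L (cyFld S L T ω) := by
  intro u
  unfold cyFld
  rw [cy_red_per]

/-- the system of the mixed law is sane (no hypothesis on `L`, `H`) -/
theorem cy_M_ok {x : ℝ} (hx0 : 0 < x) (hx1 : x ≤ 1) (L H : ℕ) (S T : Bool) : ClOk (cyM x L H S T) := by
  refine ⟨fun c hc => (Finset.mem_filter.1 hc).2, fun c _ => cy_sv_nonempty L c, fun c _ => ?_, fun c _ => ?_⟩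
  · show 0 < (if c ∈ (∅ : Finset CyY) then (1 : ℝ) else if c.1 = CyK.up ∨ c.1 = CyK.dn then x ^ 2 else x)
    split_ifs <;> positivity
  · show (if c ∈ (∅ : Finset CyY) then (1 : ℝ) else if c.1 = CyK.up ∨ c.1 = CyK.dn then x ^ 2 else x) ≤ 1
    split_ifs
    · exact le_rfl
    · exact pow_le_one₀ hx0.le hx1
    · exact hx1

/-- feasibility of the mixed law.   PLAN: `W = ∅`, `B` = rows `1..H`, a cell is open iff `B` is constant on it (as in `dis_feas`). -/
theorem cy_M_feas {x : ℝ} (hx0 : 0 < x) (hx1 : x ≤ 1) {L H : ℕ} (hL : 3 ≤ L) (hH : 1 ≤ H) (S T : Bool) : 0 < (cyM x L H S T).Z (CyMix L 0 H) := by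
  classical
  have hS := cy_M_ok hx0 hx1 L H S T
  set M := cyM x L H S T with hM
  set ω₀ : ClCfg TV CyY := ⟨sdSites L 1 H, ∅, M.C.filter (fun y => ClConst (sdSites L 1 H) (M.sv y))⟩ with hω₀
  refine anq_Z_pos_wit M hS _ (ω := ω₀) ?_ ⟨?_, ?_⟩ ?_
  · rw [cl_mem_cfgs]
    refine ⟨?_, Finset.empty_subset _, Finset.filter_subset _ _⟩
    intro v hv
    have h := cy_mem_sites.1 hv
    exact cy_mem_sites.2 ⟨h.1, h.2.1, by omega, h.2.2.2⟩
  · intro v hv
    have h := cy_mem_row.1 hv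
    constructor
    · intro h'
      have := cy_mem_sites.1 h'
      omega
    · intro h'
      exact absurd h' (by simp)
  · intro v hv
    have h := cy_mem_row.1 hv
    refine ⟨fun _ => rfl, fun _ => cy_mem_sites.2 ⟨h.1, h.2.1, by omega, by omega⟩⟩
  · refine Finset.prod_pos fun y hy => ?_
    have hq := hS.q0 y hy
    have hw : ClConst (∅ : Finset TV) (M.sv y) := Or.inr fun v _ => by simp
    by_cases hb : ClConst (sdSites L 1 H) (M.sv y)
    · have ho : y ∈ ω₀.O := Finset.mem_filter.2 ⟨hy, hb⟩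
      unfold clCellW
      rw [if_pos ho, if_pos hb]
      exact hq
    · have ho : y ∉ ω₀.O := fun h => hb (Finset.mem_filter.1 h).2
      unfold clCellW
      rw [if_neg ho, if_pos hw, if_neg hb]
      exact hq

/-- weights of `cyM` are nonnegative -/
theorem cy_M_wt {x : ℝ} (hx0 : 0 < x) (hx1 : x ≤ 1) (L H : ℕ) (S T : Bool) (ω : ClCfg TV CyY) : 0 ≤ (cyM x L H S T).wt ω :=
  dis_wt_nonneg _ (cy_M_ok hx0 hx1 L H S T) ω

theorem cy_P_nonneg {x : ℝ} (hx0 : 0 < x) (hx1 : x ≤ 1) (L H : ℕ) (S T : Bool) (E : Set CyF) : 0 ≤ cyP x L H S T E :=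
  ann_clP_nonneg _ (cy_M_ok hx0 hx1 L H S T) _ _

theorem cy_P_one {x : ℝ} (hx0 : 0 < x) (hx1 : x ≤ 1) {L H : ℕ} (hL : 3 ≤ L) (hH : 1 ≤ H) (S T : Bool) : cyP x L H S T Set.univ = 1 := by
  classical
  have hZ := cy_M_feas hx0 hx1 hL hH S T
  unfold cyP
  rw [anq_P_eq, div_eq_one_iff_eq hZ.ne']
  unfold ClSys.Z
  refine Finset.sum_congr rfl fun ω _ => ?_
  simp

theorem cy_P_zero (x : ℝ) (L H : ℕ) (S T : Bool) : cyP x L H S T ∅ = 0 := by
  classical
  unfold cyP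
  rw [anq_P_eq]
  simp

theorem cy_P_mono {x : ℝ} (hx0 : 0 < x) (hx1 : x ≤ 1) {L H : ℕ} (hL : 0 < L) (S T : Bool) (E E' : Set CyF)
    (h : ∀ τ, CyPer L τ → τ ∈ E → τ ∈ E') : cyP x L H S T E ≤ cyP x L H S T E' :=
  ann_clP_mono _ (cy_M_ok hx0 hx1 L H S T) _ _ _ fun ω _ _ _ hω => h _ (cy_fld_per _ hL T ω) hω

theorem cy_P_union {x : ℝ} (hx0 : 0 < x) (hx1 : x ≤ 1) (L H : ℕ) (S T : Bool) (E E' : Set CyF) :
    cyP x L H S T (E ∪ E') ≤ cyP x L H S T E + cyP x L H S T E' :=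
  ann_clP_or _ (cy_M_ok hx0 hx1 L H S T) _ _ _

/-! ## 1. the workhorse -/

/-- every site of the rows `j`, `j + 1` lies in a triangle of class `T` of the slab `j` -/
theorem cy_band_cover {L : ℕ} (hL : 0 < L) (T : Bool) (j : ℤ) {v : TV} (hv : v ∈ sdSites L j (j + 1)) :
    ∃ y ∈ cyBand L T j j, v ∈ cySv L y := by
  obtain ⟨h0, h1, h2, h3⟩ := cy_mem_sites.1 hv
  have hred : ∀ w : TV, w.2 = j → cyT T (sdRed L w) ∈ cyBand L T j j := fun w hw =>
    Finset.mem_image.2 ⟨sdRed L w, cys_red_cell hL w (by omega) (by omega), rfl⟩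
  have hself : sdRed L v = v := cy_red_self h0 h1
  rcases (by omega : v.2 = j ∨ v.2 = j + 1) with hj | hj
  · cases T
    · -- down triangle of index `v - (1,0)`
      refine ⟨_, hred (v - (1, 0)) (by simpa using hj), ?_⟩
      show v ∈ (cellD (sdRed L (v - (1, 0)))).image (sdRed L)
      refine Finset.mem_image.2 ⟨sdRed L (v - (1, 0)) + (1, 0), by simp [cellD], ?_⟩
      rw [cy_red_red, sub_add_cancel, hself]
    · refine ⟨_, hred v hj, ?_⟩
      show v ∈ (cellV (sdRed L v)).image (sdRed L)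
      refine Finset.mem_image.2 ⟨sdRed L v, by simp [cellV], ?_⟩
      rw [cy_red_idem, hself]
  · cases T
    · refine ⟨_, hred (v - (0, 1)) (by simp; omega), ?_⟩
      show v ∈ (cellD (sdRed L (v - (0, 1)))).image (sdRed L)
      refine Finset.mem_image.2 ⟨sdRed L (v - (0, 1)) + (0, 1), by simp [cellD], ?_⟩
      rw [cy_red_red, sub_add_cancel, hself]
    · refine ⟨_, hred (v - (0, 1)) (by simp; omega), ?_⟩
      show v ∈ (cellV (sdRed L (v - (0, 1)))).image (sdRed L)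
      refine Finset.mem_image.2 ⟨sdRed L (v - (0, 1)) + (0, 1), by simp [cellV], ?_⟩
      rw [cy_red_red, sub_add_cancel, hself]

/-- the sites of a full band -/
theorem cy_band_union {L : ℕ} (hL : 0 < L) (T : Bool) (j : ℤ) : (cyBand L T j j).biUnion (cySv L) = sdSites L j (j + 1) := by
  ext v
  rw [Finset.mem_biUnion]
  constructor
  · rintro ⟨y, hy, hv⟩
    have h1 := cys_band_rows hL hy hv
    have h2 := ((cys_sv_rows hL y).1 v hv).1
    exact cy_mem_sites.2 ⟨h2.1, h2.2, by omega, by omega⟩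
  · exact cy_band_cover hL T j

/-- the history `cyCut` is the history of open cells of 239 -/
theorem cy_cut_eq {L : ℕ} (hL : 0 < L) (Sy : ClSys TV CyY) (hsv : Sy.sv = cySv L) (S0 S1 : Bool) (r0 r1 : ℤ) :
    cysK Sy (cyBand L S0 (r0 - 1) (r0 - 1) ∪ ∅) (cyBand L S1 r1 r1 ∪ ∅) = cyCut L S0 r0 S1 r1 := by
  have e1 := cy_band_union hL S0 (r0 - 1)
  have e2 := cy_band_union hL S1 r1
  rw [sub_add_cancel] at e1
  simp only [cysK, ClCon.opn, clFree, cyCut, hsv, Finset.union_empty, Finset.empty_union, e1, e2, if_true, Bool.false_eq_true, if_false]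

/-- **(REP)**.   OWNER 5.   PROVED by 206 as glue on the API of 239 (`cys_amb`, `cys_rc_in`, `cys_tr_E`, `cys_P_eq`).
PLAN: (1) `cy_rc` down to `Qmin` = the two cuts + `cyBand L T (r0+c) (r0+d)`;  (2) (MIX) two uses of `am_amb`: the history `cyCut` = `ClCut false` (rows `≥ r0`) and `ClCut true` (rows `≤ r0+H`) on the support, the law between the cuts is
`(cyI .. r0 (r0+H)).E (CyMix L r0 (r0+H))`;  (3) `cyI` depends only on the triangles of `Q` in the slabs `r0-1..r0+H`;  (4) vertical translation `am_iso`;  (5) `cy_rc` (in the ambient `-3..H+3`) up to `cyQ L H S T`. -/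
theorem cy_rep {x : ℝ} (hx0 : 0 < x) (hx1 : x ≤ 1) {L H : ℕ} (hL : 3 ≤ L) (hH : 6 ≤ H) (S T : Bool) {a b r0 c d : ℤ} (ha : a ≤ r0 - 3)
    (hb : r0 + H + 3 ≤ b) {Q : Finset CyY} (hQ : CyVal L a b Q) (h1 : cyBand L S (r0 - 1) (r0 - 1) ⊆ Q) (h2 : cyBand L S (r0 + H) (r0 + H) ⊆ Q)
    (h3 : cyBand L T (r0 + c) (r0 + d) ⊆ Q) (hc : 2 ≤ c) (hd : d ≤ (H : ℤ) - 3) (E : Set CyF) (hE : CySup c d E) :
    (cyS x L a b Q ∅).P ((cyCut L S r0 S (r0 + H)).Holds (cyS x L a b Q ∅)) (fun ω => cyFld (cyS x L a b Q ∅) L T ω ∈ cyMv (0, r0) E)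
      = cyP x L H S T E := by
  classical
  have hL0 : 0 < L := by omega
  have hH' : (6 : ℤ) ≤ H := by exact_mod_cast hH
  have h3' : cyBand L T (c + r0) (d + r0) ⊆ Q := by rw [add_comm c, add_comm d]; exact h3
  have hQC := cys_Q_sub x L a b Q ∅
  -- the test in canonical form
  have hsup := cys_sup_mv hE r0
  have hF : (fun ω : ClCfg TV CyY => if cyFld (cyS x L a b Q ∅) L T ω ∈ cyMv (0, r0) E then (1 : ℝ) else 0)
      = cysF L T (c + r0) (d + r0) (cyMv (0, r0) E) := by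
    funext ω
    have := cys_fld_iff hL0 (cyS x L a b Q ∅) rfl (h3'.trans hQC) hsup ω
    unfold cysF
    by_cases h : cysFld L T (c + r0) (d + r0) ω ∈ cyMv (0, r0) E
    · rw [if_pos h, if_pos (this.2 h)]
    · rw [if_neg h, if_neg (fun h' => h (this.1 h'))]
  -- the ambient law is the law between the two cuts
  have A := cys_amb hx0 hx1 hL (a := a) (b := b) (r0 := r0) (r1 := r0 + H) (by omega) (by omega) (by omega) hQ ∅ S S h1 h2
    (M' := ∅) (P' := ∅) (Finset.empty_subset _) (fun y hy => absurd hy (Finset.notMem_empty _)) (Finset.empty_subset _)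
    (fun y hy => absurd hy (Finset.notMem_empty _)) (cysF L T (c + r0) (d + r0) (cyMv (0, r0) E))
    (dde_loc_mono (Finset.Subset.refl _) (cys_band_cin hL0 ∅ h3' (by omega) (by omega)) (cys_F_loc hL0 T (by omega) (by omega) _))
  rw [cy_cut_eq hL0 _ rfl] at A
  unfold ClSys.P
  rw [hF, A.2, cys_P_eq x hL0 H S T hc hd hE, cys_tr_E x hL0 (cyQ L H S T) 0 H r0 T c d E]
  have z0 : (0 : ℤ) + r0 = r0 := by ring
  have z1 : (H : ℤ) + r0 = r0 + H := by ring
  rw [z0, z1]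
  -- independence of the family
  have q1 : cyBand L S (-1) (-1) ⊆ cyQ L H S T := fun y hy => by
    unfold cyQ; simp only [Finset.mem_union]; tauto
  have q2 : cyBand L S H H ⊆ cyQ L H S T := fun y hy => by
    unfold cyQ; simp only [Finset.mem_union]; tauto
  have i1 : cyBand L S (r0 - 1) (r0 - 1) ⊆ (cyQ L H S T).image (cysTr r0) := by
    have := Finset.image_subset_image (f := cysTr r0) q1
    rw [cys_tr_band] at this
    have z : -1 + r0 = r0 - 1 := by ring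
    rwa [z] at this
  have i2 : cyBand L S (r0 + H) (r0 + H) ⊆ (cyQ L H S T).image (cysTr r0) := by
    have := Finset.image_subset_image (f := cysTr r0) q2
    rw [cys_tr_band, z1] at this
    exact this
  have i3 : cyBand L T (c + r0) (d + r0) ⊆ (cyQ L H S T).image (cysTr r0) := by
    have := Finset.image_subset_image (f := cysTr r0) (cys_Q_band L H S T hc hd)
    rwa [cys_tr_band] at this
  exact cys_rc_in hx0 hx1 hL (a := a) (b := b) (a' := -3 + r0) (b' := (H : ℤ) + 3 + r0) (by omega) (by omega) (by omega) (by omega) (by omega)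
    hQ (cys_tr_val (cys_Q_val L H S T) r0) S S T h1 h2 h3' i1 i2 i3 (by omega) (by omega) _ (cys_F_loc hL0 T (by omega) (by omega) _)

/-- the sign of the status is monotone -/
theorem cy_sg_mono (S : ClSys TV CyY) (ω ω' : ClCfg TV CyY) (y : CyY) (h : clTau S ω y ≤ clTau S ω' y) :
    cySg (clTau S ω y) ≤ cySg (clTau S ω' y) := by
  unfold clTau at h ⊢
  unfold cySg
  by_cases h1 : y ∈ ω.O <;> by_cases h2 : S.sv y ⊆ ω.B <;> by_cases h3 : y ∈ ω'.O <;> by_cases h4 : S.sv y ⊆ ω'.B <;>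
    simp only [h1, h2, h3, h4, if_true, if_false] at h ⊢ <;> first | (exfalso; omega) | decide

/-- an increasing event of the field is an increasing event of the system -/
theorem cy_fld_mono (S : ClSys TV CyY) (L : ℕ) (T : Bool) {E : Set CyF} (hE : CyInc E) : ClMonoP S (fun ω => cyFld S L T ω ∈ E) := by
  intro ω ω' _ hτ hω
  refine hE _ _ (fun u => ?_) hω
  unfold cyFld
  by_cases hc : cyT T (sdRed L u) ∈ S.C
  · rw [if_pos hc, if_pos hc]
    exact cy_sg_mono S ω ω' _ (hτ _ hc)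
  · rw [if_neg hc, if_neg hc]

/-- a band of triangles lies in its two rows -/
theorem cy_band_sub {L : ℕ} {T : Bool} {r : ℤ} {y : CyY} (hy : y ∈ cyBand L T r r) : cySv L y ⊆ sdSites L r (r + 1) := by
  obtain ⟨u, hu, rfl⟩ := Finset.mem_image.1 hy
  have hL : 0 < L := by
    have := cy_mem_cells.1 hu
    omega
  refine cy_tri_sub hL (cy_mem_tris.2 ⟨?_, hu⟩)
  cases T
  · exact Or.inr rfl
  · exact Or.inl rfl

/-- the cut history is legal -/
theorem cy_cut_legal (x : ℝ) (L : ℕ) (a b : ℤ) (Q Γ : Finset CyY) (S0 S1 : Bool) (r0 r1 : ℤ) : ClLegal (cyS x L a b Q Γ) (cyCut L S0 r0 S1 r1) := by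
  refine ⟨rfl, rfl, fun y _ hy => ?_, fun e he => absurd he (by simp [cyCut])⟩
  have hy' : y ∈ cyBand L S1 r1 r1 ∪ cyBand L S0 (r0 - 1) (r0 - 1) ∪ ∅ := hy
  rw [Finset.union_empty, Finset.mem_union] at hy'
  show cySv L y ⊆ sdSites L r1 (r1 + 1) ∪ sdSites L (r0 - 1) r0
  rcases hy' with h | h
  · exact (cy_band_sub h).trans Finset.subset_union_left
  · have := cy_band_sub h
    rw [sub_add_cancel] at this
    exact this.trans Finset.subset_union_right

/-! ## 2. the fields -/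

/-- T1.   OWNER 22.   PLAN: `cy_rep` (`r0 = 0`, ambient `-3..H+3`, `Q = cyQ L H S T`), `dis_assoc` for the legal history `cyCut`, `cy_fld_mono`. -/
theorem cy_fkg {x : ℝ} (hx0 : 0 < x) (hx1 : x ≤ 1) {L H : ℕ} (hL : 3 ≤ L) (hH : 20 ≤ H) (S T : Bool) (E E' : Set CyF) (h1 : CyInc E) (h2 : CyInc E')
    (h3 : CySup 3 ((H : ℤ) - 4) E) (h4 : CySup 3 ((H : ℤ) - 4) E') : cyP x L H S T E * cyP x L H S T E' ≤ cyP x L H S T (E ∩ E') := by
  have hL0 : 0 < L := by omega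
  have hH' : (20 : ℤ) ≤ H := by exact_mod_cast hH
  have h5 : CySup 3 ((H : ℤ) - 4) (E ∩ E') := fun τ τ' h => by
    rw [Set.mem_inter_iff, Set.mem_inter_iff, h3 τ τ' h, h4 τ τ' h]
  have hV := cys_Q_val L H S T
  have hD : ClDisk (cyS x L (-3) ((H : ℤ) + 3) (cyQ L H S T) ∅) := cy_S_disk hx0 hx1 hL (by omega) hV ∅ (cy_S_card _ _ _ _ _ _)
  have hQC := cys_Q_sub x L (-3) ((H : ℤ) + 3) (cyQ L H S T) ∅
  have q1 : cyBand L S (0 - 1) (0 - 1) ⊆ cyQ L H S T := fun y hy => by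
    have z1 : (0 : ℤ) - 1 = -1 := by norm_num
    rw [z1] at hy
    unfold cyQ; simp only [Finset.mem_union]; tauto
  have q2 : cyBand L S H H ⊆ cyQ L H S T := fun y hy => by
    unfold cyQ; simp only [Finset.mem_union]; tauto
  have q5 : cyBand L T 3 ((H : ℤ) - 4) ⊆ cyQ L H S T := cys_Q_band L H S T (by omega) (by omega)
  have hFl : ∀ E₀ : Set CyF, ClLoc (sdSites L 0 H) ((cyS x L (-3) ((H : ℤ) + 3) (cyQ L H S T) ∅).cin (sdSites L 0 H)) (cysF L T 3 ((H : ℤ) - 4) E₀) := fun E₀ =>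
    dde_loc_mono (Finset.Subset.refl _) (cys_band_cin hL0 ∅ q5 (by omega) (by omega)) (cys_F_loc hL0 T (by omega) (by omega) E₀)
  have a : ∀ E₀ : Set CyF, _ := fun E₀ => cys_amb hx0 hx1 hL (a := -3) (b := (H : ℤ) + 3) (r0 := 0) (r1 := H) (by omega) (by omega) (by omega) hV ∅ S S q1 q2
    (M' := ∅) (P' := ∅) (Finset.empty_subset _) (fun y hy => absurd hy (Finset.notMem_empty _))
    (Finset.empty_subset _) (fun y hy => absurd hy (Finset.notMem_empty _)) _ (hFl E₀)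
  rw [cys_P_eq x hL0 H S T (by omega) (by omega) h3, cys_P_eq x hL0 H S T (by omega) (by omega) h4, cys_P_eq x hL0 H S T (by omega) (by omega) h5,
    ← (a E).2, ← (a E').2, ← (a (E ∩ E')).2]
  have hZ := (a E).1
  have o := dis_assoc _ hD _ (cys_K_legal (cyS x L (-3) ((H : ℤ) + 3) (cyQ L H S T) ∅) (cyBand L S (0 - 1) (0 - 1) ∪ ∅) (cyBand L S H H ∪ ∅))
    (cysF L T 3 ((H : ℤ) - 4) E) (cysF L T 3 ((H : ℤ) - 4) E') (cys_F_mono hL0 _ rfl (q5.trans hQC) h1) (cys_F_mono hL0 _ rfl (q5.trans hQC) h2)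
  have hm : (fun ω => cysF L T 3 ((H : ℤ) - 4) E ω * cysF L T 3 ((H : ℤ) - 4) E' ω) = cysF L T 3 ((H : ℤ) - 4) (E ∩ E') := by
    funext ω
    unfold cysF
    by_cases e1 : cysFld L T 3 ((H : ℤ) - 4) ω ∈ E <;> by_cases e2 : cysFld L T 3 ((H : ℤ) - 4) ω ∈ E' <;> simp [e1, e2]
  rw [hm] at o
  rw [dis_E_eq, dis_E_eq, dis_E_eq, div_mul_div_comm, div_le_div_iff₀ (mul_pos hZ hZ) hZ]
  nlinarith [o, hZ]

/-- T5.   OWNER 22.   PLAN: `am_iso` for `φ u = sdRed L (u + (a,0))`, `ψ (k, y) = (k, sdRed L (y + (a,0)))` on `cyM`. -/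
theorem cy_shift (x : ℝ) {L H : ℕ} (hL : 3 ≤ L) (S T : Bool) (a : ℤ) (E : Set CyF) : cyP x L H S T (cyMv (a, 0) E) = cyP x L H S T E :=
  cy_sy_shift_P x hL S T a E

/-- TEX[annulus:slide].   PROVED by 239 in `Ann/CylSlide.lean` (`cys_slide`).
PLAN: ambient `-t-3..H+3`, `Q` = `S`@`-1`, `S`@`H`, `S'`@`-t-1`, `S'`@`H-t`, `T`@`c..d`.   `K0 = cyCut S 0 S H`, `K1 = cyCut S' (-t) S H`, `K2 = cyCut S' (-t) S' (H-t)`.
`E_K0 = E_(K0 + lower minus cut)` (`dis_cut_law`) `≤ E_K1` (`dis_order`) `≤ E_(K1 + plus cut at H-t)` (`dis_order`) `= E_K2` (`dis_cut_law`).   `cy_rep` with `r0 = 0` and `r0 = -t`. -/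
theorem cy_slide {x : ℝ} (hx0 : 0 < x) (hx1 : x ≤ 1) {L H : ℕ} (hL : 3 ≤ L) (hH : 20 ≤ H) (S S' T : Bool) (c d t : ℤ) (E : Set CyF) (h1 : CyInc E)
    (h2 : CySup c d E) (hc : 3 ≤ c) (ht : 3 ≤ t) (hd : d + t ≤ (H : ℤ) - 4) : cyP x L H S T E ≤ cyP x L H S' T (cyMv (0, t) E) :=
  cys_slide hx0 hx1 hL (by omega) S S' T c d t E h1 h2 hc ht hd

/-- T5: reflection + flip.   OWNER 22.
PLAN: `am_iso` `cyM x L H S T ≅ cyM x L H (!S) (!T)`: `φ u = sdRed L (u.1 + u.2, H - u.2)`; `up y ↦ dn (y.1+y.2, H-1-y.2)`, `dn y ↦ up (y.1+y.2+1, H-1-y.2)`, `eh y ↦ eh (φ y)`, `ev y ↦ ed (φ y + (1,-1))`, `ed y ↦ ev (φ y + (0,-1))`; then `am_flipB_N`, `am_flipB_tau`. -/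
theorem cy_refl (x : ℝ) {L H : ℕ} (hL : 3 ≤ L) (S T : Bool) : ∃ o : ℤ, ∀ E : Set CyF, cyP x L H S T E = cyP x L H (!S) (!T) (cyRf H o E) :=
  cy_sy_refl_P x hL S T

/-- TEX[annulus:duality] + [annulus:search] + [annulus:one-white] + symmetric domain of [annulus:first-seed].      CUT by 147 in `Ann/CylSym.lean`: `cyw_sym` = COMPILED glue over typed leaves, ONE band `κ`, every `m`
(two families `Q_T`, `Q_T'` + kernels of the tests; reflection of helper8 with offsets), under the WEAKER hypothesis `H + k + 4 ≤ 2 κ`: the two-band form `cy_sym2` is not needed any more and was removed. -/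
theorem cy_sym {x : ℝ} (hx : 1 / Real.sqrt 2 ≤ x) (hx1 : x ≤ 1) {L H : ℕ} (hL : 3 ≤ L) (hH : 20 ≤ H) (T : Bool) (k m κ : ℤ) (hm : 1 ≤ m) (hk : 3 ≤ k)
    (h1 : k + m + 3 ≤ κ) (h2 : κ + m - 1 ≤ (H : ℤ) - 4) (h3 : (H : ℤ) + k + m + 7 ≤ 2 * κ) :
    1 ≤ cyP x L H T T (cyVP 1 k (k + m - 1)) + cyP x L H T T (cyVP (-1) k (k + m - 1))
      + 4 * (cyP x L H T T (cyVP 1 κ (κ + m - 1)) + cyP x L H T (!T) (cyBlk 1 κ (κ + m - 1))) :=
  cyw_sym ⟨hx, hx1, hL, hH, hm, hk, h1, h2, by omega⟩ T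

/-- TEX[annulus:seed].   CUT by 196 in `Ann/CylRecov.lean` (`cyr_recov`).
PLAN: ambient `-3..H+3`, `Q` = `T`@`-1`, `T`@`H`, `T`@`c..d`, `T1`@`κ..κ+m-1`; `K0 = cyCut T 0 T H`; `O` = rows `≤ c` + south pole, `A` = rows `≥ d+1` + north pole.   (R1) `{field_T ∈ cyBlk 1 c d} ⊆ ClSep true ∅ ω O A`;
(R2) `dis_dec`;   (R3) for every `I`: `E(K0 ∧ ClCut true I) F = E(top cut ∧ ClCut true I) F` (`dis_cut_law`) `≥ E(top cut) F ≥ E(free) F` (`dis_order` twice);
(R4) the free law of the capped cylinder is invariant under both flips and the colour swap: ALT gives `E_free(VP⁺) + E_free(Blk⁺) ≥ 1/2`. -/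
theorem cy_recov {x : ℝ} (hx : 1 / Real.sqrt 2 ≤ x) (hx1 : x ≤ 1) {L H : ℕ} (hL : 3 ≤ L) (hH : 20 ≤ H) (T T1 : Bool) (c d κ m : ℤ) (hc : 3 ≤ c) (hcd : c ≤ d)
    (h1 : d + 3 ≤ κ) (hm : 1 ≤ m) (h2 : κ + m - 1 ≤ (H : ℤ) - 4) :
    cyP x L H T T (cyBlk 1 c d) ≤ 2 * (cyP x L H T T1 (cyVP 1 κ (κ + m - 1)) + cyP x L H T T1 (cyBlk 1 κ (κ + m - 1))) :=
  cyr_recov hx hx1 hL hH T T1 c d κ m hc hcd h1 hm h2

/-! ## 3. assembly -/

theorem cy_x_pos {x : ℝ} (hx : 1 / Real.sqrt 2 ≤ x) : 0 < x := lt_of_lt_of_le (by positivity) hx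

/-- **the soft half of the kit** -/
theorem cy_law {x : ℝ} (hx : 1 / Real.sqrt 2 ≤ x) (hx1 : x ≤ 1) {L H : ℕ} (hH : 20 ≤ H) (hHL : H ≤ L) : CyLaw L H (cyP x L H) where
  nonneg := fun S T E => cy_P_nonneg (cy_x_pos hx) hx1 L H S T E
  one := fun S T => cy_P_one (cy_x_pos hx) hx1 (by omega) (by omega) S T
  zero := fun S T => cy_P_zero x L H S T
  mono := fun S T E E' h => cy_P_mono (cy_x_pos hx) hx1 (by omega) S T E E' h
  union := fun S T E E' => cy_P_union (cy_x_pos hx) hx1 L H S T E E'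
  fkg := fun S T E E' h1 h2 h3 h4 => cy_fkg (cy_x_pos hx) hx1 (by omega) hH S T E E' h1 h2 h3 h4
  shift := fun S T a E => cy_shift x (by omega) S T a E
  slide := fun S S' T c d t E h1 h2 hc ht hd => cy_slide (cy_x_pos hx) hx1 (by omega) hH S S' T c d t E h1 h2 hc ht hd
  refl := fun S T => cy_refl x (by omega) S T
  sym := fun T k m κ hm hk h1 h2 h3 => cy_sym hx hx1 (by omega) hH T k m κ hm hk h1 h2 h3
  recov := fun T T1 c d κ m hc hcd h1 hm h2 => cy_recov hx hx1 (by omega) hH T T1 c d κ m hc hcd h1 hm h2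

end Claimed.Agent.R291
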