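import Claimed.Agent.R291.Ann.CylOW

/-!
# Row 291 (S0539), ANN block A4, LAW SIDE : THE SYMMETRIC DOMAIN, ABSTRACT CORE      (helper22, on `Ann/CylOW` of helper5; prefix `cyos_` / `cyos` / `Cyos`)

TEX 09-annulus, proof of TEX[annulus:first-seed], l.740-765 ("Choose a horizontal lattice reflection axis ... uniformly over the successful search record").      Any `ClDisk S`; NO geometry.
* `CyosK S s D J`, `cyosNu S s D J F` : the law ABOVE THE WHITE HOLE `J`, UNDER THE LAYER OF `D` : system `S.inn (D \ J)`, `W = +` on the layer towards `J`, `B = s` on the layer of `D`.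
* `cyos_feas`   these laws are always feasible (constant configuration)
* `cyos_slide`  (annulus:slide-white)  `D ⊆ D'` : `Nu true D' J F ≤ Nu true D J F` for `F` increasing, local in `D \ J`, blind to `W`      (`cyo_white` + `am_dom_plus` on `S.neu`)
* `cyos_sign`   `Nu false D J F ≤ Nu true D J F`      (`cyo_white` + `am_order`)
* `cyos_flip_N` flip of the first spin: `s ↔ !s`
* `cyos_iso_N`  an isomorphism `S.inn (D₁ \ J) ≅ S.inn (D₂ \ J)` which EXCHANGES the white layer and the top layer: the law `lam₂` = the law `lam₁` read with the colours exchanged.   NO involution is needed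
                (cure of helper8: `D₁ = A \ ρ J`, `D₂ = A \ ρ⁻¹ J`, `φ = ρ⁻¹`).
* **`cyos_core`**  `1/2 ≤ Nu true D J 1_{A⁺} + Nu true D J 1_{E⁺}`  from the four-way alternative `A⁺ ∨ A⁻ ∨ C⁺ ∨ C⁻` (colours `B B W W`) on the support of the two-colour law of `S.inn (D₁ \ J)`,
                `C^± η ⟹ E^± (η.map φ ψ)`,  `A⁻ ∘ flip ⟹ A⁺`,  `E⁻ ∘ flip ⟹ E⁺`,  `A⁺`, `E⁺` increasing, local in `D \ J`, blind to `W`.
* `cyos_hole`, `cyos_hole_mono`  the hole of a search: `Bel ∪ clInv (S.inn R) s ∅ η O` is a `CyoHole`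
* `cyos_bridge`  the law above a record of `cyo_wsearch` in `S.inn R` = `cyosNu S true (R ∪ Bel) (J ∪ Bel)`
* **`cyos_search`**  alternative in the low band + flip of `W` + white search:  `1 ≤ P(L⁺) + P(L⁻) + 4 (P(A⁺) + P(E⁺))` in the mixed law of ANY system `M`, from `1/2 ≤` (law above every record)`(1_{A⁺} + 1_{E⁺})`
CONSUMER: `cy_sym` (design v2 of helper5): `cyo_wsearch` with `c = 1/2`, `F = 1_{A⁺} + 1_{E⁺}`.
-/

set_option autoImplicit false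
set_option linter.unusedSectionVars false
set_option linter.unusedVariables false

namespace Claimed.Agent.R291

open Relation Claims Claims.C0467

section abstract

variable {V Y : Type} [DecidableEq V] [DecidableEq Y]

/-- the constraint of the law above the white hole `J`, under the layer of `D` -/
def CyosK (S : ClSys V Y) (s : Bool) (D J : Finset V) (ω : ClCfg V Y) : Prop :=
  cuLay (S.inn D) (D \ J) ⊆ ω.W ∧ CuPin s (cuLay S D) ω

/-- the law above the white hole `J`, under the layer of `D` -/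
noncomputable def cyosNu (S : ClSys V Y) (s : Bool) (D J : Finset V) (F : ClCfg V Y → ℝ) : ℝ :=
  (S.inn (D \ J)).E (CyosK S s D J) F

theorem cyos_eqns_cite : True := by
  have := @CyosK.eq_1
  have := @cyosNu.eq_1
  trivial

/-! ## 0. small tools -/

theorem cyos_N_congr (S : ClSys V Y) {K K' : ClCfg V Y → Prop} {F F' : ClCfg V Y → ℝ}
    (hK : ∀ ω ∈ S.cfgs, S.wt ω ≠ 0 → (K ω ↔ K' ω)) (hF : ∀ ω ∈ S.cfgs, S.wt ω ≠ 0 → K ω → F ω = F' ω) : S.N K F = S.N K' F' := by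
  classical
  unfold ClSys.N
  refine Finset.sum_congr rfl fun ω hω => ?_
  by_cases hw : S.wt ω = 0
  · simp [hw]
  · by_cases hk : K ω
    · rw [if_pos hk, if_pos ((hK ω hω hw).1 hk), hF ω hω hw hk]
    · rw [if_neg hk, if_neg (fun h => hk ((hK ω hω hw).2 h))]

theorem cyos_N_mono (S : ClSys V Y) (hS : ClOk S) (K : ClCfg V Y → Prop) {F F' : ClCfg V Y → ℝ}
    (hF : ∀ ω ∈ S.cfgs, S.wt ω ≠ 0 → K ω → F ω ≤ F' ω) : S.N K F ≤ S.N K F' := by
  classical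
  unfold ClSys.N
  refine Finset.sum_le_sum fun ω hω => ?_
  by_cases hw : S.wt ω = 0
  · simp [hw]
  · by_cases hk : K ω
    · rw [if_pos hk, if_pos hk]
      exact mul_le_mul_of_nonneg_left (hF ω hω hw hk) (dis_wt_nonneg S hS ω)
    · rw [if_neg hk, if_neg hk]

theorem cyos_ind_le {L L' : ClCfg V Y → Prop} {ω ω' : ClCfg V Y} (h : L ω → L' ω') : cyoInd L ω ≤ cyoInd L' ω' := by
  classical
  unfold cyoInd
  by_cases hl : L ω
  · rw [if_pos hl, if_pos (h hl)]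
  · rw [if_neg hl]
    split_ifs <;> norm_num

theorem cyos_ind_mono (S : ClSys V Y) {L : ClCfg V Y → Prop} (h : ClMonoP S L) : ClMono S (cyoInd L) :=
  fun ω ω' hB hτ => cyos_ind_le (h ω ω' hB hτ)

theorem cyos_ind_loc {T : Finset V} {T' : Finset Y} {L : ClCfg V Y → Prop} (h : ClLocP T T' L) : ClLoc T T' (cyoInd L) :=
  fun ω ω' h1 h2 h3 => le_antisymm (cyos_ind_le (h ω ω' h1 h2 h3).1) (cyos_ind_le (h ω ω' h1 h2 h3).2)

theorem cyos_ind_blind {L : ClCfg V Y → Prop} (h : ∀ ω ω' : ClCfg V Y, ω.B = ω'.B → ω.O = ω'.O → (L ω ↔ L ω')) :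
    ∀ ω ω' : ClCfg V Y, ω.B = ω'.B → ω.O = ω'.O → cyoInd L ω = cyoInd L ω' :=
  fun ω ω' h1 h2 => le_antisymm (cyos_ind_le (h ω ω' h1 h2).1) (cyos_ind_le (h ω ω' h1 h2).2)

theorem cyos_le_refl (K : ClCon V Y) : ClLe K K :=
  ⟨Finset.Subset.refl _, Finset.Subset.refl _, Finset.Subset.refl _, Finset.Subset.refl _, Finset.subset_union_left, Finset.subset_union_left, rfl⟩

theorem cyos_lay_sub (S : ClSys V Y) (I : Finset V) : cuLay S I ⊆ I := Finset.filter_subset _ _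

theorem cyos_cmt_sub (S : ClSys V Y) (J : Finset V) : S.cmt J ⊆ S.C := Finset.filter_subset _ _

/-- exchange of the colours in a partition function whose constraint reads the spins only -/
theorem cyos_swap_Z (S : ClSys V Y) (K : Finset V → Finset V → Prop) : S.Z (fun ω => K ω.B ω.W) = S.Z (fun η => K η.W η.B) := by
  rw [dis_Z_eq, dis_Z_eq, ← am_N2_fst S (fun ω => K ω.B ω.W) (fun _ => 1), ← am_N2_snd S (fun η => K η.W η.B) (fun _ => 1)]
  rfl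

/-! ## 1. the laws above a white hole -/

theorem cyos_feas (S : ClSys V Y) (hS : ClOk S) (D J : Finset V) (h : CyoHole S D J) (s : Bool) : 0 < (S.inn (D \ J)).Z (CyosK S s D J) := by
  refine cyo_feas_const (S.inn (D \ J)) (amo_inn_ok S hS _) s _ ⟨cyos_lay_sub _ _, ?_⟩
  intro v hv
  have hv' : v ∈ D \ J := cyo_hole_lay S D J h hv
  cases s
  · simp
  · exact ⟨fun _ => rfl, fun _ => hv'⟩

theorem cyos_white (S : ClSys V Y) (hS : ClOk S) (D J : Finset V) (h : CyoHole S D J) (s : Bool) (F : ClCfg V Y → ℝ)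
    (hF : ClLoc (D \ J) (S.cin (D \ J)) F) (hFW : ∀ ω ω' : ClCfg V Y, ω.B = ω'.B → ω.O = ω'.O → F ω = F ω') :
    cuE (S.neu (S.cmt J)) s D ((cyoTie S (S.cmt J)).Holds (S.neu (S.cmt J))) F = cyosNu S s D J F :=
  cyo_white S hS D J h s F hF hFW

theorem cyos_nonneg (S : ClSys V Y) (hS : ClOk S) (s : Bool) (D J : Finset V) (F : ClCfg V Y → ℝ) (hF : ∀ ω, 0 ≤ F ω) : 0 ≤ cyosNu S s D J F := by
  unfold cyosNu
  rw [dis_E_eq]
  refine div_nonneg ?_ (amo_Z_nonneg _ (amo_inn_ok S hS _) _)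
  have h0 : (S.inn (D \ J)).N (CyosK S s D J) (fun _ => 0) = 0 := by
    unfold ClSys.N
    simp
  rw [← h0]
  exact cyos_N_mono _ (amo_inn_ok S hS _) _ fun ω _ _ _ => hF ω

/-- **(annulus:slide-white)**: moving the plus layer away decreases the increasing tests -/
theorem cyos_slide (S : ClSys V Y) (hS : ClDisk S) (D D' J : Finset V) (h : CyoHole S D J) (h' : CyoHole S D' J) (hDD : D ⊆ D') (F : ClCfg V Y → ℝ)
    (hF : ClMono S F) (hFl : ClLoc (D \ J) (S.cin (D \ J)) F) (hFW : ∀ ω ω' : ClCfg V Y, ω.B = ω'.B → ω.O = ω'.O → F ω = F ω') :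
    cyosNu S true D' J F ≤ cyosNu S true D J F := by
  have hO := hS.toClOk
  have hsub : D \ J ⊆ D' \ J := Finset.sdiff_subset_sdiff hDD (Finset.Subset.refl _)
  have hFl' : ClLoc (D' \ J) (S.cin (D' \ J)) F := dde_loc_mono hsub (dde_cin_mono S hsub) hFl
  rw [← cyos_white S hO D J h true F hFl hFW, ← cyos_white S hO D' J h' true F hFl' hFW]
  exact am_dom_plus (S.neu (S.cmt J)) (cyo_neu_disk S hS _) D D' hDD h'.subD (cyoTie S (S.cmt J)) (cyo_tie_legal S _ _ (cyos_cmt_sub S J))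
    (cyo_tie_in S _ _ D h.ins) (cyo_white_Z S hO D J h true (cyos_feas S hO D J h true)) F (cyo_neu_mono S _ F hF)
    (dde_loc_mono Finset.sdiff_subset (dde_cin_mono S Finset.sdiff_subset) hFl)

/-- the minus layer is below the plus layer -/
theorem cyos_sign (S : ClSys V Y) (hS : ClDisk S) (D J : Finset V) (h : CyoHole S D J) (F : ClCfg V Y → ℝ)
    (hF : ClMono S F) (hFl : ClLoc (D \ J) (S.cin (D \ J)) F) (hFW : ∀ ω ω' : ClCfg V Y, ω.B = ω'.B → ω.O = ω'.O → F ω = F ω') :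
    cyosNu S false D J F ≤ cyosNu S true D J F := by
  have hO := hS.toClOk
  rw [← cyos_white S hO D J h true F hFl hFW, ← cyos_white S hO D J h false F hFl hFW]
  exact am_order (S.neu (S.cmt J)) (cyo_neu_disk S hS _) false true (by decide) D h.subD (cyoTie S (S.cmt J)) (cyoTie S (S.cmt J))
    (cyo_tie_legal S _ _ (cyos_cmt_sub S J)) (cyo_tie_legal S _ _ (cyos_cmt_sub S J)) (cyo_tie_in S _ _ D h.ins) (cyo_tie_in S _ _ D h.ins)
    (cyos_le_refl _) (cyo_white_Z S hO D J h false (cyos_feas S hO D J h false)) (cyo_white_Z S hO D J h true (cyos_feas S hO D J h true))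
    F (cyo_neu_mono S _ F hF) (dde_loc_mono Finset.sdiff_subset (dde_cin_mono S Finset.sdiff_subset) hFl)

/-- flip of the first spin -/
theorem cyos_flip_N (S : ClSys V Y) (hS : ClOk S) (D J : Finset V) (h : CyoHole S D J) (s : Bool) (F : ClCfg V Y → ℝ) :
    (S.inn (D \ J)).N (CyosK S s D J) F = (S.inn (D \ J)).N (CyosK S (!s) D J) (fun ω => F (ω.flipB (D \ J))) := by
  rw [am_flipB_N (S.inn (D \ J)) (amo_inn_ok S hS _).sub]
  refine cyos_N_congr _ (fun ω _ _ => ?_) (fun _ _ _ _ => rfl)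
  unfold CyosK
  refine and_congr Iff.rfl (forall₂_congr fun v hv => ?_)
  have hv' : v ∈ D \ J := cyo_hole_lay S D J h hv
  show (v ∈ (D \ J) \ ω.B ↔ s = true) ↔ (v ∈ ω.B ↔ (!s) = true)
  rw [Finset.mem_sdiff]
  cases s <;> simp [hv']

theorem cyos_flip_Z (S : ClSys V Y) (hS : ClOk S) (D J : Finset V) (h : CyoHole S D J) (s : Bool) :
    (S.inn (D \ J)).Z (CyosK S s D J) = (S.inn (D \ J)).Z (CyosK S (!s) D J) := by
  rw [dis_Z_eq, dis_Z_eq, cyos_flip_N S hS D J h s]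

/-- a minus event is not more likely than the corresponding plus event -/
theorem cyos_minus_le (S : ClSys V Y) (hS : ClDisk S) (D J : Finset V) (h : CyoHole S D J) (Ap Am : ClCfg V Y → Prop)
    (hf : ∀ ω ∈ (S.inn (D \ J)).cfgs, (S.inn (D \ J)).wt ω ≠ 0 → Am (ω.flipB (D \ J)) → Ap ω)
    (hm : ClMonoP S Ap) (hl : ClLocP (D \ J) (S.cin (D \ J)) Ap) (hW : ∀ ω ω' : ClCfg V Y, ω.B = ω'.B → ω.O = ω'.O → (Ap ω ↔ Ap ω')) :
    cyosNu S true D J (cyoInd Am) ≤ cyosNu S true D J (cyoInd Ap) := by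
  have hO := hS.toClOk
  refine le_trans ?_ (cyos_sign S hS D J h (cyoInd Ap) (cyos_ind_mono S hm) (cyos_ind_loc hl) (cyos_ind_blind hW))
  unfold cyosNu
  rw [dis_E_eq, dis_E_eq, cyos_flip_Z S hO D J h true, cyos_flip_N S hO D J h true]
  refine div_le_div_of_nonneg_right ?_ (amo_Z_nonneg _ (amo_inn_ok S hO _) _)
  exact cyos_N_mono _ (amo_inn_ok S hO _) _ fun ω hω hw _ => cyos_ind_le (hf ω hω hw)

/-! ## 2. the exchange of the two layers -/

/-- the law `lam₂` is the law `lam₁` read with the colours exchanged -/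
theorem cyos_iso_N (S : ClSys V Y) (hS : ClOk S) (D₁ D₂ J : Finset V) (h₁ : CyoHole S D₁ J) (φ : V → V) (ψ : Y → Y)
    (hi : CuIso (S.inn (D₁ \ J)) (S.inn (D₂ \ J)) φ ψ)
    (hφ1 : (cuLay (S.inn D₁) (D₁ \ J)).image φ = cuLay S D₂) (hφ2 : (cuLay S D₁).image φ = cuLay (S.inn D₂) (D₂ \ J)) (F' : ClCfg V Y → ℝ) :
    (S.inn (D₂ \ J)).N (CyosK S true D₂ J) F' =
      (S.inn (D₁ \ J)).N (fun η => CyosK S true D₁ J ⟨η.W, η.B, η.O⟩) (fun η => F' (η.map φ ψ)) := by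
  rw [am_iso _ _ φ ψ hi (amo_inn_ok S hS _).sub]
  refine cyos_N_congr _ (fun η hη _ => ?_) (fun _ _ _ _ => rfl)
  obtain ⟨hB, hW, -⟩ := (cl_mem_cfgs _ η).1 hη
  have hB' : η.B ⊆ D₁ \ J := hB
  have hW' : η.W ⊆ D₁ \ J := hW
  have hinj : Set.InjOn φ ↑(D₁ \ J) := hi.injV
  have hl1 : cuLay (S.inn D₁) (D₁ \ J) ⊆ D₁ \ J := cyos_lay_sub _ _
  have hl2 : cuLay S D₁ ⊆ D₁ \ J := cyo_hole_lay S D₁ J h₁
  unfold CyosK
  rw [← hφ1, ← hφ2]
  show ((cuLay S D₁).image φ ⊆ η.W.image φ ∧ ∀ v ∈ (cuLay (S.inn D₁) (D₁ \ J)).image φ, (v ∈ η.B.image φ ↔ true = true)) ↔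
    (cuLay (S.inn D₁) (D₁ \ J) ⊆ η.B ∧ ∀ v ∈ cuLay S D₁, (v ∈ η.W ↔ true = true))
  rw [am_t5_sub hinj hW' hl2]
  constructor
  · rintro ⟨a, b⟩
    refine ⟨fun v hv => ?_, fun v hv => ⟨fun _ => rfl, fun _ => a hv⟩⟩
    exact (am_t5_mem hinj hB' (hl1 hv)).1 ((b _ (Finset.mem_image_of_mem φ hv)).2 rfl)
  · rintro ⟨a, b⟩
    refine ⟨fun v hv => (b v hv).2 rfl, fun v hv => ⟨fun _ => rfl, fun _ => ?_⟩⟩
    obtain ⟨u, hu, rfl⟩ := Finset.mem_image.1 hv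
    exact Finset.mem_image_of_mem φ (a hu)

/-! ## 3. the core -/

/-- **THE SYMMETRIC DOMAIN**, uniformly in the hole -/
theorem cyos_core (S : ClSys V Y) (hS : ClDisk S) (h12 : ∀ y ∈ S.C, 1 / 2 ≤ S.q y) (D D₁ D₂ J : Finset V)
    (h : CyoHole S D J) (h₁ : CyoHole S D₁ J) (h₂ : CyoHole S D₂ J) (hD₁ : D ⊆ D₁) (hD₂ : D ⊆ D₂)
    (φ : V → V) (ψ : Y → Y) (hi : CuIso (S.inn (D₁ \ J)) (S.inn (D₂ \ J)) φ ψ)
    (hφ1 : (cuLay (S.inn D₁) (D₁ \ J)).image φ = cuLay S D₂) (hφ2 : (cuLay S D₁).image φ = cuLay (S.inn D₂) (D₂ \ J))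
    (Ap Am Cp Cm Ep Em : ClCfg V Y → Prop)
    (halt : ∀ ω : ClCfg2 V Y, ω ∈ (S.inn (D₁ \ J)).cfgs2 → (S.inn (D₁ \ J)).wt2 ω ≠ 0 → Ap ω.fst ∨ Am ω.fst ∨ Cp ω.snd ∨ Cm ω.snd)
    (hCp : ∀ η ∈ (S.inn (D₁ \ J)).cfgs, (S.inn (D₁ \ J)).wt η ≠ 0 → Cp η → Ep (η.map φ ψ))
    (hCm : ∀ η ∈ (S.inn (D₁ \ J)).cfgs, (S.inn (D₁ \ J)).wt η ≠ 0 → Cm η → Em (η.map φ ψ))
    (hAf : ∀ ω ∈ (S.inn (D₁ \ J)).cfgs, (S.inn (D₁ \ J)).wt ω ≠ 0 → Am (ω.flipB (D₁ \ J)) → Ap ω)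
    (hEf : ∀ ω ∈ (S.inn (D₂ \ J)).cfgs, (S.inn (D₂ \ J)).wt ω ≠ 0 → Em (ω.flipB (D₂ \ J)) → Ep ω)
    (hAm : ClMonoP S Ap) (hEm : ClMonoP S Ep) (hAl : ClLocP (D \ J) (S.cin (D \ J)) Ap) (hEl : ClLocP (D \ J) (S.cin (D \ J)) Ep)
    (hAW : ∀ ω ω' : ClCfg V Y, ω.B = ω'.B → ω.O = ω'.O → (Ap ω ↔ Ap ω')) (hEW : ∀ ω ω' : ClCfg V Y, ω.B = ω'.B → ω.O = ω'.O → (Ep ω ↔ Ep ω')) :
    1 / 2 ≤ cyosNu S true D J (cyoInd Ap) + cyosNu S true D J (cyoInd Ep) := by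
  have hO := hS.toClOk
  have hO₁ := amo_inn_ok S hO (D₁ \ J)
  have hs₁ : D \ J ⊆ D₁ \ J := Finset.sdiff_subset_sdiff hD₁ (Finset.Subset.refl _)
  have hs₂ : D \ J ⊆ D₂ \ J := Finset.sdiff_subset_sdiff hD₂ (Finset.Subset.refl _)
  have hAl₁ : ClLocP (D₁ \ J) (S.cin (D₁ \ J)) Ap := fun ω ω' a b c =>
    hAl ω ω' (dde_inter_mono hs₁ a) (dde_inter_mono hs₁ b) (dde_inter_mono (dde_cin_mono S hs₁) c)
  have hEl₂ : ClLocP (D₂ \ J) (S.cin (D₂ \ J)) Ep := fun ω ω' a b c =>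
    hEl ω ω' (dde_inter_mono hs₂ a) (dde_inter_mono hs₂ b) (dde_inter_mono (dde_cin_mono S hs₂) c)
  -- the slides
  have s1 := cyos_slide S hS D D₁ J h h₁ hD₁ (cyoInd Ap) (cyos_ind_mono S hAm) (cyos_ind_loc hAl) (cyos_ind_blind hAW)
  have s2 := cyos_slide S hS D D₂ J h h₂ hD₂ (cyoInd Ep) (cyos_ind_mono S hEm) (cyos_ind_loc hEl) (cyos_ind_blind hEW)
  -- minus below plus
  have m1 := cyos_minus_le S hS D₁ J h₁ Ap Am hAf hAm hAl₁ hAW
  have m2 := cyos_minus_le S hS D₂ J h₂ Ep Em hEf hEm hEl₂ hEW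
  -- the alternative
  have alt := cyo_alt (S.inn (D₁ \ J)) hO₁ (fun y hy => h12 y (Finset.mem_filter.1 hy).1)
    (fun B W => cuLay (S.inn D₁) (D₁ \ J) ⊆ W ∧ ∀ v ∈ cuLay S D₁, (v ∈ B ↔ true = true)) Ap Am Cp Cm halt
  have hZ₁ := cyos_feas S hO D₁ J h₁ true
  have eZ : (S.inn (D₂ \ J)).Z (CyosK S true D₂ J) = (S.inn (D₁ \ J)).Z (CyosK S true D₁ J) := by
    rw [dis_Z_eq, cyos_iso_N S hO D₁ D₂ J h₁ φ ψ hi hφ1 hφ2, ← dis_Z_eq]
    exact (cyos_swap_Z (S.inn (D₁ \ J)) (fun B W => cuLay (S.inn D₁) (D₁ \ J) ⊆ W ∧ ∀ v ∈ cuLay S D₁, (v ∈ B ↔ true = true))).symm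
  have c1 : (S.inn (D₁ \ J)).N (fun η => CyosK S true D₁ J ⟨η.W, η.B, η.O⟩) (cyoInd Cp) ≤ (S.inn (D₂ \ J)).N (CyosK S true D₂ J) (cyoInd Ep) := by
    rw [cyos_iso_N S hO D₁ D₂ J h₁ φ ψ hi hφ1 hφ2]
    exact cyos_N_mono _ hO₁ _ fun η hη hw _ => cyos_ind_le (hCp η hη hw)
  have c2 : (S.inn (D₁ \ J)).N (fun η => CyosK S true D₁ J ⟨η.W, η.B, η.O⟩) (cyoInd Cm) ≤ (S.inn (D₂ \ J)).N (CyosK S true D₂ J) (cyoInd Em) := by
    rw [cyos_iso_N S hO D₁ D₂ J h₁ φ ψ hi hφ1 hφ2]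
    exact cyos_N_mono _ hO₁ _ fun η hη hw _ => cyos_ind_le (hCm η hη hw)
  have alt' : (S.inn (D₁ \ J)).Z (CyosK S true D₁ J) ≤ (S.inn (D₁ \ J)).N (CyosK S true D₁ J) (cyoInd Ap) + (S.inn (D₁ \ J)).N (CyosK S true D₁ J) (cyoInd Am)
      + (S.inn (D₂ \ J)).N (CyosK S true D₂ J) (cyoInd Ep) + (S.inn (D₂ \ J)).N (CyosK S true D₂ J) (cyoInd Em) := by
    refine le_trans alt ?_
    exact add_le_add (add_le_add le_rfl c1) c2
  have key : 1 ≤ cyosNu S true D₁ J (cyoInd Ap) + cyosNu S true D₁ J (cyoInd Am) + cyosNu S true D₂ J (cyoInd Ep) + cyosNu S true D₂ J (cyoInd Em) := by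
    unfold cyosNu
    rw [dis_E_eq, dis_E_eq, dis_E_eq, dis_E_eq, eZ, ← add_div, ← add_div, ← add_div, le_div_iff₀ hZ₁, one_mul]
    exact alt'
  linarith

/-! ## 4. holes -/

/-- a hole of `D` is a hole of every larger domain -/
theorem cyos_hole_mono (S : ClSys V Y) {D D' J : Finset V} (h : CyoHole S D J) (hDD : D ⊆ D') (hD' : D' ⊆ S.A) : CyoHole S D' J :=
  ⟨hD', h.sub.trans hDD, h.ne, fun y hy => (h.ins y hy).trans hDD, h.cov, h.con⟩

/-- **the hole of a search**: `R` = the domain of the search, `Bel` = the region behind the start set `O`; the hole is `Bel` + the set invaded from `O` inside `R`.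
`hOc`: the base `O ∪ Bel` is tied by the cells which meet it;  `hcov`: every site lies in a cell;  `hins`: the cells which meet the hole lie inside `D`. -/
theorem cyos_hole (S : ClSys V Y) (hS : ClOk S) (D R Bel O : Finset V) (hD : D ⊆ S.A) (hR : R ⊆ D) (hBel : Bel ⊆ D) (hO : O ⊆ R) (hne : O.Nonempty)
    (hcov : ∀ v ∈ S.A, ∃ y ∈ S.C, v ∈ S.sv y) (hOc : ∀ U : Finset V, (∀ y ∈ S.cmt (O ∪ Bel), ClConst U (S.sv y)) → ClConst U (O ∪ Bel))
    (s : Bool) (η : ClCfg V Y) (hins : ∀ y ∈ S.cmt (clInv (S.inn R) s ∅ η O ∪ Bel), S.sv y ⊆ D) :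
    CyoHole S D (clInv (S.inn R) s ∅ η O ∪ Bel) := by
  classical
  set J := clInv (S.inn R) s ∅ η O with hJ
  have hJR : J ⊆ R := Finset.filter_subset _ _
  have hOJ : O ⊆ J := fun u hu => Finset.mem_filter.2 ⟨hO hu, u, hu, ReflTransGen.refl⟩
  obtain ⟨o, ho⟩ := hne
  have hmem : ∀ {y : Y} {u : V}, y ∈ S.C → u ∈ S.sv y → u ∈ J ∪ Bel → y ∈ S.cmt (J ∪ Bel) := fun hy hu hu' =>
    Finset.mem_filter.2 ⟨hy, _, hu, hu'⟩
  refine ⟨hD, Finset.union_subset (hJR.trans hR) hBel, ⟨o, Finset.mem_union_left _ (hOJ ho)⟩, hins, ?_, ?_⟩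
  · intro v hv
    have hvA : v ∈ S.A := hD (Finset.union_subset (hJR.trans hR) hBel hv)
    obtain ⟨y, hy, hvy⟩ := hcov v hvA
    exact Finset.mem_biUnion.2 ⟨y, hmem hy hvy hv, hvy⟩
  · intro U hU
    -- every site of the hole has the label of `o`
    have hbase : ClConst U (O ∪ Bel) := hOc U fun y hy => by
      obtain ⟨hy1, u, hu, hu'⟩ := Finset.mem_filter.1 hy
      refine hU y (hmem hy1 hu ?_)
      rcases Finset.mem_union.1 hu' with h | h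
      · exact Finset.mem_union_left _ (hOJ h)
      · exact Finset.mem_union_right _ h
    have hb : ∀ v ∈ O ∪ Bel, (v ∈ U ↔ o ∈ U) := fun v hv => dis_const_iff hbase hv (Finset.mem_union_left _ ho)
    have hpath : ∀ u ∈ O, ∀ v, ReflTransGen (clStep (S.inn R) s ∅ η) u v → (v ∈ J ∧ (v ∈ U ↔ o ∈ U)) := by
      intro u hu v hr
      induction hr with
      | refl => exact ⟨hOJ hu, hb u (Finset.mem_union_left _ hu)⟩
      | @tail b c hab hbc ih =>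
        rcases hbc with ⟨y, hy, hby, hcy, hτ⟩ | h | h
        · have hy' : y ∈ S.C ∧ S.sv y ⊆ R := Finset.mem_filter.1 hy
          have hcJ : c ∈ J := Finset.mem_filter.2 ⟨hy'.2 hcy, u, hu, hab.tail (Or.inl ⟨y, hy, hby, hcy, hτ⟩)⟩
          refine ⟨hcJ, ?_⟩
          rw [← ih.2]
          exact dis_const_iff (hU y (hmem hy'.1 hby (Finset.mem_union_left _ ih.1))) hcy hby
        · exact absurd h (Finset.notMem_empty _)
        · exact absurd h (Finset.notMem_empty _)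
    have hall : ∀ v ∈ J ∪ Bel, (v ∈ U ↔ o ∈ U) := by
      intro v hv
      rcases Finset.mem_union.1 hv with h | h
      · obtain ⟨-, u, hu, hr⟩ := Finset.mem_filter.1 h
        exact (hpath u hu v hr).2
      · exact hb v (Finset.mem_union_right _ h)
    have hun : ∀ w ∈ (S.cmt (J ∪ Bel)).biUnion S.sv, (w ∈ U ↔ o ∈ U) := by
      intro w hw
      obtain ⟨y, hy, hwy⟩ := Finset.mem_biUnion.1 hw
      obtain ⟨-, u, hu, hu'⟩ := Finset.mem_filter.1 hy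
      rw [← hall u hu']
      exact dis_const_iff (hU y hy) hwy hu
    by_cases hoU : o ∈ U
    · exact Or.inl fun w hw => (hun w hw).2 hoU
    · exact Or.inr fun w hw hwU => hoU ((hun w hw).1 hwU)

/-! ## 5. the law above a record of the search = a law above a white hole -/

theorem cyos_cin_cin (S : ClSys V Y) {X R : Finset V} (h : X ⊆ R) : (S.inn R).cin X = S.cin X := by
  ext y
  constructor
  · intro a
    obtain ⟨a1, a2⟩ := Finset.mem_filter.1 a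
    exact Finset.mem_filter.2 ⟨(Finset.mem_filter.1 a1).1, a2⟩
  · intro a
    obtain ⟨a1, a2⟩ := Finset.mem_filter.1 a
    exact Finset.mem_filter.2 ⟨Finset.mem_filter.2 ⟨a1, a2.trans h⟩, a2⟩

theorem cyos_inn_inn (S : ClSys V Y) {X R : Finset V} (h : X ⊆ R) : (S.inn R).inn X = S.inn X := by
  show (⟨X, (S.inn R).cin X, S.sv, S.q⟩ : ClSys V Y) = ⟨X, S.cin X, S.sv, S.q⟩
  rw [cyos_cin_cin S h]

theorem cyos_bridge_set {R Bel J : Finset V} (hdis : Disjoint R Bel) : (R ∪ Bel) \ (J ∪ Bel) = R \ J := by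
  ext v
  simp only [Finset.mem_sdiff, Finset.mem_union]
  constructor
  · rintro ⟨h1 | h1, h2⟩
    · exact ⟨h1, fun h => h2 (Or.inl h)⟩
    · exact absurd (Or.inr h1) h2
  · rintro ⟨h1, h2⟩
    refine ⟨Or.inl h1, ?_⟩
    rintro (h | h)
    · exact h2 h
    · exact Finset.disjoint_left.1 hdis h1 h

/-- `hBel`: a cell which meets the region `Bel` behind the start set lies in `Bel ∪ J` -/
theorem cyos_bridge_lay (S : ClSys V Y) (R Bel J : Finset V) (hdis : Disjoint R Bel) (hBel : ∀ y ∈ S.C, (∃ u ∈ S.sv y, u ∈ Bel) → S.sv y ⊆ Bel ∪ J) :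
    cuLay (S.inn (R ∪ Bel)) (R \ J) = cuLay (S.inn R) (R \ J) := by
  ext v
  unfold cuLay
  rw [Finset.mem_filter, Finset.mem_filter]
  refine and_congr_right fun hv => ?_
  obtain ⟨hvR, hvJ⟩ := Finset.mem_sdiff.1 hv
  constructor
  · rintro ⟨y, hy, hvy, hn⟩
    obtain ⟨hyC, hyD⟩ : y ∈ S.C ∧ S.sv y ⊆ R ∪ Bel := Finset.mem_filter.1 hy
    refine ⟨y, Finset.mem_filter.2 ⟨hyC, fun u hu => ?_⟩, hvy, hn⟩
    rcases Finset.mem_union.1 (hyD hu) with h | h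
    · exact h
    · exfalso
      rcases Finset.mem_union.1 (hBel y hyC ⟨u, hu, h⟩ hvy) with h' | h'
      · exact Finset.disjoint_left.1 hdis hvR h'
      · exact hvJ h'
  · rintro ⟨y, hy, hvy, hn⟩
    obtain ⟨hyC, hyR⟩ : y ∈ S.C ∧ S.sv y ⊆ R := Finset.mem_filter.1 hy
    exact ⟨y, Finset.mem_filter.2 ⟨hyC, hyR.trans Finset.subset_union_left⟩, hvy, hn⟩

/-- **BRIDGE**: the law above the record `J` of the white search in `S.inn R` (output of `cyo_wsearch`) is the law above the white hole `J ∪ Bel` under the layer of `R ∪ Bel` -/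
theorem cyos_bridge (S : ClSys V Y) (R Bel J Tp : Finset V) (hdis : Disjoint R Bel) (hBel : ∀ y ∈ S.C, (∃ u ∈ S.sv y, u ∈ Bel) → S.sv y ⊆ Bel ∪ J)
    (hTop : cuLay S (R ∪ Bel) = Tp) (F : ClCfg V Y → ℝ) :
    ((S.inn R).inn ((S.inn R).A \ J)).E (fun ω => cuLay (S.inn R) ((S.inn R).A \ J) ⊆ ω.W ∧ CuPin true Tp ω) F = cyosNu S true (R ∪ Bel) (J ∪ Bel) F := by
  unfold cyosNu CyosK
  show ((S.inn R).inn (R \ J)).E (fun ω => cuLay (S.inn R) (R \ J) ⊆ ω.W ∧ CuPin true Tp ω) F = _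
  rw [cyos_bridge_set hdis, cyos_inn_inn S Finset.sdiff_subset, cyos_bridge_lay S R Bel J hdis hBel, hTop]

/-! ## 6. the search -/

theorem cyos_N_ind (S : ClSys V Y) (K L : ClCfg V Y → Prop) : S.N K (cyoInd L) = S.Z (fun ω => K ω ∧ L ω) := by
  classical
  unfold ClSys.N ClSys.Z cyoInd
  refine Finset.sum_congr rfl fun ω _ => ?_
  by_cases hk : K ω <;> by_cases hl : L ω <;> simp [hk, hl]

theorem cyos_N_add (S : ClSys V Y) (K : ClCfg V Y → Prop) (F G : ClCfg V Y → ℝ) : S.N K (fun ω => F ω + G ω) = S.N K F + S.N K G := by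
  classical
  unfold ClSys.N
  rw [← Finset.sum_add_distrib]
  refine Finset.sum_congr rfl fun ω _ => ?_
  by_cases hk : K ω
  · simp only [if_pos hk]; ring
  · simp only [if_neg hk]; ring

theorem cyos_ind_nonneg (L : ClCfg V Y → Prop) (ω : ClCfg V Y) : 0 ≤ cyoInd L ω := by
  classical
  unfold cyoInd
  split_ifs <;> norm_num

/-- **ALTERNATIVE IN THE LOW BAND + WHITE SEARCH**, any system `M` with `q ≥ 1/2`.   `O` = bottom layer (`B = -`), `Tp` = top layer (`B = +`), `Dn` = the far region.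
`Lp Lm` = vertical crossings of the low band by plus / minus cells (colour `B`), `Wp Wm` = the low band is blocked by plus / minus cells (colour `W`), `Ap Ep` = the two tests in the far region. -/
theorem cyos_search (M : ClSys V Y) (hM : ClOk M) (h12 : ∀ y ∈ M.C, 1 / 2 ≤ M.q y) (O Tp Dn : Finset V) (𝒥 : Finset (Finset V))
    (h𝒥 : ∀ J ∈ 𝒥, O ⊆ J ∧ J ⊆ M.A ∧ Disjoint J Dn) (hDn : Dn ⊆ M.A) (hTp : Tp ⊆ Dn) (Lp Lm Wp Wm Ap Ep : ClCfg V Y → Prop)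
    (halt : ∀ ω : ClCfg2 V Y, ω ∈ M.cfgs2 → M.wt2 ω ≠ 0 → Lp ω.fst ∨ Lm ω.fst ∨ Wp ω.snd ∨ Wm ω.snd)
    (hWf : ∀ η ∈ M.cfgs, M.wt η ≠ 0 → Wm (η.flipB M.A) → Wp η)
    (hW𝒥 : ∀ η ∈ M.cfgs, M.wt η ≠ 0 → Wp η → clInv M true ∅ η O ∈ 𝒥)
    (hAl : ClLocP Dn (M.cin Dn) Ap) (hEl : ClLocP Dn (M.cin Dn) Ep)
    (hcore : ∀ J ∈ 𝒥, (∃ η : ClCfg V Y, clInv M true ∅ η O = J) →
      1 / 2 ≤ (M.inn (M.A \ J)).E (fun ω => cuLay M (M.A \ J) ⊆ ω.W ∧ CuPin true Tp ω) (fun ω => cyoInd Ap ω + cyoInd Ep ω))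
    (hf : 0 < M.Z (fun ω => CuPin false O ω ∧ CuPin true Tp ω)) :
    1 ≤ M.P (fun ω => CuPin false O ω ∧ CuPin true Tp ω) Lp + M.P (fun ω => CuPin false O ω ∧ CuPin true Tp ω) Lm
      + 4 * (M.P (fun ω => CuPin false O ω ∧ CuPin true Tp ω) Ap + M.P (fun ω => CuPin false O ω ∧ CuPin true Tp ω) Ep) := by
  classical
  set Kin : Finset V → Finset V → Prop := fun B _ => ∀ v ∈ Tp, (v ∈ B ↔ true = true) with hKin
  set Kout : Finset V → Finset V → Prop := fun B _ => ∀ v ∈ O, (v ∈ B ↔ false = true) with hKout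
  have hmix : (fun ω : ClCfg V Y => CuPin false O ω ∧ CuPin true Tp ω) = (fun ω => Kin ω.B ω.W ∧ Kout ω.B ω.W) := by
    funext ω
    exact propext and_comm
  rw [hmix] at hf ⊢
  have alt := cyo_alt M hM h12 (fun B W => Kin B W ∧ Kout B W) Lp Lm Wp Wm halt
  -- flip of the second spin
  have fl : M.N (fun η => Kin η.W η.B ∧ Kout η.W η.B) (cyoInd Wm) ≤ M.N (fun η => Kin η.W η.B ∧ Kout η.W η.B) (cyoInd Wp) := by
    rw [am_flipB_N M hM.sub (fun η => Kin η.W η.B ∧ Kout η.W η.B) (cyoInd Wm)]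
    exact cyos_N_mono M hM _ fun η hη hw _ => cyos_ind_le (hWf η hη hw)
  -- a blocked band stops the invasion
  have st : M.N (fun η => Kin η.W η.B ∧ Kout η.W η.B) (cyoInd Wp) ≤ M.Z (fun η => (Kin η.W η.B ∧ Kout η.W η.B) ∧ clInv M true ∅ η O ∈ 𝒥) := by
    rw [← cyos_N_ind]
    exact cyos_N_mono M hM _ fun η hη hw _ => cyos_ind_le (hW𝒥 η hη hw)
  -- the search
  have hin : ∀ B W B' W' : Finset V, B ∩ Dn = B' ∩ Dn → W ∩ Dn = W' ∩ Dn → (Kin B W ↔ Kin B' W') := by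
    intro B W B' W' hB _
    refine forall₂_congr fun v hv => ?_
    have e1 : v ∈ B ↔ v ∈ B ∩ Dn := by rw [Finset.mem_inter]; exact ⟨fun a => ⟨a, hTp hv⟩, fun a => a.1⟩
    have e2 : v ∈ B' ↔ v ∈ B' ∩ Dn := by rw [Finset.mem_inter]; exact ⟨fun a => ⟨a, hTp hv⟩, fun a => a.1⟩
    rw [e1, e2, hB]
  have hout : ∀ B W B' W' : Finset V, B ∩ O = B' ∩ O → W ∩ O = W' ∩ O → (Kout B W ↔ Kout B' W') := by
    intro B W B' W' hB _
    refine forall₂_congr fun v hv => ?_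
    have e1 : v ∈ B ↔ v ∈ B ∩ O := by rw [Finset.mem_inter]; exact ⟨fun a => ⟨a, hv⟩, fun a => a.1⟩
    have e2 : v ∈ B' ↔ v ∈ B' ∩ O := by rw [Finset.mem_inter]; exact ⟨fun a => ⟨a, hv⟩, fun a => a.1⟩
    rw [e1, e2, hB]
  have se := cyo_wsearch M hM h12 O Dn 𝒥 h𝒥 hDn Kin Kout hin hout (fun ω => cyoInd Ap ω + cyoInd Ep ω)
    (fun ω ω' a b c => by beta_reduce; rw [cyos_ind_loc hAl ω ω' a b c, cyos_ind_loc hEl ω ω' a b c])
    (fun ω => add_nonneg (cyos_ind_nonneg _ _) (cyos_ind_nonneg _ _)) (1 / 2) hcore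
  rw [cyos_N_add] at se
  have hP : ∀ L : ClCfg V Y → Prop, M.P (fun ω => Kin ω.B ω.W ∧ Kout ω.B ω.W) L = M.N (fun ω => Kin ω.B ω.W ∧ Kout ω.B ω.W) (cyoInd L) / M.Z (fun ω => Kin ω.B ω.W ∧ Kout ω.B ω.W) :=
    fun L => rfl
  rw [hP, hP, hP, hP, ← add_div, ← add_div, ← mul_div_assoc, ← add_div, le_div_iff₀ hf, one_mul]
  linarith

end abstract

end Claimed.Agent.R291
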