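import Claimed.Agent.R291.Ann.CylInst
import Claimed.Agent.R291.Ann.SeedIso

/-!
# Row 291 (S0539), Ann/CylSd : A4 LAW SIDE, THE BRIDGE `sdP` = DIAGONAL OF `cyP`      (owner helper18; prefix `cyd_` / `cyd`)

Ruling (R4) of 22 (06:36Z).   `sdSys x L T 0 H` (`Defs/Seed`, 83; cells indexed by `TV`) and `cyM x L H T T` (`Ann/CylDefs`, 5; cells indexed by `CyY = CyK × TV`) are isomorphic by `(id, cyT T)` (`cyd_iso`):
for `S = T` the family `cyQ L H T T` covers every edge of the rows `0..H`, so the cells inside these rows are exactly the triangles of class `T` of the slabs `0..H-1`.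
* `cyd_field`   `cyP x L H T T E = (sdSys x L T 0 H).P (SdMix L 0 H) (field of the statuses ∈ E)`
* **`cyd_diag`**  `cyP x L H T T {τ | E (cyOn σ τ)} = sdP x L H T s E`, `σ = ±1` the sign of `s`
* adapters field ↔ set: `cyd_Blk`, `cyd_H`, `cyd_V` (the last one through `sd_V_iff`)
* `Ann/CylBridge` (83, proofs 91) has its own copy `cyb_M_C`, `cyb_iso`, `cyb_fld`, `cyb_diag` (for `3 ≤ L`, `1 ≤ H`; written in parallel) and the hard fields `rswl`, `glue` of the kit + the instance.
  HERE: no hypothesis on `L`, `H` (`L = 0` included), and the FIELD form `cyd_field` (all three statuses at once), which `cyb_diag` does not give.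
-/

set_option autoImplicit false
set_option linter.unusedSectionVars false
set_option linter.unusedVariables false
set_option linter.unusedSimpArgs false

namespace Claimed.Agent.R291

open Claims Claims.C0467 Relation

/-! ## 1. the cells of the diagonal system -/

theorem cyd_mem_band {L : ℕ} {T : Bool} {c d : ℤ} {y : TV} : cyT T y ∈ cyBand L T c d ↔ y ∈ sdCells L c (d + 1) := by
  unfold cyBand
  rw [Finset.mem_image]
  constructor
  · rintro ⟨z, hz, e⟩
    have : z = y := congrArg Prod.snd e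
    exact this ▸ hz
  · intro h
    exact ⟨y, h, rfl⟩

/-- the family of the diagonal contains all the triangles of class `T` of the slabs `-1..H` -/
theorem cyd_mem_Q {L H : ℕ} {T : Bool} {y : TV} (h : y ∈ sdCells L (-1) ((H : ℤ) + 1)) : cyT T y ∈ cyQ L H T T := by
  obtain ⟨h0, h1, h2, h3⟩ := cy_mem_cells.1 h
  unfold cyQ
  rw [if_pos rfl, Finset.mem_union, Finset.mem_union, cyd_mem_band, cyd_mem_band, cyd_mem_band, cy_mem_cells, cy_mem_cells, cy_mem_cells]
  by_cases e1 : y.2 = -1
  · exact Or.inl (Or.inl ⟨h0, h1, by omega, by omega⟩)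
  · by_cases e2 : y.2 = H
    · exact Or.inl (Or.inr ⟨h0, h1, by omega, by omega⟩)
    · exact Or.inr ⟨h0, h1, by omega, by omega⟩

/-- both classes: the triangle of index `y` contains `y + (1,0)` and `y + (0,1)` -/
theorem cyd_tri_sites (L : ℕ) (T : Bool) (y : TV) : sdRed L (y + (1, 0)) ∈ cySv L (cyT T y) ∧ sdRed L (y + (0, 1)) ∈ cySv L (cyT T y) := by
  cases T
  · exact ⟨Finset.mem_image_of_mem _ (by simp [cellD, cyT]), Finset.mem_image_of_mem _ (by simp [cellD, cyT])⟩
  · exact ⟨Finset.mem_image_of_mem _ (by simp [cellV, cyT]), Finset.mem_image_of_mem _ (by simp [cellV, cyT])⟩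

theorem cyd_sv (L : ℕ) (T : Bool) (y : TV) : cySv L (cyT T y) = sdCell L T y := by
  cases T <;> rfl

theorem cyd_red_cells {L : ℕ} (hL : 0 < L) {a b : ℤ} (u : TV) : sdRed L u ∈ sdCells L a b ↔ a ≤ u.2 ∧ u.2 < b :=
  sdi_red_cells hL u

/-- **the cells of the diagonal system** -/
theorem cyd_C (x : ℝ) (L H : ℕ) (T : Bool) : (cyM x L H T T).C = (sdCells L 0 H).image (cyT T) := by
  ext c
  rw [Finset.mem_image]
  show c ∈ (cyS x L (-3) ((H : ℤ) + 3) (cyQ L H T T) ∅).cin (sdSites L 0 H) ↔ _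
  rw [am_mem_cin, cy_mem_C]
  constructor
  · rintro ⟨hc, hsv⟩
    replace hsv : cySv L c ⊆ sdSites L 0 H := hsv
    have hL : 0 < L := by
      by_contra h0
      obtain ⟨w, hw⟩ := cy_sv_nonempty L c
      have := (cy_mem_sites.1 (hsv hw))
      omega
    rcases hc with hQ | ⟨he, h1, h2⟩ | hs
    · unfold cyQ at hQ
      rw [if_pos rfl, Finset.mem_union, Finset.mem_union] at hQ
      rcases hQ with (hQ | hQ) | hQ
      · obtain ⟨y, hy, rfl⟩ := Finset.mem_image.1 hQ
        have h3 := (cy_red_mem hL _).1 (hsv (cyd_tri_sites L T y).1)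
        have h4 := cy_mem_cells.1 hy
        simp only [Prod.snd_add] at h3
        omega
      · obtain ⟨y, hy, rfl⟩ := Finset.mem_image.1 hQ
        have h3 := (cy_red_mem hL _).1 (hsv (cyd_tri_sites L T y).2)
        have h4 := cy_mem_cells.1 hy
        simp only [Prod.snd_add] at h3
        omega
      · obtain ⟨y, hy, rfl⟩ := Finset.mem_image.1 hQ
        refine ⟨y, ?_, rfl⟩
        rwa [sub_add_cancel] at hy
    · exfalso
      obtain ⟨k, y⟩ := c
      rcases cy_mem_edges.1 he with ⟨hk, hy⟩ | ⟨hk, hy⟩ | ⟨hk, hy⟩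
      · simp only at hk hy
        subst hk
        obtain ⟨y0, y1, _, _⟩ := cy_mem_sites.1 hy
        have h3 := (cy_red_mem hL _).1 (hsv (show sdRed L y ∈ cySv L (CyK.eh, y) from Finset.mem_image_of_mem _ (by simp)))
        cases T
        · refine h2 (cyd_mem_Q (T := false) (y := y - (0, 1)) (cy_mem_cells.2 ?_))
          simp only [Prod.fst_sub, Prod.snd_sub]
          omega
        · exact h1 (cyd_mem_Q (T := true) (y := y) (cy_mem_cells.2 (by omega)))
      · simp only at hk hy
        subst hk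
        obtain ⟨y0, y1, _, _⟩ := cy_mem_cells.1 hy
        have h3 := (cy_red_mem hL _).1 (hsv (show sdRed L y ∈ cySv L (CyK.ev, y) from Finset.mem_image_of_mem _ (by simp)))
        have h4 := (cy_red_mem hL _).1 (hsv (show sdRed L (y + (0, 1)) ∈ cySv L (CyK.ev, y) from Finset.mem_image_of_mem _ (by simp)))
        simp only [Prod.snd_add] at h4
        cases T
        · refine h2 (cyd_mem_Q (T := false) (y := sdRed L (y - (1, 0))) ((cyd_red_cells hL _).2 ?_))
          simp only [Prod.snd_sub]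
          omega
        · exact h1 (cyd_mem_Q (T := true) (y := y) (cy_mem_cells.2 (by omega)))
      · simp only at hk hy
        subst hk
        obtain ⟨y0, y1, _, _⟩ := cy_mem_cells.1 hy
        have h3 := (cy_red_mem hL _).1 (hsv (show sdRed L y ∈ cySv L (CyK.ed, y) from Finset.mem_image_of_mem _ (by simp)))
        have h4 := (cy_red_mem hL _).1 (hsv (show sdRed L (y + (-1, 1)) ∈ cySv L (CyK.ed, y) from Finset.mem_image_of_mem _ (by simp)))
        simp only [Prod.snd_add] at h4
        cases T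
        · refine h2 (cyd_mem_Q (T := false) (y := sdRed L (y - (1, 0))) ((cyd_red_cells hL _).2 ?_))
          simp only [Prod.snd_sub]
          omega
        · refine h1 (cyd_mem_Q (T := true) (y := sdRed L (y - (1, 0))) ((cyd_red_cells hL _).2 ?_))
          simp only [Prod.snd_sub]
          omega
    · exfalso
      obtain ⟨k, y⟩ := c
      rcases cy_mem_spokes.1 hs with ⟨hk, hy⟩ | ⟨hk, hy⟩
      · simp only at hk hy
        subst hk
        have h3 := cy_mem_sites.1 (hsv (show ((0, y.2 + 1) : TV) ∈ cySv L (CyK.sn, y) by simp [cySv]))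
        have h4 := cy_mem_row.1 hy
        simp only at h3
        omega
      · simp only at hk hy
        subst hk
        have h3 := cy_mem_sites.1 (hsv (show ((0, y.2 - 1) : TV) ∈ cySv L (CyK.ss, y) by simp [cySv]))
        have h4 := cy_mem_row.1 hy
        simp only at h3
        omega
  · rintro ⟨y, hy, rfl⟩
    obtain ⟨h0, h1, h2, h3⟩ := cy_mem_cells.1 hy
    have hL : 0 < L := by omega
    refine ⟨Or.inl (cyd_mem_Q (cy_mem_cells.2 (by omega))), ?_⟩
    show cySv L (cyT T y) ⊆ sdSites L 0 H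
    refine cy_tri_sub hL (cy_mem_tris.2 ⟨?_, hy⟩)
    cases T
    · exact Or.inr rfl
    · exact Or.inl rfl

/-! ## 2. the isomorphism and the bridge -/

theorem cyd_iso (x : ℝ) (L H : ℕ) (T : Bool) : CuIso (sdSys x L T 0 H) (cyM x L H T T) id (cyT T) where
  injV := fun _ _ _ _ e => e
  injY := fun u _ v _ e => congrArg Prod.snd e
  A := Finset.image_id
  C := (cyd_C x L H T).symm
  sv := fun y _ => by
    show cySv L (cyT T y) = (sdCell L T y).image id
    rw [Finset.image_id, cyd_sv]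
  q := fun y _ => by
    show (if cyT T y ∈ (∅ : Finset CyY) then 1 else if (cyT T y).1 = CyK.up ∨ (cyT T y).1 = CyK.dn then x ^ 2 else x) = x ^ 2
    cases T <;> simp [cyT]

theorem cyd_sub (x : ℝ) (L : ℕ) (T : Bool) (a b : ℤ) : ∀ y ∈ (sdSys x L T a b).C, (sdSys x L T a b).sv y ⊆ (sdSys x L T a b).A := by
  intro y hy
  have hL : 1 ≤ L := by
    have := cy_mem_cells.1 (show y ∈ sdCells L a b from hy)
    omega
  exact sdi_sub x hL T a b y hy

/-- the periodic status field of the cells of a system indexed by `TV` -/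
def cydFld (S : ClSys TV TV) (L : ℕ) (ω : ClCfg TV TV) : CyF :=
  fun y => if sdRed L y ∈ S.C then cySg (clTau S ω (sdRed L y)) else 0

theorem cyd_eqns_cite : True := by
  have := @cydFld.eq_1
  trivial

theorem cyd_fld (x : ℝ) (L H : ℕ) (T : Bool) (ω : ClCfg TV TV) (hω : ω ∈ (sdSys x L T 0 H).cfgs) :
    cyFld (cyM x L H T T) L T (ω.map id (cyT T)) = cydFld (sdSys x L T 0 H) L ω := by
  funext y
  unfold cyFld cydFld
  have hC : cyT T (sdRed L y) ∈ (cyM x L H T T).C ↔ sdRed L y ∈ (sdSys x L T 0 H).C := by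
    rw [cyd_C, Finset.mem_image]
    constructor
    · rintro ⟨z, hz, e⟩
      have : z = sdRed L y := congrArg Prod.snd e
      exact this ▸ hz
    · intro h
      exact ⟨_, h, rfl⟩
  by_cases h : sdRed L y ∈ (sdSys x L T 0 H).C
  · rw [if_pos (hC.2 h), if_pos h, am_iso_tau _ _ _ _ (cyd_iso x L H T) (cyd_sub x L T 0 H) ω hω _ h]
  · rw [if_neg (fun h' => h (hC.1 h')), if_neg h]

/-- the diagonal of `cyP` on the carrier of `Defs/Seed`, field form -/
theorem cyd_field (x : ℝ) (L H : ℕ) (T : Bool) (E : Set CyF) :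
    cyP x L H T T E = (sdSys x L T 0 H).P (SdMix L 0 H) (fun ω => cydFld (sdSys x L T 0 H) L ω ∈ E) := by
  unfold cyP
  rw [sdi_P_iso _ _ _ _ (cyd_iso x L H T) (cyd_sub x L T 0 H)]
  refine sdi_P_congr _ (fun ω _ _ => ?_) (fun ω hω _ _ => ?_)
  · unfold CyMix SdMix CuPin ClCfg.map
    simp only [Finset.image_id]
  · rw [cyd_fld x L H T ω hω]

/-- the sign of a boolean -/
def cydSg (s : Bool) : SignType := if s then 1 else -1

theorem cyd_sg_eqns_cite : True := by
  have := @cydSg.eq_1
  trivial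

theorem cyd_on (S : ClSys TV TV) (L : ℕ) (ω : ClCfg TV TV) (s : Bool) : cyOn (cydSg s) (cydFld S L ω) = sdSet S L (clSg s) ω := by
  ext y
  simp only [cyOn, cydFld, sdSet, Set.mem_ofPred_eq]
  by_cases h : sdRed L y ∈ S.C
  · rw [if_pos h]
    rcases dis_tau_cases S ω (sdRed L y) with e | e | e <;> cases s <;> simp [h, e, cySg, cydSg, clSg]
  · rw [if_neg h]
    cases s <;> simp [h, cydSg]

/-- **THE BRIDGE**: `sdP` is the diagonal of `cyP` -/
theorem cyd_diag (x : ℝ) (L H : ℕ) (T s : Bool) (E : Set TV → Prop) : cyP x L H T T {τ | E (cyOn (cydSg s) τ)} = sdP x L H T s E := by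
  rw [cyd_field]
  unfold sdP
  refine sdi_P_congr _ (fun _ _ _ => Iff.rfl) (fun ω _ _ _ => ?_)
  show E (cyOn (cydSg s) (cydFld (sdSys x L T 0 H) L ω)) ↔ _
  rw [cyd_on]

/-! ## 3. adapters field ↔ set -/

theorem cyd_Blk (σ : SignType) (c d : ℤ) : cyBlk σ c d = {τ | SdBlk c d (cyOn σ τ)} := rfl

theorem cyd_H (σ : SignType) (a b c d : ℤ) : cyH σ a b c d = {τ | SdH a b c d (cyOn σ τ)} := rfl

theorem cyd_V (σ : SignType) {a b c d : ℤ} (hab : a ≤ b) (hcd : c ≤ d) : cyV σ a b c d = {τ | SdV a b c d (cyOn σ τ)} := by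
  ext τ
  show CyX (tscBox a b c d ∩ cyOn σ τ) c d ↔ SdV a b c d (cyOn σ τ)
  rw [sd_V_iff hab hcd]
  rfl

theorem cyd_P_Blk (x : ℝ) (L H : ℕ) (T s : Bool) (c d : ℤ) : cyP x L H T T (cyBlk (cydSg s) c d) = sdP x L H T s (SdBlk c d) := by
  rw [cyd_Blk]
  exact cyd_diag x L H T s (SdBlk c d)

theorem cyd_P_H (x : ℝ) (L H : ℕ) (T s : Bool) (a b c d : ℤ) : cyP x L H T T (cyH (cydSg s) a b c d) = sdP x L H T s (SdH a b c d) := by
  rw [cyd_H]
  exact cyd_diag x L H T s (SdH a b c d)

theorem cyd_P_V (x : ℝ) (L H : ℕ) (T s : Bool) {a b c d : ℤ} (hab : a ≤ b) (hcd : c ≤ d) :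
    cyP x L H T T (cyV (cydSg s) a b c d) = sdP x L H T s (SdV a b c d) := by
  rw [cyd_V _ hab hcd]
  exact cyd_diag x L H T s (SdV a b c d)

theorem cyd_sg_true : cydSg true = 1 := rfl
theorem cyd_sg_false : cydSg false = -1 := rfl

/-- the clause on the diagonal asked by `cy_to_sd` (`Ann/CylMain`), for ALL `L`, `H` -/
theorem cyd_hA (x : ℝ) (L H : ℕ) (T s : Bool) (c d : ℤ) : cyP x L H T T (cyBlk (if s then 1 else -1) c d) = sdP x L H T s (SdBlk c d) :=
  cyd_P_Blk x L H T s c d

end Claimed.Agent.R291
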