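import Claimed.Agent.R291.Ann.DDefs
import Claimed.Agent.R291.Defs.Ann
import Claimed.Agent.R291.Ann.Model
import Claimed.Agent.R291.Ann.Basic
import Claimed.Agent.R291.Pl.Lift

/-!
# Row 291, ANN A6 (Theorem D, route D2) : THE BRIDGE  heights  ↔  `(B, W, O)`      (owner helper110, for 149 and 121; prefix `adbr_`, `adGray`, `adUn`)

TEX[lem:spin-lift] pushed forward to the law `P^+_S` of the chain of Theorem 2.3.   Spec: `origin/helper149:notes/R291/thmD2_149.md` Sec. 0.
`adGray S (h, O) = ⟨htB S h, htW S h, O⟩`.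

* `AdbrOk S` : `S` is simply connected (`TriSCOn ℤ`), connected, with a nonempty connected layer;   `adbr_ok_ball` : hexagons.
* `adbr_wt`  : `adWt (x^2) S ω = (clInn x S).wt (adGray S ω)` for admissible `ω`
* `adbr_N`   : `adS (x^2) S (G ∘ adGray S) = (clInn x S).N (DamPin (latBd S) true) G`      (bijection: `plz_lay_exists`, `plz_lay_unique`)
* **`adbr_E`**, **`adbr_P`** : `adE (x^2) S (G ∘ adGray S) = anE x true S G`, `adP (x^2) S (L ∘ adGray S) = anP x true S L`
* **`adbr_arm`** : `AdArm S v m ω ↔ AnArm x S v m (adGray S ω)`;   **`adbr_eta`** : `anEta x n M = adP (x^2) (Λ_M) (AdArm (Λ_M) 0 n)`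
* **`adbr_fkg`** : `AdFKG (x^2)`  (X1) from `am_pl_fkg` (22)
-/

set_option autoImplicit false
set_option linter.unusedVariables false
set_option linter.unusedSectionVars false

namespace Claimed.Agent.R291

open Relation Claims Claims.C0467

/-- the Gray map on configurations -/
def adGray (S : Finset TV) (ω : AdC) : ClCfg TV TV := ⟨htB S ω.1, htW S ω.1, ω.2⟩

/-- the domains of the bridge -/
structure AdbrOk (S : Finset TV) : Prop where
  sc : TriSCOn ℤ tscG (↑S : Set TV)
  conn : TscConn tscG (↑S : Set TV)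
  lay : TscConn tscG (↑(latBd S) : Set TV)
  ne : (latBd S).Nonempty

theorem adbr_ok_ball (c : TV) (N : ℕ) : AdbrOk (latBall c N) := by
  refine ⟨plh_ball_sc ℤ c N, plh_ball_conn c N, ?_, ⟨c + ((N : ℤ), 0), ?_⟩⟩
  · have : (↑(latBd (latBall c N)) : Set TV) = {u : TV | latN (u - c) = N} := by
      ext u
      rw [Finset.mem_coe, plh_bd_ball]
      rfl
    rw [this]
    exact plh_sphere_conn c N
  · rw [plh_bd_ball, add_sub_cancel_left, plh_N_hor]
    simp

/-! ## cells inside `S` -/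

theorem adbr_sv {x : ℝ} {S : Finset TV} {y : TV} (hy : y ∈ latCellsIn S) : (clInn x S).sv y = cellV y := by
  show cellV y ∩ S = cellV y
  exact Finset.inter_eq_left.2 (lat_mem_cellsIn.1 hy)

theorem adbr_q {x : ℝ} {S : Finset TV} {y : TV} (hy : y ∈ latCellsIn S) : (clInn x S).q y = x ^ 2 := by
  show (if (cellV y ∩ S).card = 3 then x ^ 2 else x) = x ^ 2
  rw [Finset.inter_eq_left.2 (lat_mem_cellsIn.1 hy), if_pos (pcp_cell_card y)]

theorem adbr_cell_mem {S : Finset TV} {y : TV} (hy : y ∈ latCellsIn S) : y ∈ S ∧ y + (1, 0) ∈ S ∧ y + (0, 1) ∈ S := by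
  rw [lat_mem_cellsIn] at hy
  exact ⟨hy (by simp [cellV]), hy (by simp [cellV]), hy (by simp [cellV])⟩

/-- constancy of a spin on an up-cell -/
theorem adbr_const_iff (P : Finset TV) (y : TV) : ClConst P (cellV y) ↔ ((y + (1, 0) ∈ P ↔ y ∈ P) ∧ (y + (0, 1) ∈ P ↔ y ∈ P)) := by
  unfold ClConst cellV
  constructor
  · rintro (h | h)
    · exact ⟨⟨fun _ => h (by simp), fun _ => h (by simp)⟩, ⟨fun _ => h (by simp), fun _ => h (by simp)⟩⟩
    · exact ⟨⟨fun h' => (h _ (by simp) h').elim, fun h' => (h _ (by simp) h').elim⟩,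
        ⟨fun h' => (h _ (by simp) h').elim, fun h' => (h _ (by simp) h').elim⟩⟩
  · rintro ⟨h1, h2⟩
    by_cases hy : y ∈ P
    · left
      intro u hu
      simp only [Finset.mem_insert, Finset.mem_singleton] at hu
      rcases hu with rfl | rfl | rfl
      · exact hy
      · exact h1.2 hy
      · exact h2.2 hy
    · right
      intro u hu
      simp only [Finset.mem_insert, Finset.mem_singleton] at hu
      rcases hu with rfl | rfl | rfl
      · exact hy
      · exact fun h => hy (h1.1 h)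
      · exact fun h => hy (h2.1 h)

theorem adbr_Bc {S : Finset TV} {y : TV} (hy : y ∈ latCellsIn S) (h : TV → ℤ) : ClConst (htB S h) (cellV y) ↔ AdBc h y := by
  obtain ⟨m0, m1, m2⟩ := adbr_cell_mem hy
  rw [adbr_const_iff, plz_mem_htB, plz_mem_htB, plz_mem_htB]
  unfold AdBc AdB
  simp only [m0, m1, m2, true_and]

theorem adbr_Wc {S : Finset TV} {y : TV} (hy : y ∈ latCellsIn S) (h : TV → ℤ) : ClConst (htW S h) (cellV y) ↔
    (((h (y + (1, 0)) % 4 = 0 ∨ h (y + (1, 0)) % 4 = 3) ↔ (h y % 4 = 0 ∨ h y % 4 = 3)) ∧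
      ((h (y + (0, 1)) % 4 = 0 ∨ h (y + (0, 1)) % 4 = 3) ↔ (h y % 4 = 0 ∨ h y % 4 = 3))) := by
  obtain ⟨m0, m1, m2⟩ := adbr_cell_mem hy
  rw [adbr_const_iff, plz_mem_htW, plz_mem_htW, plz_mem_htW]
  simp only [m0, m1, m2, true_and]

/-- the three Lipschitz bounds on a cell inside `S` -/
theorem adbr_cell_lip {S : Finset TV} {h : TV → ℤ} (hh : AdHAdm S h) {y : TV} (hy : y ∈ latCellsIn S) :
    |h (y + (1, 0)) - h y| ≤ 1 ∧ |h (y + (0, 1)) - h y| ≤ 1 ∧ |h (y + (1, 0)) - h (y + (0, 1))| ≤ 1 := by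
  obtain ⟨m0, m1, m2⟩ := adbr_cell_mem hy
  refine ⟨hh.lip _ m1 _ m0 ?_, hh.lip _ m2 _ m0 ?_, hh.lip _ m1 _ m2 ?_⟩
  · exact lat_adj_symm (lat_adj_add y (by decide))
  · exact lat_adj_symm (lat_adj_add y (by decide))
  · rw [lat_adj_iff]
    have : y + (0, 1) - (y + (1, 0)) = ((-1 : ℤ), (1 : ℤ)) := by
      ext <;> simp
    rw [this]
    decide

/-- the cell table in the two languages -/
theorem adbr_phi {x : ℝ} {S : Finset TV} {ω : AdC} (hω : AdAdm S ω) {y : TV} (hy : y ∈ latCellsIn S) :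
    adPhi (x ^ 2) ω y = clCellW (x ^ 2) (ClConst (htB S ω.1) (cellV y)) (ClConst (htW S ω.1) (cellV y)) (y ∈ ω.2) := by
  obtain ⟨l1, l2, l3⟩ := adbr_cell_lip hω.ht hy
  have hB := adbr_Bc hy ω.1
  have hW := adbr_Wc hy ω.1
  have tr := plz_triple _ _ _ l1 l2 l3
  have e1 := plz_edge_const _ _ l1
  have e2 := plz_edge_const _ _ l2
  unfold adPhi clCellW
  by_cases hO : y ∈ ω.2
  · rw [if_pos hO, if_pos hO]
    by_cases hb : AdBc ω.1 y
    · rw [if_pos hb, if_pos (hB.2 hb)]
    · rw [if_neg hb, if_neg (fun h => hb (hB.1 h))]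
  · rw [if_neg hO, if_neg hO]
    by_cases hK : AdK ω.1 y
    · have hb : AdBc ω.1 y := ⟨by rw [hK.1], by rw [hK.2]⟩
      have hw : ClConst (htW S ω.1) (cellV y) := hW.2 ⟨by rw [hK.1], by rw [hK.2]⟩
      rw [if_pos hK, if_pos hw, if_pos (hB.2 hb)]
    · rw [if_neg hK]
      by_cases hb : AdBc ω.1 y
      · have hw : ¬ ClConst (htW S ω.1) (cellV y) := by
          intro hw
          have hw' := hW.1 hw
          exact hK ⟨e1.2 ⟨hb.1, hw'.1⟩, e2.2 ⟨hb.2, hw'.2⟩⟩
        rw [if_pos hb, if_neg hw]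
      · have hw : ClConst (htW S ω.1) (cellV y) := by
          rcases tr with h | h
          · exact (hb h).elim
          · exact hW.2 h
        rw [if_neg hb, if_pos hw, if_neg (fun h => hb (hB.1 h))]

/-- **the weights agree** -/
theorem adbr_wt (x : ℝ) {S : Finset TV} {ω : AdC} (hω : AdAdm S ω) : adWt (x ^ 2) S ω = (clInn x S).wt (adGray S ω) := by
  unfold adWt ClSys.wt
  show ∏ y ∈ latCellsIn S, adPhi (x ^ 2) ω y = ∏ y ∈ latCellsIn S, _
  refine Finset.prod_congr rfl fun y hy => ?_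
  rw [adbr_phi hω hy, adbr_sv hy, adbr_q hy]
  rfl

/-! ## the bijection -/

theorem adbr_gray_mem (x : ℝ) {S : Finset TV} {ω : AdC} (hω : AdAdm S ω) : adGray S ω ∈ (clInn x S).cfgs := by
  rw [cl_mem_cfgs]
  exact ⟨Finset.filter_subset _ _, Finset.filter_subset _ _, hω.opn⟩

theorem adbr_gray_pin {S : Finset TV} {ω : AdC} (hω : AdAdm S ω) : DamPin (latBd S) true (adGray S ω) := by
  intro v hv
  show v ∈ htB S ω.1 ↔ true = true
  rw [plz_mem_htB]
  have := hω.ht.lay v hv
  simp only [iff_true]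
  exact ⟨lat_bd_sub S hv, by omega⟩

theorem adbr_gray_inj {S : Finset TV} (hS : AdbrOk S) {ω ω' : AdC} (hω : AdAdm S ω) (hω' : AdAdm S ω')
    (h : adGray S ω = adGray S ω') : ω = ω' := by
  unfold adGray at h
  rw [ClCfg.mk.injEq] at h
  refine Prod.ext ?_ h.2.2
  exact plz_lay_unique hS.conn hS.ne hω.ht.off hω.ht.lip hω.ht.lay hω'.ht.off hω'.ht.lip hω'.ht.lay h.1 h.2.1

theorem adbr_cellW_ne {q : ℝ} {bc wc o : Prop} [Decidable bc] [Decidable wc] [Decidable o] (h : clCellW q bc wc o ≠ 0) : bc ∨ wc := by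
  unfold clCellW at h
  by_cases ho : o
  · rw [if_pos ho] at h
    by_cases hb : bc
    · exact Or.inl hb
    · rw [if_neg hb] at h
      exact (h rfl).elim
  · rw [if_neg ho] at h
    by_cases hw : wc
    · exact Or.inr hw
    · rw [if_neg hw] at h
      exact (h rfl).elim

theorem adbr_gray_surj {x : ℝ} {S : Finset TV} (hS : AdbrOk S) {ζ : ClCfg TV TV} (hζ : ζ ∈ (clInn x S).cfgs)
    (hpin : DamPin (latBd S) true ζ) (hwt : (clInn x S).wt ζ ≠ 0) : ∃ ω, AdAdm S ω ∧ adGray S ω = ζ := by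
  rw [cl_mem_cfgs] at hζ
  have hcell : ∀ y ∈ latCellsIn S, ClConst ζ.B (cellV y) ∨ ClConst ζ.W (cellV y) := by
    intro y hy
    unfold ClSys.wt at hwt
    have := (Finset.prod_ne_zero_iff.1 hwt) y hy
    rw [adbr_sv hy] at this
    exact adbr_cellW_ne this
  obtain ⟨h, h1, h2, h3, h4, h5⟩ := plz_lay_exists hS.sc hS.conn hS.lay hS.ne ζ.B ζ.W (fun v hv => (hpin v hv).2 rfl) hcell
  refine ⟨(h, ζ.O), ⟨⟨h1, h2, h3⟩, hζ.2.2⟩, ?_⟩
  unfold adGray
  rw [ClCfg.ext_iff]
  exact ⟨h4.trans (Finset.inter_eq_left.2 hζ.1), h5.trans (Finset.inter_eq_left.2 hζ.2.1), rfl⟩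

/-- **the unnormalised sums agree** -/
theorem adbr_N (x : ℝ) {S : Finset TV} (hS : AdbrOk S) (G : ClCfg TV TV → ℝ) :
    adS (x ^ 2) S (fun ω => G (adGray S ω)) = (clInn x S).N (DamPin (latBd S) true) G := by
  classical
  unfold adS ClSys.N
  refine Finset.sum_bij_ne_zero (fun ω _ _ => adGray S ω) ?_ ?_ ?_ ?_
  · intro ω hω _
    exact adbr_gray_mem x (ad_mem_cfg.1 hω)
  · intro ω hω _ ω' hω' _ h
    exact adbr_gray_inj hS (ad_mem_cfg.1 hω) (ad_mem_cfg.1 hω') h
  · intro ζ hζ hne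
    by_cases hpin : DamPin (latBd S) true ζ
    · rw [if_pos hpin] at hne
      obtain ⟨ω, hω, rfl⟩ := adbr_gray_surj hS hζ hpin (left_ne_zero_of_mul hne)
      exact ⟨ω, ad_mem_cfg.2 hω, by rw [adbr_wt x hω]; exact hne, rfl⟩
    · rw [if_neg hpin] at hne
      exact (hne rfl).elim
  · intro ω hω _
    rw [if_pos (adbr_gray_pin (ad_mem_cfg.1 hω)), adbr_wt x (ad_mem_cfg.1 hω)]

/-- **the bridge, expectations** -/
theorem adbr_E (x : ℝ) {S : Finset TV} (hS : AdbrOk S) (G : ClCfg TV TV → ℝ) :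
    adE (x ^ 2) S (fun ω => G (adGray S ω)) = anE x true S G := by
  unfold adE adZ anE
  rw [dis_E_eq, dis_Z_eq, adbr_N x hS G, ← adbr_N x hS (fun _ => 1)]

open Classical in
/-- **the bridge, probabilities** -/
theorem adbr_P (x : ℝ) {S : Finset TV} (hS : AdbrOk S) (L : ClCfg TV TV → Prop) :
    adP (x ^ 2) S (fun ω => L (adGray S ω)) = anP x true S L :=
  adbr_E x hS (fun ζ => if L ζ then 1 else 0)

/-! ## arms -/

/-- open-plus cells in the two languages -/
theorem adbr_plus (x : ℝ) {S : Finset TV} (ω : AdC) {y : TV} (hy : y ∈ latCellsIn S) :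
    clTau (clInn x S) (adGray S ω) y = clSg true ↔ AdPlus ω y := by
  have hsub : cellV y ⊆ S := lat_mem_cellsIn.1 hy
  have e : (clInn x S).sv y ⊆ (adGray S ω).B ↔ ∀ u ∈ cellV y, AdB (ω.1 u) := by
    rw [adbr_sv hy]
    constructor
    · intro h u hu
      exact (plz_mem_htB.1 (h hu)).2
    · intro h u hu
      exact plz_mem_htB.2 ⟨hsub hu, h u hu⟩
  unfold clTau clSg AdPlus
  show (if y ∈ ω.2 then (if (clInn x S).sv y ⊆ (adGray S ω).B then (1 : ℤ) else -1) else 0) = (if true = true then 1 else -1) ↔ _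
  rw [if_pos rfl]
  by_cases hO : y ∈ ω.2
  · rw [if_pos hO]
    by_cases hB : (clInn x S).sv y ⊆ (adGray S ω).B
    · rw [if_pos hB]
      exact ⟨fun _ => ⟨hO, e.1 hB⟩, fun _ => rfl⟩
    · rw [if_neg hB]
      exact ⟨fun h => absurd h (by decide), fun h => (hB (e.2 h.2)).elim⟩
  · rw [if_neg hO]
    exact ⟨fun h => absurd h (by decide), fun h => (hO h.1).elim⟩

/-- one step of the invasion in the two languages -/
theorem adbr_step (x : ℝ) (S : Finset TV) (ω : AdC) (u v : TV) :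
    clStep (clInn x S) true ∅ (adGray S ω) u v ↔ ∃ y, AdBad S ω y ∧ u ∈ cellV y ∧ v ∈ cellV y := by
  unfold clStep AdBad
  constructor
  · rintro (⟨y, hy, hu, hv, hne⟩ | h | h)
    · have hy' : y ∈ latCellsIn S := hy
      rw [adbr_sv hy'] at hu hv
      exact ⟨y, ⟨hy', fun hp => hne ((adbr_plus x ω hy').2 hp)⟩, hu, hv⟩
    · exact absurd h (Finset.notMem_empty _)
    · exact absurd h (Finset.notMem_empty _)
  · rintro ⟨y, ⟨hy, hnp⟩, hu, hv⟩
    refine Or.inl ⟨y, hy, ?_, ?_, fun hp => hnp ((adbr_plus x ω hy).1 hp)⟩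
    · rw [adbr_sv hy]
      exact hu
    · rw [adbr_sv hy]
      exact hv

/-- **arms in the two languages** -/
theorem adbr_arm (x : ℝ) (S : Finset TV) (v : TV) (m : ℕ) (ω : AdC) : AdArm S v m ω ↔ AnArm x S v m (adGray S ω) := by
  unfold AdArm AnArm ClSep adI
  constructor
  · rintro ⟨u, hu, hI⟩ hsep
    have key : ∀ w, AdInv (AdBad S ω) ((↑(latBall v (2 * m)) : Set TV)ᶜ) w → w ∈ ((↑(latBall v (2 * m)) : Set TV)ᶜ) ∨
        ∃ z ∈ S \ latBall v (2 * m), ReflTransGen (clStep (clInn x S) true ∅ (adGray S ω)) w z := by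
      intro w hw
      induction hw with
      | base h => exact Or.inl h
      | @step a b y _ hy ha hb ih =>
        right
        have hst : clStep (clInn x S) true ∅ (adGray S ω) b a := (adbr_step x S ω b a).2 ⟨y, hy, hb, ha⟩
        rcases ih with h | ⟨z, hz, hR⟩
        · refine ⟨a, Finset.mem_sdiff.2 ⟨lat_mem_cellsIn.1 hy.1 ha, ?_⟩, ReflTransGen.single hst⟩
          simpa using h
        · exact ⟨z, hz, ReflTransGen.head hst hR⟩
    rcases key u hI with h | ⟨z, hz, hR⟩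
    · exact h (Finset.mem_coe.2 (plh_ball_mono v (by omega) hu))
    · exact hsep u hu z hz hR
  · intro h
    push Not at h
    obtain ⟨u, hu, z, hz, hR⟩ := h
    refine ⟨u, hu, ?_⟩
    show AdInv (AdBad S ω) ((↑(latBall v (2 * m)) : Set TV)ᶜ) u
    refine ReflTransGen.head_induction_on (motive := fun a _ => AdInv (AdBad S ω) ((↑(latBall v (2 * m)) : Set TV)ᶜ) a) hR ?_ ?_
    · exact AdInv.base (by simpa using (Finset.mem_sdiff.1 hz).2)
    · intro a c hac _ ih
      obtain ⟨y, hy, ha, hc⟩ := (adbr_step x S ω a c).1 hac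
      exact AdInv.step ih hy hc ha

/-- **the arm probabilities of the two chains agree** -/
theorem adbr_arm_P (x : ℝ) (c : TV) (M : ℕ) (v : TV) (n : ℕ) :
    anP x true (latBall c M) (AnArm x (latBall c M) v n) = adP (x ^ 2) (latBall c M) (AdArm (latBall c M) v n) := by
  rw [← adbr_P x (adbr_ok_ball c M)]
  congr 1
  funext ω
  exact propext (adbr_arm x _ v n ω).symm

theorem adbr_eta (x : ℝ) (n M : ℕ) : anEta x n M = adP (x ^ 2) (latBall 0 M) (AdArm (latBall 0 M) 0 n) :=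
  adbr_arm_P x 0 M 0 n

/-! ## (X1) : FKG of `(B, τ)` in height language -/

/-- from `(B, τ)` back to the height language (only `(B, τ)` of the result matters; the inconsistent open cells, of weight `0`, are closed) -/
def adUn (S : Finset TV) (η : ClCfg TV TV) : AdC :=
  (fun u => if u ∈ η.B ∨ u ∉ S then 0 else 2, (latCellsIn S).filter (fun y => y ∈ η.O ∧ (cellV y ⊆ η.B ∨ y ∉ η.B)))

theorem adbr_un_B (S : Finset TV) (η : ClCfg TV TV) (u : TV) : AdB ((adUn S η).1 u) ↔ (u ∈ η.B ∨ u ∉ S) := by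
  show AdB (if u ∈ η.B ∨ u ∉ S then 0 else 2) ↔ _
  by_cases h : u ∈ η.B ∨ u ∉ S
  · rw [if_pos h]
    exact ⟨fun _ => h, fun _ => Or.inl rfl⟩
  · rw [if_neg h]
    exact ⟨fun h' => by unfold AdB at h'; omega, fun h' => (h h').elim⟩

theorem adbr_self_mem (y : TV) : y ∈ cellV y := by simp [cellV]

/-- the status of `adUn S η` -/
theorem adbr_un_tau (S : Finset TV) (η : ClCfg TV TV) (y : TV) : adTau (adUn S η) y =
    if y ∈ latCellsIn S ∧ y ∈ η.O then (if cellV y ⊆ η.B then 1 else if y ∉ η.B then -1 else 0) else 0 := by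
  unfold adTau
  have hm : y ∈ (adUn S η).2 ↔ y ∈ latCellsIn S ∧ y ∈ η.O ∧ (cellV y ⊆ η.B ∨ y ∉ η.B) := by
    show y ∈ (latCellsIn S).filter _ ↔ _
    rw [Finset.mem_filter]
  by_cases h1 : y ∈ latCellsIn S ∧ y ∈ η.O
  · have hyS : y ∈ S := lat_mem_cellsIn.1 h1.1 (adbr_self_mem y)
    rw [if_pos h1]
    by_cases h2 : cellV y ⊆ η.B
    · rw [if_pos (hm.2 ⟨h1.1, h1.2, Or.inl h2⟩), if_pos ((adbr_un_B S η y).2 (Or.inl (h2 (adbr_self_mem y)))), if_pos h2]
    · rw [if_neg h2]
      by_cases h3 : y ∉ η.B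
      · rw [if_pos (hm.2 ⟨h1.1, h1.2, Or.inr h3⟩), if_neg (fun h => by
          rcases (adbr_un_B S η y).1 h with h | h
          · exact h3 h
          · exact h hyS), if_pos h3]
      · rw [if_neg (fun h => by
          rcases (hm.1 h).2.2 with h | h
          · exact h2 h
          · exact h3 h), if_neg h3]
  · rw [if_neg h1, if_neg (fun h => h1 ⟨(hm.1 h).1, (hm.1 h).2.1⟩)]

theorem adbr_cl_tau (x : ℝ) {S : Finset TV} (η : ClCfg TV TV) {y : TV} (hy : y ∈ latCellsIn S) :
    clTau (clInn x S) η y = if y ∈ η.O then (if cellV y ⊆ η.B then 1 else -1) else 0 := by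
  unfold clTau
  rw [adbr_sv hy]

/-- `adUn S` is increasing -/
theorem adbr_un_mono (x : ℝ) (S : Finset TV) {η η' : ClCfg TV TV} (hB : η.B ⊆ η'.B)
    (hT : ∀ y ∈ (clInn x S).C, clTau (clInn x S) η y ≤ clTau (clInn x S) η' y) : AdLe (adUn S η) (adUn S η') := by
  refine ⟨fun u hu => ?_, fun y => ?_⟩
  · rw [adbr_un_B] at hu ⊢
    exact hu.imp (fun h => hB h) id
  · rw [adbr_un_tau, adbr_un_tau]
    by_cases hy : y ∈ latCellsIn S
    · have h := hT y hy
      rw [adbr_cl_tau x η hy, adbr_cl_tau x η' hy] at h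
      by_cases a1 : y ∈ η.O <;> by_cases a2 : y ∈ η'.O <;> by_cases b1 : cellV y ⊆ η.B <;> by_cases b2 : cellV y ⊆ η'.B <;>
        by_cases c1 : y ∈ η.B <;> by_cases c2 : y ∈ η'.B <;>
        simp only [hy, a1, a2, b1, b2, c1, c2, and_true, and_false, if_true, if_false, not_true_eq_false, not_false_eq_true] at h ⊢ <;>
        first
          | omega
          | exact absurd (hB c1) c2
    · simp only [hy, false_and, if_false]
      exact le_rfl

/-- `adUn S` is local -/
theorem adbr_un_loc (S : Finset TV) {η η' : ClCfg TV TV} (hB : η.B ∩ S = η'.B ∩ S) (hO : η.O ∩ latCellsIn S = η'.O ∩ latCellsIn S) :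
    adUn S η = adUn S η' := by
  have eB : ∀ u ∈ S, (u ∈ η.B ↔ u ∈ η'.B) := by
    intro u hu
    have := Finset.ext_iff.1 hB u
    simpa [hu] using this
  have eO : ∀ y ∈ latCellsIn S, (y ∈ η.O ↔ y ∈ η'.O) := by
    intro y hy
    have := Finset.ext_iff.1 hO y
    simpa [hy] using this
  unfold adUn
  refine Prod.ext ?_ ?_
  · funext u
    show (if u ∈ η.B ∨ u ∉ S then (0 : ℤ) else 2) = (if u ∈ η'.B ∨ u ∉ S then 0 else 2)
    by_cases hu : u ∈ S
    · simp only [eB u hu]
    · simp only [hu, not_false_eq_true, or_true]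
  · show (latCellsIn S).filter _ = (latCellsIn S).filter _
    refine Finset.filter_congr fun y hy => ?_
    have hsub := lat_mem_cellsIn.1 hy
    have e1 : cellV y ⊆ η.B ↔ cellV y ⊆ η'.B :=
      ⟨fun h u hu => (eB u (hsub hu)).1 (h hu), fun h u hu => (eB u (hsub hu)).2 (h hu)⟩
    rw [eO y hy, e1, eB y (hsub (adbr_self_mem y))]

/-- an open cell of a configuration of positive weight has a constant first spin -/
theorem adbr_open_Bc {q : ℝ} {S : Finset TV} {ω : AdC} (hw : adWt q S ω ≠ 0) {y : TV} (hy : y ∈ latCellsIn S) (hO : y ∈ ω.2) : AdBc ω.1 y := by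
  unfold adWt at hw
  have := (Finset.prod_ne_zero_iff.1 hw) y hy
  unfold adPhi at this
  rw [if_pos hO] at this
  by_contra hb
  rw [if_neg hb] at this
  exact this rfl

/-- on the support of the law a configuration and `adUn S (adGray S ω)` have the same `(B, τ)` -/
theorem adbr_un_gray {q : ℝ} {S : Finset TV} {ω : AdC} (hω : AdAdm S ω) (hw : adWt q S ω ≠ 0) :
    AdLe ω (adUn S (adGray S ω)) ∧ AdLe (adUn S (adGray S ω)) ω := by
  have eB : ∀ u, AdB (ω.1 u) ↔ AdB ((adUn S (adGray S ω)).1 u) := by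
    intro u
    rw [adbr_un_B]
    show _ ↔ (u ∈ htB S ω.1 ∨ u ∉ S)
    rw [plz_mem_htB]
    by_cases hu : u ∈ S
    · simp only [hu, true_and, not_true_eq_false, or_false]
      rfl
    · simp only [hu, false_and, not_false_eq_true, or_true, iff_true]
      rw [hω.ht.off u hu]
      exact Or.inl rfl
  have eT : ∀ y, adTau ω y = adTau (adUn S (adGray S ω)) y := by
    intro y
    rw [adbr_un_tau]
    unfold adTau
    show _ = if y ∈ latCellsIn S ∧ y ∈ ω.2 then (if cellV y ⊆ htB S ω.1 then 1 else if y ∉ htB S ω.1 then -1 else 0) else 0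
    by_cases hO : y ∈ ω.2
    · have hy : y ∈ latCellsIn S := hω.opn hO
      obtain ⟨m0, m1, m2⟩ := adbr_cell_mem hy
      have hb := adbr_open_Bc hw hy hO
      rw [if_pos hO, if_pos (show y ∈ latCellsIn S ∧ y ∈ ω.2 from ⟨hy, hO⟩)]
      by_cases hB : AdB (ω.1 y)
      · have : cellV y ⊆ htB S ω.1 := by
          intro u hu
          simp only [cellV, Finset.mem_insert, Finset.mem_singleton] at hu
          rcases hu with rfl | rfl | rfl
          · exact plz_mem_htB.2 ⟨m0, hB⟩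
          · exact plz_mem_htB.2 ⟨m1, hb.1.2 hB⟩
          · exact plz_mem_htB.2 ⟨m2, hb.2.2 hB⟩
        rw [if_pos hB, if_pos this]
      · have h1 : y ∉ htB S ω.1 := fun h => hB (plz_mem_htB.1 h).2
        rw [if_neg hB, if_neg (fun h => h1 (h (adbr_self_mem y))), if_pos h1]
    · rw [if_neg hO, if_neg (fun h => hO h.2)]
  exact ⟨⟨fun u => (eB u).1, fun y => (eT y).le⟩, ⟨fun u => (eB u).2, fun y => (eT y).ge⟩⟩

/-- an increasing function of `(B, τ)` in height language is the pull back of an increasing local function of the cell language -/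
theorem adbr_pull (x : ℝ) {S : Finset TV} (hS : AdbrOk S) {F : AdC → ℝ} (hF : AdMono F) :
    adE (x ^ 2) S F = anE x true S (fun η => F (adUn S η)) := by
  rw [← adbr_E x hS]
  unfold adE adS
  congr 1
  refine Finset.sum_congr rfl fun ω hω => ?_
  by_cases hw : adWt (x ^ 2) S ω = 0
  · rw [hw, zero_mul, zero_mul]
  · obtain ⟨h1, h2⟩ := adbr_un_gray (ad_mem_cfg.1 hω) hw
    rw [le_antisymm (hF _ _ h1) (hF _ _ h2)]

theorem adbr_free_holds (S : ClSys TV TV) : (clFree : ClCon TV TV).Holds S = fun _ => True := by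
  funext ω
  simp [ClCon.Holds, clFree]

/-- **(X1)** : positive association of `(B, τ)` under `P^+` on hexagons, in height language -/
theorem adbr_fkg (x : ℝ) (hx0 : 0 < x) (hx1 : x ≤ 1) : AdFKG (x ^ 2) := by
  intro c N F G hF hG
  have hS := adbr_ok_ball c N
  have hFG : adE (x ^ 2) (latBall c N) (fun ω => F ω * G ω)
      = anE x true (latBall c N) (fun η => F (adUn (latBall c N) η) * G (adUn (latBall c N) η)) := by
    rw [← adbr_E x hS]
    unfold adE adS
    congr 1
    refine Finset.sum_congr rfl fun ω hω => ?_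
    by_cases hw : adWt (x ^ 2) (latBall c N) ω = 0
    · rw [hw, zero_mul, zero_mul]
    · obtain ⟨h1, h2⟩ := adbr_un_gray (ad_mem_cfg.1 hω) hw
      show _ * (F ω * G ω) = _ * (F (adUn _ (adGray _ ω)) * G (adUn _ (adGray _ ω)))
      rw [le_antisymm (hF _ _ h1) (hF _ _ h2), le_antisymm (hG _ _ h1) (hG _ _ h2)]
  rw [adbr_pull x hS hF, adbr_pull x hS hG, hFG, ann_E_am, ann_E_am, ann_E_am]
  have key := am_pl_fkg x hx0 hx1 true (latBall c N) (clFree : ClCon TV TV)
    ⟨rfl, rfl, fun y _ h => by simp [clFree] at h, fun e h => by simp [clFree] at h⟩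
    ⟨by simp [clFree], by simp [clFree], fun e h => by simp [clFree] at h, by simp [clFree], by simp [clFree], by simp [clFree],
      by simp [clFree], by simp [clFree]⟩
    (fun η => F (adUn (latBall c N) η)) (fun η => G (adUn (latBall c N) η))
    (fun η η' h1 h2 => hF _ _ (adbr_un_mono x _ h1 h2)) (fun η η' h1 h2 => hG _ _ (adbr_un_mono x _ h1 h2))
    (fun η η' h1 _ h3 => congrArg F (adbr_un_loc _ h1 h3)) (fun η η' h1 _ h3 => congrArg G (adbr_un_loc _ h1 h3))
  rw [adbr_free_holds] at key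
  exact key

/-- unfolding equations of the definitions of this file -/
theorem adbr_eqns_cite : True := by
  have := @adGray.eq_1
  have := @adUn.eq_1
  trivial

end Claimed.Agent.R291
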