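import Claimed.Agent.R291.Ann.DDefs
import Claimed.Agent.R291.Pl.Ball

/-!
# Row 291, ANN A6 (Theorem D, route D2), blocks D1 + D2 : EXACT CUT and DOMAIN MONOTONICITY      (architect helper149; provers helper204, helper31; prefix `ad_`)

Spec: `origin/helper149:notes/R291/thmD2_149.md` Sec. 2.   TEX[lem:cell-cut] in height language.

D1 `ad_cut` : for a DETERMINISTIC `t` with `latCl t ⊆ S` and a level `k`:  on the event `AdCut t k` the inside part (moved to level `0`) has the law of the domain `t` and is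
   independent of everything which does not depend on the inside.   PROOF = SWAP BIJECTION on `(adCfg S).filter (AdCut t k) ×ˢ adCfg t`:
       `(ω, ω') ↦ (adGlue t k ω' ω, adIn t k ω)`     (an involution), with `adWt S ω * adWt t ω' = adWt S (glue) * adWt t (in)`.
   Weight: cells inside `t`: `adPhi` is invariant under `h ↦ h - 4k`;  cells meeting `t` and its complement: open with `B` constant: factor `q` on both sides;  other cells: untouched.
   No "outside configuration space" is needed.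
D2 `ad_T2` : `t` nice, `latCl t ⊆ Λ` hexagon: increasing events are more likely in the smaller domain.  PROOF: `AdCutP t` is increasing (`ad_cutP_up`); FKG (`AdFKG`);
   `AdCutP t ω ↔ ∃ k, AdCut t k ω` for admissible `ω` (`ad_cut_level`: the two layers of `t` are connected by Timar `tsc_plane_timar`, `tsc_plane_timar_in` with `C = tᶜ`; adjacent sites with `B = +`
   have the same `h / 4`);   `|k| ≤ card + 1`;  `ad_cut` with `G = 1` for every `k`; sum over `k`.
-/

set_option autoImplicit false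

namespace Claimed.Agent.R291

open Claims Claims.C0467

/-! ### D1 -/

/-- two sites of a cell are equal or adjacent -/
theorem ad_cell_adj {y u w : TV} (hu : u ∈ cellV y) (hw : w ∈ cellV y) : u = w ∨ triAdj u w := by
  simp only [cellV, Finset.mem_insert, Finset.mem_singleton] at hu hw
  rcases hu with rfl | rfl | rfl <;> rcases hw with rfl | rfl | rfl <;>
    first
      | (left; rfl)
      | (right; rw [tsc_adj_iff]; simp)

theorem ad_self_mem_cell (y : TV) : y ∈ cellV y := by simp [cellV]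

/-- a cell which meets `t` lies in the closure of `t` -/
theorem ad_cell_cl {t : Finset TV} {y u w : TV} (hw : w ∈ cellV y) (hwt : w ∈ t) (hu : u ∈ cellV y) : u ∈ latCl t := by
  rcases ad_cell_adj hw hu with rfl | h
  · exact lat_mem_cl.2 (Or.inl hwt)
  · exact lat_mem_cl.2 (Or.inr ⟨w, hwt, h⟩)

theorem ad_sub_cl (t : Finset TV) : t ⊆ latCl t := fun _ hu => lat_mem_cl.2 (Or.inl hu)

/-- a cut cell is not inside `t` -/
theorem ad_X_not_in {t : Finset TV} {y : TV} (h : AdX (↑t) y) : y ∉ latCellsIn t := by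
  intro hy
  obtain ⟨u, hu, hut⟩ := h.2
  exact hut (Finset.mem_coe.2 (lat_mem_cellsIn.1 hy hu))

/-- a cut cell of `t` is inside every `S` which contains the closure of `t` -/
theorem ad_X_in {S t : Finset TV} (ht : latCl t ⊆ S) {y : TV} (h : AdX (↑t) y) : y ∈ latCellsIn S := by
  obtain ⟨w, hw, hwt⟩ := h.1
  exact lat_mem_cellsIn.2 fun u hu => ht (ad_cell_cl hw (Finset.mem_coe.1 hwt) hu)

/-- a site of the layer of `t` lies in a cut cell -/
theorem ad_lay_X {t : Finset TV} {u : TV} (hu : u ∈ latBd t) : ∃ y, u ∈ cellV y ∧ AdX (↑t) y := by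
  obtain ⟨hut, y, huy, hy⟩ := plh_lay_iff.1 hu
  rw [Finset.not_subset] at hy
  obtain ⟨w, hw, hwt⟩ := hy
  exact ⟨y, huy, ⟨u, huy, Finset.mem_coe.2 hut⟩, ⟨w, hw, fun h => hwt (Finset.mem_coe.1 h)⟩⟩

/-- a site of `t` in a cut cell lies in the layer of `t` -/
theorem ad_X_lay {t : Finset TV} {y u : TV} (h : AdX (↑t) y) (hu : u ∈ cellV y) (hut : u ∈ t) : u ∈ latBd t := by
  refine plh_lay_iff.2 ⟨hut, y, hu, fun hsub => ?_⟩
  obtain ⟨w, hw, hwt⟩ := h.2
  exact hwt (Finset.mem_coe.2 (hsub hw))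

/-- an edge between `t` and its complement lies in a cut cell -/
theorem ad_edge_X {t : Finset TV} {u v : TV} (hut : u ∈ t) (hvt : v ∉ t) (h : triAdj u v) : ∃ y, u ∈ cellV y ∧ v ∈ cellV y ∧ AdX (↑t) y := by
  obtain ⟨h1, h2⟩ := plh_cellOf_mem (e := (u, v)) h
  exact ⟨_, h1, h2, ⟨u, h1, Finset.mem_coe.2 hut⟩, ⟨v, h2, fun h => hvt (Finset.mem_coe.1 h)⟩⟩

theorem ad_cellsIn_mono {t S : Finset TV} (h : t ⊆ S) : latCellsIn t ⊆ latCellsIn S :=
  fun _ hy => lat_mem_cellsIn.2 ((lat_mem_cellsIn.1 hy).trans h)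

theorem ad_in_adm {S t : Finset TV} (ht : latCl t ⊆ S) {k : ℤ} {ω : AdC} (hω : AdAdm S ω) (hc : AdCut t k ω) :
    AdAdm t (adIn t k ω) := by
  have htS : t ⊆ S := (ad_sub_cl t).trans ht
  refine ⟨⟨fun u hu => ?_, fun u hu v hv huv => ?_, fun u hu => ?_⟩, Finset.inter_subset_right⟩
  · show (if u ∈ t then ω.1 u - 4 * k else 0) = 0
    rw [if_neg hu]
  · show |(if u ∈ t then ω.1 u - 4 * k else 0) - (if v ∈ t then ω.1 v - 4 * k else 0)| ≤ 1
    rw [if_pos hu, if_pos hv]
    have := hω.ht.lip u (htS hu) v (htS hv) huv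
    have e : ω.1 u - 4 * k - (ω.1 v - 4 * k) = ω.1 u - ω.1 v := by ring
    rwa [e]
  · show (if u ∈ t then ω.1 u - 4 * k else 0) = 0 ∨ (if u ∈ t then ω.1 u - 4 * k else 0) = 1
    rw [if_pos (lat_bd_sub t hu)]
    obtain ⟨y, huy, hy⟩ := ad_lay_X hu
    rcases (hc y hy).2 u huy with h | h <;> omega

theorem ad_glue_adm {S t : Finset TV} (ht : latCl t ⊆ S) {k : ℤ} {ω ω' : AdC} (hω : AdAdm S ω) (hc : AdCut t k ω)
    (hω' : AdAdm t ω') : AdAdm S (adGlue t k ω' ω) ∧ AdCut t k (adGlue t k ω' ω) := by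
  have htS : t ⊆ S := (ad_sub_cl t).trans ht
  have hval : ∀ u, (adGlue t k ω' ω).1 u = if u ∈ t then ω'.1 u + 4 * k else ω.1 u := fun _ => rfl
  have hlay : ∀ u ∈ latBd t, (adGlue t k ω' ω).1 u = 4 * k ∨ (adGlue t k ω' ω).1 u = 4 * k + 1 := by
    intro u hu
    rw [hval, if_pos (lat_bd_sub t hu)]
    rcases hω'.ht.lay u hu with h | h <;> omega
  have hmix : ∀ u v, u ∈ t → v ∉ t → triAdj u v → |(adGlue t k ω' ω).1 u - (adGlue t k ω' ω).1 v| ≤ 1 := by
    intro u v hu hv huv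
    obtain ⟨y, huy, hvy, hy⟩ := ad_edge_X hu hv huv
    have h1 := hlay u (ad_X_lay hy huy hu)
    have h2 := (hc y hy).2 v hvy
    rw [hval v, if_neg hv]
    rw [abs_le]
    rcases h1 with h1 | h1 <;> rcases h2 with h2 | h2 <;> constructor <;> omega
  refine ⟨⟨⟨fun u hu => ?_, fun u hu v hv huv => ?_, fun u hu => ?_⟩, ?_⟩, fun y hy => ⟨?_, fun u hu => ?_⟩⟩
  · rw [hval, if_neg (fun h => hu (htS h))]
    exact hω.ht.off u hu
  · by_cases hut : u ∈ t
    · by_cases hvt : v ∈ t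
      · rw [hval, hval, if_pos hut, if_pos hvt]
        have := hω'.ht.lip u hut v hvt huv
        have e : ω'.1 u + 4 * k - (ω'.1 v + 4 * k) = ω'.1 u - ω'.1 v := by ring
        rwa [e]
      · exact hmix u v hut hvt huv
    · by_cases hvt : v ∈ t
      · rw [abs_sub_comm]
        exact hmix v u hvt hut (lat_adj_symm huv)
      · rw [hval, hval, if_neg hut, if_neg hvt]
        exact hω.ht.lip u hu v hv huv
  · have hut : u ∉ t := by
      intro hut
      obtain ⟨_, v, huv, hv⟩ := lat_mem_bd.1 hu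
      exact hv (ht (lat_mem_cl.2 (Or.inr ⟨u, hut, huv⟩)))
    rw [hval, if_neg hut]
    exact hω.ht.lay u hu
  · exact Finset.union_subset (Finset.inter_subset_right.trans (ad_cellsIn_mono htS)) (Finset.sdiff_subset.trans hω.opn)
  · exact Finset.mem_union_right _ (Finset.mem_sdiff.2 ⟨(hc y hy).1, ad_X_not_in hy⟩)
  · by_cases hut : u ∈ t
    · exact hlay u (ad_X_lay hy hu hut)
    · rw [hval, if_neg hut]
      exact (hc y hy).2 u hu

theorem ad_glue_in {t : Finset TV} {k : ℤ} {ω ω' : AdC} (hω' : AdAdm t ω') : adIn t k (adGlue t k ω' ω) = ω' := by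
  refine Prod.ext ?_ ?_
  · funext u
    show (if u ∈ t then (if u ∈ t then ω'.1 u + 4 * k else ω.1 u) - 4 * k else 0) = ω'.1 u
    by_cases hu : u ∈ t
    · rw [if_pos hu, if_pos hu]
      ring
    · rw [if_neg hu, hω'.ht.off u hu]
  · show ((ω'.2 ∩ latCellsIn t) ∪ (ω.2 \ latCellsIn t)) ∩ latCellsIn t = ω'.2
    ext y
    have := @hω'.opn y
    simp only [Finset.mem_inter, Finset.mem_union, Finset.mem_sdiff]
    tauto

theorem ad_glue_out (t : Finset TV) (k : ℤ) (ω ω' : AdC) : adOut t (adGlue t k ω' ω) = adOut t ω := by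
  refine Prod.ext ?_ ?_
  · funext u
    show (if u ∈ t then 0 else (if u ∈ t then ω'.1 u + 4 * k else ω.1 u)) = if u ∈ t then 0 else ω.1 u
    by_cases hu : u ∈ t
    · rw [if_pos hu, if_pos hu]
    · rw [if_neg hu, if_neg hu, if_neg hu]
  · show ((ω'.2 ∩ latCellsIn t) ∪ (ω.2 \ latCellsIn t)) \ latCellsIn t = ω.2 \ latCellsIn t
    ext y
    simp only [Finset.mem_inter, Finset.mem_union, Finset.mem_sdiff]
    tauto

theorem ad_glue_self (t : Finset TV) (k : ℤ) (ω : AdC) : adGlue t k (adIn t k ω) ω = ω := by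
  refine Prod.ext ?_ ?_
  · funext u
    show (if u ∈ t then (if u ∈ t then ω.1 u - 4 * k else 0) + 4 * k else ω.1 u) = ω.1 u
    by_cases hu : u ∈ t
    · rw [if_pos hu, if_pos hu]
      ring
    · rw [if_neg hu]
  · show ((ω.2 ∩ latCellsIn t) ∩ latCellsIn t) ∪ (ω.2 \ latCellsIn t) = ω.2
    ext y
    simp only [Finset.mem_inter, Finset.mem_union, Finset.mem_sdiff]
    tauto

/-- heights `4k`, `4k+1` have first spin plus (early form of `ad_cut_cutP`) -/
theorem ad_cut_cutP' {t : Finset TV} {k : ℤ} {ω : AdC} (h : AdCut t k ω) : AdCutP t ω := by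
  intro y hy
  refine ⟨(h y hy).1, fun u hu => ?_⟩
  unfold AdB
  rcases (h y hy).2 u hu with e | e <;> omega

/-- the cell table only sees the status of the cell and the heights of its sites modulo a common multiple of `4` -/
theorem ad_phi_congr (q : ℝ) {ω ω₁ : AdC} {y : TV} (c : ℤ) (h2 : y ∈ ω₁.2 ↔ y ∈ ω.2) (h1 : ∀ u ∈ cellV y, ω₁.1 u = ω.1 u + 4 * c) :
    adPhi q ω₁ y = adPhi q ω y := by
  have e0 := h1 y (ad_self_mem_cell y)
  have e1 := h1 (y + (1, 0)) (by simp [cellV])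
  have e2 := h1 (y + (0, 1)) (by simp [cellV])
  have hK : AdK ω₁.1 y ↔ AdK ω.1 y := by
    unfold AdK
    rw [e0, e1, e2]
    constructor <;> rintro ⟨a, b⟩ <;> constructor <;> omega
  have hB : ∀ a : ℤ, AdB (a + 4 * c) ↔ AdB a := by
    intro a
    unfold AdB
    omega
  have hBc : AdBc ω₁.1 y ↔ AdBc ω.1 y := by
    unfold AdBc
    rw [e0, e1, e2, hB, hB, hB]
  unfold adPhi
  simp only [h2, hK, hBc]

/-- a cut cell has the factor `q` -/
theorem ad_phi_cut (q : ℝ) {t : Finset TV} {k : ℤ} {ω : AdC} (hc : AdCut t k ω) {y : TV} (hy : AdX (↑t) y) : adPhi q ω y = q := by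
  have hp := ad_cut_cutP' hc y hy
  have b0 := hp.2 y (ad_self_mem_cell y)
  have b1 := hp.2 (y + (1, 0)) (by simp [cellV])
  have b2 := hp.2 (y + (0, 1)) (by simp [cellV])
  unfold adPhi
  rw [if_pos hp.1, if_pos ⟨iff_of_true b1 b0, iff_of_true b2 b0⟩]

theorem ad_phi_glue_in (q : ℝ) {t : Finset TV} (k : ℤ) (ω ω' : AdC) {y : TV} (hy : y ∈ latCellsIn t) :
    adPhi q (adGlue t k ω' ω) y = adPhi q ω' y := by
  refine ad_phi_congr q k ?_ fun u hu => ?_
  · show y ∈ (ω'.2 ∩ latCellsIn t) ∪ (ω.2 \ latCellsIn t) ↔ y ∈ ω'.2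
    simp only [Finset.mem_inter, Finset.mem_union, Finset.mem_sdiff]
    tauto
  · show (if u ∈ t then ω'.1 u + 4 * k else ω.1 u) = ω'.1 u + 4 * k
    rw [if_pos (lat_mem_cellsIn.1 hy hu)]

theorem ad_phi_in_in (q : ℝ) {t : Finset TV} (k : ℤ) (ω : AdC) {y : TV} (hy : y ∈ latCellsIn t) :
    adPhi q (adIn t k ω) y = adPhi q ω y := by
  refine ad_phi_congr q (-k) ?_ fun u hu => ?_
  · show y ∈ ω.2 ∩ latCellsIn t ↔ y ∈ ω.2
    simp only [Finset.mem_inter]
    tauto
  · show (if u ∈ t then ω.1 u - 4 * k else 0) = ω.1 u + 4 * -k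
    rw [if_pos (lat_mem_cellsIn.1 hy hu)]
    ring

theorem ad_phi_glue_out (q : ℝ) {S t : Finset TV} (ht : latCl t ⊆ S) {k : ℤ} {ω ω' : AdC} (hω : AdAdm S ω) (hc : AdCut t k ω)
    (hω' : AdAdm t ω') {y : TV} (hy : y ∉ latCellsIn t) : adPhi q (adGlue t k ω' ω) y = adPhi q ω y := by
  by_cases hX : AdX (↑t) y
  · rw [ad_phi_cut q hc hX, ad_phi_cut q (ad_glue_adm ht hω hc hω').2 hX]
  · have hdis : ∀ u ∈ cellV y, u ∉ t := by
      by_contra hcon
      push Not at hcon
      obtain ⟨u, hu, hut⟩ := hcon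
      refine hX ⟨⟨u, hu, Finset.mem_coe.2 hut⟩, ?_⟩
      by_contra hall
      push Not at hall
      exact hy (lat_mem_cellsIn.2 fun w hw => Finset.mem_coe.1 (hall w hw))
    refine ad_phi_congr q 0 ?_ fun u hu => ?_
    · show y ∈ (ω'.2 ∩ latCellsIn t) ∪ (ω.2 \ latCellsIn t) ↔ y ∈ ω.2
      simp only [Finset.mem_inter, Finset.mem_union, Finset.mem_sdiff]
      tauto
    · show (if u ∈ t then ω'.1 u + 4 * k else ω.1 u) = ω.1 u + 4 * 0
      rw [if_neg (hdis u hu)]
      ring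

/-- the weight factorises across the cut (swap form) -/
theorem ad_glue_wt (q : ℝ) {S t : Finset TV} (ht : latCl t ⊆ S) {k : ℤ} {ω ω' : AdC} (hω : AdAdm S ω) (hc : AdCut t k ω)
    (hω' : AdAdm t ω') :
    adWt q S (adGlue t k ω' ω) * adWt q t (adIn t k ω) = adWt q S ω * adWt q t ω' := by
  have hsub : latCellsIn t ⊆ latCellsIn S := ad_cellsIn_mono ((ad_sub_cl t).trans ht)
  unfold adWt
  rw [← Finset.prod_sdiff hsub, ← Finset.prod_sdiff (f := adPhi q ω) hsub,
    Finset.prod_congr rfl (fun y hy => ad_phi_glue_out q ht hω hc hω' (Finset.mem_sdiff.1 hy).2),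
    Finset.prod_congr (s₁ := latCellsIn t) rfl (fun y hy => ad_phi_glue_in q k ω ω' hy),
    Finset.prod_congr (s₁ := latCellsIn t) rfl (fun y hy => ad_phi_in_in q k ω hy)]
  ring

/-- gluing forgets the inside of the outer argument -/
theorem ad_glue_glue (t : Finset TV) (k : ℤ) (ω₁ ω' ω : AdC) : adGlue t k ω₁ (adGlue t k ω' ω) = adGlue t k ω₁ ω := by
  refine Prod.ext ?_ ?_
  · funext u
    show (if u ∈ t then ω₁.1 u + 4 * k else (if u ∈ t then ω'.1 u + 4 * k else ω.1 u)) = if u ∈ t then ω₁.1 u + 4 * k else ω.1 u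
    by_cases hu : u ∈ t
    · rw [if_pos hu, if_pos hu]
    · rw [if_neg hu, if_neg hu, if_neg hu]
  · show (ω₁.2 ∩ latCellsIn t) ∪ (((ω'.2 ∩ latCellsIn t) ∪ (ω.2 \ latCellsIn t)) \ latCellsIn t) = (ω₁.2 ∩ latCellsIn t) ∪ (ω.2 \ latCellsIn t)
    ext y
    simp only [Finset.mem_inter, Finset.mem_union, Finset.mem_sdiff]
    tauto

open Classical in
/-- **D1 EXACT CUT.** -/
theorem ad_cut (q : ℝ) {S t : Finset TV} (ht : latCl t ⊆ S) (k : ℤ) (F G : AdC → ℝ)
    (hG : ∀ ω ω', AdCut t k ω → AdCut t k ω' → adOut t ω = adOut t ω' → G ω = G ω') :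
    adS q S (fun ω => if AdCut t k ω then F (adIn t k ω) * G ω else 0) * adZ q t
      = adS q S (fun ω => if AdCut t k ω then G ω else 0) * adS q t F := by
  set A := (adCfg S).filter (fun ω => AdCut t k ω) with hA
  have e1 : adS q S (fun ω => if AdCut t k ω then F (adIn t k ω) * G ω else 0) = ∑ ω ∈ A, adWt q S ω * (F (adIn t k ω) * G ω) := by
    unfold adS
    rw [hA, Finset.sum_filter]
    refine Finset.sum_congr rfl fun ω _ => ?_
    by_cases hc : AdCut t k ω
    · simp only [if_pos hc]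
    · simp only [if_neg hc, mul_zero]
  have e2 : adS q S (fun ω => if AdCut t k ω then G ω else 0) = ∑ ω ∈ A, adWt q S ω * G ω := by
    unfold adS
    rw [hA, Finset.sum_filter]
    refine Finset.sum_congr rfl fun ω _ => ?_
    by_cases hc : AdCut t k ω
    · simp only [if_pos hc]
    · simp only [if_neg hc, mul_zero]
  have hmem : ∀ p : AdC × AdC, p ∈ A ×ˢ adCfg t ↔ (AdAdm S p.1 ∧ AdCut t k p.1) ∧ AdAdm t p.2 := by
    intro p
    rw [Finset.mem_product, hA, Finset.mem_filter, ad_mem_cfg, ad_mem_cfg]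
  have hmap : ∀ p ∈ A ×ˢ adCfg t, (adGlue t k p.2 p.1, adIn t k p.1) ∈ A ×ˢ adCfg t := by
    intro p hp
    obtain ⟨⟨h1, h2⟩, h3⟩ := (hmem p).1 hp
    exact (hmem _).2 ⟨ad_glue_adm ht h1 h2 h3, ad_in_adm ht h1 h2⟩
  have hinv : ∀ p ∈ A ×ˢ adCfg t, (adGlue t k (adIn t k p.1) (adGlue t k p.2 p.1), adIn t k (adGlue t k p.2 p.1)) = p := by
    intro p hp
    obtain ⟨⟨h1, h2⟩, h3⟩ := (hmem p).1 hp
    rw [ad_glue_glue, ad_glue_self, ad_glue_in h3]
  rw [e1, e2]
  unfold adZ adS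
  rw [Finset.sum_mul_sum, Finset.sum_mul_sum, ← Finset.sum_product', ← Finset.sum_product']
  refine Finset.sum_nbij' (fun p => (adGlue t k p.2 p.1, adIn t k p.1)) (fun p => (adGlue t k p.2 p.1, adIn t k p.1)) hmap hmap hinv hinv ?_
  intro p hp
  obtain ⟨⟨h1, h2⟩, h3⟩ := (hmem p).1 hp
  have hw := ad_glue_wt q ht h1 h2 h3
  have hg : G (adGlue t k p.2 p.1) = G p.1 := hG _ _ (ad_glue_adm ht h1 h2 h3).2 h2 (ad_glue_out t k p.1 p.2)
  show adWt q S p.1 * (F (adIn t k p.1) * G p.1) * (adWt q t p.2 * 1)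
    = adWt q S (adGlue t k p.2 p.1) * G (adGlue t k p.2 p.1) * (adWt q t (adIn t k p.1) * F (adIn t k p.1))
  rw [hg]
  linear_combination (-(F (adIn t k p.1) * G p.1)) * hw

/-! ### D2 -/

theorem ad_plus_up (y : TV) : AdUp (fun ω => AdPlus ω y) := by
  intro ω ω' hle h
  refine ⟨?_, fun u hu => hle.1 u (h.2 u hu)⟩
  have h1 := hle.2 y
  unfold adTau at h1
  rw [if_pos h.1, if_pos (h.2 y (ad_self_mem_cell y))] at h1
  by_contra hy
  rw [if_neg hy] at h1
  omega

theorem ad_cutP_up (t : Finset TV) : AdUp (AdCutP t) := by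
  intro ω ω' hle h y hy
  exact ad_plus_up y ω ω' hle (h y hy)

/-- adjacent sites with first spin plus are on the same level -/
theorem ad_level_adj {a b : ℤ} (h : |a - b| ≤ 1) (ha : AdB a) (hb : AdB b) : a / 4 = b / 4 := by
  unfold AdB at ha hb
  rw [abs_le] at h
  omega

/-- a nice cut has ONE level -/
theorem ad_cut_level {S t : Finset TV} (ht : AdNice t) (htS : latCl t ⊆ S) {ω : AdC} (hω : AdAdm S ω) (hc : AdCutP t ω) :
    ∃ k : ℤ, |k| ≤ S.card + 1 ∧ AdCut t k ω := by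
  classical
  -- two sites of one cell are equal or adjacent
  have hadj : ∀ (y u v : TV), u ∈ cellV y → v ∈ cellV y → u = v ∨ triAdj u v := by
    intro y u v hu hv
    simp only [cellV, Finset.mem_insert, Finset.mem_singleton] at hu hv
    rw [tsc_adj_iff, Prod.ext_iff]
    simp only [Prod.ext_iff, Prod.fst_add, Prod.snd_add] at hu hv
    omega
  -- the sites of the cut cells lie in `S`
  have hsub : ∀ y, AdX (↑t) y → ∀ v ∈ cellV y, v ∈ S := by
    intro y hy v hv
    obtain ⟨u, hu, hut⟩ := hy.1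
    refine htS (lat_mem_cl.2 ?_)
    rcases hadj y u v hu hv with h | h
    · exact Or.inl (h ▸ hut)
    · exact Or.inr ⟨u, hut, h⟩
  -- one level on each cut cell
  have hcell : ∀ y, AdX (↑t) y → ∀ u ∈ cellV y, ∀ v ∈ cellV y, ω.1 u / 4 = ω.1 v / 4 := by
    intro y hy u hu v hv
    rcases hadj y u v hu hv with h | h
    · rw [h]
    · exact ad_level_adj (hω.ht.lip u (hsub y hy u hu) v (hsub y hy v hv) h) ((hc y hy).2 u hu) ((hc y hy).2 v hv)
  have hself : ∀ y : TV, y ∈ cellV y := fun y => by simp [cellV]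
  -- a cut cell exists
  obtain ⟨u0, hu0, hmax⟩ := Finset.exists_max_image t (fun u => u.1) ht.1
  have hy0 : AdX (↑t) u0 := by
    refine ⟨⟨u0, hself u0, hu0⟩, ⟨u0 + (1, 0), by simp [cellV], fun h => ?_⟩⟩
    have := hmax _ h
    simp at this
  -- the level is constant along chains of cut cells
  have hconst : ∀ y, AdX (↑t) y → ω.1 y / 4 = ω.1 u0 / 4 := by
    intro y hy
    refine tsc_R_const (G := tscG) (s := plhCut (↑t)) (fun y => ω.1 y / 4) ?_
      (plh_cut_conn (H := (↑t : Set TV)) ⟨ht.2.1, ht.2.2⟩ y hy u0 hy0)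
    intro a b hab
    obtain ⟨u, hua, hub⟩ := plh_cell_share.2 (Or.inr hab.1)
    exact (hcell a hab.2.1 a (hself a) u hua).trans (hcell b hab.2.2 u hub b (hself b))
  refine ⟨ω.1 u0 / 4, ?_, fun y hy => ⟨(hc y hy).1, fun u hu => ?_⟩⟩
  · have := ad_h_bound hω.ht u0
    rw [abs_le] at this ⊢
    omega
  · have h1 : ω.1 u / 4 = ω.1 u0 / 4 := (hcell y hy u hu y (hself y)).trans (hconst y hy)
    have h2 := (hc y hy).2 u hu
    unfold AdB at h2
    omega

theorem ad_cut_cutP {t : Finset TV} {k : ℤ} {ω : AdC} (h : AdCut t k ω) : AdCutP t ω := ad_cut_cutP' h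

/-- the level is unique (a nice `t` inside a finite `S` has at least one cut cell) -/
theorem ad_cut_unique {t : Finset TV} (ht : t.Nonempty) {k k' : ℤ} {ω : AdC} (h : AdCut t k ω) (h' : AdCut t k' ω) : k = k' := by
  obtain ⟨u, hu, hmax⟩ := t.exists_max_image (fun u : TV => u.1) ht
  have hv : u + (1, 0) ∉ t := by
    intro hv
    have := hmax _ hv
    simp at this
  have hX : AdX (↑t) u := ⟨⟨u, ad_self_mem_cell u, Finset.mem_coe.2 hu⟩, ⟨u + (1, 0), by simp [cellV], fun h => hv (Finset.mem_coe.1 h)⟩⟩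
  have h1 := (h u hX).2 u (ad_self_mem_cell u)
  have h2 := (h' u hX).2 u (ad_self_mem_cell u)
  omega

theorem ad_cutP_pos {q : ℝ} (h0 : 0 < q) (h1 : q ≤ 1) {S t : Finset TV} (ht : latCl t ⊆ S) : 0 < adP q S (AdCutP t) := by
  classical
  unfold adP adE
  refine div_pos ?_ (ad_Z_pos h0 h1 S)
  unfold adS
  refine Finset.sum_pos' (fun ω _ => mul_nonneg (ad_wt_nonneg h0.le h1 S ω) (by beta_reduce; split_ifs <;> norm_num)) ⟨((fun _ => 0), latCellsIn S), ?_, ?_⟩
  · refine ad_mem_cfg.2 ⟨⟨fun _ _ => rfl, fun _ _ _ _ _ => by simp, fun _ _ => Or.inl rfl⟩, Finset.Subset.refl _⟩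
  · have hc : AdCutP t ((fun _ => 0), latCellsIn S) := fun y hy => ⟨ad_X_in ht hy, fun _ _ => Or.inl rfl⟩
    beta_reduce
    rw [if_pos hc, mul_one]
    refine Finset.prod_pos fun y hy => ?_
    unfold adPhi
    rw [if_pos hy, if_pos ⟨Iff.rfl, Iff.rfl⟩]
    exact h0

/-- **D2 DOMAIN MONOTONICITY**, increasing events. -/
theorem ad_T2 {q : ℝ} (h0 : 0 < q) (h1 : q ≤ 1) (hF : AdFKG q) (c : TV) (N : ℕ) {t : Finset TV} (ht : AdNice t)
    (htS : latCl t ⊆ latBall c N) (U' U : AdC → Prop) (hU' : AdUp U')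
    (hUU : ∀ ω k, AdAdm (latBall c N) ω → AdCut t k ω → U' ω → U (adIn t k ω)) :
    adP q (latBall c N) U' ≤ adP q t U := by
  classical
  set Λ := latBall c N with hΛ
  have hZ := ad_Z_pos h0 h1 Λ
  have hZt := ad_Z_pos h0 h1 t
  have hpos := ad_cutP_pos h0 h1 htS
  -- indicators of increasing events are increasing
  have hind : ∀ K : AdC → Prop, AdUp K → AdMono (fun ω => if K ω then (1 : ℝ) else 0) := by
    intro K hK ω ω' hle
    by_cases h : K ω
    · simp only [if_pos h, if_pos (hK ω ω' hle h)]; exact le_rfl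
    · simp only [if_neg h]; split_ifs <;> norm_num
  have hfkg := hF c N _ _ (hind U' hU') (hind _ (ad_cutP_up t))
  -- decomposition over the levels
  set KK : Finset ℤ := Finset.Icc (-((Λ.card : ℤ) + 1)) ((Λ.card : ℤ) + 1) with hKK
  have hdec : ∀ ω, AdAdm Λ ω → (if AdCutP t ω then (1 : ℝ) else 0) = ∑ k ∈ KK, if AdCut t k ω then (1 : ℝ) else 0 := by
    intro ω hω
    by_cases hc : AdCutP t ω
    · obtain ⟨k, hk, hck⟩ := ad_cut_level ht htS hω hc
      rw [if_pos hc, Finset.sum_eq_single k]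
      · rw [if_pos hck]
      · intro k' _ hne
        rw [if_neg fun h => hne (ad_cut_unique ht.1 h hck)]
      · intro hn
        exact absurd (Finset.mem_Icc.2 (abs_le.1 hk)) hn
    · rw [if_neg hc]
      exact (Finset.sum_eq_zero fun k _ => if_neg fun h => hc (ad_cut_cutP h)).symm
  have hcutk : ∀ k, adS q Λ (fun ω => if AdCut t k ω then (if U (adIn t k ω) then (1 : ℝ) else 0) * 1 else 0) * adZ q t
      = adS q Λ (fun ω => if AdCut t k ω then (1 : ℝ) else 0) * adS q t (fun ω => if U ω then (1 : ℝ) else 0) :=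
    fun k => ad_cut q htS k (fun ω => if U ω then (1 : ℝ) else 0) (fun _ => 1) (fun _ _ _ _ _ => rfl)
  have hkey : adS q Λ (fun ω => (if U' ω then (1 : ℝ) else 0) * (if AdCutP t ω then (1 : ℝ) else 0)) * adZ q t
      ≤ adS q Λ (fun ω => if AdCutP t ω then (1 : ℝ) else 0) * adS q t (fun ω => if U ω then (1 : ℝ) else 0) := by
    have e1 : adS q Λ (fun ω => (if U' ω then (1 : ℝ) else 0) * (if AdCutP t ω then (1 : ℝ) else 0))
        ≤ ∑ k ∈ KK, adS q Λ (fun ω => if AdCut t k ω then (if U (adIn t k ω) then (1 : ℝ) else 0) * 1 else 0) := by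
      rw [← ad_S_sum]
      refine ad_S_mono h0.le h1 Λ fun ω hω => ?_
      rw [hdec ω hω, Finset.mul_sum]
      refine Finset.sum_le_sum fun k _ => ?_
      by_cases hck : AdCut t k ω
      · rw [if_pos hck, if_pos hck, mul_one, mul_one]
        by_cases hu : U' ω
        · rw [if_pos hu, if_pos (hUU ω k hω hck hu)]
        · rw [if_neg hu]; split_ifs <;> norm_num
      · rw [if_neg hck, if_neg hck, mul_zero]
    have e2 : adS q Λ (fun ω => if AdCutP t ω then (1 : ℝ) else 0)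
        = ∑ k ∈ KK, adS q Λ (fun ω => if AdCut t k ω then (1 : ℝ) else 0) := by
      rw [← ad_S_sum]
      exact ad_S_congr q Λ hdec
    calc _ ≤ (∑ k ∈ KK, adS q Λ (fun ω => if AdCut t k ω then (if U (adIn t k ω) then (1 : ℝ) else 0) * 1 else 0)) * adZ q t :=
          mul_le_mul_of_nonneg_right e1 hZt.le
      _ = _ := by
          rw [Finset.sum_mul, e2, Finset.sum_mul]
          exact Finset.sum_congr rfl fun k _ => hcutk k
  -- conclusion
  have hE : adE q Λ (fun ω => (if U' ω then (1 : ℝ) else 0) * (if AdCutP t ω then (1 : ℝ) else 0))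
      ≤ adP q Λ (AdCutP t) * adP q t U := by
    unfold adP adE
    rw [div_mul_div_comm, div_le_div_iff₀ hZ (mul_pos hZ hZt)]
    calc _ = (adS q Λ (fun ω => (if U' ω then (1 : ℝ) else 0) * (if AdCutP t ω then (1 : ℝ) else 0)) * adZ q t) * adZ q Λ := by ring
      _ ≤ _ := mul_le_mul_of_nonneg_right hkey hZ.le
  have hfin : adP q Λ U' * adP q Λ (AdCutP t) ≤ adP q t U * adP q Λ (AdCutP t) := by
    rw [mul_comm (adP q t U)]
    exact hfkg.trans hE
  exact le_of_mul_le_mul_right hfin hpos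

/-- **D2**, decreasing events. -/
theorem ad_T2_down {q : ℝ} (h0 : 0 < q) (h1 : q ≤ 1) (hF : AdFKG q) (c : TV) (N : ℕ) {t : Finset TV} (ht : AdNice t)
    (htS : latCl t ⊆ latBall c N) (D' D : AdC → Prop) (hD' : AdDown D')
    (hDD : ∀ ω k, AdAdm (latBall c N) ω → AdCut t k ω → D (adIn t k ω) → D' ω) :
    adP q t D ≤ adP q (latBall c N) D' := by
  have h := ad_T2 h0 h1 hF c N ht htS (fun ω => ¬ D' ω) (fun ω => ¬ D ω)
    (fun ω ω' hle hn hd => hn (hD' ω ω' hle hd)) (fun ω k hω hc hn hd => hn (hDD ω k hω hc hd))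
  rw [ad_P_compl h0 h1, ad_P_compl h0 h1] at h
  linarith

end Claimed.Agent.R291
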