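import Claimed.Agent.R291.Defs.Lat
import Claimed.Agent.R291.Tool.TriSCLat

/-!
# Row 291 (S0539), ANN block A6 = THEOREM D, route D2 : DEFINITIONS      (owner helper149; prefix `ad` / `Ad`)

Mathematics: `origin/helper149:notes/R291/thmD2_149.md` (our own proof; replaces the Burton-Keane route).  TEX[thm:circuit-input], chain of 121 (T23_CHAIN A6).

HEIGHT LANGUAGE.  A configuration is `ω = (h, O)`: `h : TV → ℤ` (total, `0` off the domain), `O` = set of OPEN up-cells (a cell is named by its lower left corner `y`,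
`cellV y = {y, y+(1,0), y+(0,1)}`).  Domain = finite set of sites `S`; only the up-cells INSIDE `S` interact (`latCellsIn S`); on the layer `latBd S` (= sites of `S`
lying in a cell which is not inside `S`) `h ∈ {0,1}`, i.e. first spin `+`, second spin free: this is the law `P^+_S` of 121's chain, with the heights kept.
First spin `B = +` iff `h mod 4 ∈ {0,1}` (`AdB`).  Cell table (discrete:cell-table) in height language = `adPhi`.

* `AdAdm S ω`, `adCfg S`, `adWt q S ω`, `adS q S F` (unnormalised sum), `adZ`, `adE`, `adP`;   height marginal: `AdHAdm`, `adHCfg`, `adHW`, `adHS`.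
* `AdPlus ω y` (open, `B = +` on the cell), `AdBad S ω y` (interacting cell which is not plus), `adTau`, the `(B,τ)`-order `AdLe`, `AdMono`, `AdUp`, `AdDown`.
* `AdInv bad A` = closure of the site set `A` under the bad cells;  `AdArm S v m ω` = the closure of the complement of `Λ_{2m}(v)` reaches `Λ_m(v)`;
  `adProt`, `adT0 S v m ω` = component of `v` in the protected set, `adT0f` the same as a `Finset`;  `AdLev0`, `AdG` (good event: no arm, cut at level `0`).
* deterministic cuts: `AdCut t k ω` (all cells meeting `t` and its complement are open with heights in `{4k, 4k+1}`), `adIn`, `adOut`, `adGlue`.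
* `AdNice t` : `t` and its complement are connected.
* `AdAut` : class preserving lattice automorphisms, action `adPush` on configurations.
* `adE1 S h` : sites joined to the layer by sites of height `≥ 1`.
* `AdFKG q` : THE external input (Prop 2.4 on hexagons, in height language).   `AdMixH q ε` : the hypothesis of Theorem D2.
-/

set_option autoImplicit false

namespace Claimed.Agent.R291

open Claims Claims.C0467

/-- configuration: heights and the set of OPEN up-cells -/
abbrev AdC : Type := (TV → ℤ) × Finset TV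

/-- the first spin of the height `k` is plus -/
def AdB (k : ℤ) : Prop := k % 4 = 0 ∨ k % 4 = 1

instance adBDec : DecidablePred AdB := fun k => by unfold AdB; infer_instance

/-- admissible heights for the domain `S` -/
structure AdHAdm (S : Finset TV) (h : TV → ℤ) : Prop where
  off : ∀ u, u ∉ S → h u = 0
  lip : ∀ u ∈ S, ∀ v ∈ S, triAdj u v → |h u - h v| ≤ 1
  lay : ∀ u ∈ latBd S, h u = 0 ∨ h u = 1

/-- admissible configurations for the domain `S` -/
structure AdAdm (S : Finset TV) (ω : AdC) : Prop where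
  ht : AdHAdm S ω.1
  opn : ω.2 ⊆ latCellsIn S

/-- `h` is constant on the cell `y` -/
def AdK (h : TV → ℤ) (y : TV) : Prop := h (y + (1, 0)) = h y ∧ h (y + (0, 1)) = h y

instance adKDec (h : TV → ℤ) (y : TV) : Decidable (AdK h y) := by unfold AdK; infer_instance

/-- the first spin is constant on the cell `y` -/
def AdBc (h : TV → ℤ) (y : TV) : Prop := (AdB (h (y + (1, 0))) ↔ AdB (h y)) ∧ (AdB (h (y + (0, 1))) ↔ AdB (h y))

instance adBcDec (h : TV → ℤ) (y : TV) : Decidable (AdBc h y) := by unfold AdBc; infer_instance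

/-- the cell table in height language -/
def adPhi (q : ℝ) (ω : AdC) (y : TV) : ℝ :=
  if y ∈ ω.2 then (if AdBc ω.1 y then q else 0)
  else (if AdK ω.1 y then 1 - q else (if AdBc ω.1 y then 0 else q))

/-- weight of a configuration -/
def adWt (q : ℝ) (S : Finset TV) (ω : AdC) : ℝ := ∏ y ∈ latCellsIn S, adPhi q ω y

open Classical in
/-- the finite set of admissible configurations (`ad_adm_finite`) -/
noncomputable def adCfg (S : Finset TV) : Finset AdC :=
  if hf : {ω | AdAdm S ω}.Finite then hf.toFinset else ∅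

/-- unnormalised sum -/
noncomputable def adS (q : ℝ) (S : Finset TV) (F : AdC → ℝ) : ℝ := ∑ ω ∈ adCfg S, adWt q S ω * F ω

/-- partition function -/
noncomputable def adZ (q : ℝ) (S : Finset TV) : ℝ := adS q S (fun _ => 1)

/-- expectation -/
noncomputable def adE (q : ℝ) (S : Finset TV) (F : AdC → ℝ) : ℝ := adS q S F / adZ q S

open Classical in
/-- probability -/
noncomputable def adP (q : ℝ) (S : Finset TV) (K : AdC → Prop) : ℝ := adE q S (fun ω => if K ω then 1 else 0)

open Classical in
/-- the finite set of admissible heights -/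
noncomputable def adHCfg (S : Finset TV) : Finset (TV → ℤ) :=
  if hf : {h | AdHAdm S h}.Finite then hf.toFinset else ∅

/-- weight of the height marginal -/
def adHW (q : ℝ) (S : Finset TV) (h : TV → ℤ) : ℝ := ∏ y ∈ latCellsIn S, if AdK h y then 1 else q

/-- unnormalised sum of the height marginal -/
noncomputable def adHS (q : ℝ) (S : Finset TV) (F : (TV → ℤ) → ℝ) : ℝ := ∑ h ∈ adHCfg S, adHW q S h * F h

/-! ### plus cells, the `(B,τ)` order -/

/-- the cell `y` is open-plus -/
def AdPlus (ω : AdC) (y : TV) : Prop := y ∈ ω.2 ∧ ∀ u ∈ cellV y, AdB (ω.1 u)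

/-- the cell `y` interacts in `S` and is not open-plus (cells which are not inside `S` count as plus) -/
def AdBad (S : Finset TV) (ω : AdC) (y : TV) : Prop := y ∈ latCellsIn S ∧ ¬ AdPlus ω y

/-- the status `τ_y ∈ {-1,0,1}` -/
def adTau (ω : AdC) (y : TV) : ℤ := if y ∈ ω.2 then (if AdB (ω.1 y) then 1 else -1) else 0

/-- the order of `(B, τ)` -/
def AdLe (ω ω' : AdC) : Prop := (∀ u, AdB (ω.1 u) → AdB (ω'.1 u)) ∧ ∀ y, adTau ω y ≤ adTau ω' y

/-- increasing function of `(B, τ)` (in particular a function of `(B, τ)` only) -/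
def AdMono (F : AdC → ℝ) : Prop := ∀ ω ω', AdLe ω ω' → F ω ≤ F ω'

/-- increasing event of `(B, τ)` -/
def AdUp (K : AdC → Prop) : Prop := ∀ ω ω', AdLe ω ω' → K ω → K ω'

/-- decreasing event of `(B, τ)` -/
def AdDown (K : AdC → Prop) : Prop := ∀ ω ω', AdLe ω ω' → K ω' → K ω

/-! ### closure under bad cells, arms, the protected component -/

/-- closure of the site set `A` under the cells of `bad` -/
inductive AdInv (bad : TV → Prop) (A : Set TV) : TV → Prop
  | base {u : TV} : u ∈ A → AdInv bad A u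
  | step {u v y : TV} : AdInv bad A u → bad y → u ∈ cellV y → v ∈ cellV y → AdInv bad A v

/-- the sites invaded from the complement of `Λ_{2m}(v)` through non-plus cells -/
def adI (S : Finset TV) (v : TV) (m : ℕ) (ω : AdC) : Set TV :=
  {u | AdInv (AdBad S ω) ((↑(latBall v (2 * m)) : Set TV)ᶜ) u}

/-- non-plus arm across `Λ_{2m}(v) \ Λ_m(v)` -/
def AdArm (S : Finset TV) (v : TV) (m : ℕ) (ω : AdC) : Prop := ∃ u ∈ latBall v m, u ∈ adI S v m ω

/-- the protected component of `v` -/
def adT0 (S : Finset TV) (v : TV) (m : ℕ) (ω : AdC) : Set TV := tscComp tscG (adI S v m ω)ᶜ v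

open Classical in
/-- the protected component as a `Finset` -/
noncomputable def adT0f (S : Finset TV) (v : TV) (m : ℕ) (ω : AdC) : Finset TV :=
  (latBall v (2 * m)).filter (fun u => u ∈ adT0 S v m ω)

/-- the cell `y` meets `t` and its complement -/
def AdX (t : Set TV) (y : TV) : Prop := (∃ u ∈ cellV y, u ∈ t) ∧ ∃ u ∈ cellV y, u ∉ t

/-- all cells which meet `t` and its complement are open with heights in `{4k, 4k+1}` -/
def AdCut (t : Finset TV) (k : ℤ) (ω : AdC) : Prop :=
  ∀ y, AdX (↑t) y → y ∈ ω.2 ∧ ∀ u ∈ cellV y, ω.1 u = 4 * k ∨ ω.1 u = 4 * k + 1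

/-- all cells which meet `t` and its complement are open-plus -/
def AdCutP (t : Finset TV) (ω : AdC) : Prop := ∀ y, AdX (↑t) y → AdPlus ω y

/-- good event: no arm, and the cut of the protected component is at level `0` -/
def AdG (S : Finset TV) (v : TV) (m : ℕ) (ω : AdC) : Prop := ¬ AdArm S v m ω ∧ AdCut (adT0f S v m ω) 0 ω

/-- inside part of a configuration, moved to level `0` -/
def adIn (t : Finset TV) (k : ℤ) (ω : AdC) : AdC :=
  (fun u => if u ∈ t then ω.1 u - 4 * k else 0, ω.2 ∩ latCellsIn t)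

/-- outside part of a configuration -/
def adOut (t : Finset TV) (ω : AdC) : AdC := (fun u => if u ∈ t then 0 else ω.1 u, ω.2 \ latCellsIn t)

/-- glue an inside part (at level `k`) and an outside part -/
def adGlue (t : Finset TV) (k : ℤ) (ωi ωo : AdC) : AdC :=
  (fun u => if u ∈ t then ωi.1 u + 4 * k else ωo.1 u, (ωi.2 ∩ latCellsIn t) ∪ (ωo.2 \ latCellsIn t))

/-- `t` is nonempty, connected, with connected complement -/
def AdNice (t : Finset TV) : Prop :=
  t.Nonempty ∧ TscConn tscG (↑t : Set TV) ∧ TscConn tscG ((↑t : Set TV)ᶜ)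

/-! ### symmetries -/

/-- class preserving automorphism of the lattice: `f` acts on the sites, `c` on the (corners of the) up-cells -/
structure AdAut where
  f : TV ≃ TV
  c : TV ≃ TV
  adj : ∀ u v, triAdj u v ↔ triAdj (f u) (f v)
  cell : ∀ y, cellV (c y) = (cellV y).image f

/-- action on configurations -/
def adPush (g : AdAut) (ω : AdC) : AdC := (fun u => ω.1 (g.f.symm u), ω.2.image g.c)

/-- global flip `h ↦ 1 - h` on `S` -/
def adFlipS (S : Finset TV) (ω : AdC) : AdC := (fun u => if u ∈ S then 1 - ω.1 u else 0, ω.2)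

/-! ### the percolation `σ = 1[h ≥ 1]` -/

/-- sites joined to the layer by a path of sites of height `≥ 1` -/
def adE1 (S : Finset TV) (h : TV → ℤ) : Set TV :=
  {u | ∃ b ∈ latBd S, TscR tscG {w | w ∈ S ∧ 1 ≤ h w} b u ∧ 1 ≤ h b}

/-- `z` and `z'` are joined inside `R` by sites of height `≤ 0` -/
def AdJ0 (R : Set TV) (z z' : TV) (h : TV → ℤ) : Prop := z ∈ R ∧ h z ≤ 0 ∧ TscR tscG {w | w ∈ R ∧ h w ≤ 0} z z'

/-! ### the external input and the hypothesis -/

/-- **(X1)** positive association of `(B, τ)` under `P^+` on hexagons (Prop 2.4 through the spin lift) -/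
def AdFKG (q : ℝ) : Prop :=
  ∀ (c : TV) (N : ℕ) (F G : AdC → ℝ), AdMono F → AdMono G →
    adE q (latBall c N) F * adE q (latBall c N) G ≤ adE q (latBall c N) (fun ω => F ω * G ω)

/-- **(MIXH)** non-plus arms at scale `m` have probability `≤ ε m`, uniformly in the hexagon and in the centre -/
def AdMixH (q : ℝ) (ε : ℕ → ℝ) : Prop :=
  ∀ (c : TV) (N : ℕ) (v : TV) (m : ℕ), adP q (latBall c N) (AdArm (latBall c N) v m) ≤ ε m

/-! ### D0 : basic API (leaves; prove in place, claim291 key `AD:<name>`) -/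

/-- heights are bounded: walk in direction `(1,0)` until the layer -/
theorem ad_h_bound {S : Finset TV} {h : TV → ℤ} (hh : AdHAdm S h) (u : TV) : |h u| ≤ S.card + 1 := by
  classical
  have z0 : ∀ w : TV, w + (((0 : ℕ) : ℤ), (0 : ℤ)) = w := by
    intro w
    ext <;> simp
  by_cases hu : u ∈ S
  · -- the ray leaves `S`
    have hex : ∃ k : ℕ, k ≤ S.card ∧ u + ((k : ℤ), 0) ∉ S := by
      by_contra hcon
      push Not at hcon
      have hsub : (Finset.range (S.card + 1)).image (fun k : ℕ => u + ((k : ℤ), (0 : ℤ))) ⊆ S := by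
        intro w hw
        obtain ⟨k, hk, rfl⟩ := Finset.mem_image.1 hw
        exact hcon k (by have := Finset.mem_range.1 hk; omega)
      have hcard := Finset.card_le_card hsub
      rw [Finset.card_image_of_injective _ (by
        intro a b hab
        have := congrArg Prod.fst hab
        simpa using this), Finset.card_range] at hcard
      omega
    have key : ∀ (n : ℕ) (w : TV), (∀ j : ℕ, j ≤ n → w + ((j : ℤ), 0) ∈ S) → w + (((n + 1 : ℕ) : ℤ), 0) ∉ S → |h w| ≤ n + 1 := by
      intro n
      induction n with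
      | zero =>
        intro w h1 h2
        have hw : w ∈ S := by
          have := h1 0 le_rfl
          rwa [z0] at this
        have hb : w ∈ latBd S := lat_mem_bd.2 ⟨hw, _, lat_adj_add w (d := (1, 0)) (by decide), by simpa using h2⟩
        rcases hh.lay w hb with h3 | h3 <;> rw [h3] <;> simp
      | succ n ih =>
        intro w h1 h2
        have hw : w ∈ S := by
          have := h1 0 (Nat.zero_le _)
          rwa [z0] at this
        have hw' : w + (1, 0) ∈ S := by
          have := h1 1 (by omega)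
          simpa using this
        have e : ∀ j : ℕ, w + (1, 0) + ((j : ℤ), (0 : ℤ)) = w + (((j + 1 : ℕ) : ℤ), 0) := by
          intro j
          ext
          · simp; ring
          · simp
        have h3 := ih (w + (1, 0)) (fun j hj => by rw [e]; exact h1 (j + 1) (by omega)) (by rw [e]; exact h2)
        have h4 := hh.lip w hw _ hw' (lat_adj_add w (d := (1, 0)) (by decide))
        have h5 := abs_sub_abs_le_abs_sub (h w) (h (w + (1, 0)))
        push_cast at h3 ⊢
        linarith
    have hfind := Nat.find_spec hex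
    have hmin := fun m => @Nat.find_min _ _ hex m
    set k := Nat.find hex with hk
    have hk0 : k ≠ 0 := by
      intro h0
      rw [h0] at hfind
      exact hfind.2 (by rw [z0]; exact hu)
    obtain ⟨n, hn⟩ : ∃ n, k = n + 1 := ⟨k - 1, by omega⟩
    have h6 := key n u (fun j hj => by
      by_contra hc
      exact hmin j (by omega) ⟨by omega, hc⟩) (by rw [← hn]; exact hfind.2)
    have h7 : ((n : ℤ) + 1) ≤ (S.card : ℤ) := by
      have := hfind.1
      rw [hn] at this
      exact_mod_cast this
    linarith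
  · rw [hh.off u hu]
    simp
    positivity

theorem ad_hadm_finite (S : Finset TV) : {h | AdHAdm S h}.Finite := by
  classical
  set M : ℤ := (S.card : ℤ) + 1 with hM
  let ext : (S → ℤ) → TV → ℤ := fun g u => if hu : u ∈ S then g ⟨u, hu⟩ else 0
  refine ((Fintype.piFinset (fun _ : S => Finset.Icc (-M) M)).finite_toSet.image ext).subset ?_
  intro h hh
  refine ⟨fun u => h u, ?_, ?_⟩
  · rw [Finset.mem_coe, Fintype.mem_piFinset]
    intro a
    rw [Finset.mem_Icc]
    exact abs_le.1 (ad_h_bound hh a.1)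
  · funext u
    by_cases hu : u ∈ S
    · simp [ext, hu]
    · simp [ext, hu, hh.off u hu]

theorem ad_adm_finite (S : Finset TV) : {ω | AdAdm S ω}.Finite := by
  refine ((ad_hadm_finite S).prod (latCellsIn S).powerset.finite_toSet).subset ?_
  intro ω hω
  exact ⟨hω.ht, by simpa using hω.opn⟩

theorem ad_mem_cfg {S : Finset TV} {ω : AdC} : ω ∈ adCfg S ↔ AdAdm S ω := by
  unfold adCfg
  rw [dif_pos (ad_adm_finite S)]
  simp

theorem ad_mem_hcfg {S : Finset TV} {h : TV → ℤ} : h ∈ adHCfg S ↔ AdHAdm S h := by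
  unfold adHCfg
  rw [dif_pos (ad_hadm_finite S)]
  simp

theorem ad_phi_nonneg {q : ℝ} (h0 : 0 ≤ q) (h1 : q ≤ 1) (ω : AdC) (y : TV) : 0 ≤ adPhi q ω y := by
  unfold adPhi
  split_ifs <;> linarith

theorem ad_wt_nonneg {q : ℝ} (h0 : 0 ≤ q) (h1 : q ≤ 1) (S : Finset TV) (ω : AdC) : 0 ≤ adWt q S ω :=
  Finset.prod_nonneg fun y _ => ad_phi_nonneg h0 h1 ω y

/-- the flat configuration with all cells open has positive weight -/
theorem ad_Z_pos {q : ℝ} (h0 : 0 < q) (h1 : q ≤ 1) (S : Finset TV) : 0 < adZ q S := by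
  unfold adZ adS
  refine Finset.sum_pos' (fun ω _ => mul_nonneg (ad_wt_nonneg h0.le h1 S ω) zero_le_one) ⟨((fun _ => 0), latCellsIn S), ?_, ?_⟩
  · refine ad_mem_cfg.2 ⟨⟨fun _ _ => rfl, fun _ _ _ _ _ => by simp, fun _ _ => Or.inl rfl⟩, Finset.Subset.refl _⟩
  · rw [mul_one]
    refine Finset.prod_pos fun y hy => ?_
    unfold adPhi
    rw [if_pos hy, if_pos ⟨Iff.rfl, Iff.rfl⟩]
    exact h0

/-- summing out the statuses -/
theorem ad_marg (q : ℝ) (S : Finset TV) (F : (TV → ℤ) → ℝ) : adS q S (fun ω => F ω.1) = adHS q S F := by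
  classical
  have hcfg : adCfg S = adHCfg S ×ˢ (latCellsIn S).powerset := by
    ext ω
    rw [ad_mem_cfg, Finset.mem_product, ad_mem_hcfg, Finset.mem_powerset]
    exact ⟨fun h => ⟨h.ht, h.opn⟩, fun h => ⟨h.1, h.2⟩⟩
  unfold adS adHS
  rw [hcfg, Finset.sum_product]
  refine Finset.sum_congr rfl fun h _ => ?_
  show ∑ y ∈ (latCellsIn S).powerset, adWt q S (h, y) * F h = adHW q S h * F h
  rw [← Finset.sum_mul]
  congr 1
  unfold adHW
  have hpt : ∀ y, (if AdK h y then (1 : ℝ) else q)
      = (if AdBc h y then q else 0) + (if AdK h y then 1 - q else (if AdBc h y then 0 else q)) := by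
    intro y
    by_cases hK : AdK h y
    · have hB : AdBc h y := ⟨by rw [hK.1], by rw [hK.2]⟩
      rw [if_pos hK, if_pos hB, if_pos hK]
      ring
    · by_cases hB : AdBc h y
      · rw [if_neg hK, if_pos hB, if_neg hK, if_pos hB]
        ring
      · rw [if_neg hK, if_neg hB, if_neg hK, if_neg hB]
        ring
  rw [Finset.prod_congr rfl (fun y _ => hpt y), Finset.prod_add]
  refine Finset.sum_congr rfl fun O hO => ?_
  rw [Finset.mem_powerset] at hO
  unfold adWt
  rw [← Finset.prod_sdiff hO, mul_comm]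
  congr 1
  · refine Finset.prod_congr rfl fun y hy => ?_
    unfold adPhi
    rw [if_pos hy]
  · refine Finset.prod_congr rfl fun y hy => ?_
    unfold adPhi
    rw [if_neg (Finset.mem_sdiff.1 hy).2]

theorem ad_S_add (q : ℝ) (S : Finset TV) (F G : AdC → ℝ) : adS q S (fun ω => F ω + G ω) = adS q S F + adS q S G := by
  simp only [adS, mul_add, Finset.sum_add_distrib]

theorem ad_S_smul (q : ℝ) (S : Finset TV) (a : ℝ) (F : AdC → ℝ) : adS q S (fun ω => a * F ω) = a * adS q S F := by
  simp only [adS, Finset.mul_sum]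
  exact Finset.sum_congr rfl fun ω _ => by ring

theorem ad_S_sum {ι : Type*} (q : ℝ) (S : Finset TV) (I : Finset ι) (F : ι → AdC → ℝ) :
    adS q S (fun ω => ∑ i ∈ I, F i ω) = ∑ i ∈ I, adS q S (F i) := by
  simp only [adS, Finset.mul_sum]
  exact Finset.sum_comm

/-- only the admissible configurations matter -/
theorem ad_S_congr (q : ℝ) (S : Finset TV) {F G : AdC → ℝ} (h : ∀ ω, AdAdm S ω → F ω = G ω) : adS q S F = adS q S G :=
  Finset.sum_congr rfl fun ω hω => by rw [h ω (ad_mem_cfg.1 hω)]

theorem ad_S_mono {q : ℝ} (h0 : 0 ≤ q) (h1 : q ≤ 1) (S : Finset TV) {F G : AdC → ℝ} (h : ∀ ω, AdAdm S ω → F ω ≤ G ω) :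
    adS q S F ≤ adS q S G :=
  Finset.sum_le_sum fun ω hω => mul_le_mul_of_nonneg_left (h ω (ad_mem_cfg.1 hω)) (ad_wt_nonneg h0 h1 S ω)

theorem ad_E_mono {q : ℝ} (h0 : 0 < q) (h1 : q ≤ 1) (S : Finset TV) {F G : AdC → ℝ} (h : ∀ ω, AdAdm S ω → F ω ≤ G ω) :
    adE q S F ≤ adE q S G :=
  div_le_div_of_nonneg_right (ad_S_mono h0.le h1 S h) (ad_Z_pos h0 h1 S).le

theorem ad_E_const {q : ℝ} (h0 : 0 < q) (h1 : q ≤ 1) (S : Finset TV) (a : ℝ) : adE q S (fun _ => a) = a := by
  have h := ad_S_smul q S a (fun _ => 1)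
  simp only [mul_one] at h
  unfold adE
  rw [h]
  exact mul_div_cancel_right₀ a (ad_Z_pos h0 h1 S).ne'

theorem ad_P_mono {q : ℝ} (h0 : 0 < q) (h1 : q ≤ 1) (S : Finset TV) {K L : AdC → Prop} (h : ∀ ω, AdAdm S ω → K ω → L ω) :
    adP q S K ≤ adP q S L := by
  classical
  refine ad_E_mono h0 h1 S fun ω hω => ?_
  by_cases hK : K ω
  · rw [if_pos hK, if_pos (h ω hω hK)]
  · rw [if_neg hK]; split_ifs <;> norm_num

theorem ad_P_nonneg {q : ℝ} (h0 : 0 < q) (h1 : q ≤ 1) (S : Finset TV) (K : AdC → Prop) : 0 ≤ adP q S K := by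
  classical
  have := ad_E_mono h0 h1 S (F := fun _ => 0) (G := fun ω => if K ω then 1 else 0)
    (fun ω _ => by split_ifs <;> norm_num)
  rwa [ad_E_const h0 h1] at this

theorem ad_P_le_one {q : ℝ} (h0 : 0 < q) (h1 : q ≤ 1) (S : Finset TV) (K : AdC → Prop) : adP q S K ≤ 1 := by
  classical
  have := ad_E_mono h0 h1 S (F := fun ω => if K ω then 1 else 0) (G := fun _ => 1)
    (fun ω _ => by split_ifs <;> norm_num)
  rwa [ad_E_const h0 h1] at this

/-- union bound -/
theorem ad_P_union {ι : Type*} {q : ℝ} (h0 : 0 < q) (h1 : q ≤ 1) (S : Finset TV) (I : Finset ι) (K : ι → AdC → Prop) :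
    adP q S (fun ω => ∃ i ∈ I, K i ω) ≤ ∑ i ∈ I, adP q S (K i) := by
  classical
  have h2 : ∑ i ∈ I, adP q S (K i) = adE q S (fun ω => ∑ i ∈ I, if K i ω then (1 : ℝ) else 0) := by
    unfold adP adE
    rw [ad_S_sum, Finset.sum_div]
  rw [h2]
  refine ad_E_mono h0 h1 S fun ω _ => ?_
  by_cases hK : ∃ i ∈ I, K i ω
  · rw [if_pos hK]
    obtain ⟨i, hi, hKi⟩ := hK
    have := Finset.single_le_sum (f := fun i => if K i ω then (1 : ℝ) else 0) (fun j _ => by split_ifs <;> norm_num) hi
    simpa [hKi] using this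
  · rw [if_neg hK]
    exact Finset.sum_nonneg fun j _ => by split_ifs <;> norm_num

theorem ad_P_compl {q : ℝ} (h0 : 0 < q) (h1 : q ≤ 1) (S : Finset TV) (K : AdC → Prop) :
    adP q S (fun ω => ¬ K ω) = 1 - adP q S K := by
  classical
  have h3 : adP q S (fun ω => ¬ K ω) + adP q S K = 1 := by
    unfold adP adE
    rw [← add_div, ← ad_S_add, ad_S_congr q S (G := fun _ => 1) (fun ω _ => by by_cases hK : K ω <;> simp [hK])]
    exact div_self (ad_Z_pos h0 h1 S).ne'
  linarith

/-- unfolding equations of the definitions of this file -/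
theorem ad_eqns_cite : True := by
  have := @adPhi.eq_1; have := @adWt.eq_1; have := @adCfg.eq_1; have := @adS.eq_1; have := @adZ.eq_1; have := @adE.eq_1
  have := @adP.eq_1; have := @adHCfg.eq_1; have := @adHW.eq_1; have := @adHS.eq_1; have := @adTau.eq_1; have := @adI.eq_1
  have := @adT0.eq_1; have := @adT0f.eq_1; have := @adIn.eq_1; have := @adOut.eq_1; have := @adGlue.eq_1; have := @adPush.eq_1
  have := @adFlipS.eq_1; have := @adE1.eq_1
  trivial

end Claimed.Agent.R291
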