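import Claimed.Agent.R291.Ann.DMix
import Claimed.Agent.R291.Pl.Ball

/-!
# Row 291, ANN A6 (Theorem D, route D2), block D5 : FLIPS INSIDE PLUS CUTS and the LARGE DEVIATION BOUND      (architect helper149, prover helper85; prefix `ad_`)

Spec: `origin/helper149:notes/R291/thmD2_149.md` Secs 2 (FL), 4 (LD).

`adFl S v m` : on the good event `AdG S v m` (no arm; the cut of `T0 = adT0f S v m ω` is at level `0`) replace `h` by `1 - h` on `T0`; identity off the good event.
 * `(B, τ)` is unchanged (`AdB (1 - k) ↔ AdB k`), so every `adI`, `AdArm`, `adT0f` (any domain, centre, scale) is unchanged;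
 * admissible (across a cut edge both heights are in `{0,1}` before and after), weight preserving (cells inside `T0`: `AdK`, `AdBc` invariant; cut cells: open, `B` constant: `q`), involution.
 * `adX b ω = ∑_{u ∈ b} (h u - 1/2)` changes sign if `b ⊆ Λ_m(v)`, does not change if `b` misses `Λ_{2m}(v)`.
LD: for centres with disjoint `Λ_{2m+1}`:  `E[1_G ∏ e^{-s X_v}] ≤ e^{|I| s² M²/2}` by induction on `I` (`E[F e^{-sX}] = E[F cosh (sX)]` for flip invariant `F`; `Real.cosh_le_exp_half_sq`), Chernoff,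
then `81` classes of boxes of side `m` in a box of side `9 m l`.
-/

set_option autoImplicit false
set_option linter.unusedVariables false

namespace Claimed.Agent.R291

open Claims Claims.C0467

open Classical in
/-- the flip inside the protected component -/
noncomputable def adFl (S : Finset TV) (v : TV) (m : ℕ) (ω : AdC) : AdC :=
  if AdG S v m ω then (fun u => if u ∈ adT0f S v m ω then 1 - ω.1 u else ω.1 u, ω.2) else ω

/-- centred sum of the heights over `b` -/
noncomputable def adX (b : Finset TV) (ω : AdC) : ℝ := ∑ u ∈ b, ((ω.1 u : ℝ) - 1 / 2)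

/-- lattice box of side `n` with lower left corner `c` -/
noncomputable def adBox (c : TV) (n : ℕ) : Finset TV := Finset.Ico c.1 (c.1 + n) ×ˢ Finset.Ico c.2 (c.2 + n)

theorem ad_B_flip (k : ℤ) : AdB (1 - k) ↔ AdB k := by
  unfold AdB; omega

/-- two configurations with the same `(B, τ)` have the same invaded sets -/
theorem ad_I_congr (S : Finset TV) (v : TV) (m : ℕ) {ω ω' : AdC} (h : AdLe ω ω') (h' : AdLe ω' ω) : adI S v m ω = adI S v m ω' :=
  Set.Subset.antisymm (ad_I_anti S v m h') (ad_I_anti S v m h)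

/-- the flip off the good event -/
theorem ad_fl_of_not {S : Finset TV} {v : TV} {m : ℕ} {ω : AdC} (h : ¬ AdG S v m ω) : adFl S v m ω = ω := by
  unfold adFl; rw [if_neg h]

/-- the open cells do not change -/
theorem ad_fl_snd (S : Finset TV) (v : TV) (m : ℕ) (ω : AdC) : (adFl S v m ω).2 = ω.2 := by
  unfold adFl; split_ifs <;> rfl

/-- the flipped heights inside -/
theorem ad_fl_in {S : Finset TV} {v : TV} {m : ℕ} {ω : AdC} (h : AdG S v m ω) {u : TV} (hu : u ∈ adT0f S v m ω) :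
    (adFl S v m ω).1 u = 1 - ω.1 u := by
  unfold adFl; rw [if_pos h]; exact if_pos hu

/-- the heights outside do not change -/
theorem ad_fl_out (S : Finset TV) (v : TV) (m : ℕ) (ω : AdC) {u : TV} (hu : u ∉ adT0f S v m ω) :
    (adFl S v m ω).1 u = ω.1 u := by
  unfold adFl
  split_ifs with h
  · exact if_neg hu
  · rfl

/-- in every case the height is kept or reflected -/
theorem ad_fl_cases (S : Finset TV) (v : TV) (m : ℕ) (ω : AdC) (u : TV) :
    (adFl S v m ω).1 u = ω.1 u ∨ (adFl S v m ω).1 u = 1 - ω.1 u := by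
  by_cases h : AdG S v m ω
  · by_cases hu : u ∈ adT0f S v m ω
    · exact Or.inr (ad_fl_in h hu)
    · exact Or.inl (ad_fl_out S v m ω hu)
  · rw [ad_fl_of_not h]; exact Or.inl rfl

/-- the first spin does not change -/
theorem ad_fl_B (S : Finset TV) (v : TV) (m : ℕ) (ω : AdC) (u : TV) : AdB ((adFl S v m ω).1 u) ↔ AdB (ω.1 u) := by
  rcases ad_fl_cases S v m ω u with h | h <;> rw [h]
  exact ad_B_flip _

theorem ad_fl_le (S : Finset TV) (v : TV) (m : ℕ) (ω : AdC) : AdLe ω (adFl S v m ω) ∧ AdLe (adFl S v m ω) ω := by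
  have hT : ∀ y, adTau (adFl S v m ω) y = adTau ω y := by
    intro y
    unfold adTau
    rw [ad_fl_snd]
    simp only [ad_fl_B]
  exact ⟨⟨fun u h => (ad_fl_B S v m ω u).2 h, fun y => (hT y).ge⟩, ⟨fun u h => (ad_fl_B S v m ω u).1 h, fun y => (hT y).le⟩⟩

theorem ad_fl_I (S S' : Finset TV) (v v' : TV) (m m' : ℕ) (ω : AdC) : adI S' v' m' (adFl S v m ω) = adI S' v' m' ω :=
  ad_I_congr S' v' m' (ad_fl_le S v m ω).2 (ad_fl_le S v m ω).1

theorem ad_fl_T0 (S S' : Finset TV) (v v' : TV) (m m' : ℕ) (ω : AdC) : adT0f S' v' m' (adFl S v m ω) = adT0f S' v' m' ω := by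
  unfold adT0f adT0
  rw [ad_fl_I]

theorem ad_fl_arm (S S' : Finset TV) (v v' : TV) (m m' : ℕ) (ω : AdC) : AdArm S' v' m' (adFl S v m ω) ↔ AdArm S' v' m' ω := by
  unfold AdArm
  rw [ad_fl_I]

/-- a cut at level `0` survives any flip -/
theorem ad_fl_cut0 (S : Finset TV) (v : TV) (m : ℕ) (ω : AdC) {t : Finset TV} (h : AdCut t 0 ω) : AdCut t 0 (adFl S v m ω) := by
  intro y hy
  obtain ⟨h1, h2⟩ := h y hy
  refine ⟨by rw [ad_fl_snd]; exact h1, fun u hu => ?_⟩
  have h3 := h2 u hu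
  rcases ad_fl_cases S v m ω u with h | h <;> rw [h] <;> omega

/-- the good events (any domain, centre, scale) survive any flip -/
theorem ad_fl_G_of (S S' : Finset TV) (v v' : TV) (m m' : ℕ) {ω : AdC} (h : AdG S' v' m' ω) : AdG S' v' m' (adFl S v m ω) :=
  ⟨fun ha => h.1 ((ad_fl_arm S S' v v' m m' ω).1 ha), by rw [ad_fl_T0]; exact ad_fl_cut0 S v m ω h.2⟩

theorem ad_fl_invol (S : Finset TV) (v : TV) (m : ℕ) (ω : AdC) : adFl S v m (adFl S v m ω) = ω := by
  by_cases h : AdG S v m ω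
  · have h' := ad_fl_G_of S S v v m m h
    refine Prod.ext (funext fun u => ?_) (by rw [ad_fl_snd, ad_fl_snd])
    by_cases hu : u ∈ adT0f S v m ω
    · rw [ad_fl_in h' (by rw [ad_fl_T0]; exact hu), ad_fl_in h hu]; ring
    · rw [ad_fl_out S v m _ (by rw [ad_fl_T0]; exact hu), ad_fl_out S v m _ hu]
  · rw [ad_fl_of_not h, ad_fl_of_not h]

/-- the good events (any domain, centre, scale) are invariant under any flip -/
theorem ad_fl_G (S S' : Finset TV) (v v' : TV) (m m' : ℕ) (ω : AdC) : AdG S' v' m' (adFl S v m ω) ↔ AdG S' v' m' ω :=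
  ⟨fun h => by have := ad_fl_G_of S S' v v' m m' h; rwa [ad_fl_invol] at this, ad_fl_G_of S S' v v' m m'⟩

theorem ad_fl_G_self (S : Finset TV) (v : TV) (m : ℕ) (ω : AdC) : AdG S v m (adFl S v m ω) ↔ AdG S v m ω :=
  ad_fl_G S S v v m m ω

theorem ad_fl_G_far (S : Finset TV) {v v' : TV} {m m' : ℕ} (hd : Disjoint (latBall v (2 * m + 1)) (latBall v' (2 * m' + 1))) (ω : AdC) :
    AdG S v' m' (adFl S v m ω) ↔ AdG S v' m' ω :=
  ad_fl_G S S v v' m m' ω

/-- the protected component lies in the ball -/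
theorem ad_T0f_sub (S : Finset TV) (v : TV) (m : ℕ) (ω : AdC) : adT0f S v m ω ⊆ latBall v (2 * m) := by
  classical
  intro u hu
  unfold adT0f at hu
  exact (Finset.mem_filter.1 hu).1

/-- two adjacent sites, one inside `t` and one outside, lie in a cut cell -/
theorem ad_cut_edge {t : Finset TV} {k : ℤ} {ω : AdC} (hc : AdCut t k ω) {u w : TV} (ha : triAdj u w) (hu : u ∈ t) (hw : w ∉ t) :
    (ω.1 u = 4 * k ∨ ω.1 u = 4 * k + 1) ∧ (ω.1 w = 4 * k ∨ ω.1 w = 4 * k + 1) := by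
  obtain ⟨h1, h2⟩ := plh_cellOf_mem (e := (u, w)) ha
  have hX : AdX (↑t) (plhCellOf (u, w)) := ⟨⟨u, h1, hu⟩, ⟨w, h2, hw⟩⟩
  exact ⟨(hc _ hX).2 u h1, (hc _ hX).2 w h2⟩

theorem ad_fl_adm {S : Finset TV} {v : TV} {m : ℕ} (hS : latBall v (2 * m + 1) ⊆ S) {ω : AdC} (hω : AdAdm S ω) : AdAdm S (adFl S v m ω) := by
  by_cases hG : AdG S v m ω
  swap
  · rw [ad_fl_of_not hG]; exact hω
  have hT : adT0f S v m ω ⊆ S := fun u hu => hS (plh_ball_mono v (by omega) (ad_T0f_sub S v m ω hu))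
  refine ⟨⟨fun u hu => ?_, fun u hu w hw ha => ?_, fun u hu => ?_⟩, by rw [ad_fl_snd]; exact hω.opn⟩
  · rw [ad_fl_out S v m ω (fun h => hu (hT h))]
    exact hω.ht.off u hu
  · have h0 := hω.ht.lip u hu w hw ha
    by_cases h1 : u ∈ adT0f S v m ω <;> by_cases h2 : w ∈ adT0f S v m ω
    · rw [ad_fl_in hG h1, ad_fl_in hG h2]
      rw [abs_le] at h0 ⊢
      constructor <;> omega
    · rw [ad_fl_in hG h1, ad_fl_out S v m ω h2]
      obtain ⟨h3, h4⟩ := ad_cut_edge hG.2 ha h1 h2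
      rw [abs_le]
      constructor <;> omega
    · rw [ad_fl_out S v m ω h1, ad_fl_in hG h2]
      obtain ⟨h3, h4⟩ := ad_cut_edge hG.2 (lat_adj_symm ha) h2 h1
      rw [abs_le]
      constructor <;> omega
    · rw [ad_fl_out S v m ω h1, ad_fl_out S v m ω h2]
      exact h0
  · have h0 := hω.ht.lay u hu
    rcases ad_fl_cases S v m ω u with h | h <;> rw [h] <;> omega

/-- `AdBc` is invariant under the flip -/
theorem ad_fl_Bc (S : Finset TV) (v : TV) (m : ℕ) (ω : AdC) (y : TV) : AdBc (adFl S v m ω).1 y ↔ AdBc ω.1 y := by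
  unfold AdBc
  simp only [ad_fl_B]

/-- on a closed cell `AdK` is invariant under the flip -/
theorem ad_fl_K (S : Finset TV) (v : TV) (m : ℕ) (ω : AdC) {y : TV} (hy : y ∉ ω.2) : AdK (adFl S v m ω).1 y ↔ AdK ω.1 y := by
  by_cases hG : AdG S v m ω
  swap
  · rw [ad_fl_of_not hG]
  have hX : ¬ AdX (↑(adT0f S v m ω)) y := fun h => hy (hG.2 y h).1
  have m0 : y ∈ cellV y := by simp [cellV]
  have m1 : y + (1, 0) ∈ cellV y := by simp [cellV]
  have m2 : y + (0, 1) ∈ cellV y := by simp [cellV]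
  unfold AdK
  by_cases h0 : y ∈ adT0f S v m ω
  · have h1 : y + (1, 0) ∈ adT0f S v m ω := by
      by_contra h; exact hX ⟨⟨y, m0, h0⟩, ⟨_, m1, h⟩⟩
    have h2 : y + (0, 1) ∈ adT0f S v m ω := by
      by_contra h; exact hX ⟨⟨y, m0, h0⟩, ⟨_, m2, h⟩⟩
    rw [ad_fl_in hG h0, ad_fl_in hG h1, ad_fl_in hG h2]
    constructor <;> rintro ⟨a, b⟩ <;> constructor <;> omega
  · have h1 : y + (1, 0) ∉ adT0f S v m ω := fun h => hX ⟨⟨_, m1, h⟩, ⟨y, m0, h0⟩⟩
    have h2 : y + (0, 1) ∉ adT0f S v m ω := fun h => hX ⟨⟨_, m2, h⟩, ⟨y, m0, h0⟩⟩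
    rw [ad_fl_out S v m ω h0, ad_fl_out S v m ω h1, ad_fl_out S v m ω h2]

/-- the cell table is invariant under the flip (no hypothesis) -/
theorem ad_fl_phi (q : ℝ) (S : Finset TV) (v : TV) (m : ℕ) (ω : AdC) (y : TV) : adPhi q (adFl S v m ω) y = adPhi q ω y := by
  unfold adPhi
  rw [ad_fl_snd]
  by_cases hy : y ∈ ω.2
  · rw [if_pos hy, if_pos hy]
    simp only [ad_fl_Bc]
  · rw [if_neg hy, if_neg hy]
    simp only [ad_fl_Bc, ad_fl_K S v m ω hy]

theorem ad_fl_wt (q : ℝ) {S : Finset TV} {v : TV} {m : ℕ} (hS : latBall v (2 * m + 1) ⊆ S) {ω : AdC} (hω : AdAdm S ω) :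
    adWt q S (adFl S v m ω) = adWt q S ω :=
  Finset.prod_congr rfl fun y _ => ad_fl_phi q S v m ω y

/-- the flip preserves the law -/
theorem ad_fl_sum (q : ℝ) {S : Finset TV} {v : TV} {m : ℕ} (hS : latBall v (2 * m + 1) ⊆ S) (F : AdC → ℝ) :
    adS q S (fun ω => F (adFl S v m ω)) = adS q S F := by
  unfold adS
  refine Finset.sum_nbij' (adFl S v m) (adFl S v m) ?_ ?_ ?_ ?_ ?_
  · intro ω hω; exact ad_mem_cfg.2 (ad_fl_adm hS (ad_mem_cfg.1 hω))
  · intro ω hω; exact ad_mem_cfg.2 (ad_fl_adm hS (ad_mem_cfg.1 hω))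
  · intro ω _; exact ad_fl_invol S v m ω
  · intro ω _; exact ad_fl_invol S v m ω
  · intro ω hω; rw [ad_fl_wt q hS (ad_mem_cfg.1 hω)]

theorem ad_fl_X_self {S : Finset TV} {v : TV} {m : ℕ} {ω : AdC} (hG : AdG S v m ω) {b : Finset TV} (hb : b ⊆ latBall v m) :
    adX b (adFl S v m ω) = - adX b ω := by
  unfold adX
  rw [← Finset.sum_neg_distrib]
  refine Finset.sum_congr rfl fun u hu => ?_
  rw [ad_fl_in hG (ad_T0_ball hG.1 (hb hu))]
  push_cast
  ring

theorem ad_fl_X_far (S : Finset TV) {v : TV} {m : ℕ} (ω : AdC) {b : Finset TV} (hb : Disjoint b (latBall v (2 * m))) :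
    adX b (adFl S v m ω) = adX b ω := by
  unfold adX
  refine Finset.sum_congr rfl fun u hu => ?_
  rw [ad_fl_out S v m ω (fun h => Finset.disjoint_left.1 hb hu (ad_T0f_sub S v m ω h))]

/-- walk in direction `(1,0)` inside `t` until the cut -/
theorem ad_cut_walk {S t : Finset TV} (htS : t ⊆ S) {ω : AdC} (hω : AdAdm S ω) (hc : AdCut t 0 ω) :
    ∀ (n : ℕ) (u : TV), u ∈ t → u + ((n : ℤ), 0) ∉ t → 1 - (n : ℤ) ≤ ω.1 u ∧ ω.1 u ≤ n := by
  intro n
  induction n with
  | zero =>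
    intro u hu hn
    have e : u + (((0 : ℕ) : ℤ), (0 : ℤ)) = u := by ext <;> simp
    rw [e] at hn
    exact absurd hu hn
  | succ n ih =>
    intro u hu hn
    have ha : triAdj u (u + (1, 0)) := lat_adj_add u (d := (1, 0)) (by decide)
    by_cases hw : u + (1, 0) ∈ t
    · have e : u + (1, 0) + ((n : ℤ), (0 : ℤ)) = u + (((n + 1 : ℕ) : ℤ), 0) := by
        ext
        · simp; ring
        · simp
      have h3 := ih (u + (1, 0)) hw (by rw [e]; exact hn)
      have h4 := hω.ht.lip u (htS hu) _ (htS hw) ha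
      rw [abs_le] at h4
      push_cast
      constructor <;> omega
    · have h3 := (ad_cut_edge hc ha hu hw).1
      push_cast
      constructor <;> omega

/-- on the good event the heights in the protected component are bounded -/
theorem ad_G_height {S : Finset TV} {v : TV} {m : ℕ} (hS : latBall v (2 * m + 1) ⊆ S) {ω : AdC} (hω : AdAdm S ω) (hG : AdG S v m ω)
    {u : TV} (hu : u ∈ adT0f S v m ω) : -(4 * (m : ℤ)) ≤ ω.1 u ∧ ω.1 u ≤ 4 * m + 1 := by
  have hT : adT0f S v m ω ⊆ S := fun u hu => hS (plh_ball_mono v (by omega) (ad_T0f_sub S v m ω hu))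
  have hn : u + (((4 * m + 1 : ℕ) : ℤ), 0) ∉ adT0f S v m ω := by
    intro h
    have h1 := lat_mem_ball.1 (ad_T0f_sub S v m ω h)
    have h2 := lat_mem_ball.1 (ad_T0f_sub S v m ω hu)
    have h3 := plh_N_fst (u + (((4 * m + 1 : ℕ) : ℤ), 0) - v)
    have h4 := plh_N_fst (u - v)
    simp only [Prod.fst_sub, Prod.fst_add] at h3 h4
    omega
  have := ad_cut_walk hT hω hG.2 (4 * m + 1) u hu hn
  push_cast at this
  constructor <;> omega

/-- on the good event the heights in `Λ_m(v)` are bounded: walk in direction `(1,0)` until the cut -/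
theorem ad_X_bound {S : Finset TV} {v : TV} {m : ℕ} (hS : latBall v (2 * m + 1) ⊆ S) {ω : AdC} (hω : AdAdm S ω) (hG : AdG S v m ω)
    {b : Finset TV} (hb : b ⊆ latBall v m) : |adX b ω| ≤ b.card * (4 * m + 1) := by
  unfold adX
  refine (Finset.abs_sum_le_sum_abs _ _).trans ?_
  rw [← nsmul_eq_mul]
  refine Finset.sum_le_card_nsmul _ _ _ fun u hu => ?_
  obtain ⟨h1, h2⟩ := ad_G_height hS hω hG (ad_T0_ball hG.1 (hb hu))
  have h1' : -(4 * (m : ℝ)) ≤ (ω.1 u : ℝ) := by exact_mod_cast h1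
  have h2' : (ω.1 u : ℝ) ≤ 4 * m + 1 := by exact_mod_cast h2
  rw [abs_le]
  constructor <;> linarith

theorem ad_E_smul (q : ℝ) (S : Finset TV) (a : ℝ) (F : AdC → ℝ) : adE q S (fun ω => a * F ω) = a * adE q S F := by
  unfold adE
  rw [ad_S_smul, mul_div_assoc]

open Classical in
/-- moment generating function, unnormalised -/
theorem ad_mgf_S {q : ℝ} (h0 : 0 < q) (h1 : q ≤ 1) {S : Finset TV} {m : ℕ} (b : TV → Finset TV) (M : ℝ) (s : ℝ) (I : Finset TV) :
    (∀ v ∈ I, latBall v (2 * m + 1) ⊆ S) →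
    (∀ v ∈ I, ∀ v' ∈ I, v ≠ v' → Disjoint (latBall v (2 * m + 1)) (latBall v' (2 * m + 1))) →
    (∀ v ∈ I, b v ⊆ latBall v m) → (∀ v ∈ I, ((b v).card : ℝ) * (4 * m + 1) ≤ M) →
    adS q S (fun ω => if (∀ v ∈ I, AdG S v m ω) then Real.exp (-s * ∑ v ∈ I, adX (b v) ω) else 0)
      ≤ Real.exp (I.card * (s ^ 2 * M ^ 2 / 2)) * adZ q S := by
  induction I using Finset.induction_on with
  | empty =>
    intro _ _ _ _
    simp [adZ]
  | insert v0 I hv0 ih =>
    intro hin hsep hb hM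
    have ih' := ih (fun v hv => hin v (Finset.mem_insert_of_mem hv))
      (fun v hv v' hv' => hsep v (Finset.mem_insert_of_mem hv) v' (Finset.mem_insert_of_mem hv'))
      (fun v hv => hb v (Finset.mem_insert_of_mem hv)) (fun v hv => hM v (Finset.mem_insert_of_mem hv))
    have hS0 := hin v0 (Finset.mem_insert_self _ _)
    have hb0 := hb v0 (Finset.mem_insert_self _ _)
    have hM0 := hM v0 (Finset.mem_insert_self _ _)
    set F : AdC → ℝ := fun ω => if (∀ v ∈ I, AdG S v m ω) then Real.exp (-s * ∑ v ∈ I, adX (b v) ω) else 0 with hF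
    have hFnn : ∀ ω, 0 ≤ F ω := by
      intro ω
      simp only [hF]
      split_ifs
      · exact (Real.exp_pos _).le
      · exact le_rfl
    -- `F` is invariant under the flip at `v0`
    have hFinv : ∀ ω, F (adFl S v0 m ω) = F ω := by
      intro ω
      simp only [hF, ad_fl_G]
      have : ∑ v ∈ I, adX (b v) (adFl S v0 m ω) = ∑ v ∈ I, adX (b v) ω := by
        refine Finset.sum_congr rfl fun v hv => ad_fl_X_far S ω ?_
        have hne : v ≠ v0 := fun h => hv0 (h ▸ hv)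
        have hd := hsep v (Finset.mem_insert_of_mem hv) v0 (Finset.mem_insert_self _ _) hne
        exact Finset.disjoint_of_subset_left ((hb v (Finset.mem_insert_of_mem hv)).trans (plh_ball_mono v (by omega)))
          (Finset.disjoint_of_subset_right (plh_ball_mono v0 (by omega)) hd)
      rw [this]
    set A : AdC → ℝ := fun ω => if AdG S v0 m ω then F ω * Real.exp (-s * adX (b v0) ω) else 0 with hA
    set A' : AdC → ℝ := fun ω => if AdG S v0 m ω then F ω * Real.exp (s * adX (b v0) ω) else 0 with hA'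
    have e1 : adS q S (fun ω => if (∀ v ∈ insert v0 I, AdG S v m ω) then Real.exp (-s * ∑ v ∈ insert v0 I, adX (b v) ω) else 0)
        = adS q S A := by
      refine ad_S_congr q S fun ω _ => ?_
      simp only [hA, hF, Finset.forall_mem_insert, Finset.sum_insert hv0]
      by_cases g0 : AdG S v0 m ω
      · by_cases g1 : ∀ v ∈ I, AdG S v m ω
        · rw [if_pos ⟨g0, g1⟩, if_pos g0, if_pos g1, ← Real.exp_add]
          congr 1; ring
        · rw [if_neg (fun h => g1 h.2), if_pos g0, if_neg g1, zero_mul]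
      · rw [if_neg (fun h => g0 h.1), if_neg g0]
    have e2 : adS q S A = adS q S A' := by
      rw [← ad_fl_sum q hS0 A]
      refine ad_S_congr q S fun ω _ => ?_
      simp only [hA, hA', ad_fl_G, hFinv]
      by_cases g0 : AdG S v0 m ω
      · rw [if_pos g0, if_pos g0, ad_fl_X_self g0 hb0]
        congr 2; ring
      · rw [if_neg g0, if_neg g0]
    have e3 : adS q S A + adS q S A' ≤ 2 * Real.exp (s ^ 2 * M ^ 2 / 2) * adS q S F := by
      rw [← ad_S_add, ← ad_S_smul]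
      refine ad_S_mono h0.le h1 S fun ω hω => ?_
      simp only [hA, hA']
      by_cases g0 : AdG S v0 m ω
      · rw [if_pos g0, if_pos g0]
        have hX := (ad_X_bound hS0 hω g0 hb0).trans hM0
        have hc := Real.cosh_le_exp_half_sq (s * adX (b v0) ω)
        rw [Real.cosh_eq] at hc
        have hsq : (s * adX (b v0) ω) ^ 2 / 2 ≤ s ^ 2 * M ^ 2 / 2 := by
          have : (adX (b v0) ω) ^ 2 ≤ M ^ 2 := sq_le_sq' (by linarith [(abs_le.1 hX).1]) (abs_le.1 hX).2
          have := mul_le_mul_of_nonneg_left this (sq_nonneg s)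
          rw [mul_pow]; linarith
        have hc2 := hc.trans (Real.exp_le_exp.2 hsq)
        have e : -s * adX (b v0) ω = -(s * adX (b v0) ω) := by ring
        rw [e]
        have := mul_le_mul_of_nonneg_left hc2 (hFnn ω)
        nlinarith [this]
      · rw [if_neg g0, if_neg g0]
        have := mul_nonneg (mul_nonneg zero_le_two (Real.exp_pos (s ^ 2 * M ^ 2 / 2)).le) (hFnn ω)
        linarith
    rw [e1]
    have e4 : adS q S A ≤ Real.exp (s ^ 2 * M ^ 2 / 2) * adS q S F := by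
      rw [← e2] at e3; linarith
    refine e4.trans ?_
    rw [Finset.card_insert_of_notMem hv0]
    have : Real.exp (((I.card + 1 : ℕ) : ℝ) * (s ^ 2 * M ^ 2 / 2))
        = Real.exp (s ^ 2 * M ^ 2 / 2) * Real.exp (I.card * (s ^ 2 * M ^ 2 / 2)) := by
      rw [← Real.exp_add]; congr 1; push_cast; ring
    rw [this, mul_assoc]
    exact mul_le_mul_of_nonneg_left ih' (Real.exp_pos _).le

open Classical in
/-- **moment generating function** -/
theorem ad_mgf {q : ℝ} (h0 : 0 < q) (h1 : q ≤ 1) {S : Finset TV} {m : ℕ} (I : Finset TV) (hin : ∀ v ∈ I, latBall v (2 * m + 1) ⊆ S)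
    (hsep : ∀ v ∈ I, ∀ v' ∈ I, v ≠ v' → Disjoint (latBall v (2 * m + 1)) (latBall v' (2 * m + 1)))
    (b : TV → Finset TV) (hb : ∀ v ∈ I, b v ⊆ latBall v m) (M : ℝ) (hM : ∀ v ∈ I, ((b v).card : ℝ) * (4 * m + 1) ≤ M) (s : ℝ) :
    adE q S (fun ω => if (∀ v ∈ I, AdG S v m ω) then Real.exp (-s * ∑ v ∈ I, adX (b v) ω) else 0)
      ≤ Real.exp (I.card * (s ^ 2 * M ^ 2 / 2)) := by
  unfold adE
  rw [div_le_iff₀ (ad_Z_pos h0 h1 S)]
  exact ad_mgf_S h0 h1 b M s I hin hsep hb hM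

/-- **Chernoff bound** -/
theorem ad_chernoff {q : ℝ} (h0 : 0 < q) (h1 : q ≤ 1) {S : Finset TV} {m : ℕ} (I : Finset TV) (hI : I.Nonempty)
    (hin : ∀ v ∈ I, latBall v (2 * m + 1) ⊆ S)
    (hsep : ∀ v ∈ I, ∀ v' ∈ I, v ≠ v' → Disjoint (latBall v (2 * m + 1)) (latBall v' (2 * m + 1)))
    (b : TV → Finset TV) (hb : ∀ v ∈ I, b v ⊆ latBall v m) (M : ℝ) (hM0 : 0 < M) (hM : ∀ v ∈ I, ((b v).card : ℝ) * (4 * m + 1) ≤ M)
    (a : ℝ) (ha : 0 ≤ a) :
    adP q S (fun ω => (∀ v ∈ I, AdG S v m ω) ∧ ∑ v ∈ I, adX (b v) ω ≤ -a) ≤ Real.exp (-(a ^ 2 / (2 * I.card * M ^ 2))) := by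
  classical
  have hc : (0 : ℝ) < I.card := by exact_mod_cast hI.card_pos
  set s : ℝ := a / (I.card * M ^ 2) with hs
  have hs0 : 0 ≤ s := by positivity
  have hm := ad_mgf h0 h1 I hin hsep b hb M hM s
  have h2 : adP q S (fun ω => (∀ v ∈ I, AdG S v m ω) ∧ ∑ v ∈ I, adX (b v) ω ≤ -a)
      ≤ adE q S (fun ω => Real.exp (-(s * a)) * (if (∀ v ∈ I, AdG S v m ω) then Real.exp (-s * ∑ v ∈ I, adX (b v) ω) else 0)) := by
    refine ad_E_mono h0 h1 S fun ω _ => ?_
    by_cases hK : (∀ v ∈ I, AdG S v m ω) ∧ ∑ v ∈ I, adX (b v) ω ≤ -a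
    · rw [if_pos hK, if_pos hK.1, ← Real.exp_add]
      refine Real.one_le_exp ?_
      have := mul_le_mul_of_nonneg_left hK.2 hs0
      nlinarith [this]
    · rw [if_neg hK]
      refine mul_nonneg (Real.exp_pos _).le ?_
      split_ifs
      · exact (Real.exp_pos _).le
      · exact le_rfl
  rw [ad_E_smul] at h2
  refine h2.trans ((mul_le_mul_of_nonneg_left hm (Real.exp_pos _).le).trans ?_)
  rw [← Real.exp_add]
  refine (Real.exp_le_exp.2 ?_)
  refine le_of_eq ?_
  rw [hs]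
  field_simp
  ring

/-- an interval of length `m k` is cut in `k` intervals of length `m` -/
theorem ad_sum_Ico_blocks (g : ℤ → ℝ) (a : ℤ) (m k : ℕ) :
    ∑ x ∈ Finset.Ico a (a + ((m * k : ℕ) : ℤ)), g x
      = ∑ i ∈ Finset.range k, ∑ x ∈ Finset.Ico (a + ((m * i : ℕ) : ℤ)) (a + ((m * i : ℕ) : ℤ) + m), g x := by
  induction k with
  | zero => simp
  | succ k ih =>
    rw [Finset.sum_range_succ, ← ih]
    have h1 : a ≤ a + ((m * k : ℕ) : ℤ) := by omega
    have h2 : a + ((m * k : ℕ) : ℤ) ≤ a + ((m * k : ℕ) : ℤ) + m := by omega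
    have e : a + ((m * (k + 1) : ℕ) : ℤ) = a + ((m * k : ℕ) : ℤ) + m := by push_cast; ring
    rw [e, ← Finset.Ico_union_Ico_eq_Ico h1 h2, Finset.sum_union (Finset.Ico_disjoint_Ico_consecutive _ _ _)]

/-- residues modulo `9` -/
theorem ad_sum_range_nine (g : ℕ → ℝ) (l : ℕ) :
    ∑ i ∈ Finset.range (9 * l), g i = ∑ r ∈ Finset.range 9, ∑ α ∈ Finset.range l, g (9 * α + r) := by
  induction l with
  | zero => simp
  | succ l ih =>
    rw [show 9 * (l + 1) = 9 * l + 9 by ring, Finset.sum_range_add, ih, ← Finset.sum_add_distrib]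
    refine Finset.sum_congr rfl fun r _ => ?_
    rw [Finset.sum_range_succ]

/-- a box of side `m k` is cut in `k²` boxes of side `m` -/
theorem ad_sum_box_blocks (f : TV → ℝ) (c : TV) (m k : ℕ) :
    ∑ u ∈ adBox c (m * k), f u
      = ∑ i ∈ Finset.range k, ∑ j ∈ Finset.range k, ∑ u ∈ adBox (c + (((m * i : ℕ) : ℤ), ((m * j : ℕ) : ℤ))) m, f u := by
  unfold adBox
  rw [Finset.sum_product, ad_sum_Ico_blocks (fun x => ∑ y ∈ Finset.Ico c.2 (c.2 + ((m * k : ℕ) : ℤ)), f (x, y))]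
  refine Finset.sum_congr rfl fun i _ => ?_
  rw [Finset.sum_congr rfl (fun x _ => ad_sum_Ico_blocks (fun y => f (x, y)) c.2 m k), Finset.sum_comm]
  refine Finset.sum_congr rfl fun j _ => ?_
  rw [Finset.sum_product]
  rfl

/-- the `81` classes of boxes -/
theorem ad_sum_box_classes (f : TV → ℝ) (c : TV) (m l : ℕ) :
    ∑ u ∈ adBox c (9 * m * l), f u
      = ∑ rs ∈ Finset.range 9 ×ˢ Finset.range 9, ∑ p ∈ Finset.range l ×ˢ Finset.range l,
          ∑ u ∈ adBox (c + (((m * (9 * p.1 + rs.1) : ℕ) : ℤ), ((m * (9 * p.2 + rs.2) : ℕ) : ℤ))) m, f u := by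
  rw [show 9 * m * l = m * (9 * l) by ring, ad_sum_box_blocks, ad_sum_range_nine, Finset.sum_product]
  refine Finset.sum_congr rfl fun r _ => ?_
  rw [Finset.sum_congr rfl (fun α _ => ad_sum_range_nine _ l), Finset.sum_comm]
  refine Finset.sum_congr rfl fun s _ => ?_
  rw [Finset.sum_product]

theorem ad_box_card (c : TV) (n : ℕ) : (adBox c n).card = n * n := by
  unfold adBox
  rw [Finset.card_product, Int.card_Ico, Int.card_Ico]
  simp

theorem ad_fbox_sub_ball (c : TV) (m : ℕ) : adBox c m ⊆ latBall c (2 * m) := by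
  intro u hu
  unfold adBox at hu
  rw [Finset.mem_product, Finset.mem_Ico, Finset.mem_Ico] at hu
  rw [lat_mem_ball]
  unfold latN
  simp only [Prod.fst_sub, Prod.snd_sub]
  omega

theorem ad_P_or {q : ℝ} (h0 : 0 < q) (h1 : q ≤ 1) (S : Finset TV) (K L : AdC → Prop) :
    adP q S (fun ω => K ω ∨ L ω) ≤ adP q S K + adP q S L := by
  classical
  have h2 : adP q S K + adP q S L = adE q S (fun ω => (if K ω then (1 : ℝ) else 0) + (if L ω then (1 : ℝ) else 0)) := by
    unfold adP adE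
    rw [ad_S_add, add_div]
  rw [h2]
  refine ad_E_mono h0 h1 S fun ω _ => ?_
  by_cases hK : K ω <;> by_cases hL : L ω <;> simp [hK, hL]

/-- separation of two centres of one class, one coordinate -/
theorem ad_sep_aux {m α α' r : ℕ} (hm : 3 ≤ m) {a x : ℤ}
    (h1 : (x - (a + ((m * (9 * α + r) : ℕ) : ℤ))).natAbs ≤ 4 * m + 1)
    (h2 : (x - (a + ((m * (9 * α' + r) : ℕ) : ℤ))).natAbs ≤ 4 * m + 1) : α = α' := by
  by_contra hne
  rcases Nat.lt_or_gt_of_ne hne with h | h
  · have h3 : m * (9 * α + r) + 9 * m ≤ m * (9 * α' + r) := by nlinarith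
    omega
  · have h3 : m * (9 * α' + r) + 9 * m ≤ m * (9 * α + r) := by nlinarith
    omega

/-- **D5 EXIT: LARGE DEVIATIONS.**  Box of side `9 m l`, sub-boxes of side `m`, cuts at scale `2m`. -/
theorem ad_ld {q : ℝ} (h0 : 0 < q) (h1 : q ≤ 1) {S : Finset TV} {γ : ℝ} {m l : ℕ} (hm : 3 ≤ m) (hl : 1 ≤ l) (c' : TV)
    (hin : ∀ i j : ℕ, i < 9 * l → j < 9 * l → latBall (c' + (((m * i : ℕ) : ℤ), ((m * j : ℕ) : ℤ))) (4 * m + 1) ⊆ S)
    (hγ : ∀ i j : ℕ, i < 9 * l → j < 9 * l → adP q S (fun ω => ¬ AdG S (c' + (((m * i : ℕ) : ℤ), ((m * j : ℕ) : ℤ))) (2 * m) ω) ≤ γ) :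
    adP q S (fun ω => ∑ u ∈ adBox c' (9 * m * l), ω.1 u ≤ 0)
      ≤ 81 * Real.exp (-((l : ℝ) ^ 2 / (8 * (8 * m + 1) ^ 2))) + 81 * (l : ℝ) ^ 2 * γ := by
  classical
  set cen : ℕ → ℕ → TV := fun i j => c' + (((m * i : ℕ) : ℤ), ((m * j : ℕ) : ℤ)) with hcen
  set R : Finset (ℕ × ℕ) := Finset.range 9 ×ˢ Finset.range 9 with hR
  set L : Finset (ℕ × ℕ) := Finset.range l ×ˢ Finset.range l with hL
  set J : Finset (ℕ × ℕ) := Finset.range (9 * l) ×ˢ Finset.range (9 * l) with hJ
  set io : ℕ × ℕ → ℕ × ℕ → TV := fun rs p => cen (9 * p.1 + rs.1) (9 * p.2 + rs.2) with hio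
  set I : ℕ × ℕ → Finset TV := fun rs => L.image (io rs) with hI
  set a : ℝ := (m : ℝ) ^ 2 * (l : ℝ) ^ 2 / 2 with ha
  set M : ℝ := (m : ℝ) ^ 2 * (8 * m + 1) with hM
  have hm0 : (0 : ℝ) < m := by exact_mod_cast (by omega : 0 < m)
  have hl0 : (0 : ℝ) < l := by exact_mod_cast (by omega : 0 < l)
  have e41 : 2 * (2 * m) + 1 = 4 * m + 1 := by ring
  -- two centres of one class whose enlarged balls meet are equal
  have hsep0 : ∀ rs p p', ¬ Disjoint (latBall (io rs p) (4 * m + 1)) (latBall (io rs p') (4 * m + 1)) → p = p' := by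
    intro rs p p' hd
    rw [Finset.not_disjoint_iff] at hd
    obtain ⟨u, hu, hu'⟩ := hd
    rw [lat_mem_ball] at hu hu'
    have a1 := (plh_N_fst _).trans hu
    have a2 := (plh_N_fst _).trans hu'
    have b1 := (plh_N_snd _).trans hu
    have b2 := (plh_N_snd _).trans hu'
    simp only [hio, hcen, Prod.fst_sub, Prod.snd_sub, Prod.fst_add, Prod.snd_add] at a1 a2 b1 b2
    exact Prod.ext (ad_sep_aux hm a1 a2) (ad_sep_aux hm b1 b2)
  have hinj : ∀ rs, Set.InjOn (io rs) (↑L : Set (ℕ × ℕ)) := by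
    intro rs p _ p' _ hpp
    refine hsep0 rs p p' ?_
    rw [hpp, Finset.not_disjoint_iff]
    exact ⟨_, plh_ball_self _ _, plh_ball_self _ _⟩
  have hcard : ∀ rs, ((I rs).card : ℝ) = (l : ℝ) ^ 2 := by
    intro rs
    rw [hI]
    simp only
    rw [Finset.card_image_of_injOn (hinj rs), hL, Finset.card_product, Finset.card_range]
    push_cast; ring
  have hlt : ∀ rs ∈ R, ∀ p ∈ L, 9 * p.1 + rs.1 < 9 * l ∧ 9 * p.2 + rs.2 < 9 * l := by
    intro rs hrs p hp
    rw [hR, Finset.mem_product, Finset.mem_range, Finset.mem_range] at hrs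
    rw [hL, Finset.mem_product, Finset.mem_range, Finset.mem_range] at hp
    omega
  -- Chernoff for one class
  have hch : ∀ rs ∈ R, adP q S (fun ω => (∀ v ∈ I rs, AdG S v (2 * m) ω) ∧ ∑ v ∈ I rs, adX (adBox v m) ω ≤ -a)
      ≤ Real.exp (-((l : ℝ) ^ 2 / (8 * (8 * m + 1) ^ 2))) := by
    intro rs hrs
    have hne : (I rs).Nonempty := by
      refine Finset.Nonempty.image ⟨(0, 0), ?_⟩ _
      rw [hL, Finset.mem_product]
      exact ⟨Finset.mem_range.2 hl, Finset.mem_range.2 hl⟩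
    have := ad_chernoff h0 h1 (m := 2 * m) (I rs) hne
      (by
        intro v hv
        obtain ⟨p, hp, rfl⟩ := Finset.mem_image.1 hv
        rw [e41]
        exact hin _ _ (hlt rs hrs p hp).1 (hlt rs hrs p hp).2)
      (by
        intro v hv v' hv' hne
        obtain ⟨p, hp, rfl⟩ := Finset.mem_image.1 hv
        obtain ⟨p', hp', rfl⟩ := Finset.mem_image.1 hv'
        rw [e41]
        by_contra hd
        exact hne (by rw [hsep0 rs p p' hd]))
      (fun v => adBox v m) (fun v _ => ad_fbox_sub_ball v m) M (by positivity)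
      (by
        intro v _
        rw [ad_box_card, hM]
        push_cast
        refine le_of_eq ?_
        ring)
      a (by positivity)
    refine this.trans (le_of_eq ?_)
    rw [hcard rs, ha, hM]
    congr 1
    field_simp
    ring
  -- the event
  have hev : ∀ ω : AdC, ∑ u ∈ adBox c' (9 * m * l), ω.1 u ≤ 0 →
      (∃ rs ∈ R, (∀ v ∈ I rs, AdG S v (2 * m) ω) ∧ ∑ v ∈ I rs, adX (adBox v m) ω ≤ -a)
        ∨ ∃ p ∈ J, ¬ AdG S (cen p.1 p.2) (2 * m) ω := by
    intro ω hω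
    by_cases hall : ∀ p ∈ J, AdG S (cen p.1 p.2) (2 * m) ω
    swap
    · right
      push Not at hall
      exact hall
    left
    have hsum : ∑ rs ∈ R, ∑ v ∈ I rs, adX (adBox v m) ω = adX (adBox c' (9 * m * l)) ω := by
      unfold adX
      rw [ad_sum_box_classes]
      refine Finset.sum_congr rfl fun rs _ => ?_
      rw [hI]
      simp only
      rw [Finset.sum_image (hinj rs)]
    have hX : adX (adBox c' (9 * m * l)) ω ≤ ∑ rs ∈ R, (-a) := by
      unfold adX
      rw [Finset.sum_sub_distrib, Finset.sum_const, Finset.sum_const, ad_box_card, hR, Finset.card_product, Finset.card_range]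
      have : ((∑ u ∈ adBox c' (9 * m * l), ω.1 u : ℤ) : ℝ) ≤ 0 := by exact_mod_cast hω
      rw [Int.cast_sum] at this
      simp only [nsmul_eq_mul]
      push_cast
      rw [ha]
      nlinarith [this]
    rw [← hsum] at hX
    obtain ⟨rs, hrs, hle⟩ := Finset.exists_le_of_sum_le (by rw [hR]; exact ⟨(0, 0), by simp⟩) hX
    refine ⟨rs, hrs, fun v hv => ?_, hle⟩
    obtain ⟨p, hp, rfl⟩ := Finset.mem_image.1 hv
    refine hall (9 * p.1 + rs.1, 9 * p.2 + rs.2) ?_
    rw [hJ, Finset.mem_product, Finset.mem_range, Finset.mem_range]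
    exact hlt rs hrs p hp
  refine (ad_P_mono h0 h1 S (fun ω _ h => hev ω h)).trans ((ad_P_or h0 h1 S _ _).trans (add_le_add ?_ ?_))
  · refine (ad_P_union h0 h1 S R _).trans ((Finset.sum_le_sum hch).trans (le_of_eq ?_))
    rw [Finset.sum_const, hR, Finset.card_product, Finset.card_range]
    simp
  · refine (ad_P_union h0 h1 S J _).trans ((Finset.sum_le_sum (g := fun _ => γ) ?_).trans (le_of_eq ?_))
    · intro p hp
      rw [hJ, Finset.mem_product, Finset.mem_range, Finset.mem_range] at hp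
      exact hγ p.1 p.2 hp.1 hp.2
    · rw [Finset.sum_const, hJ, Finset.card_product, Finset.card_range]
      simp only [nsmul_eq_mul]
      push_cast
      ring

/-- unfolding equations of the definitions of this file -/
theorem ad_flip_eqns_cite : True := by
  have := @adFl.eq_1; have := @adX.eq_1; have := @adBox.eq_1
  trivial

end Claimed.Agent.R291
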