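import Claimed.Agent.R291.Ann.DDefs
import Claimed.Agent.R291.Pl.Ball

/-!
# Row 291 (S0539), ANN block A6 = THEOREM D, route D2 : D4 = THE LEVEL LEMMA (LEV)      (owner helper264; prefix `adl_`)

Mathematics: `origin/helper149:notes/R291/thmD2_149.md` Sec. 3.   TEX[thm:circuit-input].

`S = latBall c N`, `ω = (h, O)` admissible.  If there is no arm across `Λ_{2m}(v) \ Λ_m(v)` but the cut of the protected component `T0(v,m)` is NOT at level `0`,
then there is a long chain of non-plus cells around `Λ_m(v)`, hence an arm `AdArm S (v + (k,0)) (k/2)` for some `m ≤ k ≤ 2N`.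

Deterministic proof (site form of Timar, no edges):
* `adlK` := cluster of the sites with `B = +` containing the complement of `S` (`h = 0` off `S`); on it `h ∈ {0,1}` (`adl_K_val`); it contains `Sᶜ` and the layer.
* a cut cell `y` of `T0` is open-plus (`adl_cut_plus`); if it is not at level `0` its three sites miss `adlK`;  `H` := component of the complement of `adlK` at `y`.
* `D` := sites of `H` touching `adlK`: connected (`tsc_plane_timar`), `B = -`, interior sites of `S`: EVERY up-cell containing a site of `D` is bad (`adl_bad`),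
  so every closure `AdInv` which meets `D` contains `D` (`adl_spread`).
* the invaded site of `y` is joined to `Sᶜ` inside the invaded set (`adl_inv_path`), so `D` is invaded; so `T0` misses `D`, so `T0 ⊆ H`.
* the two horizontal rays from `v` leave `H` at `u = v + (k,0)`, `u' = v - (k',0)`, `k, k' ≥ m`, `u, u' ∈ D`: arm from `u'` to `u`.

EXITS: `adl_det`, `adl_lev`, `adl_notG`, `adl_notG_le`.
-/

set_option autoImplicit false

namespace Claimed.Agent.R291

open Relation Claims Claims.C0467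

/-! ### cells -/

theorem adl_cell_adj {y u w : TV} (hu : u ∈ cellV y) (hw : w ∈ cellV y) : u = w ∨ triAdj u w := by
  simp only [cellV, Finset.mem_insert, Finset.mem_singleton] at hu hw
  rw [tsc_adj_iff, Prod.ext_iff]
  simp only [Prod.ext_iff, Prod.fst_add, Prod.snd_add] at hu hw
  omega

/-! ### the closure `AdInv` -/

/-- an invaded site is joined to the base inside the invaded set -/
theorem adl_inv_path {bad : TV → Prop} {A : Set TV} {u : TV} (h : AdInv bad A u) :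
    ∃ a ∈ A, TscR tscG {w | AdInv bad A w} a u := by
  induction h with
  | base h => exact ⟨_, h, tsc_R_refl _⟩
  | @step u v y hu hy huy hvy ih =>
    obtain ⟨a, ha, hau⟩ := ih
    refine ⟨a, ha, ?_⟩
    rcases adl_cell_adj huy hvy with rfl | hadj
    · exact hau
    · exact hau.tail ⟨hadj, hu, AdInv.step hu hy huy hvy⟩

theorem adl_inv_mono {bad : TV → Prop} {A A' : Set TV} (hA : A ⊆ A') {u : TV} (h : AdInv bad A u) : AdInv bad A' u := by
  induction h with
  | base h => exact AdInv.base (hA h)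
  | step _ hy huy hvy ih => exact AdInv.step ih hy huy hvy

/-- the protected set lies inside the ball -/
theorem adl_prot_sub (S : Finset TV) (v : TV) (m : ℕ) (ω : AdC) : (adI S v m ω)ᶜ ⊆ (↑(latBall v (2 * m)) : Set TV) := by
  intro u hu
  by_contra h
  exact hu (AdInv.base h)

theorem adl_T0_sub (S : Finset TV) (v : TV) (m : ℕ) (ω : AdC) : adT0 S v m ω ⊆ (↑(latBall v (2 * m)) : Set TV) :=
  fun _ hu => adl_prot_sub S v m ω hu.1

theorem adl_T0f_coe (S : Finset TV) (v : TV) (m : ℕ) (ω : AdC) : (↑(adT0f S v m ω) : Set TV) = adT0 S v m ω := by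
  classical
  ext u
  simp only [adT0f, Finset.coe_filter, Set.mem_ofPred_eq]
  exact ⟨fun h => h.2, fun h => ⟨adl_T0_sub S v m ω h, h⟩⟩

/-- a cell which meets `T0` and its complement has a protected site in `T0` and an invaded site, and it is not bad -/
theorem adl_cut_cell {S : Finset TV} {v : TV} {m : ℕ} {ω : AdC} {y : TV} (hy : AdX (adT0 S v m ω) y) :
    (∃ u ∈ cellV y, u ∈ adT0 S v m ω) ∧ (∃ e ∈ cellV y, e ∈ adI S v m ω) ∧ ¬ AdBad S ω y := by
  obtain ⟨⟨u, hu, huT⟩, ⟨e, he, heT⟩⟩ := hy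
  have heI : e ∈ adI S v m ω := by
    by_contra hn
    rcases adl_cell_adj hu he with rfl | hadj
    · exact heT huT
    · exact heT (tsc_comp_adj huT hn hadj)
  refine ⟨⟨u, hu, huT⟩, ⟨e, he, heI⟩, fun hbad => ?_⟩
  exact huT.1 (AdInv.step heI hbad he hu)

/-- the sites of a cell which meets the ball of radius `r` lie in the ball of radius `r + 1` -/
theorem adl_cell_ball {v y u : TV} {r : ℕ} (hu : u ∈ cellV y) (hur : u ∈ latBall v r) : cellV y ⊆ latBall v (r + 1) := by
  intro w hw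
  rw [lat_mem_ball] at hur ⊢
  rcases adl_cell_adj hu hw with rfl | hadj
  · omega
  · have h1 : triAdj (u - v) (w - v) := by
      have := (lat_adj_shift (-v) (u := u) (v := w)).2 hadj
      simpa [sub_eq_add_neg] using this
    have := plh_N_adj h1
    omega

/-- **the cut cells of `T0` are open-plus** -/
theorem adl_cut_plus {S : Finset TV} {v : TV} {m : ℕ} {ω : AdC} (hsub : latBall v (2 * m + 1) ⊆ S) :
    AdCutP (adT0f S v m ω) ω := by
  intro y hy
  rw [adl_T0f_coe] at hy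
  obtain ⟨⟨u, hu, huT⟩, -, hnb⟩ := adl_cut_cell hy
  by_contra hp
  exact hnb ⟨lat_mem_cellsIn.2 ((adl_cell_ball hu (adl_T0_sub S v m ω huT)).trans hsub), hp⟩

/-! ### the plus cluster of the outside -/

/-- the sites with first spin plus -/
def adlBp (h : TV → ℤ) : Set TV := {u | AdB (h u)}

/-- the cluster of `x0` in the sites with first spin plus -/
def adlK (h : TV → ℤ) (x0 : TV) : Set TV := tscComp tscG (adlBp h) x0

theorem adl_K_conn (h : TV → ℤ) (x0 : TV) : TscConn tscG (adlK h x0) := tsc_comp_conn x0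

/-- on the plus cluster of the outside the heights are `0` or `1` -/
theorem adl_K_val {S : Finset TV} {h : TV → ℤ} (hh : AdHAdm S h) {x0 : TV} (hx0 : x0 ∉ S) {u : TV} (hu : u ∈ adlK h x0) :
    h u = 0 ∨ h u = 1 := by
  have key : ∀ u, TscR tscG (adlBp h) x0 u → h u = 0 ∨ h u = 1 := by
    intro u hu
    induction hu with
    | refl => exact Or.inl (hh.off _ hx0)
    | @tail a b _ hab ih =>
      by_cases hb : b ∈ S
      · by_cases ha : a ∈ S
        · have h1 := abs_le.1 (hh.lip a ha b hb hab.1)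
          have h2 : AdB (h b) := hab.2.2
          unfold AdB at h2
          omega
        · exact hh.lay b (lat_mem_bd.2 ⟨hb, a, lat_adj_symm hab.1, ha⟩)
      · exact Or.inl (hh.off _ hb)
  exact key u hu.2

theorem adl_K_off {c : TV} {N : ℕ} {h : TV → ℤ} (hh : AdHAdm (latBall c N) h) {x0 : TV} (hx0 : x0 ∉ latBall c N) {u : TV}
    (hu : u ∉ latBall c N) : u ∈ adlK h x0 := by
  have hsub : (↑(latBall c N) : Set TV)ᶜ ⊆ adlBp h := by
    intro w hw
    have : h w = 0 := hh.off w (by simpa using hw)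
    show AdB (h w)
    rw [this]
    exact Or.inl rfl
  exact ⟨hsub (by simpa using hu), tsc_R_mono hsub (plh_ball_compl_conn c N x0 (by simpa using hx0) u (by simpa using hu))⟩

theorem adl_K_lay {c : TV} {N : ℕ} {h : TV → ℤ} (hh : AdHAdm (latBall c N) h) {x0 : TV} (hx0 : x0 ∉ latBall c N) {u : TV}
    (hu : u ∈ latBd (latBall c N)) : u ∈ adlK h x0 := by
  obtain ⟨_, w, huw, hw⟩ := lat_mem_bd.1 hu
  have hB : u ∈ adlBp h := by
    show AdB (h u)
    rcases hh.lay u hu with h0 | h0 <;> rw [h0]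
    · exact Or.inl rfl
    · exact Or.inr rfl
  exact tsc_comp_adj (adl_K_off hh hx0 hw) hB (lat_adj_symm huw)

/-- a site off the plus cluster of the outside is an interior site of `S` -/
theorem adl_K_int {c : TV} {N : ℕ} {h : TV → ℤ} (hh : AdHAdm (latBall c N) h) {x0 : TV} (hx0 : x0 ∉ latBall c N) {u : TV}
    (hu : u ∉ adlK h x0) : u ∈ latInt (latBall c N) := by
  rw [lat_int_eq, Finset.mem_sdiff]
  refine ⟨?_, fun hb => hu (adl_K_lay hh hx0 hb)⟩
  by_contra hn
  exact hu (adl_K_off hh hx0 hn)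

/-- a site off the cluster which touches it has first spin minus -/
theorem adl_K_minus {h : TV → ℤ} {x0 d a : TV} (hd : d ∉ adlK h x0) (ha : a ∈ adlK h x0) (had : triAdj a d) : ¬ AdB (h d) :=
  fun hB => hd (tsc_comp_adj ha hB had)

/-- every up-cell containing an interior site with first spin minus is bad -/
theorem adl_bad {S : Finset TV} {ω : AdC} {d y : TV} (hd : d ∈ latInt S) (hB : ¬ AdB (ω.1 d)) (hdy : d ∈ cellV y) : AdBad S ω y := by
  refine ⟨lat_mem_cellsIn.2 fun w hw => ?_, fun hp => hB (hp.2 d hdy)⟩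
  rcases adl_cell_adj hdy hw with rfl | hadj
  · exact lat_int_sub S hd
  · exact (lat_mem_int.1 hd).2 w hadj

/-- the closure passes from a neighbour to an interior minus site -/
theorem adl_step_in {S : Finset TV} {ω : AdC} {A : Set TV} {d w : TV} (hd : d ∈ latInt S) (hB : ¬ AdB (ω.1 d)) (hadj : triAdj d w)
    (hw : AdInv (AdBad S ω) A w) : AdInv (AdBad S ω) A d := by
  have hc := plh_cellOf_mem (e := (d, w)) hadj
  exact AdInv.step hw (adl_bad hd hB hc.1) hc.2 hc.1

/-- the closure spreads along a connected set of interior minus sites -/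
theorem adl_spread {S : Finset TV} {ω : AdC} {A D : Set TV} (hD : ∀ d ∈ D, d ∈ latInt S ∧ ¬ AdB (ω.1 d)) {a b : TV}
    (hab : TscR tscG D a b) (ha : AdInv (AdBad S ω) A a) : AdInv (AdBad S ω) A b := by
  induction hab with
  | refl => exact ha
  | @tail p r _ hpr ih => exact adl_step_in (hD r hpr.2.2).1 (hD r hpr.2.2).2 (lat_adj_symm hpr.1) ih

/-! ### rays -/

/-- first exit of a horizontal ray from a subset of a hexagon -/
theorem adl_ray {H : Set TV} {c v : TV} {N m : ℕ} (σ : ℤ) (hσ : σ = 1 ∨ σ = -1) (hH : H ⊆ (↑(latBall c N) : Set TV))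
    (hseg : ∀ j : ℕ, j ≤ m → v + (σ * (j : ℤ), 0) ∈ H) :
    ∃ k : ℕ, m ≤ k ∧ k ≤ 2 * N ∧ v + (σ * (k : ℤ), 0) ∈ H ∧ v + (σ * ((k : ℤ) + 1), 0) ∉ H := by
  classical
  have hv : v ∈ latBall c N := by
    have := hH (hseg 0 (Nat.zero_le _))
    have e0 : v + (σ * ((0 : ℕ) : ℤ), 0) = v := by ext <;> simp
    rw [e0] at this
    exact Finset.mem_coe.1 this
  have h2N : v + (σ * (((2 * N : ℕ) : ℤ) + 1), 0) ∉ H := by
    intro hn
    have h1 := lat_mem_ball.1 (Finset.mem_coe.1 (hH hn))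
    have h2 := lat_mem_ball.1 hv
    have h3 := plh_N_fst (v + (σ * (((2 * N : ℕ) : ℤ) + 1), 0) - c)
    have h4 := plh_N_fst (v - c)
    simp only [Prod.fst_sub, Prod.fst_add] at h3 h4
    rcases hσ with rfl | rfl <;> omega
  have hex : ∃ j : ℕ, v + (σ * ((j : ℤ) + 1), 0) ∉ H := ⟨2 * N, h2N⟩
  refine ⟨Nat.find hex, ?_, Nat.find_min' hex h2N, ?_, Nat.find_spec hex⟩
  · by_contra hlt
    have := hseg (Nat.find hex + 1) (by omega)
    push_cast at this
    exact Nat.find_spec hex this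
  · rcases Nat.eq_zero_or_pos (Nat.find hex) with h0 | hpos
    · rw [h0]; exact hseg 0 (Nat.zero_le _)
    · have := Nat.find_min hex (m := Nat.find hex - 1) (by omega)
      rw [not_not] at this
      have e : (((Nat.find hex - 1 : ℕ) : ℤ) + 1) = ((Nat.find hex : ℕ) : ℤ) := by omega
      rwa [e] at this

/-! ### the deterministic part -/

/-- **(LEV), deterministic part** -/
theorem adl_det {c v : TV} {N m : ℕ} {ω : AdC} (hω : AdAdm (latBall c N) ω)
    (hsub : latBall v (2 * m + 1) ⊆ latBall c N)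
    (hA : ¬ AdArm (latBall c N) v m ω) (hC : ¬ AdCut (adT0f (latBall c N) v m ω) 0 ω) :
    ∃ k ∈ Finset.Icc m (2 * N), AdArm (latBall c N) (v + ((k : ℤ), 0)) (k / 2) ω := by
  obtain ⟨x0, hx0⟩ : ∃ x0, x0 ∉ latBall c N := by
    refine ⟨c + ((N : ℤ) + 1, 0), ?_⟩
    rw [lat_mem_ball, add_sub_cancel_left, plh_N_hor]
    omega
  -- a cut cell which is not at level `0`
  unfold AdCut at hC
  push Not at hC
  obtain ⟨y, hy, hyn⟩ := hC
  have hplus : AdPlus ω y := adl_cut_plus hsub y hy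
  obtain ⟨u0, hu0, hu0a, hu0b⟩ := hyn hplus.1
  have hu0K : u0 ∉ adlK ω.1 x0 := by
    intro hk
    rcases adl_K_val hω.ht hx0 hk with h | h
    · exact hu0a (by rw [h]; norm_num)
    · exact hu0b (by rw [h]; norm_num)
  have hyK : ∀ w ∈ cellV y, w ∉ adlK ω.1 x0 := by
    intro w hw hk
    rcases adl_cell_adj hw hu0 with rfl | hadj
    · exact hu0K hk
    · exact hu0K (tsc_comp_adj hk (hplus.2 u0 hu0) hadj)
  have hyH : ∀ w ∈ cellV y, w ∈ tscComp tscG (adlK ω.1 x0)ᶜ u0 := by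
    intro w hw
    rcases adl_cell_adj hu0 hw with rfl | hadj
    · exact tsc_comp_self hu0K
    · exact tsc_comp_adj (tsc_comp_self hu0K) (hyK w hw) hadj
  -- the layer `D`
  have hDc : TscConn tscG {d | d ∈ tscComp tscG (adlK ω.1 x0)ᶜ u0 ∧ ∃ a ∈ adlK ω.1 x0, triAdj a d} :=
    tsc_plane_timar (adl_K_conn _ _) u0
  have hDp : ∀ d ∈ {d | d ∈ tscComp tscG (adlK ω.1 x0)ᶜ u0 ∧ ∃ a ∈ adlK ω.1 x0, triAdj a d},
      d ∈ latInt (latBall c N) ∧ ¬ AdB (ω.1 d) := by
    rintro d ⟨hd, a, ha, had⟩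
    exact ⟨adl_K_int hω.ht hx0 hd.1, adl_K_minus hd.1 ha had⟩
  rw [adl_T0f_coe] at hy
  obtain ⟨⟨u1, hu1, hu1T⟩, ⟨e, he, heI⟩, -⟩ := adl_cut_cell hy
  -- `D` is invaded
  have hDI : ∀ d ∈ {d | d ∈ tscComp tscG (adlK ω.1 x0)ᶜ u0 ∧ ∃ a ∈ adlK ω.1 x0, triAdj a d},
      d ∈ adI (latBall c N) v m ω := by
    obtain ⟨a, ha, hae⟩ := adl_inv_path heI
    have hx0A : x0 ∈ (↑(latBall v (2 * m)) : Set TV)ᶜ :=
      fun hx => hx0 (hsub (plh_ball_mono v (by omega) (Finset.mem_coe.1 hx)))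
    have h1 : TscR tscG (adI (latBall c N) v m ω) x0 a :=
      tsc_R_mono (fun w hw => AdInv.base hw) (plh_ball_compl_conn v (2 * m) x0 hx0A a ha)
    have h2 : TscR tscG (adI (latBall c N) v m ω) e x0 := tsc_R_symm (tsc_R_trans h1 hae)
    obtain ⟨d0, hd0I, hd0D⟩ := tsc_plane_meets (hyH e he) (adl_K_off hω.ht hx0 hx0) h2
    intro d hd
    exact adl_spread hDp (hDc d0 hd0D d hd) hd0I
  -- `T0` misses the plus cluster of the outside
  have hTK : adT0 (latBall c N) v m ω ⊆ (adlK ω.1 x0)ᶜ := by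
    intro w hw hk
    have hp : TscR tscG (adT0 (latBall c N) v m ω) u1 w := tsc_comp_conn v u1 hu1T w hw
    obtain ⟨d, hdT, hdD⟩ := tsc_plane_meets (hyH u1 hu1) hk hp
    exact hdT.1 (hDI d hdD)
  have hTH : adT0 (latBall c N) v m ω ⊆ tscComp tscG (adlK ω.1 x0)ᶜ u0 :=
    plh_conn_sub_comp (tsc_comp_conn v) hTK hu1T (hyH u1 hu1)
  -- the horizontal segment through `v` lies in `T0`
  have hball : ∀ z : ℤ, |z - v.1| ≤ m → (z, v.2) ∈ (adI (latBall c N) v m ω)ᶜ := by
    intro z hz hI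
    refine hA ⟨(z, v.2), ?_, hI⟩
    have e1 : ((z, v.2) : TV) - v = (z - v.1, 0) := by ext <;> simp
    rw [lat_mem_ball, e1, plh_N_hor]
    rw [abs_le] at hz
    omega
  have hseg : ∀ j : ℤ, |j| ≤ m → v + (j, 0) ∈ adT0 (latBall c N) v m ω := by
    intro j hj
    have e1 : v + (j, 0) = (v.1 + j, v.2) := by ext <;> simp
    rw [e1]
    refine ⟨hball _ (by simpa using hj), ?_⟩
    have : TscR tscG (adI (latBall c N) v m ω)ᶜ (v.1, v.2) (v.1 + j, v.2) := by
      refine tsc_R_hseg fun z hz1 hz2 => hball z ?_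
      rw [abs_le] at hj ⊢
      omega
    exact this
  have hHS : tscComp tscG (adlK ω.1 x0)ᶜ u0 ⊆ (↑(latBall c N) : Set TV) :=
    fun w hw => lat_int_sub _ (adl_K_int hω.ht hx0 hw.1)
  obtain ⟨k, hmk, hkN, hkH, hkn⟩ := adl_ray (m := m) (v := v) 1 (Or.inl rfl) hHS
    (fun j hj => hTH (hseg _ (by rw [one_mul, Nat.abs_cast]; exact_mod_cast hj)))
  obtain ⟨k', hmk', -, hkH', hkn'⟩ := adl_ray (m := m) (v := v) (-1) (Or.inr rfl) hHS
    (fun j hj => hTH (hseg _ (by rw [neg_one_mul, abs_neg, Nat.abs_cast]; exact_mod_cast hj)))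
  have hexit : ∀ u w : TV, u ∈ tscComp tscG (adlK ω.1 x0)ᶜ u0 → w ∉ tscComp tscG (adlK ω.1 x0)ᶜ u0 → triAdj u w →
      u ∈ {d | d ∈ tscComp tscG (adlK ω.1 x0)ᶜ u0 ∧ ∃ a ∈ adlK ω.1 x0, triAdj a d} := by
    intro u w hu hw huw
    refine ⟨hu, w, ?_, lat_adj_symm huw⟩
    by_contra hn
    exact hw (tsc_comp_adj hu hn huw)
  have huD := hexit _ _ hkH hkn (by rw [tsc_adj_iff]; simp; omega)
  have huD' := hexit _ _ hkH' hkn' (by rw [tsc_adj_iff]; simp; omega)
  rw [one_mul] at huD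
  have hk1 : 1 ≤ k' := by
    by_contra hlt
    have hk0 : k' = 0 := by omega
    have hm0 : m = 0 := by omega
    have h1 := lat_mem_ball.1 (Finset.mem_coe.1 (adl_T0_sub _ v m ω hu1T))
    rw [hm0, Nat.mul_zero, Nat.le_zero, plh_N_eq_zero, sub_eq_zero] at h1
    have e0 : v + (-1 * (k' : ℤ), 0) = u1 := by rw [hk0, h1]; ext <;> simp
    rw [e0] at huD'
    exact (hDp _ huD').2 (hplus.2 u1 hu1)
  refine ⟨k, Finset.mem_Icc.2 ⟨hmk, hkN⟩, v + ((k : ℤ), 0), plh_ball_self _ _, ?_⟩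
  refine adl_spread hDp (hDc _ huD' _ huD) (AdInv.base ?_)
  intro hin
  have h1 := lat_mem_ball.1 (Finset.mem_coe.1 hin)
  have e1 : v + (-1 * (k' : ℤ), 0) - (v + ((k : ℤ), 0)) = (-(k' : ℤ) - k, 0) := by ext <;> simp
  rw [e1, plh_N_hor] at h1
  omega

/-! ### the probabilistic part -/

/-- **(LEV)** : no arm at `(v,m)` but the cut of `T0(v,m)` is not at level `0` -/
theorem adl_lev {q : ℝ} (h0 : 0 < q) (h1 : q ≤ 1) {ε : ℕ → ℝ} (hmix : AdMixH q ε) (c v : TV) (N m : ℕ)
    (hsub : latBall v (2 * m + 1) ⊆ latBall c N) :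
    adP q (latBall c N) (fun ω => ¬ AdArm (latBall c N) v m ω ∧ ¬ AdCut (adT0f (latBall c N) v m ω) 0 ω)
      ≤ ∑ k ∈ Finset.Icc m (2 * N), ε (k / 2) := by
  calc adP q (latBall c N) (fun ω => ¬ AdArm (latBall c N) v m ω ∧ ¬ AdCut (adT0f (latBall c N) v m ω) 0 ω)
      ≤ adP q (latBall c N) (fun ω => ∃ k ∈ Finset.Icc m (2 * N), AdArm (latBall c N) (v + ((k : ℤ), 0)) (k / 2) ω) :=
        ad_P_mono h0 h1 _ (fun ω hω h => adl_det hω hsub h.1 h.2)
    _ ≤ ∑ k ∈ Finset.Icc m (2 * N), adP q (latBall c N) (AdArm (latBall c N) (v + ((k : ℤ), 0)) (k / 2)) :=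
        ad_P_union h0 h1 _ _ _
    _ ≤ ∑ k ∈ Finset.Icc m (2 * N), ε (k / 2) := Finset.sum_le_sum fun k _ => hmix c N _ _

/-- binary union bound -/
theorem adl_P_or {q : ℝ} (h0 : 0 < q) (h1 : q ≤ 1) (S : Finset TV) (K L : AdC → Prop) :
    adP q S (fun ω => K ω ∨ L ω) ≤ adP q S K + adP q S L := by
  have h := ad_P_union h0 h1 S (Finset.univ : Finset Bool) (fun b => if b then K else L)
  rw [Fintype.sum_bool] at h
  refine le_trans (ad_P_mono h0 h1 S fun ω _ hω => ?_) h
  rcases hω with hK | hL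
  · exact ⟨true, Finset.mem_univ _, hK⟩
  · exact ⟨false, Finset.mem_univ _, hL⟩

/-- **the good event `AdG` is likely** -/
theorem adl_notG {q : ℝ} (h0 : 0 < q) (h1 : q ≤ 1) {ε : ℕ → ℝ} (hmix : AdMixH q ε) (c v : TV) (N m : ℕ)
    (hsub : latBall v (2 * m + 1) ⊆ latBall c N) :
    adP q (latBall c N) (fun ω => ¬ AdG (latBall c N) v m ω) ≤ ε m + ∑ k ∈ Finset.Icc m (2 * N), ε (k / 2) := by
  classical
  refine le_trans (ad_P_mono h0 h1 _ (L := fun ω => AdArm (latBall c N) v m ω ∨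
    (¬ AdArm (latBall c N) v m ω ∧ ¬ AdCut (adT0f (latBall c N) v m ω) 0 ω)) fun ω _ hω => ?_) ?_
  · by_cases hA : AdArm (latBall c N) v m ω
    · exact Or.inl hA
    · exact Or.inr ⟨hA, fun hC => hω ⟨hA, hC⟩⟩
  · exact le_trans (adl_P_or h0 h1 _ _ _) (add_le_add (hmix c N v m) (adl_lev h0 h1 hmix c v N m hsub))

/-- the same with a bound `lam` of the tail sums, uniform in the hexagon -/
theorem adl_notG_le {q : ℝ} (h0 : 0 < q) (h1 : q ≤ 1) {ε : ℕ → ℝ} (hmix : AdMixH q ε) (c v : TV) (N m : ℕ)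
    (hsub : latBall v (2 * m + 1) ⊆ latBall c N) {lam : ℝ} (hlam : ∀ M, ∑ k ∈ Finset.Icc m M, ε (k / 2) ≤ lam) :
    adP q (latBall c N) (fun ω => ¬ AdG (latBall c N) v m ω) ≤ ε m + lam :=
  le_trans (adl_notG h0 h1 hmix c v N m hsub) (by linarith [hlam (2 * N)])

/-- unfolding equations of the definitions of this file -/
theorem adl_eqns_cite : True := by
  have := @adlBp.eq_1; have := @adlK.eq_1
  trivial

end Claimed.Agent.R291
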