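import Claimed.Agent.R291.Ann.DCut
import Claimed.Agent.R291.Ann.DLev

/-!
# Row 291, ANN A6 (Theorem D, route D2), blocks D3 + D4 : ARMS, THE PROTECTED COMPONENT, MARKOV PROPERTY, DESCENT, LEVEL      (architect helper149; prefix `ad_`)

Spec: `origin/helper149:notes/R291/thmD2_149.md` Secs 0, 2, 3, 9.

`adI S v m ω` = closure of the complement of `Λ_{2m}(v)` under the non-plus cells of `S`;  `AdArm` = it reaches `Λ_m(v)`;  `adT0` = component of `v` in its complement.
D3a  API: monotone in `(B,τ)`, contained in the ball, contains `Λ_m(v)` off the arm event, nice, its cut cells are plus, LOCALITY (`ad_T0_loc`: `{T0 = t}` does not depend on the inside of `t`).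
D3b  `ad_mk` Markov property at `T0`;  `ad_arm_in` (arms at a smaller scale are read inside `t`);  `ad_descent`, `ad_enlarge`.
D4   `ad_lev_det` (deterministic): no arm at `(v,m)` but a cut cell of `T0` off level `0`  ⟹  an arm at `(v + (k,0), k/2)` for some `k ≥ m`.   `ad_bad` : `P[¬ AdG] ≤ ε m + ∑ ε (k/2)`.
   Proof of `ad_lev_det` (site form of Timar):  `K` := complement of `S` together with the sites joined to `latBd S` by `B = +` sites (connected; `h ∈ {0,1}` on `K ∩ S`).  A cut cell off level `0` misses `K`.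
   `H` := `tscComp tscG Kᶜ w`.   `L` := sites of `H` adjacent to `K`: connected (`tsc_plane_timar`), all `B = -`, so every cell containing one of them is bad: if `adI` contains one site of `L` it contains `L`.
   The cut cell has a site `e ∈ adI`; `adI` is connected and contains `Sᶜ ⊆ K`: a path from `e ∈ H` to `K` inside `adI` visits `L` (`tsc_plane_meets`).  So `L ⊆ adI`.   If `T0` met `K`, a path inside `T0` would visit `L`: impossible.
   So `Λ_m(v) ⊆ T0 ⊆ H`.  The two horizontal rays from `v` leave `H` through `L` at `v + (k,0)`, `v - (k',0)`, `k, k' ≥ m`; `L` is a connected set of bad sites of diameter `≥ k + k'`: arm at `(v + (k,0), k/2)`.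
-/

set_option autoImplicit false

namespace Claimed.Agent.R291

open Claims Claims.C0467

/-! ### hexagons -/

theorem ad_ball_conn (c : TV) (N : ℕ) : TscConn tscG (↑(latBall c N) : Set TV) := plh_ball_conn c N

theorem ad_ball_compl_conn (c : TV) (N : ℕ) : TscConn tscG ((↑(latBall c N) : Set TV)ᶜ) := plh_ball_compl_conn c N

theorem ad_ball_nice (c : TV) (N : ℕ) : AdNice (latBall c N) :=
  ⟨⟨c, by rw [lat_mem_ball]; simp [latN]⟩, ad_ball_conn c N, ad_ball_compl_conn c N⟩

theorem ad_ball_cl (c : TV) (N : ℕ) : latCl (latBall c N) ⊆ latBall c (N + 1) := by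
  intro u hu
  rcases lat_mem_cl.1 hu with h | ⟨w, hw, hwu⟩
  · exact plh_ball_mono c (Nat.le_succ N) h
  · rw [lat_mem_ball] at hw ⊢
    have h1 : triAdj (w - c) (u - c) := by
      have := (lat_adj_shift (-c) (u := w) (v := u)).2 hwu
      simpa [sub_eq_add_neg] using this
    have := plh_N_adj h1
    omega

theorem ad_ball_mono (c : TV) {N N' : ℕ} (h : N ≤ N') : latBall c N ⊆ latBall c N' := by
  intro u hu
  rw [lat_mem_ball] at hu ⊢
  omega

/-- triangle inequality for balls -/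
theorem ad_ball_sub {c c' : TV} {N N' : ℕ} (h : latN (c - c') + N ≤ N') : latBall c N ⊆ latBall c' N' :=
  plh_ball_sub_ball (by omega)

/-! ### D3a : API of `adI`, `AdArm`, `adT0` -/

theorem ad_bad_anti (S : Finset TV) {ω ω' : AdC} (h : AdLe ω ω') {y : TV} (hy : AdBad S ω' y) : AdBad S ω y :=
  ⟨hy.1, fun hp => hy.2 (ad_plus_up y ω ω' h hp)⟩

theorem ad_inv_mono {bad bad' : TV → Prop} {A A' : Set TV} (hb : ∀ y, bad y → bad' y) (hA : A ⊆ A') {u : TV}
    (h : AdInv bad A u) : AdInv bad' A' u := by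
  induction h with
  | base hu => exact AdInv.base (hA hu)
  | step _ hy hu hv ih => exact AdInv.step ih (hb _ hy) hu hv

theorem ad_I_anti (S : Finset TV) (v : TV) (m : ℕ) {ω ω' : AdC} (h : AdLe ω ω') : adI S v m ω' ⊆ adI S v m ω :=
  fun _ hu => ad_inv_mono (fun _ hy => ad_bad_anti S h hy) (le_refl _) hu

theorem ad_arm_down (S : Finset TV) (v : TV) (m : ℕ) : AdDown (AdArm S v m) :=
  fun _ _ h ⟨u, hu, hI⟩ => ⟨u, hu, ad_I_anti S v m h hI⟩

/-- the invaded set is connected -/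
theorem ad_I_conn (S : Finset TV) (v : TV) (m : ℕ) (ω : AdC) : TscConn tscG (adI S v m ω) := by
  intro u hu w hw
  obtain ⟨a, ha, hau⟩ := adl_inv_path hu
  obtain ⟨b, hb, hbw⟩ := adl_inv_path hw
  have hab : TscR tscG (adI S v m ω) a b :=
    tsc_R_mono (fun x hx => AdInv.base hx) (plh_ball_compl_conn v (2 * m) a ha b hb)
  exact tsc_R_trans (tsc_R_symm hau) (tsc_R_trans hab hbw)

theorem ad_T0_sub (S : Finset TV) (v : TV) (m : ℕ) (ω : AdC) : adT0 S v m ω ⊆ ↑(latBall v (2 * m)) := adl_T0_sub S v m ω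

theorem ad_T0f_coe (S : Finset TV) (v : TV) (m : ℕ) (ω : AdC) : (↑(adT0f S v m ω) : Set TV) = adT0 S v m ω :=
  adl_T0f_coe S v m ω

theorem ad_T0_ball {S : Finset TV} {v : TV} {m : ℕ} {ω : AdC} (h : ¬ AdArm S v m ω) : latBall v m ⊆ adT0f S v m ω := by
  have hsub : (↑(latBall v m) : Set TV) ⊆ (adI S v m ω)ᶜ := fun u hu hI => h ⟨u, Finset.mem_coe.1 hu, hI⟩
  have hv : v ∈ (↑(latBall v m) : Set TV) := Finset.mem_coe.2 (plh_ball_self v m)
  have := plh_conn_sub_comp (plh_ball_conn v m) hsub hv (tsc_comp_self (hsub hv))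
  intro u hu
  have h2 : u ∈ (↑(adT0f S v m ω) : Set TV) := by
    rw [ad_T0f_coe]
    exact this (Finset.mem_coe.2 hu)
  exact Finset.mem_coe.1 h2

theorem ad_T0_mono (S : Finset TV) (v : TV) (m : ℕ) {ω ω' : AdC} (h : AdLe ω ω') : adT0f S v m ω ⊆ adT0f S v m ω' := by
  have hsub : (adI S v m ω)ᶜ ⊆ (adI S v m ω')ᶜ := Set.compl_subset_compl.2 (ad_I_anti S v m h)
  intro u hu
  have h1 : u ∈ adT0 S v m ω := by
    rw [← ad_T0f_coe]
    exact Finset.mem_coe.2 hu
  have h2 : u ∈ (↑(adT0f S v m ω') : Set TV) := by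
    rw [ad_T0f_coe]
    exact ⟨hsub h1.1, tsc_R_mono hsub h1.2⟩
  exact Finset.mem_coe.1 h2

/-- complement of a component of the complement of a connected set (pure graph theory in the connected graph `tscG`) -/
theorem ad_comp_compl_conn {C : Set TV} (hC : TscConn tscG C) (hne : C.Nonempty) (x : TV) : TscConn tscG (tscComp tscG Cᶜ x)ᶜ :=
  plh_plane_comp_compl_conn hC hne x

theorem ad_T0_nice {S : Finset TV} {v : TV} {m : ℕ} {ω : AdC} (h : ¬ AdArm S v m ω) : AdNice (adT0f S v m ω) := by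
  refine ⟨⟨v, ad_T0_ball h (plh_ball_self v m)⟩, ?_, ?_⟩
  · rw [ad_T0f_coe]
    exact tsc_comp_conn v
  · rw [ad_T0f_coe]
    refine ad_comp_compl_conn (ad_I_conn S v m ω) ⟨v + (((2 * m : ℕ) : ℤ) + 1, 0), AdInv.base ?_⟩ v
    intro hin
    have := lat_mem_ball.1 (Finset.mem_coe.1 hin)
    rw [add_sub_cancel_left, plh_N_hor] at this
    omega

/-- the cut cells of the protected component are plus -/
theorem ad_T0_cutP {S : Finset TV} {v : TV} {m : ℕ} (hS : latBall v (2 * m + 1) ⊆ S) (ω : AdC) : AdCutP (adT0f S v m ω) ω :=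
  adl_cut_plus hS

/-- two configurations with the same outside part: a bad cell of the second one (whose cut is plus) which is not inside `t` is bad for the first one -/
theorem ad_bad_out (S : Finset TV) {t : Finset TV} {ω ω' : AdC} (hc' : AdCutP t ω') (ho : adOut t ω = adOut t ω') {y u : TV}
    (hu : u ∈ cellV y) (hut : u ∉ t) (hy : AdBad S ω' y) : AdBad S ω y := by
  refine ⟨hy.1, fun hp => hy.2 ?_⟩
  have hyt : y ∉ latCellsIn t := fun h => hut (lat_mem_cellsIn.1 h hu)
  have hdis : ∀ w ∈ cellV y, w ∉ t := by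
    intro w hw hwt
    exact hy.2 (hc' y ⟨⟨w, hw, Finset.mem_coe.2 hwt⟩, ⟨u, hu, fun h => hut (Finset.mem_coe.1 h)⟩⟩)
  have hht : ∀ w, w ∉ t → ω.1 w = ω'.1 w := by
    intro w hw
    have := congrFun (congrArg Prod.fst ho) w
    simpa only [adOut, if_neg hw] using this
  have hop : y ∈ ω.2 → y ∈ ω'.2 := by
    intro h
    have h2 : ω.2 \ latCellsIn t = ω'.2 \ latCellsIn t := congrArg Prod.snd ho
    have h3 : y ∈ ω'.2 \ latCellsIn t := h2 ▸ Finset.mem_sdiff.2 ⟨h, hyt⟩
    exact (Finset.mem_sdiff.1 h3).1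
  exact ⟨hop hp.1, fun w hw => by rw [← hht w (hdis w hw)]; exact hp.2 w hw⟩

/-- one direction of `ad_T0_loc` -/
theorem ad_T0_loc_aux (S : Finset TV) (v : TV) (m : ℕ) {t : Finset TV} {ω ω' : AdC} (hc : AdCutP t ω) (hc' : AdCutP t ω')
    (ho : adOut t ω = adOut t ω') (h : adT0f S v m ω = t) : adT0f S v m ω' = t := by
  have htI : ∀ u, u ∈ adI S v m ω → u ∉ t := by
    intro u hu hut
    have h1 : u ∈ adT0 S v m ω := by
      rw [← ad_T0f_coe, h]
      exact Finset.mem_coe.2 hut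
    exact h1.1 hu
  have h1 : ∀ u, AdInv (AdBad S ω) ((↑(latBall v (2 * m)) : Set TV)ᶜ) u → AdInv (AdBad S ω') ((↑(latBall v (2 * m)) : Set TV)ᶜ) u := by
    intro u hu
    induction hu with
    | base hb => exact AdInv.base hb
    | @step a b y ha hy hay hby ih => exact AdInv.step ih (ad_bad_out S hc ho.symm hay (htI a ha) hy) hay hby
  have h2 : ∀ u, AdInv (AdBad S ω') ((↑(latBall v (2 * m)) : Set TV)ᶜ) u → AdInv (AdBad S ω) ((↑(latBall v (2 * m)) : Set TV)ᶜ) u := by
    intro u hu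
    induction hu with
    | base hb => exact AdInv.base hb
    | @step a b y ha hy hay hby ih => exact AdInv.step ih (ad_bad_out S hc' ho hay (htI a ih) hy) hay hby
  have hI : adI S v m ω' = adI S v m ω := Set.ext fun u => ⟨h2 u, h1 u⟩
  rw [← h]
  apply Finset.coe_injective
  rw [ad_T0f_coe, ad_T0f_coe]
  unfold adT0
  rw [hI]

/-- LOCALITY: the event `{T0 = t}` does not look inside `t` -/
theorem ad_T0_loc (S : Finset TV) (v : TV) (m : ℕ) {t : Finset TV} {ω ω' : AdC} (hc : AdCutP t ω) (hc' : AdCutP t ω')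
    (ho : adOut t ω = adOut t ω') : adT0f S v m ω = t ↔ adT0f S v m ω' = t :=
  ⟨ad_T0_loc_aux S v m hc hc' ho, ad_T0_loc_aux S v m hc' hc ho.symm⟩

/-! ### D3b : Markov property, descent -/

open Classical in
/-- **MARKOV PROPERTY at the protected component.** -/
theorem ad_mk (q : ℝ) {S : Finset TV} {v : TV} {m : ℕ} (hS : latBall v (2 * m + 1) ⊆ S) (t : Finset TV) (k : ℤ) (F : AdC → ℝ) :
    adS q S (fun ω => if adT0f S v m ω = t ∧ AdCut t k ω then F (adIn t k ω) else 0) * adZ q t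
      = adS q S (fun ω => if adT0f S v m ω = t ∧ AdCut t k ω then 1 else 0) * adS q t F := by
  by_cases htb : t ⊆ latBall v (2 * m)
  · have ht : latCl t ⊆ S := by
      intro u hu
      refine hS (ad_ball_cl v (2 * m) ?_)
      rcases lat_mem_cl.1 hu with h | ⟨w, hw, hwu⟩
      · exact lat_mem_cl.2 (Or.inl (htb h))
      · exact lat_mem_cl.2 (Or.inr ⟨w, htb hw, hwu⟩)
    have h := ad_cut q ht k F (fun ω => if adT0f S v m ω = t then 1 else 0) (fun ω ω' hc hc' ho => by
      have := ad_T0_loc S v m (ad_cut_cutP hc) (ad_cut_cutP hc') ho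
      simp only [this])
    have e1 : (fun ω => if adT0f S v m ω = t ∧ AdCut t k ω then F (adIn t k ω) else 0)
        = fun ω => if AdCut t k ω then F (adIn t k ω) * (if adT0f S v m ω = t then 1 else 0) else 0 := by
      funext ω
      by_cases h1 : adT0f S v m ω = t <;> by_cases h2 : AdCut t k ω <;> simp [h1, h2]
    have e2 : (fun ω => if adT0f S v m ω = t ∧ AdCut t k ω then (1 : ℝ) else 0)
        = fun ω => if AdCut t k ω then (if adT0f S v m ω = t then 1 else 0) else 0 := by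
      funext ω
      by_cases h1 : adT0f S v m ω = t <;> by_cases h2 : AdCut t k ω <;> simp [h1, h2]
    rw [e1, e2]
    exact h
  · have hne : ∀ ω, ¬ (adT0f S v m ω = t ∧ AdCut t k ω) := by
      rintro ω ⟨h, -⟩
      exact htb (h ▸ Finset.filter_subset _ _)
    simp only [hne, if_false]
    simp [adS]

/-- plus cells inside `t` are read on the inside part -/
theorem ad_mix_plus_in {t : Finset TV} (k : ℤ) (ω : AdC) {y : TV} (hy : y ∈ latCellsIn t) : AdPlus (adIn t k ω) y ↔ AdPlus ω y := by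
  have hB : ∀ u ∈ cellV y, (AdB ((adIn t k ω).1 u) ↔ AdB (ω.1 u)) := by
    intro u hu
    show AdB (if u ∈ t then ω.1 u - 4 * k else 0) ↔ AdB (ω.1 u)
    rw [if_pos (lat_mem_cellsIn.1 hy hu)]
    unfold AdB
    omega
  constructor
  · rintro ⟨h1, h2⟩
    exact ⟨(Finset.mem_inter.1 h1).1, fun u hu => (hB u hu).1 (h2 u hu)⟩
  · rintro ⟨h1, h2⟩
    exact ⟨Finset.mem_inter.2 ⟨h1, hy⟩, fun u hu => (hB u hu).2 (h2 u hu)⟩

/-- arms of a sub-domain are arms of the domain (any position) -/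
theorem ad_arm_of_in {S t : Finset TV} (htS : t ⊆ S) (v : TV) (m : ℕ) (k : ℤ) {ω : AdC} (h : AdArm t v m (adIn t k ω)) :
    AdArm S v m ω := by
  obtain ⟨u, hu, hI⟩ := h
  exact ⟨u, hu, ad_inv_mono (fun y hy => ⟨ad_cellsIn_mono htS hy.1, fun hp => hy.2 ((ad_mix_plus_in k ω hy.1).2 hp)⟩) (le_refl _) hI⟩

/-- arms at a smaller scale are read inside `t` -/
theorem ad_arm_in {S t : Finset TV} {v : TV} {m : ℕ} (ht : latBall v (2 * m + 1) ⊆ t) (htS : t ⊆ S) (k : ℤ) (ω : AdC) :
    AdArm S v m ω ↔ AdArm t v m (adIn t k ω) := by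
  refine ⟨?_, ad_arm_of_in htS v m k⟩
  rintro ⟨u, hu, hI⟩
  refine ⟨u, hu, ?_⟩
  have key : ∀ u, AdInv (AdBad S ω) ((↑(latBall v (2 * m)) : Set TV)ᶜ) u →
      AdInv (AdBad t (adIn t k ω)) ((↑(latBall v (2 * m)) : Set TV)ᶜ) u := by
    intro u hu
    induction hu with
    | base hb => exact AdInv.base hb
    | @step a b y ha hy hay hby ih =>
      by_cases hyt : y ∈ latCellsIn t
      · exact AdInv.step ih ⟨hyt, fun hp => hy.2 ((ad_mix_plus_in k ω hyt).1 hp)⟩ hay hby
      · refine AdInv.base fun hb => hyt (lat_mem_cellsIn.2 ?_)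
        exact (adl_cell_ball hby (Finset.mem_coe.1 hb)).trans ht
  exact key u hI

/-- **ENLARGE**: arms are more likely in a larger hexagon -/
theorem ad_enlarge {q : ℝ} (h0 : 0 < q) (h1 : q ≤ 1) (hF : AdFKG q) (c : TV) (N : ℕ) {t : Finset TV} (ht : AdNice t)
    (htS : latCl t ⊆ latBall c N) (v : TV) (m : ℕ) :
    adP q t (AdArm t v m) ≤ adP q (latBall c N) (AdArm (latBall c N) v m) :=
  ad_T2_down h0 h1 hF c N ht htS _ _ (ad_arm_down _ v m)
    (fun _ k _ _ h => ad_arm_of_in (fun _ hu => htS (lat_mem_cl.2 (Or.inl hu))) v m k h)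

/- **DESCENT STEP** `ad_descent` : MOVED (same statement, proved) to the end of `Ann/DTv.lean`, where the probability kit `ad_tv_*` lives. -/

/-! ### D4 : the level -/

/-- sites joined to the layer by `B = +` sites have height `0` or `1` -/
theorem ad_plus_path_level {S : Finset TV} {ω : AdC} (hω : AdAdm S ω) {b u : TV} (hb : b ∈ latBd S)
    (h : TscR tscG {w | w ∈ S ∧ AdB (ω.1 w)} b u) : ω.1 u = 0 ∨ ω.1 u = 1 := by
  induction h with
  | refl => exact hω.ht.lay b hb
  | @tail p r _ hpr ih =>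
    have h1 := abs_le.1 (hω.ht.lip p hpr.2.1.1 r hpr.2.2.1 hpr.1)
    have h2 : AdB (ω.1 r) := hpr.2.2.2
    unfold AdB at h2
    omega

/-- a connected set of sites with `B = -` inside `S \ latBd S`, from `Λ_j(u)` to the complement of `Λ_{2j}(u)`, is an arm -/
theorem ad_arm_of_minus {S : Finset TV} {ω : AdC} {u : TV} {j : ℕ} {L : Set TV} (hL : TscConn tscG L)
    (hLS : ∀ w ∈ L, w ∈ latInt S ∧ ¬ AdB (ω.1 w)) {a b : TV} (ha : a ∈ L) (hb : b ∈ L) (hau : a ∈ latBall u j)
    (hbu : b ∉ latBall u (2 * j)) : AdArm S u j ω :=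
  ⟨a, hau, adl_spread hLS (hL b hb a ha) (AdInv.base (fun hin => hbu (Finset.mem_coe.1 hin)))⟩

/-- **D4 LEVEL LEMMA, deterministic part** -/
theorem ad_lev_det {c : TV} {N : ℕ} {v : TV} {m : ℕ} {ω : AdC} (hω : AdAdm (latBall c N) ω)
    (hS : latBall v (2 * m + 1) ⊆ latBall c N) (hA : ¬ AdArm (latBall c N) v m ω)
    (hL : ¬ AdCut (adT0f (latBall c N) v m ω) 0 ω) :
    ∃ k : ℕ, m ≤ k ∧ k ≤ 2 * N ∧ AdArm (latBall c N) (v + ((k : ℤ), 0)) (k / 2) ω := by
  obtain ⟨k, hk, h⟩ := adl_det hω hS hA hL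
  exact ⟨k, (Finset.mem_Icc.1 hk).1, (Finset.mem_Icc.1 hk).2, h⟩

/-- **D4**: the good event fails with small probability -/
theorem ad_bad {q : ℝ} (h0 : 0 < q) (h1 : q ≤ 1) {ε : ℕ → ℝ} (hmix : AdMixH q ε) {c : TV} {N : ℕ} {v : TV} {m : ℕ}
    (hS : latBall v (2 * m + 1) ⊆ latBall c N) :
    adP q (latBall c N) (fun ω => ¬ AdG (latBall c N) v m ω) ≤ ε m + ∑ k ∈ Finset.Icc m (2 * N), ε (k / 2) :=
  adl_notG h0 h1 hmix c v N m hS

end Claimed.Agent.R291
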