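import Claimed.Agent.R291.Ann.DDefs
import Claimed.Agent.R291.Dis.HtOrd

/-!
# Row 291, ANN A6 (Theorem D, route D2), blocks D6 + D9 : T-CIRCUIT INVOLUTION and HEIGHT FKG      (architect helper149, prover helper110; prefix `ad_`)      no sorry

Spec: `origin/helper149:notes/R291/thmD2_149.md` Secs 5 (TC), 2 (HF).   TEX[thm:circuit-input], chain of 121 (T23_CHAIN A6).
ONLY the height marginal is used (`ad_marg`): no spins, no statuses, no planarity.

D6 (TC)  `adE1 S h` = sites joined to the layer by sites of height `≥ 1`.   `adPsi S h := h` on `adE1 S h`, `-h` elsewhere.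
   A site off `E1` adjacent to `E1` has height `0` and its neighbour in `E1` has height `1`; a site of the layer off `E1` has height `0`.  So `adPsi` maps admissible heights to admissible heights, keeps
   "constant on the cell" for every cell inside `S` (a cell meeting `E1` and its complement is non constant before and after), `adE1 S (adPsi S h) = adE1 S h`, involution.
   On `{Q ∩ E1 = ∅}` the sum `∑_Q h` changes sign  ⟹  `P[Q ∩ E1 = ∅] ≤ 2 P[∑_Q h ≤ 0]`.
D9 (HF)  `hto_one` of 139 (= Mathlib `four_functions_theorem` on a finite sublattice of a distributive lattice) on `TV → ℤ` with `adHCfg S` (closed under `⊓`, `⊔`), weight `adHW`.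
   Lattice condition cell by cell (`ad_cell_sub`), and `q ≤ 1`.

CONTRACTS of 149 (names and statements verbatim): `ad_E1_sub`, `ad_E1_nbr`, `ad_psi_adm`, `ad_psi_E1`, `ad_psi_invol`, `ad_psi_K`, `ad_psi_wt`, `ad_psi_sum`, **`ad_tc`**,
  `ad_hadm_inf`, `ad_hadm_sup`, `ad_cell_sub`, `ad_hw_lattice`, `ad_hf2`, **`ad_hf`**.
EXTRAS of 110: `ad_hf_E` (expectation of a function of `h` = height marginal), `ad_hf_S`, `ad_hf_mono` (two increasing functions), `ad_hf_anti` (two decreasing functions, signed),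
  `ad_hf_down`, `ad_hf_up` (two events), `ad_tc_E1_bd` (heights `1 | 0` across the boundary of `E1`), `ad_tc_pair`, `ad_tc_sum`, `ad_tc_E`, `ad_tc_P`.
-/

set_option autoImplicit false
set_option linter.unusedVariables false

namespace Claimed.Agent.R291

open Relation Claims Claims.C0467

/-! ## the height marginal: expectations of functions of `h` -/

theorem ad_hf_Z (q : ℝ) (S : Finset TV) : adZ q S = adHS q S (fun _ => 1) := ad_marg q S (fun _ => 1)

theorem ad_hf_E (q : ℝ) (S : Finset TV) (F : (TV → ℤ) → ℝ) : adE q S (fun ω => F ω.1) = adHS q S F / adHS q S (fun _ => 1) := by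
  unfold adE
  rw [ad_marg, ad_hf_Z]

theorem ad_hf_W_nonneg {q : ℝ} (h0 : 0 ≤ q) (S : Finset TV) (h : TV → ℤ) : 0 ≤ adHW q S h :=
  Finset.prod_nonneg fun y _ => by split_ifs <;> linarith

/-- the three sites of a cell inside `S` -/
theorem ad_hf_cell_mem {S : Finset TV} {y : TV} (hy : y ∈ latCellsIn S) : y ∈ S ∧ y + (1, 0) ∈ S ∧ y + (0, 1) ∈ S := by
  rw [lat_mem_cellsIn] at hy
  exact ⟨hy (by simp [cellV]), hy (by simp [cellV]), hy (by simp [cellV])⟩

/-- the three Lipschitz bounds on a cell inside `S` -/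
theorem ad_hf_cell_lip {S : Finset TV} {h : TV → ℤ} (hh : AdHAdm S h) {y : TV} (hy : y ∈ latCellsIn S) :
    |h (y + (1, 0)) - h y| ≤ 1 ∧ |h (y + (0, 1)) - h y| ≤ 1 ∧ |h (y + (1, 0)) - h (y + (0, 1))| ≤ 1 := by
  obtain ⟨m0, m1, m2⟩ := ad_hf_cell_mem hy
  refine ⟨hh.lip _ m1 _ m0 ?_, hh.lip _ m2 _ m0 ?_, hh.lip _ m1 _ m2 ?_⟩
  · exact lat_adj_symm (lat_adj_add y (by decide))
  · exact lat_adj_symm (lat_adj_add y (by decide))
  · rw [lat_adj_iff]
    have : y + (0, 1) - (y + (1, 0)) = ((-1 : ℤ), (1 : ℤ)) := by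
      ext <;> simp
    rw [this]
    decide

/-! ## D9 : (HF) -/

/-- a constant triple against a Lipschitz triple: the infimum or the supremum is constant -/
theorem ad_hf_cell (k c0 c1 c2 : ℤ) (h1 : |c1 - c0| ≤ 1) (h2 : |c2 - c0| ≤ 1) (h3 : |c1 - c2| ≤ 1) :
    (min k c1 = min k c0 ∧ min k c2 = min k c0) ∨ (max k c1 = max k c0 ∧ max k c2 = max k c0) := by
  rw [abs_le] at h1 h2 h3
  omega

theorem ad_hf_adm {S : Finset TV} {a c : TV → ℤ} (ha : AdHAdm S a) (hc : AdHAdm S c) : AdHAdm S (a ⊓ c) ∧ AdHAdm S (a ⊔ c) := by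
  refine ⟨⟨fun u hu => ?_, fun u hu v hv huv => ?_, fun u hu => ?_⟩, ⟨fun u hu => ?_, fun u hu v hv huv => ?_, fun u hu => ?_⟩⟩
  · rw [Pi.inf_apply, ha.off u hu, hc.off u hu]
    rfl
  · exact (hto_edge_lip _ _ _ _ (ha.lip u hu v hv huv) (hc.lip u hu v hv huv)).1
  · rw [Pi.inf_apply]
    rcases ha.lay u hu with h1 | h1 <;> rcases hc.lay u hu with h2 | h2 <;> rw [h1, h2] <;> simp
  · rw [Pi.sup_apply, ha.off u hu, hc.off u hu]
    rfl
  · exact (hto_edge_lip _ _ _ _ (ha.lip u hu v hv huv) (hc.lip u hu v hv huv)).2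
  · rw [Pi.sup_apply]
    rcases ha.lay u hu with h1 | h1 <;> rcases hc.lay u hu with h2 | h2 <;> rw [h1, h2] <;> simp

/-- the lattice condition, one cell -/
theorem ad_hf_term {q : ℝ} (h0 : 0 ≤ q) (h1 : q ≤ 1) {S : Finset TV} {a c : TV → ℤ} (ha : AdHAdm S a) (hc : AdHAdm S c) {y : TV}
    (hy : y ∈ latCellsIn S) :
    (if AdK a y then (1 : ℝ) else q) * (if AdK c y then 1 else q)
      ≤ (if AdK (a ⊓ c) y then 1 else q) * (if AdK (a ⊔ c) y then 1 else q) := by
  have low : ∀ p : Prop, [Decidable p] → q ≤ (if p then (1 : ℝ) else q) := by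
    intro p _
    split_ifs <;> linarith
  have la := ad_hf_cell_lip ha hy
  have lc := ad_hf_cell_lip hc hy
  by_cases hKa : AdK a y
  · by_cases hKc : AdK c y
    · have i1 : AdK (a ⊓ c) y := ⟨by simp only [Pi.inf_apply, hKa.1, hKc.1], by simp only [Pi.inf_apply, hKa.2, hKc.2]⟩
      have i2 : AdK (a ⊔ c) y := ⟨by simp only [Pi.sup_apply, hKa.1, hKc.1], by simp only [Pi.sup_apply, hKa.2, hKc.2]⟩
      rw [if_pos hKa, if_pos hKc, if_pos i1, if_pos i2]
    · rw [if_pos hKa, if_neg hKc, one_mul]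
      rcases ad_hf_cell (a y) _ _ _ lc.1 lc.2.1 lc.2.2 with h | h
      · have i1 : AdK (a ⊓ c) y := ⟨by simp only [Pi.inf_apply, hKa.1]; exact h.1, by simp only [Pi.inf_apply, hKa.2]; exact h.2⟩
        rw [if_pos i1, one_mul]
        exact low _
      · have i2 : AdK (a ⊔ c) y := ⟨by simp only [Pi.sup_apply, hKa.1]; exact h.1, by simp only [Pi.sup_apply, hKa.2]; exact h.2⟩
        rw [if_pos i2, mul_one]
        exact low _
  · by_cases hKc : AdK c y
    · rw [if_neg hKa, if_pos hKc, mul_one]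
      rcases ad_hf_cell (c y) _ _ _ la.1 la.2.1 la.2.2 with h | h
      · have i1 : AdK (a ⊓ c) y :=
          ⟨by simp only [Pi.inf_apply, hKc.1]; rw [inf_comm, inf_comm (a y)]; exact h.1,
            by simp only [Pi.inf_apply, hKc.2]; rw [inf_comm, inf_comm (a y)]; exact h.2⟩
        rw [if_pos i1, one_mul]
        exact low _
      · have i2 : AdK (a ⊔ c) y :=
          ⟨by simp only [Pi.sup_apply, hKc.1]; rw [sup_comm, sup_comm (a y)]; exact h.1,
            by simp only [Pi.sup_apply, hKc.2]; rw [sup_comm, sup_comm (a y)]; exact h.2⟩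
        rw [if_pos i2, mul_one]
        exact low _
    · rw [if_neg hKa, if_neg hKc]
      exact mul_le_mul (low _) (low _) h0 (h0.trans (low _))

/-- the lattice condition of the height weights -/
theorem ad_hf_W {q : ℝ} (h0 : 0 ≤ q) (h1 : q ≤ 1) {S : Finset TV} {a c : TV → ℤ} (ha : AdHAdm S a) (hc : AdHAdm S c) :
    adHW q S a * adHW q S c ≤ adHW q S (a ⊓ c) * adHW q S (a ⊔ c) := by
  unfold adHW
  rw [← Finset.prod_mul_distrib, ← Finset.prod_mul_distrib]
  refine Finset.prod_le_prod (fun y _ => mul_nonneg ?_ ?_) (fun y hy => ad_hf_term h0 h1 ha hc hy)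
  · split_ifs <;> linarith
  · split_ifs <;> linarith

/-- **(HF)**, unnormalised -/
theorem ad_hf_S {q : ℝ} (h0 : 0 ≤ q) (h1 : q ≤ 1) (S : Finset TV) {F G : (TV → ℤ) → ℝ} (hF : HtMono F) (hG : HtMono G) :
    adHS q S F * adHS q S G ≤ adHS q S (fun _ => 1) * adHS q S (fun h => F h * G h) := by
  have := hto_one (adHCfg S) (adHW q S) F G (ad_hf_W_nonneg h0 S) (fun a ha c hc => by
    rw [ad_mem_hcfg] at ha hc
    obtain ⟨i1, i2⟩ := ad_hf_adm ha hc
    exact ⟨ad_mem_hcfg.2 i1, ad_mem_hcfg.2 i2, ad_hf_W h0 h1 ha hc⟩) (fun a c hac => hF a c hac) (fun a c hac => hG a c hac)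
  unfold adHS
  simpa using this

/-- **(HF)** : two increasing functions of the heights are positively correlated under `P_S` -/
theorem ad_hf_mono {q : ℝ} (h0 : 0 < q) (h1 : q ≤ 1) (S : Finset TV) {F G : (TV → ℤ) → ℝ} (hF : HtMono F) (hG : HtMono G) :
    adE q S (fun ω => F ω.1) * adE q S (fun ω => G ω.1) ≤ adE q S (fun ω => F ω.1 * G ω.1) := by
  have hZ : 0 < adHS q S (fun _ => 1) := by
    rw [← ad_hf_Z]
    exact ad_Z_pos h0 h1 S
  rw [ad_hf_E, ad_hf_E, ad_hf_E q S (fun h => F h * G h), div_mul_div_comm, div_le_div_iff₀ (mul_pos hZ hZ) hZ]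
  have := ad_hf_S h0.le h1 S hF hG
  nlinarith

/-- **(HF)** for two decreasing functions -/
theorem ad_hf_anti {q : ℝ} (h0 : 0 < q) (h1 : q ≤ 1) (S : Finset TV) {F G : (TV → ℤ) → ℝ} (hF : HtMono (fun h => - F h))
    (hG : HtMono (fun h => - G h)) :
    adE q S (fun ω => F ω.1) * adE q S (fun ω => G ω.1) ≤ adE q S (fun ω => F ω.1 * G ω.1) := by
  have h := ad_hf_mono h0 h1 S hF hG
  have e : ∀ F : (TV → ℤ) → ℝ, adE q S (fun ω => - F ω.1) = - adE q S (fun ω => F ω.1) := by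
    intro F
    unfold adE
    have := ad_S_smul q S (-1) (fun ω => F ω.1)
    simp only [neg_mul, one_mul] at this
    rw [this, neg_div]
  rw [e, e] at h
  simp only [neg_mul_neg] at h
  exact h

/-- decreasing event of the heights -/
def AdHDown (K : (TV → ℤ) → Prop) : Prop := ∀ h h' : TV → ℤ, (∀ u, h u ≤ h' u) → K h' → K h

/-- increasing event of the heights -/
def AdHUp (K : (TV → ℤ) → Prop) : Prop := ∀ h h' : TV → ℤ, (∀ u, h u ≤ h' u) → K h → K h'

open Classical in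
theorem ad_hf_down {q : ℝ} (h0 : 0 < q) (h1 : q ≤ 1) (S : Finset TV) {K L : (TV → ℤ) → Prop} (hK : AdHDown K) (hL : AdHDown L) :
    adP q S (fun ω => K ω.1) * adP q S (fun ω => L ω.1) ≤ adP q S (fun ω => K ω.1 ∧ L ω.1) := by
  have mono : ∀ K : (TV → ℤ) → Prop, AdHDown K → HtMono (fun h => - (if K h then (1 : ℝ) else 0)) := by
    intro K hK h h' hh
    by_cases h2 : K h'
    · simp [h2, hK h h' hh h2]
    · simp only [h2, if_false, neg_zero]
      split_ifs <;> norm_num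
  have h := ad_hf_anti h0 h1 S (mono K hK) (mono L hL)
  unfold adP
  refine h.trans (le_of_eq ?_)
  congr 1
  funext ω
  by_cases h2 : K ω.1 <;> by_cases h3 : L ω.1 <;> simp [h2, h3]

open Classical in
theorem ad_hf_up {q : ℝ} (h0 : 0 < q) (h1 : q ≤ 1) (S : Finset TV) {K L : (TV → ℤ) → Prop} (hK : AdHUp K) (hL : AdHUp L) :
    adP q S (fun ω => K ω.1) * adP q S (fun ω => L ω.1) ≤ adP q S (fun ω => K ω.1 ∧ L ω.1) := by
  have mono : ∀ K : (TV → ℤ) → Prop, AdHUp K → HtMono (fun h => (if K h then (1 : ℝ) else 0)) := by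
    intro K hK h h' hh
    by_cases h2 : K h
    · simp [h2, hK h h' hh h2]
    · simp only [h2, if_false]
      split_ifs <;> norm_num
  have h := ad_hf_mono h0 h1 S (mono K hK) (mono L hL)
  unfold adP
  refine h.trans (le_of_eq ?_)
  congr 1
  funext ω
  by_cases h2 : K ω.1 <;> by_cases h3 : L ω.1 <;> simp [h2, h3]

/-- **(HF)** for a finite family of decreasing events -/
theorem ad_hf_down_prod {ι : Type*} {q : ℝ} (h0 : 0 < q) (h1 : q ≤ 1) (S : Finset TV) (I : Finset ι) (K : ι → (TV → ℤ) → Prop)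
    (hK : ∀ i ∈ I, AdHDown (K i)) :
    ∏ i ∈ I, adP q S (fun ω => K i ω.1) ≤ adP q S (fun ω => ∀ i ∈ I, K i ω.1) := by
  classical
  induction I using Finset.induction_on with
  | empty =>
    simp only [Finset.prod_empty, Finset.notMem_empty, IsEmpty.forall_iff, implies_true]
    have := ad_E_const h0 h1 S 1
    unfold adP
    simp only [if_true]
    exact this.ge
  | insert a I ha ih =>
    rw [Finset.prod_insert ha]
    have ih' := ih (fun i hi => hK i (Finset.mem_insert_of_mem hi))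
    have hD : AdHDown (fun h => ∀ i ∈ I, K i h) := fun h h' hh hk i hi => hK i (Finset.mem_insert_of_mem hi) h h' hh (hk i hi)
    calc adP q S (fun ω => K a ω.1) * ∏ i ∈ I, adP q S (fun ω => K i ω.1)
        ≤ adP q S (fun ω => K a ω.1) * adP q S (fun ω => ∀ i ∈ I, K i ω.1) :=
          mul_le_mul_of_nonneg_left ih' (ad_P_nonneg h0 h1 S _)
      _ ≤ adP q S (fun ω => K a ω.1 ∧ ∀ i ∈ I, K i ω.1) := ad_hf_down h0 h1 S (hK a (Finset.mem_insert_self a I)) hD
      _ = adP q S (fun ω => ∀ i ∈ insert a I, K i ω.1) := by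
          congr 1
          funext ω
          simp only [Finset.forall_mem_insert]

/-! ## D6 : (TC) -/

/-- the sites of `S` of height `≥ 1` -/
def adPos (S : Finset TV) (h : TV → ℤ) : Set TV := {w | w ∈ S ∧ 1 ≤ h w}

theorem ad_tc_E1_sub {S : Finset TV} {h : TV → ℤ} {u : TV} (hu : u ∈ adE1 S h) : u ∈ S ∧ 1 ≤ h u := by
  obtain ⟨b, hb, hR, h1⟩ := hu
  have : u ∈ {w | w ∈ S ∧ 1 ≤ h w} := tsc_R_mem hR ⟨lat_bd_sub S hb, h1⟩
  exact this

theorem ad_tc_E1_lay {S : Finset TV} {h : TV → ℤ} {b : TV} (hb : b ∈ latBd S) (h1 : 1 ≤ h b) : b ∈ adE1 S h :=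
  ⟨b, hb, tsc_R_refl _, h1⟩

/-- `adE1` is closed under steps inside `{h ≥ 1}` -/
theorem ad_tc_E1_step {S : Finset TV} {h : TV → ℤ} {u v : TV} (hu : u ∈ adE1 S h) (huv : triAdj u v) (hv : v ∈ S) (h1 : 1 ≤ h v) :
    v ∈ adE1 S h := by
  obtain ⟨b, hb, hR, hb1⟩ := hu
  exact ⟨b, hb, hR.tail ⟨huv, tsc_R_mem hR ⟨lat_bd_sub S hb, hb1⟩, ⟨hv, h1⟩⟩, hb1⟩

/-- across the boundary of `adE1` the heights are `1` and `0` -/
theorem ad_tc_E1_bd {S : Finset TV} {h : TV → ℤ} (hh : AdHAdm S h) {u v : TV} (hu : u ∈ adE1 S h) (huv : triAdj u v) (hv : v ∈ S)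
    (hvE : v ∉ adE1 S h) : h u = 1 ∧ h v = 0 := by
  have h1 := ad_tc_E1_sub hu
  have h2 : ¬ 1 ≤ h v := fun h3 => hvE (ad_tc_E1_step hu huv hv h3)
  have h3 := abs_le.1 (hh.lip u h1.1 v hv huv)
  omega

open Classical in
/-- the involution of (TC): `h` on `adE1 S h`, `-h` elsewhere -/
noncomputable def adPsi (S : Finset TV) (h : TV → ℤ) : TV → ℤ := fun u => if u ∈ adE1 S h then h u else - h u

theorem ad_tc_psi_in {S : Finset TV} {h : TV → ℤ} {u : TV} (hu : u ∈ adE1 S h) : adPsi S h u = h u := if_pos hu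

theorem ad_tc_psi_out {S : Finset TV} {h : TV → ℤ} {u : TV} (hu : u ∉ adE1 S h) : adPsi S h u = - h u := if_neg hu

/-- comparison of `adPsi S h` on two adjacent sites of `S` -/
theorem ad_tc_pair {S : Finset TV} {h : TV → ℤ} (hh : AdHAdm S h) {u v : TV} (hu : u ∈ S) (hv : v ∈ S) (huv : triAdj u v) :
    (adPsi S h u = h u ∧ adPsi S h v = h v) ∨ (adPsi S h u = - h u ∧ adPsi S h v = - h v) := by
  by_cases h1 : u ∈ adE1 S h
  · by_cases h2 : v ∈ adE1 S h
    · exact Or.inl ⟨ad_tc_psi_in h1, ad_tc_psi_in h2⟩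
    · have := ad_tc_E1_bd hh h1 huv hv h2
      refine Or.inl ⟨ad_tc_psi_in h1, ?_⟩
      rw [ad_tc_psi_out h2, this.2]
      rfl
  · by_cases h2 : v ∈ adE1 S h
    · have := ad_tc_E1_bd hh h2 (lat_adj_symm huv) hu h1
      refine Or.inl ⟨?_, ad_tc_psi_in h2⟩
      rw [ad_tc_psi_out h1, this.2]
      rfl
    · exact Or.inr ⟨ad_tc_psi_out h1, ad_tc_psi_out h2⟩

theorem ad_tc_adm {S : Finset TV} {h : TV → ℤ} (hh : AdHAdm S h) : AdHAdm S (adPsi S h) := by
  refine ⟨fun u hu => ?_, fun u hu v hv huv => ?_, fun u hu => ?_⟩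
  · rw [ad_tc_psi_out (fun h1 => hu (ad_tc_E1_sub h1).1), hh.off u hu]
    rfl
  · have h1 := hh.lip u hu v hv huv
    rcases ad_tc_pair hh hu hv huv with h2 | h2
    · rw [h2.1, h2.2]
      exact h1
    · rw [h2.1, h2.2]
      rw [abs_le] at h1 ⊢
      constructor <;> omega
  · rcases hh.lay u hu with h1 | h1
    · left
      rw [ad_tc_psi_out (fun h2 => by have := (ad_tc_E1_sub h2).2; omega), h1]
      rfl
    · right
      rw [ad_tc_psi_in (ad_tc_E1_lay hu (by omega)), h1]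

/-- constancy on the cells inside `S` is preserved -/
theorem ad_tc_K {S : Finset TV} {h : TV → ℤ} (hh : AdHAdm S h) {y : TV} (hy : y ∈ latCellsIn S) : AdK (adPsi S h) y ↔ AdK h y := by
  obtain ⟨m0, m1, m2⟩ := ad_hf_cell_mem hy
  have p1 := ad_tc_pair hh m0 m1 (lat_adj_add y (by decide))
  have p2 := ad_tc_pair hh m0 m2 (lat_adj_add y (by decide))
  unfold AdK
  rcases p1 with p1 | p1 <;> rcases p2 with p2 | p2 <;> rw [p1.2, p2.2, p1.1]
  · have := p1.1.symm.trans p2.1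
    constructor <;> rintro ⟨a1, a2⟩ <;> constructor <;> omega
  · have := p1.1.symm.trans p2.1
    constructor <;> rintro ⟨a1, a2⟩ <;> constructor <;> omega
  · constructor <;> rintro ⟨a1, a2⟩ <;> constructor <;> omega

theorem ad_tc_W (q : ℝ) {S : Finset TV} {h : TV → ℤ} (hh : AdHAdm S h) : adHW q S (adPsi S h) = adHW q S h := by
  unfold adHW
  refine Finset.prod_congr rfl fun y hy => ?_
  simp only [ad_tc_K hh hy]

/-- the cluster of the layer is not changed -/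
theorem ad_tc_E1 {S : Finset TV} {h : TV → ℤ} (hh : AdHAdm S h) : adE1 S (adPsi S h) = adE1 S h := by
  ext u
  constructor
  · rintro ⟨b, hb, hR, hb1⟩
    have hbE : b ∈ adE1 S h := by
      by_contra hc
      rw [ad_tc_psi_out hc] at hb1
      rcases hh.lay b hb with h1 | h1
      · omega
      · omega
    induction hR with
    | refl => exact hbE
    | @tail v w _ hvw ih =>
      by_contra hc
      have h1 := ad_tc_E1_bd hh ih hvw.1 hvw.2.2.1 hc
      have h2 := hvw.2.2.2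
      rw [ad_tc_psi_out hc, h1.2] at h2
      omega
  · rintro ⟨b, hb, hR, hb1⟩
    have hbE : b ∈ adE1 S h := ad_tc_E1_lay hb hb1
    have key : u ∈ adE1 S h ∧ TscR tscG {w | w ∈ S ∧ 1 ≤ adPsi S h w} b u := by
      induction hR with
      | refl => exact ⟨hbE, tsc_R_refl _⟩
      | @tail v w _ hvw ih =>
        have hw : w ∈ adE1 S h := ad_tc_E1_step ih.1 hvw.1 hvw.2.2.1 hvw.2.2.2
        refine ⟨hw, ih.2.tail ⟨hvw.1, ⟨hvw.2.1.1, ?_⟩, ⟨hvw.2.2.1, ?_⟩⟩⟩
        · rw [ad_tc_psi_in ih.1]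
          exact hvw.2.1.2
        · rw [ad_tc_psi_in hw]
          exact hvw.2.2.2
    exact ⟨b, hb, key.2, by rw [ad_tc_psi_in hbE]; exact hb1⟩

theorem ad_tc_invol {S : Finset TV} {h : TV → ℤ} (hh : AdHAdm S h) : adPsi S (adPsi S h) = h := by
  funext u
  by_cases hu : u ∈ adE1 S h
  · rw [ad_tc_psi_in (by rw [ad_tc_E1 hh]; exact hu), ad_tc_psi_in hu]
  · rw [ad_tc_psi_out (by rw [ad_tc_E1 hh]; exact hu), ad_tc_psi_out hu, neg_neg]

/-- off the cluster the sums change sign -/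
theorem ad_tc_sum {S Q : Finset TV} {h : TV → ℤ} (hQ : ∀ u ∈ Q, u ∉ adE1 S h) : ∑ u ∈ Q, adPsi S h u = - ∑ u ∈ Q, h u := by
  rw [← Finset.sum_neg_distrib]
  exact Finset.sum_congr rfl fun u hu => ad_tc_psi_out (hQ u hu)

/-- `adPsi S` preserves the height marginal -/
theorem ad_tc_HS (q : ℝ) (S : Finset TV) (F : (TV → ℤ) → ℝ) : adHS q S (fun h => F (adPsi S h)) = adHS q S F := by
  unfold adHS
  refine Finset.sum_nbij' (adPsi S) (adPsi S) ?_ ?_ ?_ ?_ ?_
  · intro h hh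
    exact ad_mem_hcfg.2 (ad_tc_adm (ad_mem_hcfg.1 hh))
  · intro h hh
    exact ad_mem_hcfg.2 (ad_tc_adm (ad_mem_hcfg.1 hh))
  · intro h hh
    exact ad_tc_invol (ad_mem_hcfg.1 hh)
  · intro h hh
    exact ad_tc_invol (ad_mem_hcfg.1 hh)
  · intro h hh
    rw [ad_tc_W q (ad_mem_hcfg.1 hh)]

theorem ad_tc_E (q : ℝ) (S : Finset TV) (F : (TV → ℤ) → ℝ) : adE q S (fun ω => F (adPsi S ω.1)) = adE q S (fun ω => F ω.1) := by
  rw [ad_hf_E q S (fun h => F (adPsi S h)), ad_hf_E, ad_tc_HS]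

open Classical in
theorem ad_tc_P (q : ℝ) (S : Finset TV) (K : (TV → ℤ) → Prop) : adP q S (fun ω => K (adPsi S ω.1)) = adP q S (fun ω => K ω.1) :=
  ad_tc_E q S (fun h => if K h then 1 else 0)

/-- **D6 EXIT (TC)** : if the box `Q` is not joined to the layer by sites of height `≥ 1`, the sum of the heights over `Q` has a symmetric law -/
theorem ad_tc {q : ℝ} (h0 : 0 < q) (h1 : q ≤ 1) (S Q : Finset TV) :
    adP q S (fun ω => ∀ u ∈ Q, u ∉ adE1 S ω.1) ≤ 2 * adP q S (fun ω => ∑ u ∈ Q, ω.1 u ≤ 0) := by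
  classical
  -- the event splits according to the sign of the sum
  have s1 : adP q S (fun ω => ∀ u ∈ Q, u ∉ adE1 S ω.1)
      ≤ adP q S (fun ω => ∑ u ∈ Q, ω.1 u ≤ 0) + adP q S (fun ω => (∀ u ∈ Q, u ∉ adE1 S ω.1) ∧ 0 < ∑ u ∈ Q, ω.1 u) := by
    have := ad_P_union h0 h1 S (Finset.univ : Finset Bool)
      (fun b ω => if b then ∑ u ∈ Q, ω.1 u ≤ 0 else (∀ u ∈ Q, u ∉ adE1 S ω.1) ∧ 0 < ∑ u ∈ Q, ω.1 u)
    simp only [Fintype.sum_bool, if_true, Bool.false_eq_true, if_false] at this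
    refine le_trans (ad_P_mono h0 h1 S fun ω _ hK => ?_) this
    by_cases hs : ∑ u ∈ Q, ω.1 u ≤ 0
    · exact ⟨true, Finset.mem_univ _, by rw [if_pos rfl]; exact hs⟩
    · exact ⟨false, Finset.mem_univ _, by rw [if_neg (by simp)]; exact ⟨hK, not_le.1 hs⟩⟩
  -- the involution sends the positive part into the negative part
  have s2 : adP q S (fun ω => (∀ u ∈ Q, u ∉ adE1 S ω.1) ∧ 0 < ∑ u ∈ Q, ω.1 u) ≤ adP q S (fun ω => ∑ u ∈ Q, ω.1 u ≤ 0) := by
    rw [← ad_tc_P q S (fun h => ∑ u ∈ Q, h u ≤ 0)]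
    refine ad_P_mono h0 h1 S fun ω _ hK => ?_
    rw [ad_tc_sum hK.1]
    omega
  linarith

/-! ## the contracts of 149 under their names -/

theorem ad_E1_sub (S : Finset TV) (h : TV → ℤ) : adE1 S h ⊆ {u | u ∈ S ∧ 1 ≤ h u} := fun _ hu => ad_tc_E1_sub hu

/-- a neighbour (in `S`) of `E1` which is not in `E1` has height `≤ 0` -/
theorem ad_E1_nbr {S : Finset TV} {h : TV → ℤ} {u w : TV} (hu : u ∈ adE1 S h) (hw : w ∈ S) (hw' : w ∉ adE1 S h) (ha : triAdj u w) : h w ≤ 0 := by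
  by_contra hc
  exact hw' (ad_tc_E1_step hu ha hw (by omega))

theorem ad_psi_adm {S : Finset TV} {h : TV → ℤ} (hh : AdHAdm S h) : AdHAdm S (adPsi S h) := ad_tc_adm hh

theorem ad_psi_E1 {S : Finset TV} {h : TV → ℤ} (hh : AdHAdm S h) : adE1 S (adPsi S h) = adE1 S h := ad_tc_E1 hh

theorem ad_psi_invol {S : Finset TV} {h : TV → ℤ} (hh : AdHAdm S h) : adPsi S (adPsi S h) = h := ad_tc_invol hh

theorem ad_psi_K {S : Finset TV} {h : TV → ℤ} (hh : AdHAdm S h) {y : TV} (hy : y ∈ latCellsIn S) : AdK (adPsi S h) y ↔ AdK h y :=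
  ad_tc_K hh hy

theorem ad_psi_wt (q : ℝ) {S : Finset TV} {h : TV → ℤ} (hh : AdHAdm S h) : adHW q S (adPsi S h) = adHW q S h := ad_tc_W q hh

theorem ad_psi_sum (q : ℝ) (S : Finset TV) (F : (TV → ℤ) → ℝ) : adHS q S (fun h => F (adPsi S h)) = adHS q S F := ad_tc_HS q S F

theorem ad_hadm_inf {S : Finset TV} {h h' : TV → ℤ} (hh : AdHAdm S h) (hh' : AdHAdm S h') : AdHAdm S (h ⊓ h') := (ad_hf_adm hh hh').1

theorem ad_hadm_sup {S : Finset TV} {h h' : TV → ℤ} (hh : AdHAdm S h) (hh' : AdHAdm S h') : AdHAdm S (h ⊔ h') := (ad_hf_adm hh hh').2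

/-- cell by cell submodularity of "non constant" for 1-Lipschitz triples -/
theorem ad_cell_sub {q : ℝ} (h0 : 0 ≤ q) (h1 : q ≤ 1) {S : Finset TV} {h h' : TV → ℤ} (hh : AdHAdm S h) (hh' : AdHAdm S h') {y : TV}
    (hy : y ∈ latCellsIn S) :
    (if AdK h y then 1 else q) * (if AdK h' y then 1 else q) ≤ (if AdK (h ⊓ h') y then 1 else q) * (if AdK (h ⊔ h') y then 1 else q) :=
  ad_hf_term h0 h1 hh hh' hy

theorem ad_hw_lattice {q : ℝ} (h0 : 0 ≤ q) (h1 : q ≤ 1) {S : Finset TV} {h h' : TV → ℤ} (hh : AdHAdm S h) (hh' : AdHAdm S h') :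
    adHW q S h * adHW q S h' ≤ adHW q S (h ⊓ h') * adHW q S (h ⊔ h') := ad_hf_W h0 h1 hh hh'

/-- height FKG, two nonnegative decreasing functions, unnormalised -/
theorem ad_hf2 {q : ℝ} (h0 : 0 ≤ q) (h1 : q ≤ 1) (S : Finset TV) (F G : (TV → ℤ) → ℝ) (hF0 : ∀ h, 0 ≤ F h) (hG0 : ∀ h, 0 ≤ G h)
    (hF : ∀ h h' : TV → ℤ, (∀ u, h u ≤ h' u) → F h' ≤ F h) (hG : ∀ h h' : TV → ℤ, (∀ u, h u ≤ h' u) → G h' ≤ G h) :
    adHS q S F * adHS q S G ≤ adHS q S (fun _ => 1) * adHS q S (fun h => F h * G h) := by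
  have h := ad_hf_S h0 h1 S (F := fun h => - F h) (G := fun h => - G h) (fun a c hac => neg_le_neg (hF a c hac))
    (fun a c hac => neg_le_neg (hG a c hac))
  have e : ∀ F : (TV → ℤ) → ℝ, adHS q S (fun h => - F h) = - adHS q S F := by
    intro F
    unfold adHS
    simp only [mul_neg, Finset.sum_neg_distrib]
  rw [e, e] at h
  simp only [neg_mul_neg] at h
  exact h

/-- **D9 EXIT (HF)**: a finite family of decreasing events of the heights is positively correlated -/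
theorem ad_hf {q : ℝ} (h0 : 0 < q) (h1 : q ≤ 1) (S : Finset TV) {ι : Type*} (I : Finset ι) (K : ι → (TV → ℤ) → Prop)
    (hK : ∀ i ∈ I, AdHDown (K i)) :
    ∏ i ∈ I, adP q S (fun ω => K i ω.1) ≤ adP q S (fun ω => ∀ i ∈ I, K i ω.1) := ad_hf_down_prod h0 h1 S I K hK

/-- unfolding equations of the definitions of this file -/
theorem ad_tc_eqns_cite : True := by
  have := @AdHDown.eq_1
  have := @AdHUp.eq_1
  have := @adPos.eq_1
  have := @adPsi.eq_1
  trivial

end Claimed.Agent.R291
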