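import Claimed.Agent.R291.Ann.DTv
import Claimed.Agent.R291.Ann.DTc
import Claimed.Agent.R291.Pl.Geo

/-!
# Row 291, ANN A6 (Theorem D, route D2), blocks D8 + D10 : SYMMETRIES, RHOMBUS CROSSING, POLYNOMIAL LOWER BOUND      (owner helper149; prover helper204; prefix `ad_`)

Spec: `origin/helper149:notes/R291/thmD2_149.md` Secs 2 (SYM), 7 (POLY).

D8a (SYM)  a class preserving automorphism `g : AdAut` transports the law: `ad_sym : adS q (S.image g.f) F = adS q S (F ∘ adPush g)`; the global flip `h ↦ 1 - h` preserves the law (`ad_flipS_sum`).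
           Generators: translations `adTr`, swap `adSw`, rotation by 120 degrees `adR3`, vertical mirror `adMv`, composition `adCmp`; all are isometries of `latN` (`AdIso`), so they map hexagons to hexagons.
D8b        `AdH0 s h` = left-right crossing of the rhombus `[0,s]²` by sites of height `≤ 0`.   Hex (`tsc_hex_box`) + flip + swap:  `P_{Λ_N}[AdH0] ≥ 1/2` (`ad_rh_half`).   Pigeonhole (`ad_rh_pigeon`).
D10        pieces `AdPc s g z z'` = the image under `g` of the connection `z ↔ z'` (height `≤ 0`, inside `Λ_{2s}`); decreasing in `h`; `P_{Λ_N(0)}[g piece] = P_{Λ_N(g⁻¹ 0)}[piece]` (`ad_pc_prob`);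
           comparison of the hexagons by `ad_tv`; height FKG `ad_hf`; the deterministic lemma (GEO) `ad_geo` (= `plg_geo` of helper191, Pl/Geo.lean, read on `AdAut`).
EXIT `ad_poly`.
-/

set_option autoImplicit false

namespace Claimed.Agent.R291

open Claims Claims.C0467

/-! ### D8a : transport of the law by an automorphism -/

theorem ad_K_iff (h : TV → ℤ) (y : TV) : AdK h y ↔ ∀ u ∈ cellV y, ∀ v ∈ cellV y, h u = h v := by
  constructor
  · rintro ⟨h1, h2⟩ u hu v hv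
    simp only [cellV, Finset.mem_insert, Finset.mem_singleton] at hu hv
    rcases hu with rfl | rfl | rfl <;> rcases hv with rfl | rfl | rfl <;> simp [h1, h2]
  · intro H
    exact ⟨H _ (by simp [cellV]) _ (by simp [cellV]), H _ (by simp [cellV]) _ (by simp [cellV])⟩

theorem ad_Bc_iff (h : TV → ℤ) (y : TV) : AdBc h y ↔ ∀ u ∈ cellV y, ∀ v ∈ cellV y, (AdB (h u) ↔ AdB (h v)) := by
  constructor
  · rintro ⟨h1, h2⟩ u hu v hv
    simp only [cellV, Finset.mem_insert, Finset.mem_singleton] at hu hv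
    rcases hu with rfl | rfl | rfl <;> rcases hv with rfl | rfl | rfl <;> simp [h1, h2]
  · intro H
    exact ⟨H _ (by simp [cellV]) _ (by simp [cellV]), H _ (by simp [cellV]) _ (by simp [cellV])⟩

theorem ad_aut_cellsIn (g : AdAut) (S : Finset TV) : latCellsIn (S.image g.f) = (latCellsIn S).image g.c := by
  ext z
  obtain ⟨y, rfl⟩ := g.c.surjective z
  rw [lat_mem_cellsIn, g.cell, Finset.image_subset_image_iff g.f.injective, g.c.injective.mem_finset_image, lat_mem_cellsIn]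

theorem ad_aut_bd (g : AdAut) (S : Finset TV) : latBd (S.image g.f) = (latBd S).image g.f := by
  ext z
  obtain ⟨u, rfl⟩ := g.f.surjective z
  rw [lat_mem_bd, g.f.injective.mem_finset_image, g.f.injective.mem_finset_image, lat_mem_bd]
  refine and_congr_right fun _ => ⟨?_, ?_⟩
  · rintro ⟨w, hw, hwS⟩
    obtain ⟨v, rfl⟩ := g.f.surjective w
    exact ⟨v, (g.adj u v).2 hw, fun h => hwS (g.f.injective.mem_finset_image.2 h)⟩
  · rintro ⟨v, hv, hvS⟩
    exact ⟨g.f v, (g.adj u v).1 hv, fun h => hvS (g.f.injective.mem_finset_image.1 h)⟩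

theorem ad_push_K (g : AdAut) (h : TV → ℤ) (y : TV) : AdK (fun u => h (g.f.symm u)) (g.c y) ↔ AdK h y := by
  rw [ad_K_iff, ad_K_iff, g.cell]
  simp only [Finset.mem_image, forall_exists_index, and_imp, forall_apply_eq_imp_iff₂, Equiv.symm_apply_apply]

theorem ad_push_Bc (g : AdAut) (h : TV → ℤ) (y : TV) : AdBc (fun u => h (g.f.symm u)) (g.c y) ↔ AdBc h y := by
  rw [ad_Bc_iff, ad_Bc_iff, g.cell]
  simp only [Finset.mem_image, forall_exists_index, and_imp, forall_apply_eq_imp_iff₂, Equiv.symm_apply_apply]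

theorem ad_push_phi (q : ℝ) (g : AdAut) (ω : AdC) (y : TV) : adPhi q (adPush g ω) (g.c y) = adPhi q ω y := by
  have h2 : g.c y ∈ (adPush g ω).2 ↔ y ∈ ω.2 := g.c.injective.mem_finset_image
  have hK : AdK (adPush g ω).1 (g.c y) ↔ AdK ω.1 y := ad_push_K g ω.1 y
  have hB : AdBc (adPush g ω).1 (g.c y) ↔ AdBc ω.1 y := ad_push_Bc g ω.1 y
  unfold adPhi
  simp only [h2, hK, hB]

theorem ad_push_wt (q : ℝ) (g : AdAut) (S : Finset TV) (ω : AdC) : adWt q (S.image g.f) (adPush g ω) = adWt q S ω := by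
  unfold adWt
  rw [ad_aut_cellsIn, Finset.prod_image (fun a _ b _ h => g.c.injective h)]
  exact Finset.prod_congr rfl fun y _ => ad_push_phi q g ω y

theorem ad_push_adm (g : AdAut) {S : Finset TV} {ω : AdC} : AdAdm (S.image g.f) (adPush g ω) ↔ AdAdm S ω := by
  have hv : ∀ u, (adPush g ω).1 (g.f u) = ω.1 u := fun u => by
    show ω.1 (g.f.symm (g.f u)) = ω.1 u
    rw [Equiv.symm_apply_apply]
  constructor
  · intro h
    refine ⟨⟨fun u hu => ?_, fun u hu v hv' huv => ?_, fun u hu => ?_⟩, fun y hy => ?_⟩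
    · rw [← hv u]
      exact h.ht.off _ fun hc => hu (g.f.injective.mem_finset_image.1 hc)
    · rw [← hv u, ← hv v]
      exact h.ht.lip _ (Finset.mem_image_of_mem _ hu) _ (Finset.mem_image_of_mem _ hv') ((g.adj u v).1 huv)
    · rw [← hv u]
      exact h.ht.lay _ (by rw [ad_aut_bd]; exact Finset.mem_image_of_mem _ hu)
    · have := h.opn (Finset.mem_image_of_mem g.c hy)
      rw [ad_aut_cellsIn] at this
      exact g.c.injective.mem_finset_image.1 this
  · intro h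
    refine ⟨⟨fun z hz => ?_, fun z hz w hw hzw => ?_, fun z hz => ?_⟩, ?_⟩
    · obtain ⟨u, rfl⟩ := g.f.surjective z
      rw [hv]
      exact h.ht.off _ fun hc => hz (Finset.mem_image_of_mem _ hc)
    · obtain ⟨u, rfl⟩ := g.f.surjective z
      obtain ⟨v, rfl⟩ := g.f.surjective w
      rw [hv, hv]
      exact h.ht.lip _ (g.f.injective.mem_finset_image.1 hz) _ (g.f.injective.mem_finset_image.1 hw) ((g.adj u v).2 hzw)
    · obtain ⟨u, rfl⟩ := g.f.surjective z
      rw [hv]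
      rw [ad_aut_bd] at hz
      exact h.ht.lay _ (g.f.injective.mem_finset_image.1 hz)
    · rw [ad_aut_cellsIn]
      exact Finset.image_subset_image h.opn

/-- the inverse automorphism -/
def adInvA (g : AdAut) : AdAut where
  f := g.f.symm
  c := g.c.symm
  adj := fun u v => by
    have := g.adj (g.f.symm u) (g.f.symm v)
    simpa using this.symm
  cell := fun y => by
    have := g.cell (g.c.symm y)
    rw [Equiv.apply_symm_apply] at this
    rw [this, Finset.image_image]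
    simp

theorem ad_push_inv (g : AdAut) (ω : AdC) : adPush g (adPush (adInvA g) ω) = ω := by
  refine Prod.ext ?_ ?_
  · funext u
    show ω.1 (g.f.symm.symm (g.f.symm u)) = ω.1 u
    simp
  · show (ω.2.image g.c.symm).image g.c = ω.2
    rw [Finset.image_image]
    simp

theorem ad_push_inv' (g : AdAut) (ω : AdC) : adPush (adInvA g) (adPush g ω) = ω := by
  refine Prod.ext ?_ ?_
  · funext u
    show ω.1 (g.f.symm (g.f.symm.symm u)) = ω.1 u
    simp
  · show (ω.2.image g.c).image g.c.symm = ω.2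
    rw [Finset.image_image]
    simp

/-- **(SYM)** -/
theorem ad_sym (q : ℝ) (g : AdAut) (S : Finset TV) (F : AdC → ℝ) : adS q (S.image g.f) F = adS q S (fun ω => F (adPush g ω)) := by
  unfold adS
  refine (Finset.sum_nbij' (adPush g) (adPush (adInvA g)) ?_ ?_ ?_ ?_ ?_).symm
  · intro ω hω
    exact ad_mem_cfg.2 (ad_push_adm g |>.2 (ad_mem_cfg.1 hω))
  · intro ω hω
    refine ad_mem_cfg.2 ((ad_push_adm g).1 ?_)
    rw [ad_push_inv]
    exact ad_mem_cfg.1 hω
  · intro ω _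
    exact ad_push_inv' g ω
  · intro ω _
    exact ad_push_inv g ω
  · intro ω _
    rw [ad_push_wt]

theorem ad_sym_P (q : ℝ) (g : AdAut) (S : Finset TV) (K : AdC → Prop) : adP q (S.image g.f) K = adP q S (fun ω => K (adPush g ω)) := by
  unfold adP adE adZ
  rw [ad_sym, ad_sym]

/-- paths are transported -/
theorem ad_aut_R (g : AdAut) {X : Set TV} {u v : TV} (h : TscR tscG X u v) : TscR tscG (g.f '' X) (g.f u) (g.f v) := by
  induction h with
  | refl => exact tsc_R_refl _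
  | tail _ hbc ih =>
    exact tsc_R_trans ih (tsc_R_step ((g.adj _ _).1 hbc.1) (Set.mem_image_of_mem _ hbc.2.1) (Set.mem_image_of_mem _ hbc.2.2))

/-! ### the generators -/

/-- isometry of the hexagonal norm -/
def AdIso (g : AdAut) : Prop := ∀ u v, latN (g.f u - g.f v) = latN (u - v)

theorem ad_iso_ball {g : AdAut} (hg : AdIso g) (c : TV) (N : ℕ) : (latBall c N).image g.f = latBall (g.f c) N := by
  ext z
  obtain ⟨u, rfl⟩ := g.f.surjective z
  rw [g.f.injective.mem_finset_image, lat_mem_ball, lat_mem_ball, hg]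

theorem ad_iso_inv {g : AdAut} (hg : AdIso g) : AdIso (adInvA g) := by
  intro u v
  have := hg (g.f.symm u) (g.f.symm v)
  simpa [adInvA] using this.symm

/-- translation -/
def adTr (a : TV) : AdAut where
  f := Equiv.addRight a
  c := Equiv.addRight a
  adj := fun u v => (lat_adj_shift a).symm
  cell := fun y => by
    simp only [cellV, Finset.image_insert, Finset.image_singleton, Equiv.coe_addRight]
    rw [add_right_comm y (1, 0) a, add_right_comm y (0, 1) a]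

/-- swap of the coordinates -/
def adSw : AdAut where
  f := Equiv.prodComm ℤ ℤ
  c := Equiv.prodComm ℤ ℤ
  adj := fun u v => by
    rw [tsc_adj_iff, tsc_adj_iff]
    simp only [Equiv.prodComm_apply, Prod.fst_swap, Prod.snd_swap]
    omega
  cell := fun y => by
    ext u
    simp only [cellV, Finset.image_insert, Finset.image_singleton, Equiv.prodComm_apply, Finset.mem_insert, Finset.mem_singleton,
      Prod.ext_iff, Prod.fst_swap, Prod.snd_swap, Prod.fst_add, Prod.snd_add]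
    omega

/-- composition `g ∘ g'` -/
def adCmp (g g' : AdAut) : AdAut where
  f := g'.f.trans g.f
  c := g'.c.trans g.c
  adj := fun u v => (g'.adj u v).trans (g.adj _ _)
  cell := fun y => by
    simp only [Equiv.trans_apply]
    rw [g.cell, g'.cell, Finset.image_image]
    rfl

/-- the rotation by 120 degrees as an equivalence -/
def adR3e : TV ≃ TV where
  toFun := latRot3
  invFun := fun u => latRot3 (latRot3 u)
  left_inv := fun u => lat_rot3_three u
  right_inv := fun u => lat_rot3_three u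

/-- the vertical mirror as an equivalence -/
def adMve : TV ≃ TV where
  toFun := latReflV
  invFun := latReflV
  left_inv := lat_reflV_reflV
  right_inv := lat_reflV_reflV

/-- rotation by 120 degrees -/
def adR3 : AdAut where
  f := adR3e
  c := adR3e.trans (Equiv.addRight (-1, 0))
  adj := fun u v => by
    have e : ∀ w, adR3e w = latRot3 w := fun _ => rfl
    rw [tsc_adj_iff, tsc_adj_iff, e, e]
    simp only [latRot3]
    omega
  cell := fun y => (lat_rot3_cell y).symm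

/-- vertical mirror -/
def adMv : AdAut where
  f := adMve
  c := adMve.trans (Equiv.addRight (-1, 0))
  adj := fun u v => by
    have e : ∀ w, adMve w = latReflV w := fun _ => rfl
    rw [tsc_adj_iff, tsc_adj_iff, e, e]
    simp only [latReflV]
    omega
  cell := fun y => (lat_reflV_cell y).symm

theorem ad_iso_tr (a : TV) : AdIso (adTr a) := by
  intro u v
  show latN (u + a - (v + a)) = latN (u - v)
  rw [add_sub_add_right_eq_sub]

theorem ad_iso_sw : AdIso adSw := by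
  intro u v
  show latN (u.swap - v.swap) = latN (u - v)
  unfold latN
  simp only [Prod.fst_sub, Prod.snd_sub, Prod.fst_swap, Prod.snd_swap]
  omega

theorem ad_iso_r3 : AdIso adR3 := by
  intro u v
  show latN (latRot3 u - latRot3 v) = latN (u - v)
  unfold latN latRot3
  simp only [Prod.fst_sub, Prod.snd_sub]
  omega

theorem ad_iso_mv : AdIso adMv := by
  intro u v
  show latN (latReflV u - latReflV v) = latN (u - v)
  unfold latN latReflV
  simp only [Prod.fst_sub, Prod.snd_sub]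
  omega

theorem ad_iso_cmp {g g' : AdAut} (hg : AdIso g) (hg' : AdIso g') : AdIso (adCmp g g') :=
  fun u v => (hg _ _).trans (hg' u v)

/-! ### the global flip -/

theorem ad_flipS_adm {S : Finset TV} {ω : AdC} (h : AdAdm S ω) : AdAdm S (adFlipS S ω) := by
  have hv : ∀ u, (adFlipS S ω).1 u = if u ∈ S then 1 - ω.1 u else 0 := fun _ => rfl
  refine ⟨⟨fun u hu => ?_, fun u hu v hv' huv => ?_, fun u hu => ?_⟩, h.opn⟩
  · rw [hv, if_neg hu]
  · rw [hv, hv, if_pos hu, if_pos hv']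
    have := h.ht.lip u hu v hv' huv
    rw [abs_le] at this ⊢
    constructor <;> omega
  · rw [hv, if_pos (lat_bd_sub S hu)]
    rcases h.ht.lay u hu with e | e <;> omega

theorem ad_flipS_invol {S : Finset TV} {ω : AdC} (h : AdAdm S ω) : adFlipS S (adFlipS S ω) = ω := by
  refine Prod.ext ?_ rfl
  funext u
  show (if u ∈ S then 1 - (if u ∈ S then 1 - ω.1 u else 0) else 0) = ω.1 u
  by_cases hu : u ∈ S
  · rw [if_pos hu, if_pos hu]
    ring
  · rw [if_neg hu, h.ht.off u hu]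

theorem ad_flipS_wt (q : ℝ) (S : Finset TV) (ω : AdC) : adWt q S (adFlipS S ω) = adWt q S ω := by
  unfold adWt
  refine Finset.prod_congr rfl fun y hy => ?_
  have hsub := lat_mem_cellsIn.1 hy
  have hv : ∀ u ∈ cellV y, (adFlipS S ω).1 u = 1 - ω.1 u := fun u hu => by
    show (if u ∈ S then 1 - ω.1 u else 0) = 1 - ω.1 u
    rw [if_pos (hsub hu)]
  have e0 := hv y (by simp [cellV])
  have e1 := hv (y + (1, 0)) (by simp [cellV])
  have e2 := hv (y + (0, 1)) (by simp [cellV])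
  have hK : AdK (adFlipS S ω).1 y ↔ AdK ω.1 y := by
    unfold AdK
    rw [e0, e1, e2]
    constructor <;> rintro ⟨a, b⟩ <;> constructor <;> omega
  have hB : ∀ a : ℤ, AdB (1 - a) ↔ AdB a := by
    intro a
    unfold AdB
    omega
  have hBc : AdBc (adFlipS S ω).1 y ↔ AdBc ω.1 y := by
    unfold AdBc
    rw [e0, e1, e2, hB, hB, hB]
  have h2 : y ∈ (adFlipS S ω).2 ↔ y ∈ ω.2 := Iff.rfl
  unfold adPhi
  simp only [h2, hK, hBc]

theorem ad_flipS_sum (q : ℝ) (S : Finset TV) (F : AdC → ℝ) : adS q S (fun ω => F (adFlipS S ω)) = adS q S F := by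
  unfold adS
  refine Finset.sum_nbij' (adFlipS S) (adFlipS S) ?_ ?_ ?_ ?_ ?_
  · intro ω hω
    exact ad_mem_cfg.2 (ad_flipS_adm (ad_mem_cfg.1 hω))
  · intro ω hω
    exact ad_mem_cfg.2 (ad_flipS_adm (ad_mem_cfg.1 hω))
  · intro ω hω
    exact ad_flipS_invol (ad_mem_cfg.1 hω)
  · intro ω hω
    exact ad_flipS_invol (ad_mem_cfg.1 hω)
  · intro ω _
    rw [ad_flipS_wt]

theorem ad_flipS_P (q : ℝ) (S : Finset TV) (K : AdC → Prop) : adP q S (fun ω => K (adFlipS S ω)) = adP q S K := by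
  classical
  unfold adP adE
  rw [← ad_flipS_sum q S (fun ω => if K ω then 1 else 0)]

/-! ### D8b : the rhombus -/

/-- left-right crossing of `[0,s]²` by sites of height `≤ 0` -/
def AdH0 (s : ℕ) (h : TV → ℤ) : Prop :=
  ∃ l r : TV, l ∈ tscBox 0 s 0 s ∩ {u | h u ≤ 0} ∧ l.1 = 0 ∧ r.1 = (s : ℤ) ∧ TscR tscG (tscBox 0 s 0 s ∩ {u | h u ≤ 0}) l r

/-- left-right crossing of `[0,s]²` by sites of height `≥ 1` -/
def AdH1 (s : ℕ) (h : TV → ℤ) : Prop :=
  ∃ l r : TV, l ∈ tscBox 0 s 0 s ∩ {u | 1 ≤ h u} ∧ l.1 = 0 ∧ r.1 = (s : ℤ) ∧ TscR tscG (tscBox 0 s 0 s ∩ {u | 1 ≤ h u}) l r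

/-- bottom-top crossing of `[0,s]²` by sites of height `≤ 0` -/
def AdV0 (s : ℕ) (h : TV → ℤ) : Prop :=
  ∃ u v : TV, u ∈ tscBox 0 s 0 s \ {u | 1 ≤ h u} ∧ u.2 = 0 ∧ v.2 = (s : ℤ) ∧ TscR tscG (tscBox 0 s 0 s \ {u | 1 ≤ h u}) u v

theorem ad_rh_hex (s : ℕ) (h : TV → ℤ) : AdH1 s h ∨ AdV0 s h :=
  tsc_hex_box (Int.natCast_nonneg s) (Int.natCast_nonneg s) {u | 1 ≤ h u}

theorem ad_tbox_sub_ball (s : ℕ) : tscBox 0 s 0 s ⊆ ↑(latBall 0 (2 * s)) := by
  intro u hu
  obtain ⟨h1, h2, h3, h4⟩ := hu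
  rw [Finset.mem_coe, lat_mem_ball]
  unfold latN
  simp only [sub_zero]
  omega

theorem ad_rh_flip {s N : ℕ} (hN : 2 * s ≤ N) (ω : AdC) : AdH1 s (adFlipS (latBall 0 N) ω).1 ↔ AdH0 s ω.1 := by
  have hset : tscBox 0 s 0 s ∩ {u | 1 ≤ (adFlipS (latBall 0 N) ω).1 u} = tscBox 0 s 0 s ∩ {u | ω.1 u ≤ 0} := by
    ext u
    refine and_congr_right fun hu => ?_
    have hb : u ∈ latBall 0 N := plh_ball_mono 0 hN (Finset.mem_coe.1 (ad_tbox_sub_ball s hu))
    show 1 ≤ (if u ∈ latBall 0 N then 1 - ω.1 u else 0) ↔ ω.1 u ≤ 0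
    rw [if_pos hb]
    omega
  unfold AdH1 AdH0
  rw [hset]

theorem ad_rh_swap (s : ℕ) (ω : AdC) : AdV0 s (adPush adSw ω).1 ↔ AdH0 s ω.1 := by
  have hmem : ∀ u : TV, u ∈ tscBox 0 s 0 s \ {u | 1 ≤ (adPush adSw ω).1 u} ↔ u.swap ∈ tscBox 0 s 0 s ∩ {u | ω.1 u ≤ 0} := by
    intro u
    show (u ∈ tscBox 0 s 0 s ∧ ¬ 1 ≤ ω.1 u.swap) ↔ (u.swap ∈ tscBox 0 s 0 s ∧ ω.1 u.swap ≤ 0)
    unfold tscBox
    simp only [Set.mem_setOf_eq, Prod.fst_swap, Prod.snd_swap]
    constructor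
    · rintro ⟨⟨a, b, c, d⟩, e⟩
      exact ⟨⟨c, d, a, b⟩, by omega⟩
    · rintro ⟨⟨a, b, c, d⟩, e⟩
      exact ⟨⟨c, d, a, b⟩, by omega⟩
  have hf : ∀ u : TV, adSw.f u = u.swap := fun _ => rfl
  have im1 : adSw.f '' (tscBox 0 s 0 s \ {u | 1 ≤ (adPush adSw ω).1 u}) = tscBox 0 s 0 s ∩ {u | ω.1 u ≤ 0} := by
    ext u
    constructor
    · rintro ⟨w, hw, rfl⟩
      exact (hmem w).1 hw
    · intro hu
      exact ⟨u.swap, (hmem _).2 (by rwa [Prod.swap_swap]), by rw [hf, Prod.swap_swap]⟩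
  have im2 : adSw.f '' (tscBox 0 s 0 s ∩ {u | ω.1 u ≤ 0}) = tscBox 0 s 0 s \ {u | 1 ≤ (adPush adSw ω).1 u} := by
    ext u
    constructor
    · rintro ⟨w, hw, rfl⟩
      exact (hmem _).2 (by rwa [hf, Prod.swap_swap])
    · intro hu
      exact ⟨u.swap, (hmem u).1 hu, by rw [hf, Prod.swap_swap]⟩
  constructor
  · rintro ⟨u, v, hu, hu2, hv2, hR⟩
    have := ad_aut_R adSw hR
    rw [im1] at this
    exact ⟨u.swap, v.swap, (hmem u).1 hu, hu2, hv2, this⟩
  · rintro ⟨l, r, hl, hl1, hr1, hR⟩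
    have := ad_aut_R adSw hR
    rw [im2] at this
    exact ⟨l.swap, r.swap, (hmem _).2 (by rwa [Prod.swap_swap]), hl1, hr1, this⟩

/-- **the rhombus is crossed by heights `≤ 0` with probability at least one half** -/
theorem ad_rh_half {q : ℝ} (h0 : 0 < q) (h1 : q ≤ 1) {s N : ℕ} (hN : 2 * s ≤ N) :
    1 / 2 ≤ adP q (latBall 0 N) (fun ω => AdH0 s ω.1) := by
  classical
  have hone : adP q (latBall 0 N) (fun ω => ∃ b ∈ (Finset.univ : Finset Bool), (if b then AdH1 s ω.1 else AdV0 s ω.1)) = 1 := by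
    have : (fun ω : AdC => ∃ b ∈ (Finset.univ : Finset Bool), (if b then AdH1 s ω.1 else AdV0 s ω.1)) = fun _ => True := by
      funext ω
      rw [eq_iff_iff, iff_true]
      rcases ad_rh_hex s ω.1 with h | h
      · exact ⟨true, Finset.mem_univ _, by simpa using h⟩
      · exact ⟨false, Finset.mem_univ _, by simpa using h⟩
    rw [this]
    unfold adP
    simp only [if_true]
    exact ad_E_const h0 h1 _ 1
  have hun := ad_P_union h0 h1 (latBall 0 N) (Finset.univ : Finset Bool) (fun b ω => if b then AdH1 s ω.1 else AdV0 s ω.1)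
  rw [hone] at hun
  simp only [Fintype.sum_bool, if_true, Bool.false_eq_true, if_false] at hun
  have e1 : adP q (latBall 0 N) (fun ω => AdH1 s ω.1) = adP q (latBall 0 N) (fun ω => AdH0 s ω.1) := by
    rw [← ad_flipS_P q (latBall 0 N) (fun ω => AdH1 s ω.1)]
    simp only [ad_rh_flip hN]
  have e2 : adP q (latBall 0 N) (fun ω => AdV0 s ω.1) = adP q (latBall 0 N) (fun ω => AdH0 s ω.1) := by
    have h := ad_sym_P q adSw (latBall 0 N) (fun ω => AdV0 s ω.1)
    rw [ad_iso_ball ad_iso_sw] at h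
    have e0 : adSw.f 0 = 0 := rfl
    rw [e0] at h
    rw [h]
    simp only [ad_rh_swap]
  rw [e1, e2] at hun
  linarith

/-- **pigeonhole** -/
theorem ad_rh_pigeon {q : ℝ} (h0 : 0 < q) (h1 : q ≤ 1) {s N : ℕ} (hN : 2 * s ≤ N) :
    ∃ j j' : ℕ, j ≤ s ∧ j' ≤ s ∧
      1 / (2 * ((s : ℝ) + 1) ^ 2) ≤ adP q (latBall 0 N) (fun ω => AdJ0 (tscBox 0 s 0 s) (0, (j : ℤ)) ((s : ℤ), (j' : ℤ)) ω.1) := by
  classical
  set I := Finset.range (s + 1) ×ˢ Finset.range (s + 1) with hI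
  have hsub : adP q (latBall 0 N) (fun ω => AdH0 s ω.1)
      ≤ adP q (latBall 0 N) (fun ω => ∃ p ∈ I, AdJ0 (tscBox 0 s 0 s) (0, (p.1 : ℤ)) ((s : ℤ), (p.2 : ℤ)) ω.1) := by
    refine ad_P_mono h0 h1 _ fun ω _ => ?_
    rintro ⟨l, r, hl, hl1, hr1, hR⟩
    have hr := tsc_R_mem hR hl
    obtain ⟨⟨a1, a2, a3, a4⟩, a5⟩ := hl
    obtain ⟨⟨b1, b2, b3, b4⟩, b5⟩ := hr
    refine ⟨(l.2.toNat, r.2.toNat), ?_, ?_⟩
    · rw [hI, Finset.mem_product, Finset.mem_range, Finset.mem_range]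
      constructor <;> simp only <;> omega
    · have el : ((0 : ℤ), ((l.2.toNat : ℕ) : ℤ)) = l := by
        ext
        · exact hl1.symm
        · exact Int.toNat_of_nonneg a3
      have er : ((s : ℤ), ((r.2.toNat : ℕ) : ℤ)) = r := by
        ext
        · exact hr1.symm
        · exact Int.toNat_of_nonneg b3
      simp only [el, er]
      exact ⟨⟨a1, a2, a3, a4⟩, a5, hR⟩
  have hun := ad_P_union h0 h1 (latBall 0 N) I (fun p ω => AdJ0 (tscBox 0 s 0 s) (0, (p.1 : ℤ)) ((s : ℤ), (p.2 : ℤ)) ω.1)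
  have hhalf := ad_rh_half h0 h1 hN
  have hne : I.Nonempty := ⟨(0, 0), by rw [hI, Finset.mem_product]; simp⟩
  have hcard : (I.card : ℝ) = ((s : ℝ) + 1) ^ 2 := by
    rw [hI, Finset.card_product, Finset.card_range]
    push_cast
    ring
  have hsum : ∑ _p ∈ I, 1 / (2 * ((s : ℝ) + 1) ^ 2)
      ≤ ∑ p ∈ I, adP q (latBall 0 N) (fun ω => AdJ0 (tscBox 0 s 0 s) (0, (p.1 : ℤ)) ((s : ℤ), (p.2 : ℤ)) ω.1) := by
    rw [Finset.sum_const, nsmul_eq_mul, hcard]
    have hs : (0 : ℝ) < ((s : ℝ) + 1) ^ 2 := by positivity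
    have : ((s : ℝ) + 1) ^ 2 * (1 / (2 * ((s : ℝ) + 1) ^ 2)) = 1 / 2 := by
      field_simp
    rw [this]
    linarith
  obtain ⟨p, hp, hle⟩ := Finset.exists_le_of_sum_le hne hsum
  rw [hI, Finset.mem_product, Finset.mem_range, Finset.mem_range] at hp
  exact ⟨p.1, p.2, by omega, by omega, hle⟩

/-! ### D10 : pieces, (GEO), the polynomial lower bound -/

/-- the image under `g` of the connection `z ↔ z'` by heights `≤ 0` inside `Λ_{2s}` -/
def AdPc (s : ℕ) (g : AdAut) (z z' : TV) (h : TV → ℤ) : Prop :=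
  TscR tscG ({u | h u ≤ 0} ∩ {p | ∃ u, latN u ≤ 2 * s ∧ g.f u = p}) (g.f z) (g.f z')

/-- the identity -/
def adId : AdAut := adTr 0

theorem ad_pc_down (s : ℕ) (g : AdAut) (z z' : TV) : AdHDown (AdPc s g z z') := by
  intro h h' hh hK
  refine tsc_R_mono ?_ hK
  rintro u ⟨hu1, hu2⟩
  exact ⟨le_trans (hh u) hu1, hu2⟩

theorem ad_pc_push (s : ℕ) (g : AdAut) (z z' : TV) (ω : AdC) : AdPc s g z z' (adPush g ω).1 ↔ AdPc s adId z z' ω.1 := by
  have e0 : ∀ u : TV, adId.f u = u := fun u => add_zero u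
  unfold AdPc
  rw [e0, e0]
  constructor
  · intro h
    have h2 := ad_aut_R (adInvA g) h
    have e1 : ∀ u : TV, (adInvA g).f (g.f u) = u := fun u => g.f.symm_apply_apply u
    rw [e1, e1] at h2
    refine tsc_R_mono ?_ h2
    rintro _ ⟨p, ⟨hp1, u, hu, rfl⟩, rfl⟩
    rw [e1]
    refine ⟨?_, u, hu, e0 u⟩
    have : ω.1 (g.f.symm (g.f u)) ≤ 0 := hp1
    rwa [Equiv.symm_apply_apply] at this
  · intro h
    refine tsc_R_mono ?_ (ad_aut_R g h)
    rintro _ ⟨p, ⟨hp1, u, hu, rfl⟩, rfl⟩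
    rw [e0] at hp1 ⊢
    refine ⟨?_, u, hu, rfl⟩
    show ω.1 (g.f.symm (g.f u)) ≤ 0
    rwa [Equiv.symm_apply_apply]

theorem ad_pc_loc (s : ℕ) (z z' : TV) (h h' : TV → ℤ) (hh : ∀ u ∈ latBall 0 (2 * s), h u = h' u) :
    AdPc s adId z z' h ↔ AdPc s adId z z' h' := by
  have e0 : ∀ u : TV, adId.f u = u := fun u => add_zero u
  have key : ({u | h u ≤ 0} ∩ {p | ∃ u, latN u ≤ 2 * s ∧ adId.f u = p} : Set TV) = {u | h' u ≤ 0} ∩ {p | ∃ u, latN u ≤ 2 * s ∧ adId.f u = p} := by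
    ext p
    simp only [Set.mem_inter_iff, Set.mem_ofPred_eq]
    refine and_congr_left ?_
    rintro ⟨u, hu, rfl⟩
    rw [e0, hh u (by rw [lat_mem_ball, sub_zero]; exact hu)]
  unfold AdPc
  rw [key]

theorem ad_pc_of_J0 {s : ℕ} {z z' : TV} {h : TV → ℤ} (hJ : AdJ0 (tscBox 0 s 0 s) z z' h) : AdPc s adId z z' h := by
  have e0 : ∀ u : TV, adId.f u = u := fun u => add_zero u
  unfold AdPc
  rw [e0, e0]
  refine tsc_R_mono ?_ hJ.2.2
  rintro u ⟨hu1, hu2⟩
  refine ⟨hu2, u, ?_, e0 u⟩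
  have := ad_tbox_sub_ball s hu1
  rw [Finset.mem_coe, lat_mem_ball, sub_zero] at this
  exact this

theorem ad_pc_prob (q : ℝ) (s : ℕ) {g : AdAut} (hg : AdIso g) (z z' : TV) (N : ℕ) :
    adP q (latBall 0 N) (fun ω => AdPc s g z z' ω.1) = adP q (latBall (g.f.symm 0) N) (fun ω => AdPc s adId z z' ω.1) := by
  have e : latBall (0 : TV) N = (latBall (g.f.symm 0) N).image g.f := by
    rw [ad_iso_ball hg, Equiv.apply_symm_apply]
  rw [e, ad_sym_P]
  simp only [ad_pc_push]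

/-- a rigid motion of helper191 read as a class preserving automorphism -/
noncomputable def adpOf (g : PlgMap) : AdAut where
  f := Equiv.ofBijective g.app ⟨fun _ _ h => plg_app_inj g h, plg_app_surj g⟩
  c := Equiv.ofBijective g.cell.app ⟨fun _ _ h => plg_app_inj g.cell h, plg_app_surj g.cell⟩
  adj := fun u v => by
    show triAdj u v ↔ triAdj (g.app u) (g.app v)
    rw [plh_N_adj_iff, plh_N_adj_iff, plg_app_dist]
  cell := fun y => (plg_app_cell g y).symm

theorem adp_of_f (g : PlgMap) (u : TV) : (adpOf g).f u = g.app u := rfl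

theorem adp_of_iso (g : PlgMap) : AdIso (adpOf g) := fun u v => plg_app_dist g u v

/-- **(GEO)**, = `plg_geo 2` of helper191 read on `AdAut` -/
theorem ad_geo : ∃ J κ : ℕ, ∀ s : ℕ, 1 ≤ s → ∀ z z' : TV, latN z ≤ 2 * s → latN z' ≤ 2 * s → s ≤ latN (z' - z) →
    ∃ G : List AdAut, G.length ≤ J ∧ (∀ g ∈ G, AdIso g ∧ latN (g.f 0) ≤ κ * s) ∧
      ∀ X : Set TV, (∀ g ∈ G, TscR tscG (X ∩ {p | ∃ u, latN u ≤ 2 * s ∧ g.f u = p}) (g.f z) (g.f z')) →
        ∀ u w, latN u ≤ s → (κ + 2) * s < latN w → ¬ TscR tscG Xᶜ u w := by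
  obtain ⟨J, κ, H⟩ := plg_geo 2
  refine ⟨J, κ, fun s hs z z' hz hz' hv => ?_⟩
  obtain ⟨G, g1, g2, g3⟩ := H s hs z z' hz hz' hv
  refine ⟨G.map adpOf, by rw [List.length_map]; exact g1, ?_, ?_⟩
  · intro g hg
    obtain ⟨g', hg', rfl⟩ := List.mem_map.1 hg
    exact ⟨adp_of_iso g', g2 g' hg'⟩
  · intro X hX
    exact g3 X fun g hg => hX (adpOf g) (List.mem_map.2 ⟨g, hg, rfl⟩)

/-- the layer of a hexagon is its sphere -/
theorem ad_ball_bd {c u : TV} {N : ℕ} (h : u ∈ latBd (latBall c N)) : latN (u - c) = N := by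
  exact plh_bd_ball.1 h

/-- a blocked annulus protects the inner hexagon from the `σ = 1` clusters of the layer -/
theorem ad_E1_blocked {s N R : ℕ} (hR : R < N) {h : TV → ℤ}
    (hb : ∀ u w, latN u ≤ s → R < latN w → ¬ TscR tscG {u | h u ≤ 0}ᶜ u w) :
    ∀ u ∈ latBall 0 s, u ∉ adE1 (latBall 0 N) h := by
  rintro u hu ⟨b, hbd, hR', -⟩
  rw [lat_mem_ball, sub_zero] at hu
  have hbN := ad_ball_bd hbd
  rw [sub_zero] at hbN
  refine hb u b hu (by omega) (tsc_R_symm (tsc_R_mono ?_ hR'))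
  rintro w ⟨-, hw⟩
  show ¬ (h w ≤ 0)
  omega



theorem adp_N_neg (u : TV) : latN (-u) = latN u := by
  unfold latN
  simp only [Prod.fst_neg, Prod.snd_neg]
  omega

/-- one piece has polynomial probability in every large hexagon -/
theorem ad_pc_lower {q : ℝ} (h0 : 0 < q) (h1 : q ≤ 1) (hF : AdFKG q) {ε : ℕ → ℝ} (hmix : AdMixH q ε) {γ : ℝ} {s M N κ : ℕ}
    (hM : 4 * s + 1 ≤ M) (hN : κ * s + (2 * M + 1) ≤ N)
    (hγ : ∀ c N, latBall 0 (2 * (2 * s) + 1) ⊆ latBall c N → adP q (latBall c N) (fun ω => ¬ AdG (latBall c N) 0 (2 * s) ω) ≤ γ)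
    (htv : 2 ^ ((latBall 0 (2 * (2 * s))).card + 2) * ε M + 8 * γ ≤ 1 / (4 * ((s : ℝ) + 1) ^ 2))
    {z z' : TV} (hz : 1 / (2 * ((s : ℝ) + 1) ^ 2) ≤ adP q (latBall 0 (2 * M + 1)) (fun ω => AdPc s adId z z' ω.1))
    {g : AdAut} (hg : AdIso g) (hg0 : latN (g.f 0) ≤ κ * s) :
    1 / (4 * ((s : ℝ) + 1) ^ 2) ≤ adP q (latBall 0 N) (fun ω => AdPc s g z z' ω.1) := by
  rw [ad_pc_prob q s hg]
  have hc : latN (g.f.symm 0) = latN (g.f 0) := by
    have := hg (g.f.symm 0) 0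
    rw [Equiv.apply_symm_apply, zero_sub, sub_zero, adp_N_neg] at this
    exact this.symm
  have hs₂ : latBall (0 : TV) (2 * M + 1) ⊆ latBall (g.f.symm 0) N := by
    intro u hu
    rw [lat_mem_ball] at hu ⊢
    rw [sub_zero] at hu
    have := plg_N_add u (-(g.f.symm 0))
    rw [adp_N_neg, ← sub_eq_add_neg] at this
    omega
  have key := ad_tv h0 h1 hF hmix (c₁ := 0) (c₂ := g.f.symm 0) (o := 0) (N₁ := 2 * M + 1) (N₂ := N) (M := M) (r := 2 * s) (by omega)
    (Finset.Subset.refl _) hs₂ hγ (AdPc s adId z z') (ad_pc_loc s z z')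
  have k2 := (abs_le.1 key).2
  have e : 1 / (2 * ((s : ℝ) + 1) ^ 2) = 1 / (4 * ((s : ℝ) + 1) ^ 2) + 1 / (4 * ((s : ℝ) + 1) ^ 2) := by
    have : ((s : ℝ) + 1) ^ 2 ≠ 0 := by positivity
    field_simp
    norm_num
  linarith

/-- **D10 EXIT (POLY).** -/
theorem ad_poly : ∃ J κ : ℕ, ∀ {q : ℝ}, 0 < q → q ≤ 1 → AdFKG q → ∀ {ε : ℕ → ℝ}, AdMixH q ε → ∀ {γ : ℝ} (s M N : ℕ), 1 ≤ s →
    4 * s + 1 ≤ M → κ * s + (2 * M + 1) ≤ N →
    (∀ c N, latBall 0 (2 * (2 * s) + 1) ⊆ latBall c N → adP q (latBall c N) (fun ω => ¬ AdG (latBall c N) 0 (2 * s) ω) ≤ γ) →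
    2 ^ ((latBall 0 (2 * (2 * s))).card + 2) * ε M + 8 * γ ≤ 1 / (4 * ((s : ℝ) + 1) ^ 2) →
    (1 / (4 * ((s : ℝ) + 1) ^ 2)) ^ J ≤ adP q (latBall 0 N) (fun ω => ∀ u ∈ latBall 0 s, u ∉ adE1 (latBall 0 N) ω.1) := by
  obtain ⟨J, κ, H⟩ := ad_geo
  refine ⟨J, κ, ?_⟩
  intro q h0 h1 hF ε hmix γ s M N hs hM hN hγ htv
  obtain ⟨j, j', hj, hj', hp⟩ := ad_rh_pigeon h0 h1 (s := s) (N := 2 * M + 1) (by omega)
  set z : TV := (0, (j : ℤ)) with hz
  set z' : TV := ((s : ℤ), (j' : ℤ)) with hz'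
  have n1 : latN z ≤ 2 * s := by
    rw [hz]; unfold latN; simp only []; omega
  have n2 : latN z' ≤ 2 * s := by
    rw [hz']; unfold latN; simp only []; omega
  have n3 : s ≤ latN (z' - z) := by
    rw [hz, hz']; unfold latN; simp only [Prod.fst_sub, Prod.snd_sub]; omega
  obtain ⟨G, g1, g2, g3⟩ := H s hs z z' n1 n2 n3
  have hp2 : 1 / (2 * ((s : ℝ) + 1) ^ 2) ≤ adP q (latBall 0 (2 * M + 1)) (fun ω => AdPc s adId z z' ω.1) :=
    hp.trans (ad_P_mono h0 h1 _ fun ω _ h => ad_pc_of_J0 h)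
  set b : ℝ := 1 / (4 * ((s : ℝ) + 1) ^ 2) with hb
  have b0 : 0 ≤ b := by rw [hb]; positivity
  have b1 : b ≤ 1 := by
    rw [hb, div_le_one (by positivity)]
    have : (0 : ℝ) ≤ s := Nat.cast_nonneg s
    nlinarith
  have hlow : ∀ g ∈ G, b ≤ adP q (latBall 0 N) (fun ω => AdPc s g z z' ω.1) := fun g hg =>
    ad_pc_lower h0 h1 hF hmix hM hN hγ htv hp2 (g2 g hg).1 (g2 g hg).2
  have hprod := ad_hf h0 h1 (latBall 0 N) (Finset.univ : Finset (Fin G.length)) (fun i => AdPc s (G.get i) z z')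
    (fun i _ => ad_pc_down s _ z z')
  have h3 : b ^ G.length ≤ ∏ i : Fin G.length, adP q (latBall 0 N) (fun ω => AdPc s (G.get i) z z' ω.1) := by
    have := Finset.prod_le_prod (s := (Finset.univ : Finset (Fin G.length))) (f := fun _ => b)
      (g := fun i => adP q (latBall 0 N) (fun ω => AdPc s (G.get i) z z' ω.1)) (fun _ _ => b0) (fun i _ => hlow _ (List.get_mem G i))
    simpa using this
  have h4 : b ^ J ≤ b ^ G.length := pow_le_pow_of_le_one b0 b1 g1
  refine h4.trans (h3.trans (hprod.trans (ad_P_mono h0 h1 _ fun ω _ hall => ?_)))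
  refine ad_E1_blocked (R := (κ + 2) * s) (by nlinarith) ?_
  refine g3 {u | ω.1 u ≤ 0} fun g hg => ?_
  obtain ⟨i, rfl⟩ := List.get_of_mem hg
  exact hall i (Finset.mem_univ i)


end Claimed.Agent.R291
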