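import Claimed.Agent.R291.Ann.DTop

/-!
# Row 291, ANN A6 (Theorem D, route D2), block D13 : THE EXIT IN SEQUENCE FORM      (owner helper149; prefix `ad_sq_`)

Spec: `origin/helper149:notes/R291/thmD2_149.md` Sec. 9, generalised after the alarm of helper278 (06:08Z): NO recursion hypothesis.
Input: a sequence of scales `r k`, `3 r_k ≤ r_{k+1} ≤ ρ r_k`, along which `adEta q ρ (r k) = P_{Λ_{(2ρ+1) r_k}}[Arm(0, r_k)]` decays faster than every power of `r k`.    Output: `False`.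
 * `ad_sq_step`  one step of the concentric descent from the scale `n'` to the scale `n`, `2n+1 ≤ n' ≤ ρ n`   (`ad_descent`, `ad_enlarge`, `ad_arm_tr`);
 * `ad_sq_conc`  `P_{Λ_{(2ρ+1) r_K}(v)}[Arm(v, r_k)] ≤ ∑_{j=k}^{K} adEta q ρ (r j)`;      `ad_sq_any`  the same bound in ANY hexagon;
 * `ad_sq_ar`    arithmetic;      `ad_sq_mixh`  the hypothesis of `ad_thmD`;      EXIT `ad_exit_seq`.
-/

set_option autoImplicit false

namespace Claimed.Agent.R291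

open Claims Claims.C0467

/-- one step of the concentric descent -/
theorem ad_sq_step {q : ℝ} (h0 : 0 < q) (h1 : q ≤ 1) (hF : AdFKG q) {ρ : ℕ} (v : TV) {n n' L : ℕ} (hn : 1 ≤ n) (hlo : 2 * n + 1 ≤ n')
    (hhi : n' ≤ ρ * n) (hL : 2 * n' + 1 ≤ L) :
    adP q (latBall v L) (AdArm (latBall v L) v n) ≤ adP q (latBall v L) (AdArm (latBall v L) v n') + adEta q ρ n := by
  have hd := ad_descent h0 h1 hF v hlo hL
  have hle : 2 * n' + 1 ≤ (2 * ρ + 1) * n := by nlinarith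
  have h2 : adP q (latBall v (2 * n' + 1)) (AdArm (latBall v (2 * n' + 1)) v n) ≤ adEta q ρ n := by
    unfold adEta
    rw [← ad_arm_tr q v ((2 * ρ + 1) * n) n]
    rcases hle.eq_or_lt with he | hlt
    · rw [he]
    · exact ad_enlarge h0 h1 hF v _ (ad_ball_nice v _) ((ad_ball_cl v _).trans (ad_ball_mono v (by omega))) v n
  linarith

theorem ad_sq_mono {r : ℕ → ℕ} (hlo : ∀ k, 3 * r k ≤ r (k + 1)) : Monotone r :=
  monotone_nat_of_le_succ fun k => by have := hlo k; omega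

theorem ad_sq_ge {r : ℕ → ℕ} (hr0 : 1 ≤ r 0) (hlo : ∀ k, 3 * r k ≤ r (k + 1)) (k : ℕ) : k + 1 ≤ r k := by
  induction k with
  | zero => exact hr0
  | succ k ih => have := hlo k; omega

/-- concentric descent along the sequence -/
theorem ad_sq_conc {q : ℝ} (h0 : 0 < q) (h1 : q ≤ 1) (hF : AdFKG q) {ρ : ℕ} (v : TV) {r : ℕ → ℕ} (hr0 : 1 ≤ r 0)
    (hlo : ∀ k, 3 * r k ≤ r (k + 1)) (hhi : ∀ k, r (k + 1) ≤ ρ * r k) (K : ℕ) :
    ∀ d k : ℕ, k + d = K →
      adP q (latBall v ((2 * ρ + 1) * r K)) (AdArm (latBall v ((2 * ρ + 1) * r K)) v (r k)) ≤ ∑ j ∈ Finset.Icc k K, adEta q ρ (r j) := by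
  intro d
  induction d with
  | zero =>
    intro k hk
    have : k = K := by omega
    subst this
    rw [Finset.Icc_self, Finset.sum_singleton, ad_arm_tr]
    exact le_of_eq rfl
  | succ d ih =>
    intro k hk
    have hk1 := ad_sq_ge hr0 hlo k
    have hρ : 3 ≤ ρ := by
      have a := hlo k
      have b := hhi k
      by_contra hc
      have : ρ * r k ≤ 2 * r k := Nat.mul_le_mul_right _ (by omega)
      omega
    have hm : r (k + 1) ≤ r K := ad_sq_mono hlo (by omega)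
    have hK1 := ad_sq_ge hr0 hlo K
    have hs := ad_sq_step h0 h1 hF (ρ := ρ) v (n := r k) (n' := r (k + 1)) (L := (2 * ρ + 1) * r K) (by omega)
      (by have := hlo k; omega) (hhi k) (by nlinarith)
    have hi := ih (k + 1) (by omega)
    have e : Finset.Icc k K = insert k (Finset.Icc (k + 1) K) := by
      ext j
      simp only [Finset.mem_Icc, Finset.mem_insert]
      omega
    rw [e, Finset.sum_insert (by simp)]
    linarith

/-- the same bound in any hexagon -/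
theorem ad_sq_any {q : ℝ} (h0 : 0 < q) (h1 : q ≤ 1) (hF : AdFKG q) {ρ : ℕ} {r : ℕ → ℕ} (hr0 : 1 ≤ r 0)
    (hlo : ∀ k, 3 * r k ≤ r (k + 1)) (hhi : ∀ k, r (k + 1) ≤ ρ * r k) (c : TV) (N : ℕ) (v : TV) (k : ℕ) :
    ∃ K, adP q (latBall c N) (AdArm (latBall c N) v (r k)) ≤ ∑ j ∈ Finset.Icc k K, adEta q ρ (r j) := by
  set K := max k (latN (c - v) + (N + 1)) with hK
  refine ⟨K, ?_⟩
  have hK1 := ad_sq_ge hr0 hlo K
  have hsub : latCl (latBall c N) ⊆ latBall v ((2 * ρ + 1) * r K) := by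
    refine (ad_ball_cl c N).trans (ad_ball_sub ?_)
    have : latN (c - v) + (N + 1) ≤ K := le_max_right _ _
    nlinarith
  refine (ad_enlarge h0 h1 hF v _ (ad_ball_nice c N) hsub v (r k)).trans ?_
  exact ad_sq_conc h0 h1 hF v hr0 hlo hhi K (K - k) k (by have : k ≤ K := le_max_left _ _; omega)

/-- geometric sums with ratio `1/3` -/
theorem ad_sq_geo (x : ℕ → ℝ) (hx : ∀ j, x (j + 1) ≤ x j / 3) : ∀ n k : ℕ, ∑ j ∈ Finset.Icc k (k + n), x j ≤ 3 / 2 * x k - 1 / 2 * x (k + n) := by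
  intro n
  induction n with
  | zero => intro k; simp; linarith
  | succ n ih =>
    intro k
    have e : Finset.Icc k (k + (n + 1)) = insert (k + (n + 1)) (Finset.Icc k (k + n)) := by
      ext j
      simp only [Finset.mem_Icc, Finset.mem_insert]
      omega
    rw [e, Finset.sum_insert (by simp)]
    have h1 := ih k
    have h2 := hx (k + n)
    rw [← add_assoc]
    linarith

/-- arithmetic: faster than every power along a sequence with bounded ratios ⟹ faster than every power.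
Take `A' = A + 3`, `k` maximal with `2 r_k ≤ m` (so `m < 2 ρ r_k`), `∑_{j ≥ k} r_j^{-A'} ≤ 2 r_k^{-A'}` (ratios `≥ 3`). -/
theorem ad_sq_ar {ρ : ℕ} {r : ℕ → ℕ} (hr0 : 1 ≤ r 0) (hlo : ∀ k, 3 * r k ≤ r (k + 1)) (hhi : ∀ k, r (k + 1) ≤ ρ * r k)
    (e : ℕ → ℝ) (hdec : ∀ A : ℕ, ∃ k0, ∀ k, k0 ≤ k → e k ≤ (1 / (r k : ℝ)) ^ A) (A : ℕ) :
    ∃ m0 : ℕ, ∀ m, m0 ≤ m → ∃ k : ℕ, 2 * r k ≤ m ∧ ∀ K, (2 * (m : ℝ) + 1) ^ 2 * ∑ j ∈ Finset.Icc k K, e j ≤ (1 / (m : ℝ)) ^ A := by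
  obtain ⟨k0, hk0⟩ := hdec (A + 3)
  refine ⟨max (14 * (2 * ρ) ^ (A + 3)) (max (2 * r k0) 1), fun m hm => ?_⟩
  have hm1 : 14 * (2 * ρ) ^ (A + 3) ≤ m := (le_max_left _ _).trans hm
  have hm2 : 2 * r k0 ≤ m := ((le_max_left _ _).trans (le_max_right _ _)).trans hm
  have hm3 : 1 ≤ m := ((le_max_right _ _).trans (le_max_right _ _)).trans hm
  have hk0m : k0 ≤ m := by have := ad_sq_ge hr0 hlo k0; omega
  set k := Nat.findGreatest (fun k => 2 * r k ≤ m) m with hk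
  have p1 : 2 * r k ≤ m := Nat.findGreatest_spec (P := fun k => 2 * r k ≤ m) hk0m hm2
  have p2 : k0 ≤ k := Nat.le_findGreatest (P := fun k => 2 * r k ≤ m) hk0m hm2
  have p3 : m < 2 * r (k + 1) := by
    by_contra hcon
    have hge := ad_sq_ge hr0 hlo (k + 1)
    exact Nat.findGreatest_is_greatest (P := fun k => 2 * r k ≤ m) (n := m) (k := k + 1) (by omega) (by omega) (by omega)
  refine ⟨k, p1, fun K => ?_⟩
  have hmR : (0 : ℝ) < m := by exact_mod_cast hm3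
  have hrpos : ∀ j, (0 : ℝ) < r j := fun j => by
    have := ad_sq_ge hr0 hlo j
    exact_mod_cast (by omega : 0 < r j)
  set x : ℕ → ℝ := fun j => (1 / (r j : ℝ)) ^ (A + 3) with hx
  have hx0 : ∀ j, 0 ≤ x j := fun j => by have := hrpos j; positivity
  have hx3 : ∀ j, x (j + 1) ≤ x j / 3 := by
    intro j
    have h1 : (1 / (r (j + 1) : ℝ)) ≤ 1 / 3 * (1 / (r j : ℝ)) := by
      have h2 : (3 : ℝ) * r j ≤ r (j + 1) := by exact_mod_cast hlo j
      rw [one_div_mul_one_div]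
      exact one_div_le_one_div_of_le (by have := hrpos j; positivity) h2
    calc x (j + 1) ≤ (1 / 3 * (1 / (r j : ℝ))) ^ (A + 3) := pow_le_pow_left₀ (by have := hrpos (j + 1); positivity) h1 _
      _ = (1 / 3 : ℝ) ^ (A + 3) * x j := by rw [mul_pow]
      _ ≤ (1 / 3 : ℝ) ^ 1 * x j := mul_le_mul_of_nonneg_right (pow_le_pow_of_le_one (by norm_num) (by norm_num) (by omega)) (hx0 j)
      _ = x j / 3 := by ring
  have hsum : ∑ j ∈ Finset.Icc k K, e j ≤ 3 / 2 * x k := by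
    rcases lt_or_ge K k with hK | hK
    · rw [Finset.Icc_eq_empty (by omega), Finset.sum_empty]
      have := hx0 k
      positivity
    · obtain ⟨n, rfl⟩ := Nat.exists_eq_add_of_le hK
      calc ∑ j ∈ Finset.Icc k (k + n), e j ≤ ∑ j ∈ Finset.Icc k (k + n), x j :=
            Finset.sum_le_sum fun j hj => hk0 j (p2.trans (Finset.mem_Icc.1 hj).1)
        _ ≤ 3 / 2 * x k - 1 / 2 * x (k + n) := ad_sq_geo x hx3 n k
        _ ≤ 3 / 2 * x k := by have := hx0 (k + n); linarith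
  have hxk : x k ≤ (2 * (ρ : ℝ) / m) ^ (A + 3) := by
    refine pow_le_pow_left₀ (by have := hrpos k; positivity) ?_ _
    rw [div_le_div_iff₀ (hrpos k) hmR, one_mul]
    have h1 : m ≤ 2 * (ρ * r k) := by have := hhi k; omega
    have h2 : (m : ℝ) ≤ 2 * ((ρ : ℝ) * r k) := by exact_mod_cast h1
    linarith
  have hsq : (2 * (m : ℝ) + 1) ^ 2 ≤ 9 * (m : ℝ) ^ 2 := by
    have : (1 : ℝ) ≤ m := by exact_mod_cast hm3
    nlinarith
  have hm1R : 14 * (2 * (ρ : ℝ)) ^ (A + 3) ≤ m := by exact_mod_cast hm1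
  have hρ0 : 0 ≤ (2 * (ρ : ℝ)) ^ (A + 3) := by positivity
  calc (2 * (m : ℝ) + 1) ^ 2 * ∑ j ∈ Finset.Icc k K, e j ≤ (2 * (m : ℝ) + 1) ^ 2 * (3 / 2 * x k) :=
        mul_le_mul_of_nonneg_left hsum (by positivity)
    _ ≤ (9 * (m : ℝ) ^ 2) * (3 / 2 * (2 * (ρ : ℝ) / m) ^ (A + 3)) :=
        mul_le_mul hsq (by linarith) (by have := hx0 k; positivity) (by positivity)
    _ = (27 / 2 * (2 * (ρ : ℝ)) ^ (A + 3)) * (1 / (m : ℝ)) ^ (A + 1) := by
        rw [div_pow, one_div, inv_pow]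
        field_simp
        ring
    _ ≤ (m : ℝ) * (1 / (m : ℝ)) ^ (A + 1) := mul_le_mul_of_nonneg_right (by linarith) (by positivity)
    _ = (1 / (m : ℝ)) ^ A := by
        rw [pow_succ]
        field_simp

/-- **(MIXH) from the decay along a sequence of scales** -/
theorem ad_sq_mixh {q : ℝ} (h0 : 0 < q) (h1 : q ≤ 1) (hF : AdFKG q) {ρ : ℕ} {r : ℕ → ℕ} (hr0 : 1 ≤ r 0)
    (hlo : ∀ k, 3 * r k ≤ r (k + 1)) (hhi : ∀ k, r (k + 1) ≤ ρ * r k)
    (hdec : ∀ A : ℕ, ∃ k0, ∀ k, k0 ≤ k → adEta q ρ (r k) ≤ (1 / (r k : ℝ)) ^ A) (A : ℕ) :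
    ∃ m0 : ℕ, ∀ m, m0 ≤ m → ∀ (c : TV) (N : ℕ) (v : TV), adP q (latBall c N) (AdArm (latBall c N) v m) ≤ (1 / (m : ℝ)) ^ A := by
  obtain ⟨m0, hm0⟩ := ad_sq_ar hr0 hlo hhi (fun k => adEta q ρ (r k)) hdec A
  refine ⟨m0, fun m hm c N v => ?_⟩
  obtain ⟨k, hk, hle⟩ := hm0 m hm
  -- a common `K` for all the centres
  have hex : ∀ u, ∃ K, adP q (latBall c N) (AdArm (latBall c N) u (r k)) ≤ ∑ j ∈ Finset.Icc k K, adEta q ρ (r j) :=
    fun u => ad_sq_any h0 h1 hF hr0 hlo hhi c N u k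
  choose Kf hKf using hex
  set K := (latBall v m).sup Kf with hK
  have hone : ∀ u ∈ latBall v m, adP q (latBall c N) (AdArm (latBall c N) u (r k)) ≤ ∑ j ∈ Finset.Icc k K, adEta q ρ (r j) := by
    intro u hu
    refine (hKf u).trans (Finset.sum_le_sum_of_subset_of_nonneg ?_ fun j _ _ => ad_P_nonneg h0 h1 _ _)
    exact Finset.Icc_subset_Icc_right (Finset.le_sup hu)
  have hs0 : 0 ≤ ∑ j ∈ Finset.Icc k K, adEta q ρ (r j) := Finset.sum_nonneg fun j _ => ad_P_nonneg h0 h1 _ _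
  calc adP q (latBall c N) (AdArm (latBall c N) v m)
      ≤ adP q (latBall c N) (fun ω => ∃ u ∈ latBall v m, AdArm (latBall c N) u (r k) ω) :=
        ad_P_mono h0 h1 _ fun ω _ h => ad_arm_small hk h
    _ ≤ ∑ u ∈ latBall v m, adP q (latBall c N) (AdArm (latBall c N) u (r k)) := ad_P_union h0 h1 _ _ _
    _ ≤ ∑ _u ∈ latBall v m, ∑ j ∈ Finset.Icc k K, adEta q ρ (r j) := Finset.sum_le_sum hone
    _ = ((latBall v m).card : ℝ) * ∑ j ∈ Finset.Icc k K, adEta q ρ (r j) := by rw [Finset.sum_const, nsmul_eq_mul]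
    _ ≤ (2 * (m : ℝ) + 1) ^ 2 * ∑ j ∈ Finset.Icc k K, adEta q ρ (r j) := mul_le_mul_of_nonneg_right (ad_ball_card v m) hs0
    _ ≤ _ := hle K

/-- **A6 EXIT in height language, sequence form.** -/
theorem ad_exit_seq {q : ℝ} (h0 : 0 < q) (h1 : q ≤ 1) (hF : AdFKG q) {ρ : ℕ} {r : ℕ → ℕ} (hr0 : 1 ≤ r 0)
    (hlo : ∀ k, 3 * r k ≤ r (k + 1)) (hhi : ∀ k, r (k + 1) ≤ ρ * r k)
    (hdec : ∀ A : ℕ, ∃ k0, ∀ k, k0 ≤ k → adEta q ρ (r k) ≤ (1 / (r k : ℝ)) ^ A) : False :=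
  ad_thmD h0 h1 hF (ad_sq_mixh h0 h1 hF hr0 hlo hhi hdec)

/-- **A6 EXIT in height language, form (E1) of the captain's ruling 06:28Z**: along the scales `a t` the arm probability is NOT smaller than every power: there is an exponent `A` and
arbitrarily large `t` with `t^{-A} ≤ adEta q ρ (a t)`.   (Negation ⟹ `ad_exit_seq` along `r k = a 3^k`.) -/
theorem ad_exit_pow {q : ℝ} (h0 : 0 < q) (h1 : q ≤ 1) (hF : AdFKG q) {ρ a : ℕ} (hρ : 3 ≤ ρ) (ha : 1 ≤ a) :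
    ∃ A : ℕ, ∀ n0 : ℕ, ∃ t : ℕ, n0 ≤ t ∧ 1 ≤ t ∧ (1 / (t : ℝ)) ^ A ≤ adEta q ρ (a * t) := by
  by_contra hcon
  push Not at hcon
  refine ad_exit_seq h0 h1 hF (ρ := ρ) (r := fun k => a * 3 ^ k) (by simpa using ha) (fun k => ?_) (fun k => ?_) (fun A => ?_)
  · show 3 * (a * 3 ^ k) ≤ a * 3 ^ (k + 1)
    rw [pow_succ]
    exact le_of_eq (by ring)
  · show a * 3 ^ (k + 1) ≤ ρ * (a * 3 ^ k)
    rw [pow_succ]
    calc a * (3 ^ k * 3) = 3 * (a * 3 ^ k) := by ring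
      _ ≤ ρ * (a * 3 ^ k) := Nat.mul_le_mul_right _ hρ
  · obtain ⟨n0, hn0⟩ := hcon (2 * A)
    refine ⟨max n0 a, fun k hk => ?_⟩
    have hk3 : k < 3 ^ k := Nat.lt_pow_self (by norm_num)
    have t1 : n0 ≤ 3 ^ k := by have := le_max_left n0 a; omega
    have t2 : a ≤ 3 ^ k := by have := le_max_right n0 a; omega
    have t3 : 1 ≤ 3 ^ k := Nat.one_le_pow _ _ (by norm_num)
    refine (hn0 (3 ^ k) t1 t3).le.trans ?_
    rw [pow_mul]
    have tp : (0 : ℝ) < ((3 ^ k : ℕ) : ℝ) := by exact_mod_cast t3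
    have ap : (0 : ℝ) < (a : ℝ) := by exact_mod_cast ha
    have ta : (a : ℝ) ≤ ((3 ^ k : ℕ) : ℝ) := by exact_mod_cast t2
    refine pow_le_pow_left₀ (by positivity) ?_ A
    rw [div_pow, one_pow, Nat.cast_mul]
    refine one_div_le_one_div_of_le (by positivity) ?_
    nlinarith

end Claimed.Agent.R291
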