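import Claimed.Agent.R291.Ann.DPoly
import Claimed.Agent.R291.Ann.DFlip

/-!
# Row 291, ANN A6 (Theorem D, route D2), blocks D11 + D12 : THEOREM D IN HEIGHT LANGUAGE      (owner helper149; prefix `ad_`)

Spec: `origin/helper149:notes/R291/thmD2_149.md` Secs 8, 9.

§1 (D11, arithmetic; helper85)   `adEps A m0 m = m^{-A}` for `m ≥ m0`, `1` otherwise;  `ad_ar_gam` (tail sum), `ad_ar_M`, `ad_ar_main`.
§2 `ad_thmD` : super-polynomial decay of the arm probabilities, uniformly in the hexagon and in the centre, is contradictory.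
      `(4(s+1)²)^{-J} ≤ P[no σ=1 path from the layer to Λ_s] ≤ P[Q ∩ E1 = ∅] ≤ 2 P[∑_Q h ≤ 0] ≤ 2 (81 e^{-l²/(8(8m+1)²)} + 81 l² γ)`,   `l = m³`, `Q = [0, 9 m l)²`, `s = 18 m⁴`.
§3 (D3b) the decaying branch gives the hypothesis of `ad_thmD`.   `adEta q ρ n := P_{Λ_{(2ρ+1)n}}[Arm(0,n)]`, `r_k = ρ^k n₁`.
      `ad_rec_iter` : `C e_{r_k} ≤ 2^{-2^k}`;   `ad_conc` : concentric descent `P_{Λ_{(2ρ+1) r_K}(v)}[Arm(v, r_k)] ≤ ∑_{j=k}^{K} e_{r_j}`  (`ad_descent`, `ad_enlarge`, translation invariance);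
      `ad_any` : the same bound in ANY hexagon (`ad_enlarge`);   `ad_arm_small` : an arm at `(v,m)` contains an arm at `(u,r)`, `u ∈ Λ_m(v)`, `2r ≤ m`;   union bound; arithmetic `ad_ar_dec`.
EXIT (height language) `ad_exit_h`.
-/

set_option autoImplicit false

namespace Claimed.Agent.R291

open Claims Claims.C0467

/-! ### §1 arithmetic -/

/-- the polynomial rate -/
noncomputable def adEps (A m0 m : ℕ) : ℝ := if m0 ≤ m then (1 / (m : ℝ)) ^ A else 1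

theorem ad_top_eqns_cite : True := by
  have := @adEps.eq_1
  trivial

/-- tail sum: `k/2 ≥ k/3`, `∑_{k ≥ m} k^{-2} ≤ 1` -/
theorem ad_ar_gam {A m0 m : ℕ} (hA : 2 ≤ A) (hm : 2 * m0 + 3 ≤ m) (K : ℕ) :
    adEps A m0 m + ∑ k ∈ Finset.Icc m K, adEps A m0 (k / 2) ≤ ((3 : ℝ) ^ A + 1) * (1 / (m : ℝ)) ^ (A - 2) := by
  have hm0 : (0 : ℝ) < m := by exact_mod_cast (by omega : 0 < m)
  have hm1 : (1 : ℝ) ≤ m := by exact_mod_cast (by omega : 1 ≤ m)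
  have hle1 : 1 / (m : ℝ) ≤ 1 := by rw [div_le_one hm0]; exact hm1
  have hnn : 0 ≤ 1 / (m : ℝ) := by positivity
  -- first term
  have t1 : adEps A m0 m ≤ (1 / (m : ℝ)) ^ (A - 2) := by
    unfold adEps
    rw [if_pos (by omega)]
    exact pow_le_pow_of_le_one hnn hle1 (by omega)
  -- each term of the sum
  have t2 : ∀ k ∈ Finset.Icc m K, adEps A m0 (k / 2) ≤ (3 : ℝ) ^ A * (1 / (m : ℝ)) ^ (A - 2) * ((k : ℝ) ^ 2)⁻¹ := by
    intro k hk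
    have hkm : m ≤ k := (Finset.mem_Icc.1 hk).1
    have hk0 : (0 : ℝ) < k := by exact_mod_cast (by omega : 0 < k)
    unfold adEps
    rw [if_pos (by omega)]
    have h2 : (0 : ℝ) < ((k / 2 : ℕ) : ℝ) := by exact_mod_cast (by omega : 0 < k / 2)
    have h3 : (k : ℝ) ≤ 3 * ((k / 2 : ℕ) : ℝ) := by exact_mod_cast (by omega : k ≤ 3 * (k / 2))
    have h4 : 1 / ((k / 2 : ℕ) : ℝ) ≤ 3 * (1 / (k : ℝ)) := by
      rw [div_le_iff₀ h2]
      have : 3 * (1 / (k : ℝ)) * ((k / 2 : ℕ) : ℝ) = (3 * ((k / 2 : ℕ) : ℝ)) / k := by ring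
      rw [this, le_div_iff₀ hk0]
      linarith
    have h5 : (1 / ((k / 2 : ℕ) : ℝ)) ^ A ≤ (3 * (1 / (k : ℝ))) ^ A := pow_le_pow_left₀ (by positivity) h4 A
    refine h5.trans ?_
    rw [mul_pow, mul_assoc]
    refine mul_le_mul_of_nonneg_left ?_ (by positivity)
    have e : A = (A - 2) + 2 := by omega
    have h6 : (1 / (k : ℝ)) ^ A = (1 / (k : ℝ)) ^ (A - 2) * ((k : ℝ) ^ 2)⁻¹ := by
      conv_lhs => rw [e, pow_add]
      congr 1
      rw [one_div, inv_pow]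
    rw [h6]
    refine mul_le_mul_of_nonneg_right (pow_le_pow_left₀ (by positivity) ?_ _) (by positivity)
    exact one_div_le_one_div_of_le hm0 (by exact_mod_cast hkm)
  have t3 : ∑ k ∈ Finset.Icc m K, ((k : ℝ) ^ 2)⁻¹ ≤ 1 := by
    by_cases hK : m ≤ K
    · have e : Finset.Icc m K = Finset.Ioc (m - 1) K := by
        ext k
        rw [Finset.mem_Icc, Finset.mem_Ioc]
        omega
      rw [e]
      refine (sum_Ioc_inv_sq_le_sub (α := ℝ) (by omega) (by omega)).trans ?_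
      have h1 : (((m - 1 : ℕ) : ℝ))⁻¹ ≤ 1 := inv_le_one_of_one_le₀ (by exact_mod_cast (by omega : 1 ≤ m - 1))
      have h2 : (0 : ℝ) ≤ (K : ℝ)⁻¹ := by positivity
      linarith
    · rw [Finset.Icc_eq_empty (by omega)]
      simp
  have t4 := Finset.sum_le_sum t2
  rw [← Finset.mul_sum] at t4
  have t5 : (3 : ℝ) ^ A * (1 / (m : ℝ)) ^ (A - 2) * ∑ k ∈ Finset.Icc m K, ((k : ℝ) ^ 2)⁻¹ ≤ (3 : ℝ) ^ A * (1 / (m : ℝ)) ^ (A - 2) * 1 :=
    mul_le_mul_of_nonneg_left t3 (by positivity)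
  linarith

theorem ad_ar_M {A : ℕ} (hA : 1 ≤ A) (m0 M0 : ℕ) {δ : ℝ} (hδ : 0 < δ) : ∃ M, M0 ≤ M ∧ adEps A m0 M ≤ δ := by
  obtain ⟨n, hn⟩ := exists_nat_gt (1 / δ)
  refine ⟨M0 + m0 + n + 1, by omega, ?_⟩
  unfold adEps
  rw [if_pos (by omega)]
  have hM : (0 : ℝ) < ((M0 + m0 + n + 1 : ℕ) : ℝ) := by positivity
  have h1 : 1 / ((M0 + m0 + n + 1 : ℕ) : ℝ) ≤ δ := by
    rw [div_le_iff₀ hM]
    rw [div_lt_iff₀ hδ] at hn
    have : (n : ℝ) ≤ ((M0 + m0 + n + 1 : ℕ) : ℝ) := by exact_mod_cast (by omega : n ≤ M0 + m0 + n + 1)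
    nlinarith
  have h2 : 1 / ((M0 + m0 + n + 1 : ℕ) : ℝ) ≤ 1 := by
    rw [div_le_one hM]
    exact_mod_cast (by omega : 1 ≤ M0 + m0 + n + 1)
  calc (1 / ((M0 + m0 + n + 1 : ℕ) : ℝ)) ^ A ≤ (1 / ((M0 + m0 + n + 1 : ℕ) : ℝ)) ^ 1 := pow_le_pow_of_le_one (by positivity) h2 hA
    _ = 1 / ((M0 + m0 + n + 1 : ℕ) : ℝ) := pow_one _
    _ ≤ δ := h1

section
open Filter Topology

/-- the exponential term, eventually -/
theorem ad_ar_exp (J : ℕ) (D : ℝ) (hD : 0 < D) :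
    ∀ᶠ m : ℕ in atTop, 324 * D * (m : ℝ) ^ (8 * J) * Real.exp (-((m : ℝ) ^ 4 / 648)) < 1 := by
  have h1 : Tendsto (fun m : ℕ => (m : ℝ) ^ 4 / 648) atTop atTop :=
    ((tendsto_pow_atTop (by norm_num : (4 : ℕ) ≠ 0)).comp tendsto_natCast_atTop_atTop).atTop_div_const (by norm_num)
  have h2 := (Real.tendsto_pow_mul_exp_neg_atTop_nhds_zero (2 * J)).comp h1
  have hε : (0 : ℝ) < 1 / (324 * D * 648 ^ (2 * J)) := by positivity
  have h3 := h2.eventually (gt_mem_nhds hε)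
  filter_upwards [h3] with m hm
  simp only [Function.comp] at hm
  rw [lt_div_iff₀ (by positivity)] at hm
  have e : (m : ℝ) ^ (8 * J) = ((m : ℝ) ^ 4 / 648) ^ (2 * J) * 648 ^ (2 * J) := by
    rw [div_pow, ← pow_mul, div_mul_cancel₀ _ (by positivity)]
    congr 1; ring
  rw [e]
  calc 324 * D * (((m : ℝ) ^ 4 / 648) ^ (2 * J) * 648 ^ (2 * J)) * Real.exp (-((m : ℝ) ^ 4 / 648))
      = ((m : ℝ) ^ 4 / 648) ^ (2 * J) * Real.exp (-((m : ℝ) ^ 4 / 648)) * (324 * D * 648 ^ (2 * J)) := by ring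
    _ < 1 := hm

/-- the real inequalities behind `ad_ar_main` -/
theorem ad_ar_core (J : ℕ) {B x : ℝ} (hB : 1 ≤ B) (hx : 3 ≤ x) (h1 : 64 * B ≤ x) (h2 : 324 * B * 1444 ^ J < x)
    (h3 : 324 * (1444 : ℝ) ^ J * x ^ (8 * J) * Real.exp (-(x ^ 4 / 648)) < 1) :
    8 * (B * (1 / (2 * (18 * x ^ 4))) ^ (8 * J + 8)) ≤ 1 / (8 * (18 * x ^ 4 + 1) ^ 2) ∧
    2 * (81 * Real.exp (-((x ^ 3) ^ 2 / (8 * (8 * x + 1) ^ 2))) + 81 * (x ^ 3) ^ 2 * (B * (1 / (2 * x)) ^ (8 * J + 8)))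
      < (1 / (4 * (18 * x ^ 4 + 1) ^ 2)) ^ J := by
  have hx0 : 0 < x := by linarith
  have hx1 : 1 ≤ x := by linarith
  have hx4 : x ≤ x ^ 4 := by
    calc x = x ^ 1 := (pow_one x).symm
      _ ≤ x ^ 4 := pow_le_pow_right₀ hx1 (by norm_num)
  have hx41 : 1 ≤ x ^ 4 := hx1.trans hx4
  constructor
  · set y : ℝ := 2 * (18 * x ^ 4) with hy
    have hy1 : 1 ≤ y := by rw [hy]; linarith
    have hy0 : 0 < y := by linarith
    have a1 : (1 / y) ^ (8 * J + 8) ≤ (1 / y) ^ 3 :=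
      pow_le_pow_of_le_one (by positivity) (by rw [div_le_one hy0]; exact hy1) (by omega)
    have a2 : 18 * x ^ 4 + 1 ≤ y := by rw [hy]; linarith
    have a3 : 1 / (8 * y ^ 2) ≤ 1 / (8 * (18 * x ^ 4 + 1) ^ 2) := by
      refine one_div_le_one_div_of_le (by positivity) ?_
      have := pow_le_pow_left₀ (by positivity) a2 2
      linarith
    refine le_trans ?_ a3
    have a4 : 64 * B ≤ y := by rw [hy]; linarith
    calc 8 * (B * (1 / y) ^ (8 * J + 8)) ≤ 8 * (B * (1 / y) ^ 3) := by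
          refine mul_le_mul_of_nonneg_left (mul_le_mul_of_nonneg_left a1 (by linarith)) (by norm_num)
      _ ≤ 1 / (8 * y ^ 2) := by
          rw [le_div_iff₀ (by positivity)]
          have : 8 * (B * (1 / y) ^ 3) * (8 * y ^ 2) = 64 * B / y := by
            field_simp
            ring
          rw [this, div_le_one hy0]
          exact a4
  · set D : ℝ := 1444 ^ J with hD
    have hD0 : 0 < D := by positivity
    have hD1 : 1 ≤ D := one_le_pow₀ (by norm_num)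
    have hP : 0 < x ^ (8 * J) := by positivity
    -- lower bound of the right side
    have r1 : 1 / (D * x ^ (8 * J)) ≤ (1 / (4 * (18 * x ^ 4 + 1) ^ 2)) ^ J := by
      have b1 : 4 * (18 * x ^ 4 + 1) ^ 2 ≤ 1444 * x ^ 8 := by
        have : 18 * x ^ 4 + 1 ≤ 19 * x ^ 4 := by linarith
        have := pow_le_pow_left₀ (by positivity) this 2
        nlinarith [this]
      have b2 : 1 / (1444 * x ^ 8) ≤ 1 / (4 * (18 * x ^ 4 + 1) ^ 2) := one_div_le_one_div_of_le (by positivity) b1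
      have b3 := pow_le_pow_left₀ (by positivity) b2 J
      refine le_trans (le_of_eq ?_) b3
      rw [div_pow, one_pow, mul_pow, ← pow_mul]
    refine lt_of_lt_of_le ?_ r1
    -- first term
    have s1 : 81 * Real.exp (-((x ^ 3) ^ 2 / (8 * (8 * x + 1) ^ 2))) ≤ 81 * Real.exp (-(x ^ 4 / 648)) := by
      refine mul_le_mul_of_nonneg_left (Real.exp_le_exp.2 (neg_le_neg ?_)) (by norm_num)
      rw [div_le_div_iff₀ (by norm_num) (by positivity)]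
      have c1 : (8 * x + 1) ^ 2 ≤ 81 * x ^ 2 := by nlinarith
      have c2 : x ^ 4 * (8 * (8 * x + 1) ^ 2) ≤ x ^ 4 * (8 * (81 * x ^ 2)) :=
        mul_le_mul_of_nonneg_left (by linarith) (by positivity)
      calc x ^ 4 * (8 * (8 * x + 1) ^ 2) ≤ x ^ 4 * (8 * (81 * x ^ 2)) := c2
        _ = (x ^ 3) ^ 2 * 648 := by ring
    have s2 : 4 * (81 * Real.exp (-(x ^ 4 / 648))) < 1 / (D * x ^ (8 * J)) := by
      rw [lt_div_iff₀ (by positivity)]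
      calc 4 * (81 * Real.exp (-(x ^ 4 / 648))) * (D * x ^ (8 * J)) = 324 * D * x ^ (8 * J) * Real.exp (-(x ^ 4 / 648)) := by ring
        _ < 1 := h3
    -- second term
    have s3 : 4 * (81 * (x ^ 3) ^ 2 * (B * (1 / (2 * x)) ^ (8 * J + 8))) < 1 / (D * x ^ (8 * J)) := by
      have d1 : (1 / (2 * x)) ^ (8 * J + 8) ≤ (1 / x) ^ (8 * J + 8) :=
        pow_le_pow_left₀ (by positivity) (one_div_le_one_div_of_le hx0 (by linarith)) _
      have d2 : (1 / x) ^ (8 * J + 8) = 1 / (x ^ (8 * J) * x ^ 8) := by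
        rw [div_pow, one_pow, pow_add]
      rw [d2] at d1
      have d3 : 4 * (81 * (x ^ 3) ^ 2 * (B * (1 / (2 * x)) ^ (8 * J + 8))) ≤ 4 * (81 * (x ^ 3) ^ 2 * (B * (1 / (x ^ (8 * J) * x ^ 8)))) := by
        refine mul_le_mul_of_nonneg_left (mul_le_mul_of_nonneg_left (mul_le_mul_of_nonneg_left d1 (by linarith)) (by positivity)) (by norm_num)
      refine lt_of_le_of_lt d3 ?_
      rw [lt_div_iff₀ (by positivity)]
      have d4 : 4 * (81 * (x ^ 3) ^ 2 * (B * (1 / (x ^ (8 * J) * x ^ 8)))) * (D * x ^ (8 * J)) = 324 * B * D / x ^ 2 := by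
        field_simp
        ring
      rw [d4, div_lt_one (by positivity)]
      nlinarith
    linarith

end

/-- the final inequality fails for large `m` (take `A = 8 J + 10`; every inequality holds eventually) -/
theorem ad_ar_main (J : ℕ) : ∃ A : ℕ, 2 ≤ A ∧ ∀ m0 : ℕ, ∃ m : ℕ, 3 ≤ m ∧ 2 * m0 + 3 ≤ 2 * m ∧
    8 * (((3 : ℝ) ^ A + 1) * (1 / ((2 * (18 * m ^ 4) : ℕ) : ℝ)) ^ (A - 2)) ≤ 1 / (8 * (((18 * m ^ 4 : ℕ) : ℝ) + 1) ^ 2) ∧
    2 * (81 * Real.exp (-((((m ^ 3 : ℕ) : ℝ)) ^ 2 / (8 * (8 * (m : ℝ) + 1) ^ 2)))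
        + 81 * (((m ^ 3 : ℕ) : ℝ)) ^ 2 * (((3 : ℝ) ^ A + 1) * (1 / ((2 * m : ℕ) : ℝ)) ^ (A - 2)))
      < (1 / (4 * (((18 * m ^ 4 : ℕ) : ℝ) + 1) ^ 2)) ^ J := by
  refine ⟨8 * J + 10, by omega, fun m0 => ?_⟩
  set B : ℝ := (3 : ℝ) ^ (8 * J + 10) + 1 with hB
  have hB1 : 1 ≤ B := by rw [hB]; have : (0 : ℝ) < 3 ^ (8 * J + 10) := by positivity
                         linarith
  have e1 := ad_ar_exp J (1444 ^ J) (by positivity)
  have e2 : ∀ᶠ m : ℕ in Filter.atTop, 64 * B ≤ (m : ℝ) := tendsto_natCast_atTop_atTop.eventually_ge_atTop _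
  have e3 : ∀ᶠ m : ℕ in Filter.atTop, 324 * B * 1444 ^ J < (m : ℝ) := tendsto_natCast_atTop_atTop.eventually_gt_atTop _
  have e4 : ∀ᶠ m : ℕ in Filter.atTop, m0 + 3 ≤ m := Filter.eventually_ge_atTop _
  obtain ⟨m, h1, h2, h3, h4⟩ := (e1.and (e2.and (e3.and e4))).exists
  have hx : (3 : ℝ) ≤ m := by exact_mod_cast (by omega : 3 ≤ m)
  obtain ⟨c1, c2⟩ := ad_ar_core J hB1 hx h2 h3 h1
  refine ⟨m, by omega, by omega, ?_, ?_⟩
  · have e : 8 * J + 10 - 2 = 8 * J + 8 := by omega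
    rw [e]
    push_cast
    exact c1
  · have e : 8 * J + 10 - 2 = 8 * J + 8 := by omega
    rw [e]
    push_cast
    exact c2

/-! ### §2 Theorem D2 -/

theorem ad_box_sub (n : ℕ) : adBox 0 n ⊆ latBall 0 (2 * n) := ad_fbox_sub_ball 0 n

theorem ad_mixh_eps {q : ℝ} (h0 : 0 < q) (h1 : q ≤ 1) {A m0 : ℕ}
    (h : ∀ m, m0 ≤ m → ∀ (c : TV) (N : ℕ) (v : TV), adP q (latBall c N) (AdArm (latBall c N) v m) ≤ (1 / (m : ℝ)) ^ A) :
    AdMixH q (adEps A m0) := by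
  intro c N v m
  unfold adEps
  split_ifs with hm
  · exact h m hm c N v
  · exact ad_P_le_one h0 h1 _ _

/-- the good event fails with polynomially small probability -/
theorem ad_bad_eps {q : ℝ} (h0 : 0 < q) (h1 : q ≤ 1) {A m0 : ℕ} (hA : 2 ≤ A) (hmix : AdMixH q (adEps A m0)) {c : TV} {N : ℕ} {v : TV} {m : ℕ}
    (hm : 2 * m0 + 3 ≤ m) (hS : latBall v (2 * m + 1) ⊆ latBall c N) :
    adP q (latBall c N) (fun ω => ¬ AdG (latBall c N) v m ω) ≤ ((3 : ℝ) ^ A + 1) * (1 / (m : ℝ)) ^ (A - 2) :=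
  (ad_bad h0 h1 hmix hS).trans (ad_ar_gam hA hm _)

/-- **THEOREM D2** (height language) -/
theorem ad_thmD {q : ℝ} (h0 : 0 < q) (h1 : q ≤ 1) (hF : AdFKG q)
    (hdec : ∀ A : ℕ, ∃ m0 : ℕ, ∀ m, m0 ≤ m → ∀ (c : TV) (N : ℕ) (v : TV),
      adP q (latBall c N) (AdArm (latBall c N) v m) ≤ (1 / (m : ℝ)) ^ A) : False := by
  obtain ⟨J, κ, hpoly⟩ := ad_poly
  obtain ⟨A, hA, har⟩ := ad_ar_main J
  obtain ⟨m0, hm0⟩ := hdec A
  have hmix : AdMixH q (adEps A m0) := ad_mixh_eps h0 h1 hm0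
  obtain ⟨m, hm3, hmm, ha, hb⟩ := har m0
  set s : ℕ := 18 * m ^ 4 with hs
  set l : ℕ := m ^ 3 with hl
  have hm1 : 1 ≤ m ^ 3 := Nat.one_le_pow _ _ (by omega)
  have hms : m ≤ s := by
    have : m ^ 1 ≤ m ^ 4 := Nat.pow_le_pow_right (by omega) (by omega)
    rw [pow_one] at this
    omega
  have hs1 : 1 ≤ s := by omega
  have hpos : (0 : ℝ) < 1 / (8 * ((s : ℝ) + 1) ^ 2) / 2 ^ ((latBall 0 (2 * (2 * s))).card + 2) := by positivity
  obtain ⟨M, hM, hMε⟩ := ad_ar_M (A := A) (by omega) m0 (4 * s + 1) hpos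
  set N : ℕ := κ * s + (2 * M + 1) with hN
  set γ₂ : ℝ := ((3 : ℝ) ^ A + 1) * (1 / ((2 * s : ℕ) : ℝ)) ^ (A - 2) with hγ₂
  set γ₁ : ℝ := ((3 : ℝ) ^ A + 1) * (1 / ((2 * m : ℕ) : ℝ)) ^ (A - 2) with hγ₁
  have e1 : 2 ^ ((latBall 0 (2 * (2 * s))).card + 2) * adEps A m0 M ≤ 1 / (8 * ((s : ℝ) + 1) ^ 2) := by
    rw [le_div_iff₀ (by positivity)] at hMε
    linarith
  have e2 : 2 ^ ((latBall 0 (2 * (2 * s))).card + 2) * adEps A m0 M + 8 * γ₂ ≤ 1 / (4 * ((s : ℝ) + 1) ^ 2) := by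
    have : 1 / (4 * ((s : ℝ) + 1) ^ 2) = 1 / (8 * ((s : ℝ) + 1) ^ 2) + 1 / (8 * ((s : ℝ) + 1) ^ 2) := by
      field_simp
      norm_num
    rw [this]
    exact add_le_add e1 ha
  have p1 := hpoly h0 h1 hF hmix (γ := γ₂) s M N hs1 hM le_rfl
    (fun c N' hS => ad_bad_eps h0 h1 hA hmix (by omega) hS) e2
  have hQ : adBox 0 (9 * m * l) ⊆ latBall 0 s := by
    have := ad_box_sub (9 * m * l)
    have e : 2 * (9 * m * l) = s := by rw [hs, hl]; ring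
    rwa [e] at this
  have p2 : adP q (latBall 0 N) (fun ω => ∀ u ∈ latBall 0 s, u ∉ adE1 (latBall 0 N) ω.1)
      ≤ adP q (latBall 0 N) (fun ω => ∀ u ∈ adBox 0 (9 * m * l), u ∉ adE1 (latBall 0 N) ω.1) :=
    ad_P_mono h0 h1 _ fun ω _ h u hu => h u (hQ hu)
  have p3 := ad_tc h0 h1 (latBall 0 N) (adBox 0 (9 * m * l))
  have hin : ∀ i j : ℕ, i < 9 * l → j < 9 * l → latBall ((0 : TV) + (((m * i : ℕ) : ℤ), ((m * j : ℕ) : ℤ))) (4 * m + 1) ⊆ latBall 0 N := by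
    intro i j hi hj
    refine ad_ball_sub ?_
    have h1 : m * i ≤ m * (9 * l) := Nat.mul_le_mul_left _ hi.le
    have h2 : m * j ≤ m * (9 * l) := Nat.mul_le_mul_left _ hj.le
    have e : 2 * (m * (9 * l)) = s := by rw [hs, hl]; ring
    have h3 : latN ((0 : TV) + (((m * i : ℕ) : ℤ), ((m * j : ℕ) : ℤ)) - 0) ≤ s := by
      simp only [latN, zero_add, sub_zero]
      omega
    omega
  have p4 := ad_ld h0 h1 (S := latBall 0 N) (γ := γ₁) hm3 hm1 (0 : TV) hin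
    (fun i j hi hj => ad_bad_eps h0 h1 hA hmix hmm (by
      have := hin i j hi hj
      have e : 2 * (2 * m) + 1 = 4 * m + 1 := by ring
      rw [e]; exact this))
  have : (1 / (4 * ((s : ℝ) + 1) ^ 2)) ^ J
      ≤ 2 * (81 * Real.exp (-((l : ℝ) ^ 2 / (8 * (8 * (m : ℝ) + 1) ^ 2))) + 81 * (l : ℝ) ^ 2 * γ₁) := by
    linarith
  linarith

/-! ### §3 the decaying branch -/

/-- arm probability at scale `n` with the plus boundary at distance `(2ρ+1) n` -/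
noncomputable def adEta (q : ℝ) (ρ n : ℕ) : ℝ := adP q (latBall 0 ((2 * ρ + 1) * n)) (AdArm (latBall 0 ((2 * ρ + 1) * n)) 0 n)

theorem ad_top_eqns_cite2 : True := by
  have := @adEta.eq_1
  trivial

/-- plus cells are transported -/
theorem ad_plus_push (g : AdAut) (ω : AdC) (y : TV) : AdPlus (adPush g ω) (g.c y) ↔ AdPlus ω y := by
  unfold AdPlus adPush
  simp only
  rw [g.cell y]
  refine and_congr ?_ ?_
  · rw [Finset.mem_image]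
    constructor
    · rintro ⟨z, hz, e⟩
      exact g.c.injective e ▸ hz
    · intro h
      exact ⟨y, h, rfl⟩
  · constructor
    · intro h u hu
      have := h (g.f u) (Finset.mem_image_of_mem _ hu)
      rwa [Equiv.symm_apply_apply] at this
    · intro h u hu
      obtain ⟨w, hw, rfl⟩ := Finset.mem_image.1 hu
      rw [Equiv.symm_apply_apply]
      exact h w hw

/-- the invaded set is transported (one direction) -/
theorem ad_inv_push {g : AdAut} (hg : AdIso g) (S : Finset TV) (v : TV) (m : ℕ) (ω : AdC) {u : TV} (h : u ∈ adI S v m ω) :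
    g.f u ∈ adI (S.image g.f) (g.f v) m (adPush g ω) := by
  unfold adI at h ⊢
  simp only [Set.mem_ofPred_eq] at h ⊢
  induction h with
  | base hu =>
    refine AdInv.base ?_
    simp only [Set.mem_compl_iff, Finset.mem_coe, lat_mem_ball] at hu ⊢
    rwa [hg]
  | @step a b y _ hy ha hb ih =>
    refine AdInv.step (y := g.c y) ih ⟨?_, ?_⟩ ?_ ?_
    · rw [ad_aut_cellsIn]
      exact Finset.mem_image_of_mem _ hy.1
    · rw [ad_plus_push]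
      exact hy.2
    · rw [g.cell]
      exact Finset.mem_image_of_mem _ ha
    · rw [g.cell]
      exact Finset.mem_image_of_mem _ hb

theorem ad_arm_push_aux {g : AdAut} (hg : AdIso g) (S : Finset TV) (v : TV) (m : ℕ) (ω : AdC) (h : AdArm S v m ω) :
    AdArm (S.image g.f) (g.f v) m (adPush g ω) := by
  obtain ⟨u, hu, hI⟩ := h
  refine ⟨g.f u, ?_, ad_inv_push hg S v m ω hI⟩
  rw [lat_mem_ball] at hu ⊢
  rwa [hg]

/-- arms are transported by isometric automorphisms -/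
theorem ad_arm_push {g : AdAut} (hg : AdIso g) (S : Finset TV) (v : TV) (m : ℕ) (ω : AdC) :
    AdArm (S.image g.f) (g.f v) m (adPush g ω) ↔ AdArm S v m ω := by
  refine ⟨fun h => ?_, ad_arm_push_aux hg S v m ω⟩
  have := ad_arm_push_aux (ad_iso_inv hg) (S.image g.f) (g.f v) m (adPush g ω) h
  rw [ad_push_inv'] at this
  have e1 : (S.image g.f).image (adInvA g).f = S := by
    rw [Finset.image_image]
    have : ((adInvA g).f : TV → TV) ∘ (g.f : TV → TV) = id := by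
      funext x
      simp [adInvA]
    rw [this, Finset.image_id]
  have e2 : (adInvA g).f (g.f v) = v := by simp [adInvA]
  rwa [e1, e2] at this

/-- translation invariance -/
theorem ad_arm_tr (q : ℝ) (v : TV) (L m : ℕ) :
    adP q (latBall v L) (AdArm (latBall v L) v m) = adP q (latBall 0 L) (AdArm (latBall 0 L) 0 m) := by
  have e0 : (adTr v).f 0 = v := by simp [adTr]
  have e1 : (latBall 0 L).image (adTr v).f = latBall v L := by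
    rw [ad_iso_ball (ad_iso_tr v), e0]
  have h := ad_sym_P q (adTr v) (latBall 0 L) (AdArm (latBall v L) v m)
  rw [e1] at h
  rw [h]
  congr 1
  funext ω
  have := ad_arm_push (ad_iso_tr v) (latBall 0 L) 0 m ω
  rw [e1, e0] at this
  exact propext this

theorem ad_rec_iter {e : ℕ → ℝ} (he : ∀ n, 0 ≤ e n) {ρ n1 : ℕ} {C : ℝ} (hC : 1 ≤ C) (hrec : ∀ n, n1 ≤ n → e (ρ * n) ≤ C * e n ^ 2) (hρ : 1 ≤ ρ)
    (hs : C * e n1 ≤ 1 / 2) (k : ℕ) : e (ρ ^ k * n1) ≤ (1 / 2 : ℝ) ^ (2 ^ k) := by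
  have hC0 : 0 ≤ C := by linarith
  have key : ∀ k : ℕ, C * e (ρ ^ k * n1) ≤ (1 / 2 : ℝ) ^ (2 ^ k) := by
    intro k
    induction k with
    | zero => simpa using hs
    | succ k ih =>
      have h1 : n1 ≤ ρ ^ k * n1 := Nat.le_mul_of_pos_left _ (Nat.pow_pos (by omega))
      have h2 := hrec _ h1
      have e1 : ρ ^ (k + 1) * n1 = ρ * (ρ ^ k * n1) := by ring
      rw [e1]
      calc C * e (ρ * (ρ ^ k * n1)) ≤ C * (C * e (ρ ^ k * n1) ^ 2) := mul_le_mul_of_nonneg_left h2 hC0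
        _ = (C * e (ρ ^ k * n1)) ^ 2 := by ring
        _ ≤ ((1 / 2 : ℝ) ^ (2 ^ k)) ^ 2 := pow_le_pow_left₀ (mul_nonneg hC0 (he _)) ih 2
        _ = (1 / 2 : ℝ) ^ (2 ^ (k + 1)) := by rw [← pow_mul, pow_succ]
  calc e (ρ ^ k * n1) = 1 * e (ρ ^ k * n1) := (one_mul _).symm
    _ ≤ C * e (ρ ^ k * n1) := mul_le_mul_of_nonneg_right hC (he _)
    _ ≤ _ := key k

/-- one step of the concentric descent, in terms of `adEta` -/
theorem ad_conc_step {q : ℝ} (h0 : 0 < q) (h1 : q ≤ 1) (hF : AdFKG q) {ρ : ℕ} (hρ : 3 ≤ ρ) (v : TV) {n L : ℕ} (hn : 1 ≤ n)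
    (hL : 2 * (ρ * n) + 1 ≤ L) :
    adP q (latBall v L) (AdArm (latBall v L) v n) ≤ adP q (latBall v L) (AdArm (latBall v L) v (ρ * n)) + adEta q ρ n := by
  have h3 : 3 * n ≤ ρ * n := Nat.mul_le_mul_right n hρ
  have hd := ad_descent h0 h1 hF v (L := L) (m := n) (r := ρ * n) (by omega) hL
  have he : adP q (latBall v (2 * (ρ * n) + 1)) (AdArm (latBall v (2 * (ρ * n) + 1)) v n) ≤ adEta q ρ n := by
    unfold adEta
    rw [← ad_arm_tr q v ((2 * ρ + 1) * n) n]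
    have e : (2 * ρ + 1) * n = 2 * (ρ * n) + n := by ring
    rcases Nat.lt_or_ge 1 n with h | h
    · refine ad_enlarge h0 h1 hF v _ (ad_ball_nice v _) ?_ v n
      refine (ad_ball_cl v _).trans (ad_ball_mono v ?_)
      omega
    · have : n = 1 := by omega
      subst this
      rw [e]
  linarith

/-- concentric descent -/
theorem ad_conc {q : ℝ} (h0 : 0 < q) (h1 : q ≤ 1) (hF : AdFKG q) {ρ : ℕ} (hρ : 3 ≤ ρ) (v : TV) {n1 : ℕ} (hn : 1 ≤ n1) (K k : ℕ) (hk : k ≤ K) :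
    adP q (latBall v ((2 * ρ + 1) * (ρ ^ K * n1))) (AdArm (latBall v ((2 * ρ + 1) * (ρ ^ K * n1))) v (ρ ^ k * n1))
      ≤ ∑ j ∈ Finset.Icc k K, adEta q ρ (ρ ^ j * n1) := by
  have key : ∀ d k, k + d = K →
      adP q (latBall v ((2 * ρ + 1) * (ρ ^ K * n1))) (AdArm (latBall v ((2 * ρ + 1) * (ρ ^ K * n1))) v (ρ ^ k * n1))
        ≤ ∑ j ∈ Finset.Icc k K, adEta q ρ (ρ ^ j * n1) := by
    intro d
    induction d with
    | zero =>
      intro k hk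
      have : k = K := by omega
      subst this
      rw [Finset.Icc_self, Finset.sum_singleton]
      unfold adEta
      rw [ad_arm_tr]
    | succ d ih =>
      intro k hk
      have hkK : k + 1 ≤ K := by omega
      have hpos : ∀ j, 1 ≤ ρ ^ j * n1 := fun j => Nat.mul_pos (Nat.pow_pos (by omega)) hn
      have hmono : ρ ^ (k + 1) * n1 ≤ ρ ^ K * n1 := Nat.mul_le_mul_right _ (Nat.pow_le_pow_right (by omega) hkK)
      have e : ρ * (ρ ^ k * n1) = ρ ^ (k + 1) * n1 := by ring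
      have h3 : 3 * (ρ ^ K * n1) ≤ (2 * ρ + 1) * (ρ ^ K * n1) := Nat.mul_le_mul_right _ (by omega)
      have hs := ad_conc_step h0 h1 hF hρ v (n := ρ ^ k * n1) (L := (2 * ρ + 1) * (ρ ^ K * n1)) (hpos k)
        (by rw [e]; have := hpos K; omega)
      rw [e] at hs
      have hi := ih (k + 1) (by omega)
      rw [← Finset.add_sum_Ioc_eq_sum_Icc (by omega : k ≤ K), ← Finset.Icc_add_one_left_eq_Ioc]
      linarith
  exact key (K - k) k (by omega)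

/-- the same bound in any hexagon -/
theorem ad_any {q : ℝ} (h0 : 0 < q) (h1 : q ≤ 1) (hF : AdFKG q) {ρ : ℕ} (hρ : 3 ≤ ρ) {n1 : ℕ} (hn : 1 ≤ n1) (c : TV) (N : ℕ) (v : TV) (k : ℕ) :
    ∃ K, k ≤ K ∧ adP q (latBall c N) (AdArm (latBall c N) v (ρ ^ k * n1)) ≤ ∑ j ∈ Finset.Icc k K, adEta q ρ (ρ ^ j * n1) := by
  set K : ℕ := max k (latN (c - v) + N + 1) with hK
  refine ⟨K, le_max_left _ _, ?_⟩
  refine le_trans ?_ (ad_conc h0 h1 hF hρ v hn K k (le_max_left _ _))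
  refine ad_enlarge h0 h1 hF v _ (ad_ball_nice c N) ?_ v _
  refine (ad_ball_cl c N).trans (ad_ball_sub ?_)
  have h2 : K < ρ ^ K := Nat.lt_pow_self (by omega)
  have h3 : latN (c - v) + N + 1 ≤ K := le_max_right _ _
  have h4 : ρ ^ K * 1 ≤ ρ ^ K * n1 := Nat.mul_le_mul_left _ hn
  have h5 : 1 * (ρ ^ K * n1) ≤ (2 * ρ + 1) * (ρ ^ K * n1) := Nat.mul_le_mul_right _ (by omega)
  omega

/-- an arm at scale `m` contains an arm at every scale `r ≤ m / 2`, centred at its end point -/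
theorem ad_arm_small {S : Finset TV} {v : TV} {m r : ℕ} (hr : 2 * r ≤ m) {ω : AdC} (h : AdArm S v m ω) :
    ∃ u ∈ latBall v m, AdArm S u r ω := by
  obtain ⟨u, hu, hI⟩ := h
  refine ⟨u, hu, u, by rw [lat_mem_ball]; simp [latN], ?_⟩
  refine ad_inv_mono (fun _ h => h) ?_ hI
  intro w hw
  simp only [Set.mem_compl_iff, Finset.mem_coe] at hw ⊢
  intro hw'
  exact hw (ad_ball_sub (c := u) (N := 2 * r) (by rw [lat_mem_ball] at hu; omega) hw')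

theorem ad_ball_card (v : TV) (m : ℕ) : ((latBall v m).card : ℝ) ≤ (2 * (m : ℝ) + 1) ^ 2 := by
  have h : latBall v m ⊆ Finset.Icc (v.1 - m) (v.1 + m) ×ˢ Finset.Icc (v.2 - m) (v.2 + m) := by
    unfold latBall
    exact Finset.filter_subset _ _
  have h2 := Finset.card_le_card h
  rw [Finset.card_product, Int.card_Icc, Int.card_Icc] at h2
  have e1 : (v.1 + m + 1 - (v.1 - m)).toNat = 2 * m + 1 := by omega
  have e2 : (v.2 + m + 1 - (v.2 - m)).toNat = 2 * m + 1 := by omega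
  rw [e1, e2] at h2
  have : ((latBall v m).card : ℝ) ≤ (((2 * m + 1) * (2 * m + 1) : ℕ) : ℝ) := by exact_mod_cast h2
  refine this.trans (le_of_eq ?_)
  push_cast
  ring

theorem adq_geom_aux (k d : ℕ) : ∑ j ∈ Finset.Icc k (k + d), (1 / 2 : ℝ) ^ (2 ^ j) ≤ 2 * (1 / 2 : ℝ) ^ (2 ^ k) - (1 / 2 : ℝ) ^ (2 ^ (k + d)) := by
  induction d with
  | zero =>
    simp only [add_zero, Finset.Icc_self, Finset.sum_singleton]
    linarith
  | succ d ih =>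
    rw [← add_assoc, Finset.sum_Icc_succ_top (by omega)]
    have h1 : (1 / 2 : ℝ) ^ (2 ^ (k + d + 1)) = ((1 / 2 : ℝ) ^ (2 ^ (k + d))) ^ 2 := by rw [← pow_mul, pow_succ]
    have h2 : (1 / 2 : ℝ) ^ (2 ^ (k + d)) ≤ 1 / 2 := by
      calc (1 / 2 : ℝ) ^ (2 ^ (k + d)) ≤ (1 / 2 : ℝ) ^ 1 :=
            pow_le_pow_of_le_one (by norm_num) (by norm_num) (Nat.one_le_two_pow)
        _ = 1 / 2 := pow_one _
    have h3 : (0 : ℝ) ≤ (1 / 2 : ℝ) ^ (2 ^ (k + d)) := by positivity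
    rw [h1]
    nlinarith

theorem ad_ar_geom (k K : ℕ) : ∑ j ∈ Finset.Icc k K, (1 / 2 : ℝ) ^ (2 ^ j) ≤ 2 * (1 / 2 : ℝ) ^ (2 ^ k) := by
  by_cases h : k ≤ K
  · obtain ⟨d, rfl⟩ := Nat.exists_eq_add_of_le h
    have h1 := adq_geom_aux k d
    have h2 : (0 : ℝ) ≤ (1 / 2 : ℝ) ^ (2 ^ (k + d)) := by positivity
    linarith
  · rw [Finset.Icc_eq_empty (by omega), Finset.sum_empty]
    positivity

theorem adq_lin_le_pow (D k : ℕ) (h : 4 * D ≤ k) : D * (k + 1) ≤ 2 ^ k := by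
  obtain ⟨j, hj⟩ : ∃ j, j = k / 2 := ⟨_, rfl⟩
  have h1 : 2 * j ≤ k := by omega
  have h2 : k ≤ 2 * j + 1 := by omega
  have h3 : j + 1 ≤ 2 ^ j := Nat.lt_two_pow_self
  have h4 : 2 ^ (2 * j) ≤ 2 ^ k := Nat.pow_le_pow_right (by norm_num) h1
  have h5 : 2 ^ (2 * j) = (2 ^ j) ^ 2 := by rw [mul_comm, pow_mul]
  calc D * (k + 1) ≤ D * (2 * j + 2) := Nat.mul_le_mul_left _ (by omega)
    _ = 2 * D * (j + 1) := by ring
    _ ≤ (j + 1) * (j + 1) := Nat.mul_le_mul_right _ (by omega)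
    _ ≤ 2 ^ j * 2 ^ j := Nat.mul_le_mul h3 h3
    _ = (2 ^ j) ^ 2 := by ring
    _ = 2 ^ (2 * j) := h5.symm
    _ ≤ 2 ^ k := h4

theorem adq_nat_dec {ρ n1 : ℕ} (A k m : ℕ) (hk : 4 * (3 + (1 + n1 + ρ) * (A + 2)) ≤ k) (hm : m < 2 * (ρ ^ (k + 1) * n1)) :
    2 * (2 * m + 1) ^ 2 * m ^ A ≤ 2 ^ (2 ^ k) := by
  obtain ⟨X, hX⟩ : ∃ X, X = 2 * (ρ ^ (k + 1) * n1) := ⟨_, rfl⟩
  rw [← hX] at hm
  have hXle : X ≤ 2 ^ (1 + n1 + ρ * (k + 1)) := by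
    rw [hX, pow_add 2 (1 + n1), pow_add 2 1 n1, pow_one, pow_mul]
    have h1 : ρ ^ (k + 1) ≤ (2 ^ ρ) ^ (k + 1) := Nat.pow_le_pow_left Nat.lt_two_pow_self.le _
    have h2 : n1 ≤ 2 ^ n1 := Nat.lt_two_pow_self.le
    calc 2 * (ρ ^ (k + 1) * n1) ≤ 2 * ((2 ^ ρ) ^ (k + 1) * 2 ^ n1) := Nat.mul_le_mul_left _ (Nat.mul_le_mul h1 h2)
      _ = 2 * 2 ^ n1 * (2 ^ ρ) ^ (k + 1) := by ring
  have h1 : 2 * (2 * m + 1) ^ 2 * m ^ A ≤ 2 * (2 * X) ^ 2 * X ^ A :=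
    Nat.mul_le_mul (Nat.mul_le_mul_left _ (Nat.pow_le_pow_left (by omega) _)) (Nat.pow_le_pow_left hm.le _)
  have h2 : 2 * (2 * X) ^ 2 * X ^ A = 2 ^ 3 * X ^ (A + 2) := by ring
  have h3 : X ^ (A + 2) ≤ 2 ^ ((1 + n1 + ρ * (k + 1)) * (A + 2)) := by
    rw [pow_mul]
    exact Nat.pow_le_pow_left hXle _
  have h4 : 3 + (1 + n1 + ρ * (k + 1)) * (A + 2) ≤ (3 + (1 + n1 + ρ) * (A + 2)) * (k + 1) := by
    have : (1 + n1 + ρ * (k + 1)) ≤ (1 + n1 + ρ) * (k + 1) := by nlinarith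
    calc 3 + (1 + n1 + ρ * (k + 1)) * (A + 2) ≤ 3 * (k + 1) + ((1 + n1 + ρ) * (k + 1)) * (A + 2) :=
          Nat.add_le_add (by omega) (Nat.mul_le_mul_right _ this)
      _ = (3 + (1 + n1 + ρ) * (A + 2)) * (k + 1) := by ring
  calc 2 * (2 * m + 1) ^ 2 * m ^ A ≤ 2 ^ 3 * X ^ (A + 2) := h2 ▸ h1
    _ ≤ 2 ^ 3 * 2 ^ ((1 + n1 + ρ * (k + 1)) * (A + 2)) := Nat.mul_le_mul_left _ h3
    _ = 2 ^ (3 + (1 + n1 + ρ * (k + 1)) * (A + 2)) := by rw [pow_add]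
    _ ≤ 2 ^ (2 ^ k) := Nat.pow_le_pow_right (by norm_num) (h4.trans (adq_lin_le_pow _ _ hk))

/-- doubly exponential decay along a geometric sequence beats every power -/
theorem ad_ar_dec {ρ n1 : ℕ} (hρ : 2 ≤ ρ) (hn : 1 ≤ n1) (A : ℕ) : ∃ m0 : ℕ, ∀ m, m0 ≤ m → ∃ k : ℕ, 2 * (ρ ^ k * n1) ≤ m ∧
    (2 * (m : ℝ) + 1) ^ 2 * (2 * (1 / 2 : ℝ) ^ (2 ^ k)) ≤ (1 / (m : ℝ)) ^ A := by
  obtain ⟨k0, hk0⟩ : ∃ k0, k0 = 4 * (3 + (1 + n1 + ρ) * (A + 2)) := ⟨_, rfl⟩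
  refine ⟨2 * n1 * ρ ^ k0, fun m hm => ?_⟩
  obtain ⟨x, hx⟩ : ∃ x, x = m / (2 * n1) := ⟨_, rfl⟩
  have hpos : 0 < 2 * n1 := by omega
  have hx1 : ρ ^ k0 ≤ x := by
    rw [hx, Nat.le_div_iff_mul_le hpos]
    calc ρ ^ k0 * (2 * n1) = 2 * n1 * ρ ^ k0 := by ring
      _ ≤ m := hm
  have hx0 : x ≠ 0 := by
    have : 0 < ρ ^ k0 := Nat.pow_pos (by omega)
    omega
  have hxm : x * (2 * n1) ≤ m := by rw [hx]; exact Nat.div_mul_le_self _ _
  have hmx : m < 2 * n1 * (x + 1) := by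
    rw [hx]
    exact Nat.lt_mul_div_succ m hpos
  have hρ1 : 1 < ρ := by omega
  refine ⟨Nat.log ρ x, ?_, ?_⟩
  · have h1 : ρ ^ Nat.log ρ x ≤ x := Nat.pow_log_le_self ρ hx0
    calc 2 * (ρ ^ Nat.log ρ x * n1) = ρ ^ Nat.log ρ x * (2 * n1) := by ring
      _ ≤ x * (2 * n1) := Nat.mul_le_mul_right _ h1
      _ ≤ m := hxm
  · have hk : k0 ≤ Nat.log ρ x := Nat.le_log_of_pow_le hρ1 hx1
    have h2 : x + 1 ≤ ρ ^ (Nat.log ρ x + 1) := Nat.lt_pow_succ_log_self hρ1 x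
    have hm2 : m < 2 * (ρ ^ (Nat.log ρ x + 1) * n1) := by
      calc m < 2 * n1 * (x + 1) := hmx
        _ ≤ 2 * n1 * ρ ^ (Nat.log ρ x + 1) := Nat.mul_le_mul_left _ h2
        _ = 2 * (ρ ^ (Nat.log ρ x + 1) * n1) := by ring
    have hN := adq_nat_dec (ρ := ρ) (n1 := n1) A (Nat.log ρ x) m (hk0 ▸ hk) hm2
    have hm1 : 0 < m := by
      have : 0 < x * (2 * n1) := Nat.mul_pos (Nat.pos_of_ne_zero hx0) hpos
      omega
    have hNr : 2 * (2 * (m : ℝ) + 1) ^ 2 * (m : ℝ) ^ A ≤ (2 : ℝ) ^ (2 ^ Nat.log ρ x) := by exact_mod_cast hN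
    have hmr : (0 : ℝ) < (m : ℝ) ^ A := by positivity
    have hP : (0 : ℝ) < (2 : ℝ) ^ (2 ^ Nat.log ρ x) := by positivity
    rw [one_div_pow, one_div_pow, le_div_iff₀ hmr]
    calc (2 * (m : ℝ) + 1) ^ 2 * (2 * (1 / (2 : ℝ) ^ (2 ^ Nat.log ρ x))) * (m : ℝ) ^ A
        = (2 * (2 * (m : ℝ) + 1) ^ 2 * (m : ℝ) ^ A) / (2 : ℝ) ^ (2 ^ Nat.log ρ x) := by
          field_simp
      _ ≤ 1 := by
          rw [div_le_one hP]
          exact hNr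

/-- **(MIXH) from the decaying branch** -/
theorem ad_mixh_of_rec {q : ℝ} (h0 : 0 < q) (h1 : q ≤ 1) (hF : AdFKG q) {ρ : ℕ} (hρ : 3 ≤ ρ) {C : ℝ} (hC : 1 ≤ C) {n1 : ℕ} (hn : 1 ≤ n1)
    (hrec : ∀ n, n1 ≤ n → adEta q ρ (ρ * n) ≤ C * adEta q ρ n ^ 2) (hs : C * adEta q ρ n1 ≤ 1 / 2) (A : ℕ) :
    ∃ m0 : ℕ, ∀ m, m0 ≤ m → ∀ (c : TV) (N : ℕ) (v : TV), adP q (latBall c N) (AdArm (latBall c N) v m) ≤ (1 / (m : ℝ)) ^ A := by
  obtain ⟨m0, hm0⟩ := ad_ar_dec (ρ := ρ) (n1 := n1) (by omega) hn A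
  refine ⟨m0, fun m hm c N v => ?_⟩
  obtain ⟨k, hk, hle⟩ := hm0 m hm
  have hit := ad_rec_iter (e := adEta q ρ) (fun n => ad_P_nonneg h0 h1 _ _) hC hrec (by omega) hs
  have hone : ∀ u, adP q (latBall c N) (AdArm (latBall c N) u (ρ ^ k * n1)) ≤ 2 * (1 / 2 : ℝ) ^ (2 ^ k) := by
    intro u
    obtain ⟨K, _, hK⟩ := ad_any h0 h1 hF hρ hn c N u k
    exact hK.trans ((Finset.sum_le_sum fun j _ => hit j).trans (ad_ar_geom k K))
  calc adP q (latBall c N) (AdArm (latBall c N) v m)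
      ≤ adP q (latBall c N) (fun ω => ∃ u ∈ latBall v m, AdArm (latBall c N) u (ρ ^ k * n1) ω) :=
        ad_P_mono h0 h1 _ fun ω _ h => ad_arm_small hk h
    _ ≤ ∑ u ∈ latBall v m, adP q (latBall c N) (AdArm (latBall c N) u (ρ ^ k * n1)) := ad_P_union h0 h1 _ _ _
    _ ≤ ∑ _u ∈ latBall v m, 2 * (1 / 2 : ℝ) ^ (2 ^ k) := Finset.sum_le_sum fun u _ => hone u
    _ = ((latBall v m).card : ℝ) * (2 * (1 / 2 : ℝ) ^ (2 ^ k)) := by rw [Finset.sum_const, nsmul_eq_mul]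
    _ ≤ (2 * (m : ℝ) + 1) ^ 2 * (2 * (1 / 2 : ℝ) ^ (2 ^ k)) := mul_le_mul_of_nonneg_right (ad_ball_card v m) (by positivity)
    _ ≤ _ := hle

/-- **A6 EXIT in height language.** -/
theorem ad_exit_h {q : ℝ} (h0 : 0 < q) (h1 : q ≤ 1) (hF : AdFKG q) {ρ : ℕ} (hρ : 3 ≤ ρ) {C : ℝ} (hC : 1 ≤ C) {n0 : ℕ} (hn0 : 1 ≤ n0)
    (hrec : ∀ n, n0 ≤ n → adEta q ρ (ρ * n) ≤ C * adEta q ρ n ^ 2) : ∀ n, n0 ≤ n → 1 / 2 < C * adEta q ρ n := by
  intro n hn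
  by_contra hcon
  exact ad_thmD h0 h1 hF (ad_mixh_of_rec h0 h1 hF hρ hC (n1 := n) (by omega) (fun k hk => hrec k (by omega)) (not_lt.1 hcon))

/-! ### §4 GOOD SCALES (exit for the bypass of the quadratic recursion of `η`; helper264, prefix `adg_`) -/

/-- a sequence which at least halves at every step -/
theorem adg_half (a : ℕ → ℝ) (h : ∀ j, a (j + 1) ≤ a j / 2) (k d : ℕ) :
    ∑ j ∈ Finset.Icc k (k + d), a j ≤ 2 * a k - a (k + d) := by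
  induction d with
  | zero =>
    simp only [add_zero, Finset.Icc_self, Finset.sum_singleton]
    linarith
  | succ d ih =>
    rw [← add_assoc, Finset.sum_Icc_succ_top (by omega)]
    have := h (k + d)
    linarith

/-- geometric tail of a power along a geometric sequence -/
theorem adg_geom {ρ n1 : ℕ} (hρ : 2 ≤ ρ) (hn : 1 ≤ n1) (B : ℕ) (hB : 1 ≤ B) (k K : ℕ) :
    ∑ j ∈ Finset.Icc k K, (1 / ((ρ ^ j * n1 : ℕ) : ℝ)) ^ B ≤ 2 * (1 / ((ρ ^ k * n1 : ℕ) : ℝ)) ^ B := by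
  by_cases hkK : k ≤ K
  · obtain ⟨d, rfl⟩ := Nat.exists_eq_add_of_le hkK
    have hρ0 : (0 : ℝ) < ρ := by exact_mod_cast (by omega : 0 < ρ)
    have hρ2 : (2 : ℝ) ≤ ρ := by exact_mod_cast hρ
    have hn0 : (0 : ℝ) < n1 := by exact_mod_cast (by omega : 0 < n1)
    have hstep : ∀ j, (1 / ((ρ ^ (j + 1) * n1 : ℕ) : ℝ)) ^ B ≤ (1 / ((ρ ^ j * n1 : ℕ) : ℝ)) ^ B / 2 := by
      intro j
      have e : 1 / ((ρ ^ (j + 1) * n1 : ℕ) : ℝ) = (1 / (ρ : ℝ)) * (1 / ((ρ ^ j * n1 : ℕ) : ℝ)) := by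
        push_cast
        rw [pow_succ]
        field_simp
      rw [e, mul_pow]
      have h1 : (1 / (ρ : ℝ)) ^ B ≤ 1 / 2 := by
        have h2 : 1 / (ρ : ℝ) ≤ 1 / 2 := one_div_le_one_div_of_le (by norm_num) hρ2
        calc (1 / (ρ : ℝ)) ^ B ≤ (1 / (ρ : ℝ)) ^ 1 :=
              pow_le_pow_of_le_one (by positivity) (h2.trans (by norm_num)) hB
          _ = 1 / (ρ : ℝ) := pow_one _
          _ ≤ 1 / 2 := h2
      have h3 : (0 : ℝ) ≤ (1 / ((ρ ^ j * n1 : ℕ) : ℝ)) ^ B := by positivity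
      nlinarith
    have h1 := adg_half (fun j => (1 / ((ρ ^ j * n1 : ℕ) : ℝ)) ^ B) hstep k d
    have h2 : (0 : ℝ) ≤ (1 / ((ρ ^ (k + d) * n1 : ℕ) : ℝ)) ^ B := by positivity
    linarith
  · rw [Finset.Icc_eq_empty (by omega), Finset.sum_empty]
    positivity

/-- polynomial decay along a geometric sequence gives polynomial decay (three powers are lost) -/
theorem adg_ar {ρ n1 : ℕ} (hρ : 2 ≤ ρ) (hn : 1 ≤ n1) (A j0 : ℕ) : ∃ m0 : ℕ, ∀ m, m0 ≤ m → ∃ k : ℕ, j0 ≤ k ∧ 2 * (ρ ^ k * n1) ≤ m ∧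
    (2 * (m : ℝ) + 1) ^ 2 * (2 * (1 / ((ρ ^ k * n1 : ℕ) : ℝ)) ^ (A + 3)) ≤ (1 / (m : ℝ)) ^ A := by
  refine ⟨2 * n1 * ρ ^ j0 + 18 * (2 * ρ) ^ (A + 3), fun m hm => ?_⟩
  obtain ⟨x, hx⟩ : ∃ x, x = m / (2 * n1) := ⟨_, rfl⟩
  have hpos : 0 < 2 * n1 := by omega
  have hx1 : ρ ^ j0 ≤ x := by
    rw [hx, Nat.le_div_iff_mul_le hpos]
    calc ρ ^ j0 * (2 * n1) = 2 * n1 * ρ ^ j0 := by ring
      _ ≤ m := by omega
  have hx0 : x ≠ 0 := by
    have : 0 < ρ ^ j0 := Nat.pow_pos (by omega)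
    omega
  have hxm : x * (2 * n1) ≤ m := by rw [hx]; exact Nat.div_mul_le_self _ _
  have hmx : m < 2 * n1 * (x + 1) := by
    rw [hx]
    exact Nat.lt_mul_div_succ m hpos
  have hρ1 : 1 < ρ := by omega
  have hk1 : ρ ^ Nat.log ρ x ≤ x := Nat.pow_log_le_self ρ hx0
  have hk2 : x + 1 ≤ ρ ^ (Nat.log ρ x + 1) := Nat.lt_pow_succ_log_self hρ1 x
  refine ⟨Nat.log ρ x, Nat.le_log_of_pow_le hρ1 hx1, ?_, ?_⟩
  · calc 2 * (ρ ^ Nat.log ρ x * n1) = ρ ^ Nat.log ρ x * (2 * n1) := by ring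
      _ ≤ x * (2 * n1) := Nat.mul_le_mul_right _ hk1
      _ ≤ m := hxm
  · have hm2 : m ≤ 2 * ρ * (ρ ^ Nat.log ρ x * n1) := by
      calc m ≤ 2 * n1 * (x + 1) := hmx.le
        _ ≤ 2 * n1 * ρ ^ (Nat.log ρ x + 1) := Nat.mul_le_mul_left _ hk2
        _ = 2 * ρ * (ρ ^ Nat.log ρ x * n1) := by rw [pow_succ]; ring
    obtain ⟨X, hX⟩ : ∃ X : ℕ, X = ρ ^ Nat.log ρ x * n1 := ⟨_, rfl⟩
    rw [← hX] at hm2 ⊢
    have hXpos : (0 : ℝ) < X := by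
      have : 0 < X := by rw [hX]; exact Nat.mul_pos (Nat.pow_pos (by omega)) hn
      exact_mod_cast this
    have hm1 : 1 ≤ m := by
      have : 0 < (2 * ρ) ^ (A + 3) := Nat.pow_pos (by omega)
      omega
    have hM1 : (1 : ℝ) ≤ m := by exact_mod_cast hm1
    have hMpos : (0 : ℝ) < m := by linarith
    have hmX : (m : ℝ) ≤ 2 * ρ * X := by exact_mod_cast hm2
    have h18 : 18 * (2 * (ρ : ℝ)) ^ (A + 3) ≤ m := by
      have : 18 * (2 * ρ) ^ (A + 3) ≤ m := by omega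
      exact_mod_cast this
    have hXp : (1 / (X : ℝ)) ^ (A + 3) ≤ (2 * (ρ : ℝ)) ^ (A + 3) / (m : ℝ) ^ (A + 3) := by
      have h1 : 1 / (X : ℝ) ≤ (2 * (ρ : ℝ)) / m := by
        rw [div_le_div_iff₀ hXpos hMpos]
        linarith
      calc (1 / (X : ℝ)) ^ (A + 3) ≤ ((2 * (ρ : ℝ)) / m) ^ (A + 3) := pow_le_pow_left₀ (by positivity) h1 _
        _ = (2 * (ρ : ℝ)) ^ (A + 3) / (m : ℝ) ^ (A + 3) := div_pow _ _ _
    have h9 : (2 * (m : ℝ) + 1) ^ 2 ≤ 9 * (m : ℝ) ^ 2 := by nlinarith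
    calc (2 * (m : ℝ) + 1) ^ 2 * (2 * (1 / (X : ℝ)) ^ (A + 3))
        ≤ (9 * (m : ℝ) ^ 2) * (2 * ((2 * (ρ : ℝ)) ^ (A + 3) / (m : ℝ) ^ (A + 3))) :=
          mul_le_mul h9 (mul_le_mul_of_nonneg_left hXp (by norm_num)) (by positivity) (by positivity)
      _ = (18 * (2 * (ρ : ℝ)) ^ (A + 3) / m) * (1 / (m : ℝ)) ^ A := by
          rw [one_div_pow, pow_add (m : ℝ) A 3]
          field_simp
          ring
      _ ≤ 1 * (1 / (m : ℝ)) ^ A :=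
          mul_le_mul_of_nonneg_right ((div_le_one hMpos).2 h18) (by positivity)
      _ = (1 / (m : ℝ)) ^ A := one_mul _

/-- **GOOD SCALES** : along every geometric sequence of scales the arm probability (plus boundary at distance `(2ρ+1) n`) is infinitely often `> n^{-A}`.
`A` depends on `q` only. -/
theorem ad_good {q : ℝ} (h0 : 0 < q) (h1 : q ≤ 1) (hF : AdFKG q) :
    ∃ A : ℕ, ∀ ρ : ℕ, 3 ≤ ρ → ∀ n1 : ℕ, 1 ≤ n1 → ∀ j0 : ℕ, ∃ j, j0 ≤ j ∧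
      (1 / ((ρ ^ j * n1 : ℕ) : ℝ)) ^ A < adEta q ρ (ρ ^ j * n1) := by
  obtain ⟨A, hA⟩ := not_forall.1 (fun h => ad_thmD h0 h1 hF h)
  refine ⟨A + 3, fun ρ hρ n1 hn j0 => ?_⟩
  by_contra hcon
  push Not at hcon
  apply hA
  obtain ⟨m0, hm0⟩ := adg_ar (ρ := ρ) (n1 := n1) (by omega) hn A j0
  refine ⟨m0, fun m hm c N v => ?_⟩
  obtain ⟨k, hjk, hk, hle⟩ := hm0 m hm
  have hone : ∀ u, adP q (latBall c N) (AdArm (latBall c N) u (ρ ^ k * n1)) ≤ 2 * (1 / ((ρ ^ k * n1 : ℕ) : ℝ)) ^ (A + 3) := by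
    intro u
    obtain ⟨K, _, hK⟩ := ad_any h0 h1 hF hρ hn c N u k
    exact hK.trans ((Finset.sum_le_sum fun j hj => hcon j (hjk.trans (Finset.mem_Icc.1 hj).1)).trans
      (adg_geom (by omega) hn (A + 3) (by omega) k K))
  calc adP q (latBall c N) (AdArm (latBall c N) v m)
      ≤ adP q (latBall c N) (fun ω => ∃ u ∈ latBall v m, AdArm (latBall c N) u (ρ ^ k * n1) ω) :=
        ad_P_mono h0 h1 _ fun ω _ h => ad_arm_small hk h
    _ ≤ ∑ u ∈ latBall v m, adP q (latBall c N) (AdArm (latBall c N) u (ρ ^ k * n1)) := ad_P_union h0 h1 _ _ _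
    _ ≤ ∑ _u ∈ latBall v m, 2 * (1 / ((ρ ^ k * n1 : ℕ) : ℝ)) ^ (A + 3) := Finset.sum_le_sum fun u _ => hone u
    _ = ((latBall v m).card : ℝ) * (2 * (1 / ((ρ ^ k * n1 : ℕ) : ℝ)) ^ (A + 3)) := by rw [Finset.sum_const, nsmul_eq_mul]
    _ ≤ (2 * (m : ℝ) + 1) ^ 2 * (2 * (1 / ((ρ ^ k * n1 : ℕ) : ℝ)) ^ (A + 3)) :=
        mul_le_mul_of_nonneg_right (ad_ball_card v m) (by positivity)
    _ ≤ _ := hle

/-- infinitely many good scales (`ρ = 3`, `n₁ = 1`: plus boundary at distance `7 s`) -/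
theorem ad_good7 {q : ℝ} (h0 : 0 < q) (h1 : q ≤ 1) (hF : AdFKG q) :
    ∃ A : ℕ, ∀ n0 : ℕ, ∃ s, n0 ≤ s ∧ 1 ≤ s ∧ (1 / (s : ℝ)) ^ A < adP q (latBall 0 (7 * s)) (AdArm (latBall 0 (7 * s)) 0 s) := by
  obtain ⟨A, hA⟩ := ad_good h0 h1 hF
  refine ⟨A, fun n0 => ?_⟩
  obtain ⟨j, hj, h⟩ := hA 3 le_rfl 1 le_rfl n0
  refine ⟨3 ^ j * 1, ?_, ?_, h⟩
  · have : j < 3 ^ j := Nat.lt_pow_self (by norm_num)
    omega
  · have : 0 < 3 ^ j := Nat.pow_pos (by norm_num)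
    omega

end Claimed.Agent.R291
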