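import Claimed.Agent.R291.Ann.DMix

/-!
# Row 291, ANN A6 (Theorem D, route D2), block D7 : COMPARISON OF TWO HEXAGONS WITHOUT COUPLING      (architect helper149; PROVERS helper168 (probability part, exit) + helper239 (deterministic part): 0 sorry in this file; prefix `ad_`, helpers `ad_tv_`)

Spec: `origin/helper149:notes/R291/thmD2_149.md` Sec. 6 (TV).

`R = Λ_r(o)`, `R' = Λ_{2r}(o)`, `R1 = Λ_{2r+1}(o)`; `s, s'` hexagons containing `Λ_{2M+1}(o)`, `M ≥ 4r+3`; `A` an event of the heights in `R`.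
(a) `ad_tv_up`:  `s ⊆ s'` (with `latCl s ⊆ s'`), `U` increasing in `(B,τ)` and LOCAL in `R1` (`AdLocIn R1 U`):   `(1 - ε M) P_s[U] ≤ P_s'[U] ≤ P_s[U]`.
     right: `ad_T2` with `t = s`.     left: under `P_s'`, off `AdArm s' o M`, sum over the values `(t,k)` of (`adT0f s' o M`, level): `ad_mk`; `Λ_M(o) ⊆ t`, `latCl t ⊆ Λ_{2M+1}(o) ⊆ s`: `ad_T2`: `P_t[U] ≥ P_s[U]`.
(b) `ω ↦ adT0f R1 o r ω` is increasing (`ad_T0_mono`), does not depend on the domain (`ad_T0_dom`) and is local in `R1`.   `{T0 = t} = {t ⊆ T0} \ {∃ t' ⊋ t, t' ⊆ T0}`: difference of two increasing local events.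
     So `|P_s[T0 = t] - P_s'[T0 = t]| ≤ 2 ε M`  (`ad_tv_T0`), and there are at most `2^{|R'|}` values `t`.
(c) `ad_tv_dec`:  `|P_s[A] - ∑_t P_s[T0 = t] P_t[A]| ≤ 2 P_s[¬ AdG s o r]`   by `ad_mk` at level `0` (`A` is read inside `t ⊇ R`).
Two arbitrary hexagons are compared with a third one which contains the closures of both.
-/

set_option autoImplicit false

namespace Claimed.Agent.R291

open Claims Claims.C0467

/-- the event `U` is read inside every `t ⊇ R`, at every level -/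
def AdLocIn (R : Finset TV) (U : AdC → Prop) : Prop := ∀ (t : Finset TV) (k : ℤ) (ω : AdC), R ⊆ t → (U ω ↔ U (adIn t k ω))

/-- two sites of a cell: the distances to a centre differ by at most one -/
theorem ad_cell_ball {y u w v : TV} {n : ℕ} (hu : u ∈ cellV y) (hw : w ∈ cellV y) (h : w ∈ latBall v n) : u ∈ latBall v (n + 1) := by
  rw [lat_mem_ball] at h ⊢
  unfold cellV at hu hw
  simp only [Finset.mem_insert, Finset.mem_singleton] at hu hw
  unfold latN at h ⊢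
  rcases hu with rfl | rfl | rfl <;> rcases hw with rfl | rfl | rfl <;>
    simp only [Prod.fst_sub, Prod.snd_sub, Prod.fst_add, Prod.snd_add] at h ⊢ <;> omega

/-- the invaded set does not depend on the domain -/
theorem ad_I_dom {S : Finset TV} {v : TV} {m : ℕ} (hS : latBall v (2 * m + 1) ⊆ S) (ω : AdC) :
    adI S v m ω = adI (latBall v (2 * m + 1)) v m ω := by
  ext u
  constructor
  · intro h
    change AdInv _ _ u at h
    change AdInv _ _ u
    induction h with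
    | base hu => exact AdInv.base hu
    | @step a b y _ hy ha hb ih =>
      by_cases hc : cellV y ⊆ latBall v (2 * m + 1)
      · exact AdInv.step ih ⟨lat_mem_cellsIn.2 hc, hy.2⟩ ha hb
      · refine AdInv.base fun hb' => hc fun w hw => ad_cell_ball hw hb hb'
  · intro h
    exact ad_inv_mono (fun y hy => ⟨lat_mem_cellsIn.2 ((lat_mem_cellsIn.1 hy.1).trans hS), hy.2⟩) (le_refl _) h

/-- the protected component does not depend on the domain -/
theorem ad_T0_dom {S : Finset TV} {v : TV} {m : ℕ} (hS : latBall v (2 * m + 1) ⊆ S) (ω : AdC) :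
    adT0f S v m ω = adT0f (latBall v (2 * m + 1)) v m ω := by
  unfold adT0f adT0
  rw [ad_I_dom hS]

theorem ad_B_shift (a k : ℤ) : AdB (a - 4 * k) ↔ AdB a := by
  unfold AdB
  constructor <;> intro h <;> omega

/-- plus cells inside `t` are read inside `t` -/
theorem ad_plus_in {t : Finset TV} (k : ℤ) (ω : AdC) {y : TV} (hy : cellV y ⊆ t) : AdPlus (adIn t k ω) y ↔ AdPlus ω y := by
  unfold AdPlus adIn
  simp only [Finset.mem_inter, lat_mem_cellsIn.2 hy, and_true]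
  refine and_congr_right fun _ => forall_congr' fun u => forall_congr' fun hu => ?_
  rw [if_pos (hy hu), ad_B_shift]

/-- the protected component is read inside every `t ⊇ Λ_{2m+1}(v)` -/
theorem ad_T0_in {t : Finset TV} {v : TV} {m : ℕ} (ht : latBall v (2 * m + 1) ⊆ t) (k : ℤ) (ω : AdC) :
    adT0f (latBall v (2 * m + 1)) v m (adIn t k ω) = adT0f (latBall v (2 * m + 1)) v m ω := by
  have hb : AdBad (latBall v (2 * m + 1)) (adIn t k ω) = AdBad (latBall v (2 * m + 1)) ω := by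
    funext y
    unfold AdBad
    refine propext (and_congr_right fun hy => ?_)
    rw [ad_plus_in k ω ((lat_mem_cellsIn.1 hy).trans ht)]
  unfold adT0f adT0 adI
  rw [hb]

/-- (a), right inequality -/
theorem ad_tv_up_le {q : ℝ} (h0 : 0 < q) (h1 : q ≤ 1) (hF : AdFKG q) {c c' : TV} {N N' : ℕ} (hss : latCl (latBall c N) ⊆ latBall c' N')
    {R : Finset TV} (hR : R ⊆ latBall c N) {U : AdC → Prop} (hU : AdUp U) (hloc : AdLocIn R U) :
    adP q (latBall c' N') U ≤ adP q (latBall c N) U :=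
  ad_T2 h0 h1 hF c' N' (ad_ball_nice c N) hss U U hU fun ω k _ _ h => (hloc _ k ω hR).1 h

theorem ad_tv_eqns_cite : True := by
  have := @AdLocIn.eq_1
  trivial

/-- converse of `ad_T0_ball` -/
theorem ad_tv_no_arm {S : Finset TV} {v : TV} {m : ℕ} {ω : AdC} (h : latBall v m ⊆ adT0f S v m ω) : ¬ AdArm S v m ω := by
  classical
  rintro ⟨u, hu, hI⟩
  have h1 := h hu
  unfold adT0f at h1
  have h2 := (Finset.mem_filter.1 h1).2
  exact (tsc_comp_sub v h2) hI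

theorem ad_tv_arm_iff {S : Finset TV} {v : TV} {m : ℕ} {ω : AdC} : ¬ AdArm S v m ω ↔ latBall v m ⊆ adT0f S v m ω :=
  ⟨ad_T0_ball, ad_tv_no_arm⟩

theorem ad_tv_T0f_sub (S : Finset TV) (v : TV) (m : ℕ) (ω : AdC) : adT0f S v m ω ⊆ latBall v (2 * m) := by
  classical
  unfold adT0f
  exact Finset.filter_subset _ _

/-! ### probability kit -/

theorem ad_tv_P_def (q : ℝ) (S : Finset TV) (K : AdC → Prop) [DecidablePred K] :
    adP q S K = adS q S (fun ω => if K ω then 1 else 0) / adZ q S := by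
  unfold adP adE
  congr 2
  funext ω
  congr

theorem ad_tv_P_congr (q : ℝ) (S : Finset TV) {K L : AdC → Prop} (h : ∀ ω, AdAdm S ω → (K ω ↔ L ω)) : adP q S K = adP q S L := by
  classical
  rw [ad_tv_P_def, ad_tv_P_def]
  congr 1
  exact ad_S_congr q S (fun ω hω => by simp only [h ω hω])

theorem ad_tv_P_zero (q : ℝ) (S : Finset TV) {K : AdC → Prop} (h : ∀ ω, AdAdm S ω → ¬ K ω) : adP q S K = 0 := by
  classical
  rw [ad_tv_P_def, ad_S_congr q S (G := fun _ => 0 * 1) (fun ω hω => by simp [h ω hω]), ad_S_smul]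
  simp

theorem ad_tv_P_one {q : ℝ} (h0 : 0 < q) (h1 : q ≤ 1) (S : Finset TV) {K : AdC → Prop} (h : ∀ ω, AdAdm S ω → K ω) : adP q S K = 1 := by
  classical
  rw [ad_tv_P_def, ad_S_congr q S (G := fun _ => 1) (fun ω hω => by simp [h ω hω])]
  exact div_self (ad_Z_pos h0 h1 S).ne'

/-- additivity on disjoint events -/
theorem ad_tv_P_disj {ι : Type*} (q : ℝ) (S : Finset TV) (I : Finset ι) (E : ι → AdC → Prop)
    (hd : ∀ ω, AdAdm S ω → ∀ i ∈ I, ∀ j ∈ I, E i ω → E j ω → i = j) :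
    adP q S (fun ω => ∃ i ∈ I, E i ω) = ∑ i ∈ I, adP q S (E i) := by
  classical
  simp only [ad_tv_P_def]
  rw [← Finset.sum_div, ← ad_S_sum]
  congr 1
  refine ad_S_congr q S (fun ω hω => ?_)
  by_cases hK : ∃ i ∈ I, E i ω
  · rw [if_pos hK]
    obtain ⟨i, hi, hE⟩ := hK
    rw [Finset.sum_eq_single i]
    · rw [if_pos hE]
    · intro j hj hji
      rw [if_neg (fun hEj => hji (hd ω hω j hj i hi hEj hE))]
    · intro hn; exact absurd hi hn
  · rw [if_neg hK]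
    symm
    refine Finset.sum_eq_zero (fun i hi => ?_)
    rw [if_neg (fun hE => hK ⟨i, hi, hE⟩)]

/-- splitting along an event -/
theorem ad_tv_P_split (q : ℝ) (S : Finset TV) (K G : AdC → Prop) :
    adP q S K = adP q S (fun ω => K ω ∧ G ω) + adP q S (fun ω => K ω ∧ ¬ G ω) := by
  classical
  simp only [ad_tv_P_def]
  rw [← add_div, ← ad_S_add]
  congr 1
  refine ad_S_congr q S (fun ω _ => ?_)
  by_cases hK : K ω <;> by_cases hG : G ω <;> simp [hK, hG]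

/-- **Markov property at the protected component, probability form** -/
theorem ad_tv_mk {q : ℝ} (h0 : 0 < q) (h1 : q ≤ 1) {S : Finset TV} {v : TV} {m : ℕ} (hS : latBall v (2 * m + 1) ⊆ S) (t : Finset TV) (k : ℤ)
    (U U' : AdC → Prop) (hU : ∀ ω, adT0f S v m ω = t → AdCut t k ω → (U ω ↔ U' (adIn t k ω))) :
    adP q S (fun ω => (adT0f S v m ω = t ∧ AdCut t k ω) ∧ U ω)
      = adP q S (fun ω => adT0f S v m ω = t ∧ AdCut t k ω) * adP q t U' := by
  classical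
  have key := ad_mk q hS t k (fun ω => if U' ω then 1 else 0)
  have hZS := (ad_Z_pos h0 h1 S).ne'
  have hZt := (ad_Z_pos h0 h1 t).ne'
  simp only [ad_tv_P_def]
  have e1 : adS q S (fun ω => if (adT0f S v m ω = t ∧ AdCut t k ω) ∧ U ω then 1 else 0)
      = adS q S (fun ω => if adT0f S v m ω = t ∧ AdCut t k ω then (if U' (adIn t k ω) then 1 else 0) else 0) := by
    refine ad_S_congr q S (fun ω _ => ?_)
    by_cases hE : adT0f S v m ω = t ∧ AdCut t k ω
    · rw [if_pos hE]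
      simp only [hE, true_and, and_self, hU ω hE.1 hE.2]
    · rw [if_neg hE, if_neg (fun h => hE h.1)]
  have key' : adS q S (fun ω => if (adT0f S v m ω = t ∧ AdCut t k ω) ∧ U ω then 1 else 0) * adZ q t
      = adS q S (fun ω => if adT0f S v m ω = t ∧ AdCut t k ω then 1 else 0) * adS q t (fun ω => if U' ω then 1 else 0) := by
    rw [e1]
    convert key using 2
  field_simp
  linarith [key']

/-! ### (a) -/

theorem ad_tv_cl_mono {A B : Finset TV} (h : A ⊆ B) : latCl A ⊆ latCl B := by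
  intro u hu
  rcases lat_mem_cl.1 hu with h1 | ⟨w, hw, hadj⟩
  · exact lat_mem_cl.2 (Or.inl (h h1))
  · exact lat_mem_cl.2 (Or.inr ⟨w, h hw, hadj⟩)

theorem ad_tv_cl_sub {t : Finset TV} {o : TV} {n : ℕ} (h : t ⊆ latBall o n) : latCl t ⊆ latBall o (n + 1) :=
  (ad_tv_cl_mono h).trans (ad_ball_cl o n)

/-- the values of (protected component, level) off the arm event -/
theorem ad_tv_cover {S : Finset TV} {o : TV} {M : ℕ} (hS : latBall o (2 * M + 1) ⊆ S) {ω : AdC} (hω : AdAdm S ω) (hA : ¬ AdArm S o M ω) :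
    ∃ k : ℤ, |k| ≤ S.card + 1 ∧ AdCut (adT0f S o M ω) k ω :=
  ad_cut_level (ad_T0_nice hA) ((ad_tv_cl_sub (ad_tv_T0f_sub S o M ω)).trans hS) hω (ad_T0_cutP hS ω)

/-- (a), left inequality -/
theorem ad_tv_up_ge {q : ℝ} (h0 : 0 < q) (h1 : q ≤ 1) (hF : AdFKG q) {ε : ℕ → ℝ} (hmix : AdMixH q ε) {c c' o : TV} {N N' M : ℕ}
    (hs : latBall o (2 * M + 1) ⊆ latBall c N) (hs' : latBall o (2 * M + 1) ⊆ latBall c' N')
    {R : Finset TV} (hR : R ⊆ latBall o M) {U : AdC → Prop} (hU : AdUp U) (hloc : AdLocIn R U) :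
    adP q (latBall c N) U - ε M ≤ adP q (latBall c' N') U := by
  classical
  set S' := latBall c' N' with hS'
  set I : Finset (Finset TV × ℤ) := ((latBall o (2 * M)).powerset.filter (fun t => latBall o M ⊆ t ∧ AdNice t)) ×ˢ
    Finset.Icc (-((S'.card : ℤ) + 1)) ((S'.card : ℤ) + 1) with hI
  set E : Finset TV × ℤ → AdC → Prop := fun p ω => adT0f S' o M ω = p.1 ∧ AdCut p.1 p.2 ω with hE
  have hmemI : ∀ i ∈ I, i.1 ⊆ latBall o (2 * M) ∧ latBall o M ⊆ i.1 ∧ AdNice i.1 := by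
    intro i hi
    have h2 := (Finset.mem_product.1 hi).1
    rw [Finset.mem_filter, Finset.mem_powerset] at h2
    exact h2
  have hd : ∀ ω, AdAdm S' ω → ∀ i ∈ I, ∀ j ∈ I, E i ω → E j ω → i = j := by
    intro ω _ i hi j _ hEi hEj
    have e1 : i.1 = j.1 := hEi.1.symm.trans hEj.1
    have e2 : i.2 = j.2 := by
      have h3 := hEj.2
      rw [← e1] at h3
      exact ad_cut_unique (hmemI i hi).2.2.1 hEi.2 h3
    exact Prod.ext e1 e2
  have hcov : ∀ ω, AdAdm S' ω → ¬ AdArm S' o M ω → ∃ i ∈ I, E i ω := by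
    intro ω hω hA
    obtain ⟨k, hk, hcut⟩ := ad_tv_cover hs' hω hA
    refine ⟨(adT0f S' o M ω, k), ?_, rfl, hcut⟩
    rw [hI, Finset.mem_product, Finset.mem_filter, Finset.mem_powerset, Finset.mem_Icc]
    exact ⟨⟨ad_tv_T0f_sub S' o M ω, ad_T0_ball hA, ad_T0_nice hA⟩, abs_le.1 hk⟩
  set p := adP q (latBall c N) U with hp
  have hp0 : 0 ≤ p := ad_P_nonneg h0 h1 _ _
  have hp1 : p ≤ 1 := ad_P_le_one h0 h1 _ _
  have hε : 0 ≤ ε M := (ad_P_nonneg h0 h1 _ _).trans (hmix c' N' o M)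
  have step1 : ∑ i ∈ I, adP q S' (fun ω => E i ω ∧ U ω) ≤ adP q S' U := by
    rw [← ad_tv_P_disj q S' I (fun i ω => E i ω ∧ U ω) (fun ω hω i hi j hj h3 h4 => hd ω hω i hi j hj h3.1 h4.1)]
    exact ad_P_mono h0 h1 S' (fun ω _ ⟨_, _, _, h⟩ => h)
  have step2 : ∀ i ∈ I, adP q S' (fun ω => E i ω ∧ U ω) = adP q S' (E i) * adP q i.1 U := fun i hi =>
    ad_tv_mk h0 h1 hs' i.1 i.2 U U (fun ω _ _ => hloc i.1 i.2 ω (hR.trans (hmemI i hi).2.1))
  have step3 : ∀ i ∈ I, p ≤ adP q i.1 U := fun i hi =>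
    ad_T2 h0 h1 hF c N (hmemI i hi).2.2 ((ad_tv_cl_sub (hmemI i hi).1).trans hs) U U hU
      (fun ω k _ _ h => (hloc i.1 k ω (hR.trans (hmemI i hi).2.1)).1 h)
  have step4 : 1 - ε M ≤ ∑ i ∈ I, adP q S' (E i) := by
    rw [← ad_tv_P_disj q S' I E hd]
    have h5 : adP q S' (fun ω => ¬ AdArm S' o M ω) ≤ adP q S' (fun ω => ∃ i ∈ I, E i ω) := ad_P_mono h0 h1 S' hcov
    rw [ad_P_compl h0 h1] at h5
    have := hmix c' N' o M
    linarith
  have step5 : (∑ i ∈ I, adP q S' (E i)) * p ≤ ∑ i ∈ I, adP q S' (fun ω => E i ω ∧ U ω) := by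
    rw [Finset.sum_mul]
    refine Finset.sum_le_sum (fun i hi => ?_)
    rw [step2 i hi]
    exact mul_le_mul_of_nonneg_left (step3 i hi) (ad_P_nonneg h0 h1 _ _)
  have step6 : (1 - ε M) * p ≤ (∑ i ∈ I, adP q S' (E i)) * p := mul_le_mul_of_nonneg_right step4 hp0
  nlinarith

/-! ### (b) -/

theorem ad_tv_sub_cl (A : Finset TV) : A ⊆ latCl A := fun _ hu => lat_mem_cl.2 (Or.inl hu)

/-- (b) -/
theorem ad_tv_T0 {q : ℝ} (h0 : 0 < q) (h1 : q ≤ 1) (hF : AdFKG q) {ε : ℕ → ℝ} (hmix : AdMixH q ε) {c c' o : TV} {N N' M r : ℕ}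
    (hM : 2 * r + 1 ≤ M) (hs : latBall o (2 * M + 1) ⊆ latBall c N) (hss : latCl (latBall c N) ⊆ latBall c' N') (t : Finset TV) :
    |adP q (latBall c N) (fun ω => adT0f (latBall o (2 * r + 1)) o r ω = t)
      - adP q (latBall c' N') (fun ω => adT0f (latBall o (2 * r + 1)) o r ω = t)| ≤ 2 * ε M := by
  classical
  set R1 := latBall o (2 * r + 1) with hR1
  have hU1 : AdUp (fun ω => t ⊆ adT0f R1 o r ω) := fun ω ω' h h2 => h2.trans (ad_T0_mono R1 o r h)
  have hU2 : AdUp (fun ω => t ⊂ adT0f R1 o r ω) := fun ω ω' h h2 => Finset.ssubset_of_ssubset_of_subset h2 (ad_T0_mono R1 o r h)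
  have hl1 : AdLocIn R1 (fun ω => t ⊆ adT0f R1 o r ω) := fun t' k ω ht' => by
    show t ⊆ adT0f R1 o r ω ↔ t ⊆ adT0f R1 o r (adIn t' k ω)
    rw [hR1, ad_T0_in ht' k ω]
  have hl2 : AdLocIn R1 (fun ω => t ⊂ adT0f R1 o r ω) := fun t' k ω ht' => by
    show t ⊂ adT0f R1 o r ω ↔ t ⊂ adT0f R1 o r (adIn t' k ω)
    rw [hR1, ad_T0_in ht' k ω]
  have split : ∀ S, adP q S (fun ω => t ⊆ adT0f R1 o r ω) = adP q S (fun ω => t ⊂ adT0f R1 o r ω) + adP q S (fun ω => adT0f R1 o r ω = t) := by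
    intro S
    rw [ad_tv_P_split q S (fun ω => t ⊆ adT0f R1 o r ω) (fun ω => t ⊂ adT0f R1 o r ω)]
    congr 1
    · exact ad_tv_P_congr q S (fun ω _ => ⟨fun h => h.2, fun h => ⟨h.1, h⟩⟩)
    · refine ad_tv_P_congr q S (fun ω _ => ⟨fun h => ?_, fun h => ?_⟩)
      · rcases eq_or_ssubset_of_subset h.1 with h3 | h3
        · exact h3.symm
        · exact absurd h3 h.2
      · rw [h]
        exact ⟨Finset.Subset.refl _, ssubset_irrefl _⟩
  have hRs : R1 ⊆ latBall c N := (ad_ball_mono o (by omega)).trans hs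
  have hRM : R1 ⊆ latBall o M := ad_ball_mono o hM
  have hs' : latBall o (2 * M + 1) ⊆ latBall c' N' := hs.trans ((ad_tv_sub_cl _).trans hss)
  have a1 := ad_tv_up_le h0 h1 hF hss hRs hU1 hl1
  have a2 := ad_tv_up_le h0 h1 hF hss hRs hU2 hl2
  have b1 := ad_tv_up_ge h0 h1 hF hmix hs hs' hRM hU1 hl1
  have b2 := ad_tv_up_ge h0 h1 hF hmix hs hs' hRM hU2 hl2
  have s1 := split (latBall c N)
  have s2 := split (latBall c' N')
  rw [abs_le]
  constructor <;> linarith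

/-! ### (c) -/

/-- (c) -/
theorem ad_tv_dec {q : ℝ} (h0 : 0 < q) (h1 : q ≤ 1) {c o : TV} {N r : ℕ} (hs : latBall o (2 * r + 1) ⊆ latBall c N)
    (A : (TV → ℤ) → Prop) (hA : ∀ h h' : TV → ℤ, (∀ u ∈ latBall o r, h u = h' u) → (A h ↔ A h')) :
    |adP q (latBall c N) (fun ω => A ω.1)
      - ∑ t ∈ (latBall o (2 * r)).powerset, adP q (latBall c N) (fun ω => adT0f (latBall o (2 * r + 1)) o r ω = t) * adP q t (fun ω => A ω.1)|
      ≤ 2 * adP q (latBall c N) (fun ω => ¬ AdG (latBall c N) o r ω) := by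
  classical
  set s := latBall c N with hsdef
  set P := (latBall o (2 * r)).powerset with hP
  have hT : ∀ ω, adT0f (latBall o (2 * r + 1)) o r ω = adT0f s o r ω := fun ω => (ad_T0_dom hs ω).symm
  simp only [hT]
  set g := adP q s (fun ω => ¬ AdG s o r ω) with hg
  have hg0 : 0 ≤ g := ad_P_nonneg h0 h1 _ _
  have hTP : ∀ ω, adT0f s o r ω ∈ P := fun ω => Finset.mem_powerset.2 (ad_tv_T0f_sub s o r ω)
  -- (1)
  have f1 : ∑ t ∈ P, adP q s (fun ω => adT0f s o r ω = t) = 1 := by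
    rw [← ad_tv_P_disj q s P (fun t ω => adT0f s o r ω = t) (fun ω _ i _ j _ hi hj => hi.symm.trans hj)]
    exact ad_tv_P_one h0 h1 s (fun ω _ => ⟨_, hTP ω, rfl⟩)
  -- (2)
  have f2 : ∑ t ∈ P, adP q s (fun ω => adT0f s o r ω = t ∧ AdG s o r ω) = 1 - g := by
    rw [← ad_tv_P_disj q s P (fun t ω => adT0f s o r ω = t ∧ AdG s o r ω) (fun ω _ i _ j _ hi hj => hi.1.symm.trans hj.1)]
    rw [hg, ad_P_compl h0 h1, sub_sub_cancel]
    exact ad_tv_P_congr q s (fun ω _ => ⟨fun ⟨_, _, _, h⟩ => h, fun h => ⟨_, hTP ω, rfl, h⟩⟩)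
  -- (3)
  have f3 : ∑ t ∈ P, adP q s (fun ω => (adT0f s o r ω = t ∧ AdG s o r ω) ∧ A ω.1) = adP q s (fun ω => A ω.1 ∧ AdG s o r ω) := by
    rw [← ad_tv_P_disj q s P (fun t ω => (adT0f s o r ω = t ∧ AdG s o r ω) ∧ A ω.1) (fun ω _ i _ j _ hi hj => hi.1.1.symm.trans hj.1.1)]
    exact ad_tv_P_congr q s (fun ω _ => ⟨fun ⟨_, _, h, h'⟩ => ⟨h', h.2⟩, fun h => ⟨_, hTP ω, ⟨rfl, h.2⟩, h.1⟩⟩)
  -- (4)
  have f4 : ∀ t ∈ P, adP q s (fun ω => (adT0f s o r ω = t ∧ AdG s o r ω) ∧ A ω.1)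
      = adP q s (fun ω => adT0f s o r ω = t ∧ AdG s o r ω) * adP q t (fun ω => A ω.1) := by
    intro t _
    by_cases hbt : latBall o r ⊆ t
    · have hev : ∀ ω, (adT0f s o r ω = t ∧ AdG s o r ω) ↔ (adT0f s o r ω = t ∧ AdCut t 0 ω) := by
        intro ω
        constructor
        · rintro ⟨h2, h3⟩
          refine ⟨h2, ?_⟩
          have := h3.2
          rwa [h2] at this
        · rintro ⟨h2, h3⟩
          refine ⟨h2, ad_tv_no_arm (by rw [h2]; exact hbt), ?_⟩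
          rw [h2]; exact h3
      simp only [hev]
      refine ad_tv_mk h0 h1 hs t 0 (fun ω => A ω.1) (fun ω => A ω.1) (fun ω _ _ => hA _ _ (fun u hu => ?_))
      simp [adIn, hbt hu]
    · have hemp : ∀ ω, ¬ (adT0f s o r ω = t ∧ AdG s o r ω) := by
        rintro ω ⟨h2, h3⟩
        apply hbt
        rw [← h2]
        exact ad_T0_ball h3.1
      rw [ad_tv_P_zero q s (fun ω _ h => hemp ω h.1), ad_tv_P_zero q s (fun ω _ h => hemp ω h), zero_mul]
  -- split
  have f5 := ad_tv_P_split q s (fun ω => A ω.1) (fun ω => AdG s o r ω)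
  have f6 : adP q s (fun ω => A ω.1 ∧ ¬ AdG s o r ω) ≤ g := ad_P_mono h0 h1 s (fun ω _ h => h.2)
  have f7 : 0 ≤ adP q s (fun ω => A ω.1 ∧ ¬ AdG s o r ω) := ad_P_nonneg h0 h1 _ _
  have f8 : adP q s (fun ω => A ω.1 ∧ AdG s o r ω)
      = ∑ t ∈ P, adP q s (fun ω => adT0f s o r ω = t ∧ AdG s o r ω) * adP q t (fun ω => A ω.1) := by
    rw [← f3]
    exact Finset.sum_congr rfl f4
  have f9 : ∑ t ∈ P, adP q s (fun ω => adT0f s o r ω = t ∧ AdG s o r ω) * adP q t (fun ω => A ω.1)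
      ≤ ∑ t ∈ P, adP q s (fun ω => adT0f s o r ω = t) * adP q t (fun ω => A ω.1) :=
    Finset.sum_le_sum (fun t _ => mul_le_mul_of_nonneg_right (ad_P_mono h0 h1 s (fun ω _ h => h.1)) (ad_P_nonneg h0 h1 _ _))
  have f10 : ∑ t ∈ P, adP q s (fun ω => adT0f s o r ω = t) * adP q t (fun ω => A ω.1)
      - ∑ t ∈ P, adP q s (fun ω => adT0f s o r ω = t ∧ AdG s o r ω) * adP q t (fun ω => A ω.1) ≤ g := by
    rw [← Finset.sum_sub_distrib]
    have : ∑ t ∈ P, (adP q s (fun ω => adT0f s o r ω = t) * adP q t (fun ω => A ω.1)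
        - adP q s (fun ω => adT0f s o r ω = t ∧ AdG s o r ω) * adP q t (fun ω => A ω.1))
        ≤ ∑ t ∈ P, (adP q s (fun ω => adT0f s o r ω = t) - adP q s (fun ω => adT0f s o r ω = t ∧ AdG s o r ω)) := by
      refine Finset.sum_le_sum (fun t _ => ?_)
      rw [← sub_mul]
      have h2 : 0 ≤ adP q s (fun ω => adT0f s o r ω = t) - adP q s (fun ω => adT0f s o r ω = t ∧ AdG s o r ω) :=
        sub_nonneg.2 (ad_P_mono h0 h1 s (fun ω _ h => h.1))
      exact mul_le_of_le_one_right h2 (ad_P_le_one h0 h1 _ _)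
    have e2 : ∑ t ∈ P, (adP q s (fun ω => adT0f s o r ω = t) - adP q s (fun ω => adT0f s o r ω = t ∧ AdG s o r ω)) = g := by
      rw [Finset.sum_sub_distrib, f1, f2]; ring
    linarith
  rw [abs_le]
  constructor <;> linarith

/-! ### the exit -/

/-- nested hexagons -/
theorem ad_tv_nested {q : ℝ} (h0 : 0 < q) (h1 : q ≤ 1) (hF : AdFKG q) {ε : ℕ → ℝ} (hmix : AdMixH q ε) {γ : ℝ} {c c' o : TV} {N N' M r : ℕ}
    (hM : 2 * r + 1 ≤ M) (hs : latBall o (2 * M + 1) ⊆ latBall c N) (hss : latCl (latBall c N) ⊆ latBall c' N')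
    (hγ : ∀ c N, latBall o (2 * r + 1) ⊆ latBall c N → adP q (latBall c N) (fun ω => ¬ AdG (latBall c N) o r ω) ≤ γ)
    (A : (TV → ℤ) → Prop) (hA : ∀ h h' : TV → ℤ, (∀ u ∈ latBall o r, h u = h' u) → (A h ↔ A h')) :
    |adP q (latBall c N) (fun ω => A ω.1) - adP q (latBall c' N') (fun ω => A ω.1)|
      ≤ 2 ^ ((latBall o (2 * r)).card + 1) * ε M + 4 * γ := by
  have hr1 : latBall o (2 * r + 1) ⊆ latBall c N := (ad_ball_mono o (by omega)).trans hs
  have hr2 : latBall o (2 * r + 1) ⊆ latBall c' N' := hr1.trans ((ad_tv_sub_cl _).trans hss)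
  have d1 := (ad_tv_dec h0 h1 hr1 A hA).trans (mul_le_mul_of_nonneg_left (hγ c N hr1) (by norm_num : (0 : ℝ) ≤ 2))
  have d2 := (ad_tv_dec h0 h1 hr2 A hA).trans (mul_le_mul_of_nonneg_left (hγ c' N' hr2) (by norm_num : (0 : ℝ) ≤ 2))
  set P := (latBall o (2 * r)).powerset with hP
  have d3 : |∑ t ∈ P, adP q (latBall c N) (fun ω => adT0f (latBall o (2 * r + 1)) o r ω = t) * adP q t (fun ω => A ω.1)
      - ∑ t ∈ P, adP q (latBall c' N') (fun ω => adT0f (latBall o (2 * r + 1)) o r ω = t) * adP q t (fun ω => A ω.1)|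
      ≤ 2 ^ ((latBall o (2 * r)).card + 1) * ε M := by
    rw [← Finset.sum_sub_distrib]
    refine (Finset.abs_sum_le_sum_abs _ _).trans ?_
    have h2 : ∀ t ∈ P, |adP q (latBall c N) (fun ω => adT0f (latBall o (2 * r + 1)) o r ω = t) * adP q t (fun ω => A ω.1)
        - adP q (latBall c' N') (fun ω => adT0f (latBall o (2 * r + 1)) o r ω = t) * adP q t (fun ω => A ω.1)| ≤ 2 * ε M := by
      intro t _
      rw [← sub_mul, abs_mul, abs_of_nonneg (ad_P_nonneg h0 h1 t _)]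
      exact (mul_le_of_le_one_right (abs_nonneg _) (ad_P_le_one h0 h1 _ _)).trans (ad_tv_T0 h0 h1 hF hmix hM hs hss t)
    refine (Finset.sum_le_card_nsmul P _ _ h2).trans (le_of_eq ?_)
    rw [hP, Finset.card_powerset, nsmul_eq_mul, pow_succ]
    push_cast
    ring
  rw [abs_le] at d1 d2 d3 ⊢
  constructor <;> linarith [d1.1, d1.2, d2.1, d2.2, d3.1, d3.2]

/-- **D7 EXIT (TV).** -/
theorem ad_tv {q : ℝ} (h0 : 0 < q) (h1 : q ≤ 1) (hF : AdFKG q) {ε : ℕ → ℝ} (hmix : AdMixH q ε) {γ : ℝ} {c₁ c₂ o : TV} {N₁ N₂ M r : ℕ}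
    (hM : 2 * r + 1 ≤ M) (hs₁ : latBall o (2 * M + 1) ⊆ latBall c₁ N₁) (hs₂ : latBall o (2 * M + 1) ⊆ latBall c₂ N₂)
    (hγ : ∀ c N, latBall o (2 * r + 1) ⊆ latBall c N → adP q (latBall c N) (fun ω => ¬ AdG (latBall c N) o r ω) ≤ γ)
    (A : (TV → ℤ) → Prop) (hA : ∀ h h' : TV → ℤ, (∀ u ∈ latBall o r, h u = h' u) → (A h ↔ A h')) :
    |adP q (latBall c₁ N₁) (fun ω => A ω.1) - adP q (latBall c₂ N₂) (fun ω => A ω.1)|
      ≤ 2 ^ ((latBall o (2 * r)).card + 2) * ε M + 8 * γ := by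
  set N₃ := N₁ + 1 + latN (c₂ - c₁) + N₂ + 1 with hN₃
  have k1 : latCl (latBall c₁ N₁) ⊆ latBall c₁ N₃ := (ad_ball_cl c₁ N₁).trans (ad_ball_mono c₁ (by omega))
  have k2 : latCl (latBall c₂ N₂) ⊆ latBall c₁ N₃ := (ad_ball_cl c₂ N₂).trans (ad_ball_sub (by omega))
  have e1 := ad_tv_nested h0 h1 hF hmix hM hs₁ k1 hγ A hA
  have e2 := ad_tv_nested h0 h1 hF hmix hM hs₂ k2 hγ A hA
  have e3 : (2 : ℝ) ^ ((latBall o (2 * r)).card + 2) = 2 * 2 ^ ((latBall o (2 * r)).card + 1) := by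
    rw [pow_succ _ ((latBall o (2 * r)).card + 1)]; ring
  rw [e3]
  rw [abs_le] at e1 e2 ⊢
  constructor <;> linarith [e1.1, e1.2, e2.1, e2.2]

/-! ### the descent step (block D3b; typed in `Ann/DMix`, proved here with the kit of this file; helper264) -/

/-- **DESCENT STEP** (concentric): from scale `r` to scale `m` -/
theorem ad_descent {q : ℝ} (h0 : 0 < q) (h1 : q ≤ 1) (hF : AdFKG q) (v : TV) {L m r : ℕ} (hmr : 2 * m + 1 ≤ r) (hL : 2 * r + 1 ≤ L) :
    adP q (latBall v L) (AdArm (latBall v L) v m)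
      ≤ adP q (latBall v L) (AdArm (latBall v L) v r) + adP q (latBall v (2 * r + 1)) (AdArm (latBall v (2 * r + 1)) v m) := by
  classical
  set S := latBall v L with hS
  have hs : latBall v (2 * r + 1) ⊆ S := ad_ball_mono v hL
  set I : Finset (Finset TV × ℤ) := ((latBall v (2 * r)).powerset.filter (fun t => latBall v r ⊆ t ∧ AdNice t)) ×ˢ
    Finset.Icc (-((S.card : ℤ) + 1)) ((S.card : ℤ) + 1) with hI
  set E : Finset TV × ℤ → AdC → Prop := fun p ω => adT0f S v r ω = p.1 ∧ AdCut p.1 p.2 ω with hE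
  have hmemI : ∀ i ∈ I, i.1 ⊆ latBall v (2 * r) ∧ latBall v r ⊆ i.1 ∧ AdNice i.1 := by
    intro i hi
    have h2 := (Finset.mem_product.1 hi).1
    rw [Finset.mem_filter, Finset.mem_powerset] at h2
    exact h2
  have hd : ∀ ω, AdAdm S ω → ∀ i ∈ I, ∀ j ∈ I, E i ω → E j ω → i = j := by
    intro ω _ i hi j _ hEi hEj
    have e1 : i.1 = j.1 := hEi.1.symm.trans hEj.1
    have e2 : i.2 = j.2 := by
      have h3 := hEj.2
      rw [← e1] at h3
      exact ad_cut_unique (hmemI i hi).2.2.1 hEi.2 h3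
    exact Prod.ext e1 e2
  have hcov : ∀ ω, AdAdm S ω → ¬ AdArm S v r ω → ∃ i ∈ I, E i ω := by
    intro ω hω hA
    obtain ⟨k, hk, hcut⟩ := ad_tv_cover hs hω hA
    refine ⟨(adT0f S v r ω, k), ?_, rfl, hcut⟩
    rw [hI, Finset.mem_product, Finset.mem_filter, Finset.mem_powerset, Finset.mem_Icc]
    exact ⟨⟨ad_tv_T0f_sub S v r ω, ad_T0_ball hA, ad_T0_nice hA⟩, abs_le.1 hk⟩
  set p := adP q (latBall v (2 * r + 1)) (AdArm (latBall v (2 * r + 1)) v m) with hp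
  have hp0 : 0 ≤ p := ad_P_nonneg h0 h1 _ _
  have f1 := ad_tv_P_split q S (AdArm S v m) (AdArm S v r)
  have f2 : adP q S (fun ω => AdArm S v m ω ∧ AdArm S v r ω) ≤ adP q S (AdArm S v r) := ad_P_mono h0 h1 S (fun ω _ h => h.2)
  have f3 : adP q S (fun ω => AdArm S v m ω ∧ ¬ AdArm S v r ω) ≤ ∑ i ∈ I, adP q S (fun ω => E i ω ∧ AdArm S v m ω) := by
    rw [← ad_tv_P_disj q S I (fun i ω => E i ω ∧ AdArm S v m ω) (fun ω hω i hi j hj h3 h4 => hd ω hω i hi j hj h3.1 h4.1)]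
    refine ad_P_mono h0 h1 S (fun ω hω h => ?_)
    obtain ⟨i, hi, hEi⟩ := hcov ω hω h.2
    exact ⟨i, hi, hEi, h.1⟩
  have f4 : ∀ i ∈ I, adP q S (fun ω => E i ω ∧ AdArm S v m ω) = adP q S (E i) * adP q i.1 (AdArm i.1 v m) := fun i hi =>
    ad_tv_mk h0 h1 hs i.1 i.2 (AdArm S v m) (AdArm i.1 v m) (fun ω _ _ =>
      ad_arm_in ((ad_ball_mono v hmr).trans (hmemI i hi).2.1) ((hmemI i hi).1.trans ((ad_ball_mono v (by omega)).trans hs)) i.2 ω)
  have f5 : ∀ i ∈ I, adP q i.1 (AdArm i.1 v m) ≤ p := fun i hi =>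
    ad_enlarge h0 h1 hF v (2 * r + 1) (hmemI i hi).2.2 (ad_tv_cl_sub (hmemI i hi).1) v m
  have f6 : ∑ i ∈ I, adP q S (E i) ≤ 1 := by
    rw [← ad_tv_P_disj q S I E hd]
    exact ad_P_le_one h0 h1 _ _
  have f7 : ∑ i ∈ I, adP q S (fun ω => E i ω ∧ AdArm S v m ω) ≤ (∑ i ∈ I, adP q S (E i)) * p := by
    rw [Finset.sum_mul]
    refine Finset.sum_le_sum (fun i hi => ?_)
    rw [f4 i hi]
    exact mul_le_mul_of_nonneg_left (f5 i hi) (ad_P_nonneg h0 h1 _ _)
  have f8 : (∑ i ∈ I, adP q S (E i)) * p ≤ p := mul_le_of_le_one_left hp0 f6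
  linarith

end Claimed.Agent.R291
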