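/-
# Row 291 (S0539), unit ANN, block A2, Ann/LenCyl : THE LENGTHENING ON THE MIXED CYLINDER      (owner: helper193; prefix `lcy_` / `lcy` / `Lcy`)

Abstract machine: `Ann/Len.lean` (`len_fibre`, `LenSE`, `LenFkg`).   Vocabulary of the cylinder: `Defs/Seed` (83: `sdSys`, `SdMix`, `sdP`, `SdH`, `SdV`), contracts `SdLen`, `SdGlue` of `Defs/Seed`.

* Part 0 (abstract): `lcy_gen` : the SPECTATOR form of the machine: `A₁`, `A₂` increasing, `A₁ ∧ A₂ ⟹ H⁺(O)`, `A₁ ∧ A₂ ∧ (E3)(O) ⟹ C`   gives   `c · P[A₁] · P[A₂] ≤ P[C]`.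
* Part 1: the history `lcyK L H` of the mixed boundary condition; the chart `lcyG L H w c d` of the window `[w, w + L)` of the cylinder, index rows `c..d`.
* Part 2: dictionary `G.Hp ↔ SdH`, `G.E3 → SdE3`.
* Part 3: the two model inputs as CLOSED contracts: `LcySE x` (strip estimate; OWNER helper20 with 55, 36) and `LcyFkg x` (FKG under records; OWNER A0: helper22).
* Part 4: **`lcy_len : SdLen x`**, **`lcy_glue : SdGlue x`**.
-/
import Claimed.Agent.R291.Ann.Len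
import Claimed.Agent.R291.Ann.Seed

set_option autoImplicit false
set_option linter.unusedSectionVars false
set_option linter.unusedVariables false

namespace Claimed.Agent.R291

open Claims Claims.C0467 Relation

/-! ## Part 0: the spectator form -/

section Gen

variable {V Y : Type} [DecidableEq V] [DecidableEq Y]

/-- the inequality under one record, general spectator `A` and conclusion `C` -/
theorem lcy_gen_rec (S : ClSys V Y) (hOk : ClOk S) (K : ClCon V Y) (hK : LenFkg S K) (G : LenGeo Y)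
    (hb : ∀ y, G.band y → y ∈ S.C) {c : ℝ} {a b : ℤ} (hSE : LenSE S K G c a b) (A C : ClCfg V Y → Prop) (hA : ClMonoP S A)
    (hAO : ∀ ω, A ω → G.Hp (lenNp S ω) a b) (hdet : ∀ ω, A ω → G.E3 (lenNp S ω) a b → C ω)
    (ω₀ : ClCfg V Y) (hω₀ : ω₀ ∈ S.cfgs) (hK₀ : K.Holds S ω₀) :
    c * S.N ((lenRec S K G a b ω₀).Holds S) (lenInd A) ≤ S.N ((lenRec S K G a b ω₀).Holds S) (lenInd C) := by
  set h := lenRec S K G a b ω₀ with hh
  have hagr : ∀ ω, h.Holds S ω → ∀ y, G.Q (lenNp S ω₀) a b y → (lenNp S ω₀ y ↔ lenNp S ω y) := by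
    intro ω hω
    exact len_agr_np S G hb a b ω₀ ω ((len_obs_holds S K _ ω₀ ω).1 hω).2
  by_cases hO : G.Hp (lenNp S ω₀) a b
  · have se := hSE ω₀ hω₀ hK₀ hO
    rw [← hh] at se
    have fk := hK.obs (lenQ S G a b ω₀) ω₀ (lenInd A)
      (lenInd fun ω => G.Vp (fun y => lenNp S ω y ∧ ¬ G.D (lenNp S ω₀) a b y) a b)
      (len_Q_sub S G a b ω₀) hω₀ hK₀ (len_ind_mono S hA) (len_ind_mono S (len_Vp_monoP S G hb a b _))
    have pt : S.N (h.Holds S) (fun ω => lenInd A ω *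
          lenInd (fun ω => G.Vp (fun y => lenNp S ω y ∧ ¬ G.D (lenNp S ω₀) a b y) a b) ω) ≤
        S.N (h.Holds S) (lenInd C) := by
      refine len_N_mono S hOk _ _ _ fun ω hω => ?_
      by_cases hAω : A ω
      · by_cases hE : G.Vp (fun y => lenNp S ω y ∧ ¬ G.D (lenNp S ω₀) a b y) a b
        · have hE' : G.Vp (fun y => lenNp S ω y ∧ ¬ G.D (lenNp S ω) a b y) a b :=
            len_Vp_anti (fun y _ hy => ⟨hy.1, fun hD => hy.2 ((len_D_iff (hagr ω hω) y).1 hD)⟩) hE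
          rw [len_ind_pos (L := C) (hdet ω hAω (len_E3_of_Vp hE'))]
          exact mul_le_one₀ (len_ind_le_one _ _) (len_ind_nonneg _ _) (len_ind_le_one _ _)
        · rw [len_ind_neg (L := fun ω => G.Vp (fun y => lenNp S ω y ∧ ¬ G.D (lenNp S ω₀) a b y) a b) hE, mul_zero]
          exact len_ind_nonneg _ _
      · rw [len_ind_neg hAω, zero_mul]
        exact len_ind_nonneg _ _
    by_cases hZ : S.Z (h.Holds S) = 0
    · rw [dde_N_zero S hOk _ hZ, dde_N_zero S hOk _ hZ, mul_zero]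
    · have hZp : 0 < S.Z (h.Holds S) := lt_of_le_of_ne (len_Z_nonneg S hOk _) (Ne.symm hZ)
      have hAB : 0 ≤ S.N (h.Holds S) (lenInd A) := len_N_nonneg S hOk _ _ fun ω _ => len_ind_nonneg _ _
      refine le_of_mul_le_mul_left ?_ hZp
      calc S.Z (h.Holds S) * (c * S.N (h.Holds S) (lenInd A))
          = S.N (h.Holds S) (lenInd A) * (c * S.Z (h.Holds S)) := by ring
        _ ≤ _ := mul_le_mul_of_nonneg_left se hAB
        _ ≤ _ := fk
        _ ≤ _ := mul_le_mul_of_nonneg_left pt hZp.le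
  · rw [len_N_eq_zero S _ _ (fun ω hω => ?_), mul_zero]
    · exact len_N_nonneg S hOk _ _ fun ω _ => len_ind_nonneg _ _
    · exact len_ind_neg fun hAω => hO ((len_Hp_congr (hagr ω hω)).2 (hAO ω hAω))

/-- the spectator form, one increasing event, unnormalised -/
theorem lcy_gen_N (S : ClSys V Y) (hOk : ClOk S) (K : ClCon V Y) (hK : LenFkg S K) (G : LenGeo Y)
    (hb : ∀ y, G.band y → y ∈ S.C) {c : ℝ} {a b : ℤ} (hSE : LenSE S K G c a b) (A C : ClCfg V Y → Prop) (hA : ClMonoP S A)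
    (hAO : ∀ ω, A ω → G.Hp (lenNp S ω) a b) (hdet : ∀ ω, A ω → G.E3 (lenNp S ω) a b → C ω) :
    c * S.N (K.Holds S) (lenInd A) ≤ S.N (K.Holds S) (lenInd C) :=
  len_fibre S (K.Holds S) (lenRec S K G a b) (fun k => k.Holds S) (len_rec_iff S K G hb a b) (lenInd A) (lenInd C) c
    (fun ω₀ hω₀ hK₀ => lcy_gen_rec S hOk K hK G hb hSE A C hA hAO hdet ω₀ hω₀ hK₀)

theorem lcy_ind_and (A₁ A₂ : ClCfg V Y → Prop) (ω : ClCfg V Y) :
    lenInd (fun ω => A₁ ω ∧ A₂ ω) ω = lenInd A₁ ω * lenInd A₂ ω := by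
  by_cases h1 : A₁ ω
  · by_cases h2 : A₂ ω
    · rw [len_ind_pos (L := fun ω => A₁ ω ∧ A₂ ω) ⟨h1, h2⟩, len_ind_pos h1, len_ind_pos h2, mul_one]
    · rw [len_ind_neg (L := fun ω => A₁ ω ∧ A₂ ω) (fun h => h2 h.2), len_ind_neg h2, mul_zero]
  · rw [len_ind_neg (L := fun ω => A₁ ω ∧ A₂ ω) (fun h => h1 h.1), len_ind_neg h1, zero_mul]

/-- **the spectator form of the machine**: `c · P[A₁] · P[A₂] ≤ P[C]` -/
theorem lcy_gen (S : ClSys V Y) (hOk : ClOk S) (K : ClCon V Y) (hK : LenFkg S K) (G : LenGeo Y)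
    (hb : ∀ y, G.band y → y ∈ S.C) {c : ℝ} (hc : 0 ≤ c) {a b : ℤ} (hSE : LenSE S K G c a b) (A₁ A₂ C : ClCfg V Y → Prop)
    (hA₁ : ClMonoP S A₁) (hA₂ : ClMonoP S A₂) (hAO : ∀ ω, A₁ ω → A₂ ω → G.Hp (lenNp S ω) a b)
    (hdet : ∀ ω, A₁ ω → A₂ ω → G.E3 (lenNp S ω) a b → C ω) :
    c * S.P (K.Holds S) A₁ * S.P (K.Holds S) A₂ ≤ S.P (K.Holds S) C := by
  have h1 := hK.base (lenInd A₁) (lenInd A₂) (len_ind_mono S hA₁) (len_ind_mono S hA₂)
  have h2 := lcy_gen_N S hOk K hK G hb hSE (fun ω => A₁ ω ∧ A₂ ω) C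
    (fun ω ω' e1 e2 h => ⟨hA₁ ω ω' e1 e2 h.1, hA₂ ω ω' e1 e2 h.2⟩) (fun ω h => hAO ω h.1 h.2) (fun ω h => hdet ω h.1 h.2)
  have e : (lenInd fun ω => A₁ ω ∧ A₂ ω) = fun ω => lenInd A₁ ω * lenInd A₂ ω := funext (lcy_ind_and A₁ A₂)
  rw [e] at h2
  rw [len_P_eq, len_P_eq, len_P_eq]
  by_cases hZ : S.Z (K.Holds S) = 0
  · rw [hZ]; simp
  · have hZp : 0 < S.Z (K.Holds S) := lt_of_le_of_ne (len_Z_nonneg S hOk _) (Ne.symm hZ)
    rw [le_div_iff₀ hZp]
    have e2 : c * (S.N (K.Holds S) (lenInd A₁) / S.Z (K.Holds S)) * (S.N (K.Holds S) (lenInd A₂) / S.Z (K.Holds S)) *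
        S.Z (K.Holds S) = c * (S.N (K.Holds S) (lenInd A₁) * S.N (K.Holds S) (lenInd A₂)) / S.Z (K.Holds S) := by
      field_simp
    rw [e2, div_le_iff₀ hZp]
    calc c * (S.N (K.Holds S) (lenInd A₁) * S.N (K.Holds S) (lenInd A₂))
        ≤ c * (S.Z (K.Holds S) * S.N (K.Holds S) (fun ω => lenInd A₁ ω * lenInd A₂ ω)) := mul_le_mul_of_nonneg_left h1 hc
      _ = (c * S.N (K.Holds S) (fun ω => lenInd A₁ ω * lenInd A₂ ω)) * S.Z (K.Holds S) := by ring
      _ ≤ _ := mul_le_mul_of_nonneg_right h2 hZp.le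

end Gen

/-! ## Part 1: the mixed cylinder: history and chart -/

/-- the history of the mixed boundary condition: first spin plus on the row `H`, minus on the row `0` -/
noncomputable def lcyK (L H : ℕ) : ClCon TV TV := ⟨sdRow L (H : ℤ), sdRow L 0, ∅, ∅, ∅, ∅, ∅, ∅⟩

/-- the lift of the first index into the window `[w, w + L)` -/
def lcyX (L : ℕ) (w : ℤ) (y : TV) : ℤ := w + (y.1 - w) % (L : ℤ)

/-- the lift of an index into the window -/
def lcyLift (L : ℕ) (w : ℤ) (y : TV) : TV := (lcyX L w y, y.2)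

/-- the chart of the window `[w, w + L)`, index rows `c..d` -/
noncomputable def lcyG (L H : ℕ) (w c d : ℤ) : LenGeo TV where
  adj u v := triAdj (lcyLift L w u) (lcyLift L w v)
  X := lcyX L w
  band y := y ∈ sdCells L 0 H ∧ c ≤ y.2 ∧ y.2 ≤ d
  top y := y.2 = d
  bot y := y.2 = c
  symm _ _ h := lat_adj_symm h
  ivt _ _ h := (tsc_adj_fst h).1

theorem lcy_eqns_cite : True := by
  have := @lcyK.eq_1
  have := @lcyX.eq_1
  have := @lcyLift.eq_1
  have := @lcyG.eq_1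
  trivial

theorem lcy_K_holds (S : ClSys TV TV) (L H : ℕ) (ω : ClCfg TV TV) : (lcyK L H).Holds S ω ↔ SdMix L 0 H ω := by
  unfold ClCon.Holds lcyK SdMix CuPin
  simp only [Finset.notMem_empty, false_imp_iff, implies_true, Finset.empty_subset, and_true, Bool.false_eq_true, iff_false,
    iff_true]
  exact ⟨fun h => ⟨h.2, fun v hv => h.1 hv⟩, fun h => ⟨fun v hv => h.2 v hv, h.1⟩⟩

theorem lcy_K_eq (S : ClSys TV TV) (L H : ℕ) : (lcyK L H).Holds S = SdMix L 0 H :=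
  funext fun ω => propext (lcy_K_holds S L H ω)

theorem lcy_lift_red {L : ℕ} {w : ℤ} {u : TV} (h1 : w ≤ u.1) (h2 : u.1 < w + L) : lcyLift L w (sdRed L u) = u := by
  unfold lcyLift lcyX sdRed
  have e : (u.1 % (L : ℤ) - w) % (L : ℤ) = u.1 - w := by
    rw [Int.emod_sub_emod, Int.emod_eq_of_lt (by omega) (by omega)]
  simp only [e]
  ext <;> simp

theorem lcy_red_lift {L : ℕ} {w : ℤ} {y : TV} (h1 : 0 ≤ y.1) (h2 : y.1 < L) : sdRed L (lcyLift L w y) = y := by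
  unfold lcyLift lcyX sdRed
  have e : (w + (y.1 - w) % (L : ℤ)) % (L : ℤ) = y.1 := by
    rw [Int.add_emod_emod, add_sub_cancel, Int.emod_eq_of_lt h1 h2]
  simp only [e]

theorem lcy_red_mem {L H : ℕ} (hL : 0 < L) {u : TV} (h1 : 0 ≤ u.2) (h2 : u.2 < H) : sdRed L u ∈ sdCells L 0 H := by
  unfold sdRed sdCells
  have hL' : (0 : ℤ) < L := by exact_mod_cast hL
  simp only [Finset.mem_product, Finset.mem_Ico]
  exact ⟨⟨Int.emod_nonneg _ hL'.ne', Int.emod_lt_of_pos _ hL'⟩, h1, h2⟩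

theorem lcy_mem_cells {L H : ℕ} {y : TV} (h : y ∈ sdCells L 0 H) : 0 ≤ y.1 ∧ y.1 < L ∧ 0 ≤ y.2 ∧ y.2 < H := by
  unfold sdCells at h
  simp only [Finset.mem_product, Finset.mem_Ico] at h
  exact ⟨h.1.1, h.1.2, h.2.1, h.2.2⟩

/-! ## Part 2: the dictionary -/

section Dict

variable {x : ℝ} {L H : ℕ} {T : Bool} {w a b c d : ℤ} {ω : ClCfg TV TV}

theorem lcy_np_iff (hL : 0 < L) {u : TV} (h1 : 0 ≤ u.2) (h2 : u.2 < H) :
    u ∈ (sdSet (sdSys x L T 0 H) L 1 ω)ᶜ ↔ lenNp (sdSys x L T 0 H) ω (sdRed L u) := by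
  have hm : sdRed L u ∈ (sdSys x L T 0 H).C := lcy_red_mem hL h1 h2
  unfold lenNp sdSet
  simp only [Set.mem_compl_iff, Set.mem_ofPred_eq, hm, true_and]

theorem lcy_box_down (hL : 0 < L) (hw : w ≤ a) (hb : b < w + L) (hc : 0 ≤ c) (hd : d < H) {u : TV} (hu : u ∈ tscBox a b c d) :
    (lcyG L H w c d).box a b (sdRed L u) := by
  obtain ⟨u1, u2, u3, u4⟩ := hu
  have e : lcyLift L w (sdRed L u) = u := lcy_lift_red (by omega) (by omega)
  have e1 : lcyX L w (sdRed L u) = u.1 := congrArg Prod.fst e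
  refine ⟨⟨lcy_red_mem hL (by omega) (by omega), u3, u4⟩, ?_, ?_⟩
  · show a ≤ lcyX L w (sdRed L u)
    rw [e1]; exact u1
  · show lcyX L w (sdRed L u) ≤ b
    rw [e1]; exact u2

theorem lcy_step_down (hL : 0 < L) (hw : w ≤ a) (hb : b < w + L) (hc : 0 ≤ c) (hd : d < H) {p q : TV}
    (h : TscStep tscG (tscBox a b c d ∩ (sdSet (sdSys x L T 0 H) L 1 ω)ᶜ) p q) :
    (lcyG L H w c d).st (lenNp (sdSys x L T 0 H) ω) a b (sdRed L p) (sdRed L q) := by
  obtain ⟨hadj, ⟨hp, hpP⟩, ⟨hq, hqP⟩⟩ := h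
  have ep : lcyLift L w (sdRed L p) = p := lcy_lift_red (by have := hp.1; omega) (by have := hp.2.1; omega)
  have eq' : lcyLift L w (sdRed L q) = q := lcy_lift_red (by have := hq.1; omega) (by have := hq.2.1; omega)
  refine ⟨?_, ?_, ?_, lcy_box_down hL hw hb hc hd hp, lcy_box_down hL hw hb hc hd hq⟩
  · show triAdj (lcyLift L w (sdRed L p)) (lcyLift L w (sdRed L q))
    rw [ep, eq']; exact hadj
  · exact (lcy_np_iff hL (by have := hp.2.2.1; omega) (by have := hp.2.2.2; omega)).1 hpP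
  · exact (lcy_np_iff hL (by have := hq.2.2.1; omega) (by have := hq.2.2.2; omega)).1 hqP

theorem lcy_mem_up (hL : 0 < L) {p : TV} (hp : (lcyG L H w c d).box a b p) (hn : lenNp (sdSys x L T 0 H) ω p) :
    lcyLift L w p ∈ tscBox a b c d ∩ (sdSet (sdSys x L T 0 H) L 1 ω)ᶜ := by
  obtain ⟨⟨hm, h3, h4⟩, h1, h2⟩ := hp
  obtain ⟨m1, m2, m3, m4⟩ := lcy_mem_cells hm
  refine ⟨⟨h1, h2, h3, h4⟩, ?_⟩
  rw [lcy_np_iff hL (u := lcyLift L w p) m3 m4, lcy_red_lift m1 m2]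
  exact hn

theorem lcy_step_up (hL : 0 < L) {p q : TV} (h : (lcyG L H w c d).st (lenNp (sdSys x L T 0 H) ω) a b p q) :
    TscStep tscG (tscBox a b c d ∩ (sdSet (sdSys x L T 0 H) L 1 ω)ᶜ) (lcyLift L w p) (lcyLift L w q) :=
  ⟨h.1, lcy_mem_up hL h.2.2.2.1 h.2.1, lcy_mem_up hL h.2.2.2.2 h.2.2.1⟩

theorem lcy_R_down (hL : 0 < L) (hw : w ≤ a) (hb : b < w + L) (hc : 0 ≤ c) (hd : d < H) {p q : TV}
    (h : TscR tscG (tscBox a b c d ∩ (sdSet (sdSys x L T 0 H) L 1 ω)ᶜ) p q) :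
    ReflTransGen ((lcyG L H w c d).st (lenNp (sdSys x L T 0 H) ω) a b) (sdRed L p) (sdRed L q) :=
  ReflTransGen.lift (sdRed L) (fun _ _ hs => lcy_step_down hL hw hb hc hd hs) _ _ h

theorem lcy_R_up (hL : 0 < L) {p q : TV}
    (h : ReflTransGen ((lcyG L H w c d).st (lenNp (sdSys x L T 0 H) ω) a b) p q) :
    TscR tscG (tscBox a b c d ∩ (sdSet (sdSys x L T 0 H) L 1 ω)ᶜ) (lcyLift L w p) (lcyLift L w q) :=
  ReflTransGen.lift (lcyLift L w) (fun _ _ hs => lcy_step_up hL hs) _ _ h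

/-- a closure of the chart, seen from the cover -/
theorem lcy_cl_down (hL : 0 < L) (hw : w ≤ a) (hb : b < w + L) (hc : 0 ≤ c) (hd : d < H) {S : TV → Prop} {p q : TV}
    (hp : S (sdRed L p)) (hq : q ∈ tscBox a b c d ∩ (sdSet (sdSys x L T 0 H) L 1 ω)ᶜ)
    (h : TscR tscG (tscBox a b c d ∩ (sdSet (sdSys x L T 0 H) L 1 ω)ᶜ) p q) :
    (lcyG L H w c d).cl (lenNp (sdSys x L T 0 H) ω) a b S (sdRed L q) :=
  ⟨(lcy_np_iff hL (by have := hq.1.2.2.1; omega) (by have := hq.1.2.2.2; omega)).1 hq.2, lcy_box_down hL hw hb hc hd hq.1,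
    sdRed L p, hp, lcy_R_down hL hw hb hc hd h⟩

/-- **dictionary**: `H⁺(box)` -/
theorem lcy_Hp_iff (hL : 0 < L) (hw : w ≤ a) (hb : b < w + L) (hc : 0 ≤ c) (hd : d < H) :
    (lcyG L H w c d).Hp (lenNp (sdSys x L T 0 H) ω) a b ↔ SdH a b c d (sdSet (sdSys x L T 0 H) L 1 ω) := by
  constructor
  · rintro h ⟨u, v, hu, hu2, hv2, hR⟩
    exact h (sdRed L u) (lcy_cl_down hL hw hb hc hd (S := (lcyG L H w c d).top) (p := v) hv2 hu (tsc_R_symm hR)) hu2
  · intro h v hv hbot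
    obtain ⟨hn, hbx, u, hu, hR⟩ := hv
    exact h ⟨lcyLift L w v, lcyLift L w u, lcy_mem_up hL hbx hn, hbot, hu, tsc_R_symm (lcy_R_up hL hR)⟩

/-- **dictionary**: (E3) -/
theorem lcy_E3 (hL : 0 < L) (hw : w ≤ a) (hb : b < w + L) (hc : 0 ≤ c) (hd : d < H)
    (h : (lcyG L H w c d).E3 (lenNp (sdSys x L T 0 H) ω) a b) : SdE3 a b c d (sdSet (sdSys x L T 0 H) L 1 ω) := by
  intro l r v hl hla hrb hlv hvr
  have hv := tsc_R_mem hlv hl
  have hr := tsc_R_mem hvr hv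
  have el : lcyX L w (sdRed L l) = l.1 :=
    congrArg Prod.fst (lcy_lift_red (L := L) (w := w) (u := l) (by have := hl.1.1; omega) (by have := hl.1.2.1; omega))
  have er : lcyX L w (sdRed L r) = r.1 :=
    congrArg Prod.fst (lcy_lift_red (L := L) (w := w) (u := r) (by have := hr.1.1; omega) (by have := hr.1.2.1; omega))
  have ev : lcyLift L w (sdRed L v) = v := lcy_lift_red (by have := hv.1.1; omega) (by have := hv.1.2.1; omega)
  have c1 := lcy_cl_down hL hw hb hc hd (S := fun u => (lcyG L H w c d).X u = a) (p := l) (el.trans hla) hv hlv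
  have c2 := lcy_cl_down hL hw hb hc hd (S := fun u => (lcyG L H w c d).X u = b) (p := r) (er.trans hrb) hv (tsc_R_symm hvr)
  rcases h _ c1 c2 with ⟨_, _, u, hu, hR⟩ | ⟨_, _, u, hu, hR⟩
  · refine ⟨lcyLift L w u, Or.inr hu, ?_⟩
    have := tsc_R_symm (lcy_R_up hL hR)
    rwa [ev] at this
  · refine ⟨lcyLift L w u, Or.inl hu, ?_⟩
    have := tsc_R_symm (lcy_R_up hL hR)
    rwa [ev] at this

end Dict

/-! ## Part 3: the two model inputs, as closed contracts -/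

/-- **(SE) on the mixed cylinder** (both classes): boxes `[a, b] × [k, k + r - 1]` of index coordinates (`r` slabs) with `3.5 r ≤ b - a ≤ 5 r`, vertical room `r / 4`, circumference `≥ 10 r`,
any window `[w, w + L)` which contains the box.
Given the FULL record of the two explorations inside the box (clusters of non-plus cells of the top row and of the bottom row), with conditional probability `≥ c`
no left-right walk of non-plus cells of the box avoids the two clusters.      OWNER: helper20 (`Ann/LenSE.lean`), with 55, 36, 116. -/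
def LcySE (x : ℝ) : Prop :=
  ∃ c : ℝ, 0 < c ∧ ∃ r₀ : ℕ, ∀ (L H : ℕ) (T : Bool) (k r w a b : ℤ), (r₀ : ℤ) ≤ r → 10 * r ≤ L → 12 + r ≤ 4 * k →
    4 * k + 5 * r ≤ 4 * (H : ℤ) - 16 → w ≤ a → b < w + L → 7 * r ≤ 2 * (b - a) → b - a ≤ 5 * r →
    LenSE (sdSys x L T 0 H) (lcyK L H) (lcyG L H w k (k + r - 1)) c a b

/-- **FKG under the mixed boundary condition and under every record**.      OWNER: A0 (helper22, `Ann/ModelCyl`): capped ambient + `dis_assoc`, or `Split` for spins constant on a full row. -/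
def LcyFkg (x : ℝ) : Prop := ∀ (L H : ℕ) (T : Bool), 3 ≤ L → 1 ≤ H → LenFkg (sdSys x L T 0 H) (lcyK L H)

theorem lcy_eqns_cite2 : True := by
  have := @LcySE.eq_1
  have := @LcyFkg.eq_1
  trivial

theorem lcy_P_eq (x : ℝ) (L H : ℕ) (T : Bool) (E : Set TV → Prop) :
    sdP x L H T true E = (sdSys x L T 0 H).P ((lcyK L H).Holds (sdSys x L T 0 H))
      (fun ω => E (sdSet (sdSys x L T 0 H) L 1 ω)) := by
  rw [lcy_K_eq]
  rfl

theorem lcy_P_H (x : ℝ) {L H : ℕ} (T : Bool) {w a b c d : ℤ} (hL : 0 < L) (hw : w ≤ a) (hb : b < w + L) (hc : 0 ≤ c) (hd : d < H) :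
    sdP x L H T true (SdH a b c d) = (sdSys x L T 0 H).P ((lcyK L H).Holds (sdSys x L T 0 H))
      (fun ω => (lcyG L H w c d).Hp (lenNp (sdSys x L T 0 H) ω) a b) := by
  rw [lcy_P_eq]
  congr 1
  funext ω
  exact propext (lcy_Hp_iff hL hw hb hc hd).symm

theorem lcy_set_mono (S : ClSys TV TV) (L : ℕ) {ω ω' : ClCfg TV TV} (h : ∀ y ∈ S.C, clTau S ω y ≤ clTau S ω' y) :
    sdSet S L 1 ω ⊆ sdSet S L 1 ω' := by
  rintro y ⟨hy, ht⟩
  refine ⟨hy, ?_⟩
  have h1 := h _ hy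
  rcases dis_tau_cases S ω' (sdRed L y) with h3 | h3 | h3 <;> omega

theorem lcy_inc_monoP (S : ClSys TV TV) (L : ℕ) {E : Set TV → Prop} (hE : SdInc E) : ClMonoP S (fun ω => E (sdSet S L 1 ω)) :=
  fun _ _ _ h2 h => hE _ _ (lcy_set_mono S L h2) h

theorem lcy_P_mono {V Y : Type} [DecidableEq V] [DecidableEq Y] (S : ClSys V Y) (hOk : ClOk S) (K : ClCfg V Y → Prop)
    {A B : ClCfg V Y → Prop} (h : ∀ ω, A ω → B ω) : S.P K A ≤ S.P K B := by
  rw [len_P_eq, len_P_eq]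
  refine div_le_div_of_nonneg_right (len_N_mono S hOk K _ _ fun ω _ => ?_) (len_Z_nonneg S hOk K)
  by_cases hA : A ω
  · rw [len_ind_pos hA, len_ind_pos (h ω hA)]
  · rw [len_ind_neg hA]; exact len_ind_nonneg _ _

/-- the spectator form, one increasing event, normalised -/
theorem lcy_gen1 {V Y : Type} [DecidableEq V] [DecidableEq Y] (S : ClSys V Y) (hOk : ClOk S) (K : ClCon V Y) (hK : LenFkg S K)
    (G : LenGeo Y) (hb : ∀ y, G.band y → y ∈ S.C) {c : ℝ} {a b : ℤ} (hSE : LenSE S K G c a b) (A C : ClCfg V Y → Prop)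
    (hA : ClMonoP S A) (hAO : ∀ ω, A ω → G.Hp (lenNp S ω) a b) (hdet : ∀ ω, A ω → G.E3 (lenNp S ω) a b → C ω) :
    c * S.P (K.Holds S) A ≤ S.P (K.Holds S) C := by
  have h := lcy_gen_N S hOk K hK G hb hSE A C hA hAO hdet
  rw [len_P_eq, len_P_eq, ← mul_div_assoc]
  exact div_le_div_of_nonneg_right h (len_Z_nonneg S hOk _)

/-! ## Part 4: the two contracts of A4 -/

/-- **the lengthening on the mixed cylinder** (band = index rows `k..k+r`, i.e. `r + 1` slabs; step `(r - 7) / 2`) -/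
theorem lcy_len (x : ℝ) (hx0 : 0 < x) (hx1 : x ≤ 1) (hSE : LcySE x) (hF : LcyFkg x) (hSh : SdShift x) : SdLen x := by
  obtain ⟨c, hc, r₀, hSE⟩ := hSE
  intro κ δ hδ
  refine ⟨δ * (c * δ) ^ (2 * κ), by positivity, max r₀ (max (2 * κ) 16), ?_⟩
  intro L H T k r hr hL hk1 hk2 hδP
  have hr' : ((max r₀ (max (2 * κ) 16) : ℕ) : ℤ) ≤ r := hr
  have hr0 : (r₀ : ℤ) ≤ r := le_trans (by exact_mod_cast le_max_left _ _) hr'
  have hrκ : 2 * (κ : ℤ) ≤ r := le_trans (by exact_mod_cast (le_max_left (2 * κ) 16).trans (le_max_right r₀ _)) hr'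
  have hr2 : (16 : ℤ) ≤ r := le_trans (by exact_mod_cast (le_max_right (2 * κ) 16).trans (le_max_right r₀ _)) hr'
  obtain ⟨s, hs⟩ : ∃ s : ℤ, s = (r - 7) / 2 := ⟨_, rfl⟩
  have hs1 : 1 ≤ s := by omega
  have hs2 : 2 * s ≤ r - 7 := by omega
  have hs3 : r - 8 ≤ 2 * s := by omega
  have hκ0 : (0 : ℤ) ≤ κ := by positivity
  have hκr : 0 ≤ (κ : ℤ) * r := mul_nonneg hκ0 (by omega)
  have hL' : (κ : ℤ) * r + 10 * r ≤ L := by nlinarith
  have hL0 : 0 < L := by omega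
  have hL3 : 3 ≤ L := by omega
  have hH1 : 1 ≤ H := by omega
  have hk0 : 0 ≤ k := by omega
  have hkH : k + r < H := by omega
  have ekr : k + (r + 1) - 1 = k + r := by ring
  have hOk : ClOk (sdSys x L T 0 H) := sd_sys_ok x hx0 hx1 L (by omega) T 0 H
  have hκs : (κ : ℤ) * (2 * s) ≤ κ * (r - 7) := mul_le_mul_of_nonneg_left hs2 hκ0
  have hκs' : (κ : ℤ) * (r - 8) ≤ κ * (2 * s) := mul_le_mul_of_nonneg_left hs3 hκ0
  have key := len_iter (sdSys x L T 0 H) hOk (lcyK L H) (hF L H T hL3 hH1) (lcyG L H 0 k (k + r)) (fun y hy => hy.1)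
    hc.le hδ.le 0 (4 * r) s (by omega) (by omega) (2 * κ)
    (by
      intro i hi
      have his : (i : ℤ) * s ≤ ((2 * κ : ℕ) : ℤ) * s := mul_le_mul_of_nonneg_right (by exact_mod_cast hi) (by omega)
      have hi0 : 0 ≤ (i : ℤ) * s := mul_nonneg (by positivity) (by omega)
      push_cast at his
      rw [← lcy_P_H x T hL0 (by omega) (by nlinarith) hk0 hkH]
      have e : SdH (0 + (i : ℤ) * s) (0 + (i : ℤ) * s + 4 * r) k (k + r) = sdTr ((i : ℤ) * s, 0) (SdH 0 (4 * r) k (k + r)) := by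
        rw [sd_tr_H]
        congr 1 <;> simp <;> ring
      rw [e, hSh L H T true _ _ hL3]
      exact hδP)
    (by
      intro i hi
      have his : ((i : ℤ) + 1) * s ≤ ((2 * κ : ℕ) : ℤ) * s := mul_le_mul_of_nonneg_right (by exact_mod_cast hi) (by omega)
      have hi0 : 0 ≤ (i : ℤ) * s := mul_nonneg (by positivity) (by omega)
      push_cast at his
      have hκ1 : (1 : ℤ) ≤ κ := by omega
      have hκr1 : r ≤ (κ : ℤ) * r := by nlinarith
      have := hSE L H T k (r + 1) 0 (0 + ((i : ℤ) + 1) * s) (0 + (i : ℤ) * s + 4 * r) (by omega) (by omega) (by omega) (by omega)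
        (by nlinarith) (by nlinarith) (by nlinarith) (by nlinarith)
      rwa [ekr] at this)
    (2 * κ) le_rfl
  push_cast at key
  rw [lcy_P_H x T (w := 0) hL0 le_rfl (by nlinarith) hk0 hkH]
  refine key.trans (lcy_P_mono _ hOk _ fun ω h => len_Hp_mono le_rfl (by nlinarith) h)

/-- `H⁺` of a sub-band of a box gives `H⁺` of the box -/
theorem lcy_H_tall {a b c d c' d' : ℤ} (h1 : c ≤ c') (h2 : c' ≤ d') (h3 : d' ≤ d) {X : Set TV} (h : SdH a b c' d' X) : SdH a b c d X := by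
  rintro ⟨u, v, hu, hu2, hv2, hR⟩
  obtain ⟨u', v', hu', e1, e2, hR'⟩ := sd_sub_snd hu hR h2 (by omega) (by omega)
  have hsub : tscBox a b c d ∩ Xᶜ ∩ plsBand c' d' ⊆ tscBox a b c' d' ∩ Xᶜ := by
    rintro p ⟨⟨⟨p1, p2, _, _⟩, hpX⟩, p3, p4⟩
    exact ⟨⟨p1, p2, p3, p4⟩, hpX⟩
  exact h ⟨u', v', hsub ⟨hu', by rw [plsBand]; exact ⟨e1.ge, by rw [e1]; exact h2⟩⟩, e1, e2, tsc_R_mono hsub hR'⟩

/-- **two horizontal crossings are joined** (contract `SdGlue` of A4 = TEX[annulus:gluing], averaged) -/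
theorem lcy_glue (x : ℝ) (hx0 : 0 < x) (hx1 : x ≤ 1) (hSE : LcySE x) (hF : LcyFkg x) : SdGlue x := by
  obtain ⟨c, hc, r₀, hSE⟩ := hSE
  refine ⟨c, hc, max r₀ 1, ?_⟩
  intro L H T k m hH hHL hm hL hk1 hk2
  have hm' : ((max r₀ 1 : ℕ) : ℤ) ≤ m := hm
  have hm0 : (r₀ : ℤ) ≤ m := le_trans (by exact_mod_cast le_max_left _ _) hm'
  have hm1 : (1 : ℤ) ≤ m := le_trans (by exact_mod_cast le_max_right r₀ 1) hm'
  have hL0 : 0 < L := by omega
  have hL3 : 3 ≤ L := by omega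
  have hH1 : 1 ≤ H := by omega
  have hk0 : 0 ≤ k := by omega
  have hkH : k + 10 * m - 1 < H := by omega
  have hOk : ClOk (sdSys x L T 0 H) := sd_sys_ok x hx0 hx1 L (by omega) T 0 H
  have se := hSE L H T k (10 * m) 0 (12 * m) (58 * m) (by omega) (by omega) (by omega) (by omega) (by omega) (by omega) (by omega)
    (by omega)
  rw [lcy_P_eq, lcy_P_eq]
  refine lcy_gen1 (sdSys x L T 0 H) hOk (lcyK L H) (hF L H T hL3 hH1) (lcyG L H 0 k (k + 10 * m - 1)) (fun y hy => hy.1) se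
    _ _ (lcy_inc_monoP _ L (E := fun X => SdH 0 (60 * m) (k + 8 * m) (k + 10 * m - 1) X ∧ SdH (10 * m) (70 * m) k (k + 2 * m - 1) X)
      (fun X X' hXX h => ⟨sd_H_inc _ _ _ _ X X' hXX h.1, sd_H_inc _ _ _ _ X X' hXX h.2⟩)) ?_ ?_
  · intro ω h
    exact (lcy_Hp_iff hL0 (by omega) (by omega) hk0 hkH).2
      (lcy_H_tall (by omega) (by omega) le_rfl (sd_H_narrow (by omega) (by omega) h.1))
  · intro ω h h3
    exact sd_e3_vert (by omega) (by omega) (by omega) (lcy_E3 hL0 (by omega) (by omega) hk0 hkH h3)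
      (lcy_H_tall le_rfl (by omega) (by omega) (sd_H_narrow (by omega) (by omega) h.2))
      (lcy_H_tall (by omega) (by omega) le_rfl (sd_H_narrow (by omega) (by omega) h.1))

end Claimed.Agent.R291
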