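import Claimed.Agent.R291.Ann.LenSE
import Claimed.Agent.R291.Ann.LenCyl
import Claimed.Agent.R291.Ann.RswCyl

/-!
# Row 291 (S0539), Ann/LenOrd : ORDER AND FKG ON THE MIXED CYLINDER, UNDER EVERY LEGAL HISTORY WHICH KEEPS THE MINUS ROW      (owner helper20; prefix `lor_` / `Lor`)

The cylinder `sdSys x L T a b` is NOT a `ClDisk` (a wall of the second spin may wind).   But the engine of ORDER (`Cell/Order`: `cs_assoc`, `cs_order_gen`) asks the splitting property `Split b`
only at the first spins `b` WHICH SATISFY THE PINS of the history.   Hence: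
* §1 THE RELATIVE ADAPTER (abstract): `LorDisk S Bm` = `ClOk` + cells of at most 3 sites + splitting at every `B` disjoint from `Bm`;
  **`lor_assoc`**, **`lor_order`** = `dis_assoc`, `dis_order` for the legal histories with `Bm ⊆ K.Bm`;      `lor_fkg : LenFkg S K`, `lor_ord : LseOrd S K`.
* §2 THE CYLINDER: `lor_cyl : LorDisk (sdSys x L T a b) (sdRow L a)`: the splitting property at a `B` which misses the row `a` is the one of the coned cylinder `rscAmb` of helper255
  (`rsc_amb_disk`): the cone cells are all-minus, so the hypothesis is void on them; restrict the wall.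
* §3 EXITS: **`lor_cyl_fkg : LcyFkg x`**, **`lor_cyl_ord : LcyOrd x`** (`LcyOrd` is DEFINED HERE, only here).
-/

set_option autoImplicit false
set_option linter.unusedSectionVars false
set_option linter.unusedVariables false
set_option linter.unusedSimpArgs false

namespace Claimed.Agent.R291

open Finset

section abstract

variable {V Y : Type} [DecidableEq V] [DecidableEq Y]

/-! ## §1 the relative adapter -/

/-- the splitting property at the first spin `B`: the plus part of a wall is a wall -/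
def LorSplit (S : ClSys V Y) (B : Finset V) : Prop :=
  ∀ W ⊆ S.A, (∀ y ∈ S.C, ¬ ClConst B (S.sv y) → ClConst W (S.sv y)) →
    ∃ W₁ ⊆ S.A, ∀ y ∈ S.C,
      (S.sv y ⊆ B → ∀ u ∈ S.sv y, ∀ v ∈ S.sv y, ((u ∈ W₁ ↔ v ∈ W₁) ↔ (u ∈ W ↔ v ∈ W))) ∧
      (¬ S.sv y ⊆ B → ClConst W₁ (S.sv y))

/-- the topological hypothesis RELATIVE to a set of minus pins -/
structure LorDisk (S : ClSys V Y) (Bm : Finset V) : Prop extends ClOk S where
  card : ∀ y ∈ S.C, (S.sv y).card ≤ 3
  split : ∀ B ⊆ S.A, Disjoint B Bm → LorSplit S B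

theorem lor_eqns_cite : True := by
  have := @LorSplit.eq_1
  trivial

theorem lor_of_disk (S : ClSys V Y) (hS : ClDisk S) (Bm : Finset V) : LorDisk S Bm :=
  ⟨hS.toClOk, hS.card, fun B hB _ W hW h => hS.split B hB W hW h⟩

/-- admissibility of the parameters (`cad_ok` without topology) -/
theorem lor_ok (S : ClSys V Y) (hO : ClOk S) (hcard : ∀ y ∈ S.C, (S.sv y).card ≤ 3) : (cadSys S).Ok := by
  refine ⟨fun y => (hO.q0 y.1 y.2).le, fun y => hO.q1 y.1 y.2, fun e => cad_X_nonneg S _,
    fun e => cad_X_le_one S _ (hO.q1 _ ((cad_mem_es S e.1).1 e.2).1), fun y => ?_, fun σ y h => ?_,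
    fun σ y h => ?_⟩
  · obtain ⟨v, hv⟩ := hO.ne y.1 y.2
    exact Or.inl ⟨cadE S hO y v v hv hv, rfl⟩
  · exact cad_ok_conn S hO σ y h
  · have e1 : ∏ e ∈ univ.filter (fun e => (cadSys S).cell e = y),
        (if σ ((cadSys S).s e) = σ ((cadSys S).t e) then 1 else (cadSys S).xe e)
        = ∏ e ∈ univ.filter (fun e => (cadSys S).cell e = y),
        (fun u v => if σ u = σ v then 1 else cadX S y.1) ((cadSys S).s e) ((cadSys S).t e) := by
      refine Finset.prod_congr rfl fun e he => ?_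
      have h2 : e.1.1 = y.1 := congrArg Subtype.val (Finset.mem_filter.1 he).2
      show _ = if σ ((cadSys S).s e) = σ ((cadSys S).t e) then 1 else cadX S y.1
      rw [← h2]
      rfl
    rw [e1, cad_prod_cell S hO y (fun u v => if σ u = σ v then 1 else cadX S y.1), cad_wall_pure]
    rw [cad_cst S hO] at h
    set a := ((cadSv S y.1).filter (fun v => σ v = true)).card with ha
    set b := ((cadSv S y.1).filter (fun v => σ v = false)).card with hb
    have hab : a + b = (S.sv y.1).card := by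
      rw [← cad_card_sv S hO y, ha, hb, ← Finset.card_filter_add_card_filter_not (s := cadSv S y.1) (fun v => σ v = true)]
      congr 2
      ext v; simp
    have hc := hcard y.1 y.2
    have ha0 : 0 < a := by
      rw [ha, Finset.card_pos]
      by_contra hne
      rw [Finset.not_nonempty_iff_eq_empty, Finset.filter_eq_empty_iff] at hne
      refine h fun u v hu hv => ?_
      have h1 := hne ((cad_mem_sv S _ _).2 hu)
      have h2 := hne ((cad_mem_sv S _ _).2 hv)
      simp only [Bool.not_eq_true] at h1 h2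
      rw [h1, h2]
    have hb0 : 0 < b := by
      rw [hb, Finset.card_pos]
      by_contra hne
      rw [Finset.not_nonempty_iff_eq_empty, Finset.filter_eq_empty_iff] at hne
      refine h fun u v hu hv => ?_
      have h1 := hne ((cad_mem_sv S _ _).2 hu)
      have h2 := hne ((cad_mem_sv S _ _).2 hv)
      simp only [Bool.not_eq_false] at h1 h2
      rw [h1, h2]
    have hq : 0 ≤ S.q y.1 := (hO.q0 y.1 y.2).le
    show cadX S y.1 ^ (2 * (a * b)) = S.q y.1
    unfold cadX
    by_cases h3 : (S.sv y.1).card = 3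
    · rw [if_pos h3]
      have hab2 : a * b = 2 := by
        have : a = 1 ∨ a = 2 := by omega
        rcases this with h | h
        · have : b = 2 := by omega
          rw [h, this]
        · have : b = 1 := by omega
          rw [h, this]
      rw [hab2]
      show Real.sqrt (Real.sqrt (S.q y.1)) ^ (2 * 2) = _
      rw [pow_mul, Real.sq_sqrt (Real.sqrt_nonneg _), Real.sq_sqrt hq]
    · rw [if_neg h3]
      have h1 : a = 1 := by omega
      have h2 : b = 1 := by omega
      rw [h1, h2]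
      show Real.sqrt (S.q y.1) ^ 2 = _
      rw [Real.sq_sqrt hq]

/-- the splitting property at ONE first spin (`cad_split` pointwise) -/
theorem lor_split (S : ClSys V Y) (hO : ClOk S) (b : CadV S → Bool) (hs : LorSplit S (cadSet S b)) : (cadSys S).Split b := by
  intro W hW
  have hW' : ∀ y : CadY S, ∀ u v : CadV S, u.1 ∈ S.sv y.1 → v.1 ∈ S.sv y.1 → W u ≠ W v → b u = b v :=
    fun y u v hu hv => hW (cadE S hO y u.1 v.1 hu hv)
  have key : ∀ y : CadY S, ∀ u v z : CadV S, u.1 ∈ S.sv y.1 → v.1 ∈ S.sv y.1 → z.1 ∈ S.sv y.1 →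
      W u ≠ W v → b z = b u := by
    intro y u v z hu hv hz huv
    by_cases h1 : W z = W u
    · have h2 : W z ≠ W v := h1 ▸ huv
      exact (hW' y z v hz hv h2).trans (hW' y u v hu hv huv).symm
    · exact hW' y z u hz hu h1
  obtain ⟨W₁, hW₁, hsp⟩ := hs (cadSet S W) (cad_set_sub S W) (by
    intro y hy hB
    by_contra hWc
    rw [← cad_const S hO _ ⟨y, hy⟩, cad_ind_set, cad_cst S hO] at hB hWc
    simp only [not_forall] at hWc
    obtain ⟨u, v, hu, hv, huv⟩ := hWc
    exact hB fun u' v' hu' hv' => (key ⟨y, hy⟩ u v u' hu hv hu' huv).trans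
      (key ⟨y, hy⟩ u v v' hu hv hv' huv).symm)
  refine ⟨cadInd S W₁, fun e => ?_⟩
  have h1 := (cad_mem_es S e.1).1 e.2
  set y : CadY S := (cadSys S).cell e with hy
  set u : CadV S := (cadSys S).s e with hu
  set v : CadV S := (cadSys S).t e with hv
  have hu' : u.1 ∈ S.sv y.1 := h1.2.2.2.1
  have hv' : v.1 ∈ S.sv y.1 := h1.2.2.2.2
  have hWe : W u = W v ↔ (u.1 ∈ cadSet S W ↔ v.1 ∈ cadSet S W) := by
    rw [cad_mem_set', cad_mem_set', Bool.eq_iff_iff]
  by_cases hsub : S.sv y.1 ⊆ cadSet S b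
  · have h2 := (hsp y.1 y.2).1 hsub u.1 hu' v.1 hv'
    have h3 : b u = true := (cad_mem_set' S b u).1 (hsub hu')
    rw [Ne, Ne, cad_ind_eq, h2, hWe]
    exact ⟨fun h => ⟨h, h3⟩, fun h => h.1⟩
  · have h2 := (hsp y.1 y.2).2 hsub
    rw [← cad_const S hO, cad_cst S hO] at h2
    constructor
    · intro h
      exact absurd (h2 u v hu' hv') h
    · rintro ⟨h3, h4⟩
      exfalso
      refine hsub fun z hz => ?_
      have h5 := key y u v ⟨z, hO.sub y.1 y.2 hz⟩ hu' hv' hz h3
      exact (cad_mem_set' S b ⟨z, hO.sub y.1 y.2 hz⟩).2 (h5.trans h4)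

/-- a first spin which satisfies the pins of a consistent history misses its minus pins -/
theorem lor_okB (S : ClSys V Y) (K : ClCon V Y) (hc : CadCons S K) {Bm : Finset V} (hm : Bm ⊆ K.Bm) (b : CadV S → Bool)
    (hb : (cadHist S K).OkB b) : Disjoint (cadSet S b) Bm := by
  refine Finset.disjoint_left.2 fun v hv hvm => ?_
  obtain ⟨hvA, hbv⟩ := (cad_mem_set S b v).1 hv
  have h1 : (cadHist S K).pB ⟨v, hvA⟩ = some false := by
    show (if v ∈ K.Bp then some true else if v ∈ K.Bm then some false else none) = some false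
    rw [if_neg (fun h => hc.dis v h (hm hvm)), if_pos (hm hvm)]
  have := hb _ _ h1
  rw [hbv] at this
  exact absurd this (by simp)

theorem lor_split_hist (S : ClSys V Y) {Bm : Finset V} (hS : LorDisk S Bm) (K : ClCon V Y) (hc : CadCons S K) (hm : Bm ⊆ K.Bm)
    (b : CadV S → Bool) (hb : (cadHist S K).OkB b) : (cadSys S).Split b :=
  lor_split S hS.toClOk b (hS.split _ (cad_set_sub S b) (lor_okB S K hc hm b hb))

/-- **(ORD-A) relative**: association under every legal history which keeps the minus pins `Bm` -/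
theorem lor_assoc (S : ClSys V Y) {Bm : Finset V} (hS : LorDisk S Bm) (K : ClCon V Y) (hK : ClLegal S K) (hm : Bm ⊆ K.Bm)
    (F G : ClCfg V Y → ℝ) (hF : ClMono S F) (hG : ClMono S G) :
    S.N (K.Holds S) F * S.N (K.Holds S) G ≤ S.Z (K.Holds S) * S.N (K.Holds S) (fun ω => F ω * G ω) := by
  have hO : ClOk S := hS.toClOk
  by_cases hc : CadCons S K
  · rw [cad_N S hO K hK hc F (cad_inv_of_mono S hF), cad_N S hO K hK hc G (cad_inv_of_mono S hG),
      cad_Z S hO K hK hc,
      cad_N S hO K hK hc _ (cad_inv_mul S (cad_inv_of_mono S hF) (cad_inv_of_mono S hG))]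
    exact cs_assoc (cadSys S) (lor_ok S hO hS.card) (cad_full S K hK) (lor_split_hist S hS K hc hm)
      (cad_mono S hF) (cad_mono S hG)
  · rw [cad_N_zero S K hc, cad_Z_zero S K hc]
    simp

/-- **(ORD-B) relative**: order between two legal histories which keep the minus pins `Bm` -/
theorem lor_order (S : ClSys V Y) {Bm : Finset V} (hS : LorDisk S Bm) (K₁ K₂ : ClCon V Y) (h₁ : ClLegal S K₁) (h₂ : ClLegal S K₂)
    (m₁ : Bm ⊆ K₁.Bm) (m₂ : Bm ⊆ K₂.Bm) (hle : ClLe K₁ K₂) (F : ClCfg V Y → ℝ) (hF : ClMono S F) :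
    S.N (K₁.Holds S) F * S.Z (K₂.Holds S) ≤ S.Z (K₁.Holds S) * S.N (K₂.Holds S) F := by
  have hO : ClOk S := hS.toClOk
  by_cases c₁ : CadCons S K₁
  · by_cases c₂ : CadCons S K₂
    · rw [cad_N S hO K₁ h₁ c₁ F (cad_inv_of_mono S hF), cad_N S hO K₂ h₂ c₂ F (cad_inv_of_mono S hF),
        cad_Z S hO K₁ h₁ c₁, cad_Z S hO K₂ h₂ c₂]
      exact cs_order_gen (cadSys S) (lor_ok S hO hS.card) (cad_leG S K₁ K₂ c₁ c₂ hle) (cad_full S K₁ h₁)
        (cad_full S K₂ h₂) (lor_split_hist S hS K₁ c₁ m₁) (lor_split_hist S hS K₂ c₂ m₂) (cad_mono S hF)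
    · rw [cad_N_zero S K₂ c₂, cad_Z_zero S K₂ c₂]
      simp
  · rw [cad_N_zero S K₁ c₁, cad_Z_zero S K₁ c₁]
    simp

/-- FKG under `K` and under every record -/
theorem lor_fkg (S : ClSys V Y) (K : ClCon V Y) (hS : LorDisk S K.Bm) (hK : ClLegal S K) : LenFkg S K :=
  ⟨fun F G hF hG => lor_assoc S hS K hK subset_rfl F G hF hG,
    fun Q ω₀ F G _ _ _ hF hG => lor_assoc S hS _ (len_obs_legal S K hK Q ω₀) Finset.subset_union_left F G hF hG⟩

/-- order between the legal histories which keep the pins of `K` -/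
theorem lor_ord (S : ClSys V Y) (K : ClCon V Y) (hS : LorDisk S K.Bm) : LseOrd S K :=
  fun K₁ K₂ h₁ h₂ _ m₁ _ m₂ hle F hF => lor_order S hS K₁ K₂ h₁ h₂ m₁ m₂ hle F hF

end abstract

/-! ## §2 the cylinder -/

/-- **the cylinder is a disk relative to the minus pins of its bottom row** -/
theorem lor_cyl (x : ℝ) (hx0 : 0 < x) (hx1 : x ≤ 1) (L : ℕ) (hL : 2 ≤ L) (T : Bool) (a b : ℤ) (hab : a < b) :
    LorDisk (sdSys x L T a b) (sdRow L a) := by
  refine ⟨rsc_sys_ok x hx0 hx1 L T a b, fun y _ => ?_, ?_⟩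
  · show (sdCell L T y).card ≤ 3
    unfold sdCell
    refine Finset.card_image_le.trans ?_
    cases T
    · exact Finset.card_le_three
    · exact Finset.card_le_three
  · intro B hB hdis W hW hyp
    have hB' : B ⊆ sdSites L a b := hB
    have hW' : W ⊆ sdSites L a b := hW
    have hD := rsc_amb_disk x hx0 hx1 L hL T a b hab
    have hsv : ∀ y ∈ sdCells L a b, y ∈ (rscAmb x L T a b).C ∧ (rscAmb x L T a b).sv y = sdCell L T y := by
      intro y hy
      obtain ⟨h01, h2, h3⟩ := rsc_mem_cells.1 hy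
      exact ⟨(rsc_amb_mem_C x L T a b).2 ⟨h01, by omega, h3⟩, rsc_amb_sv1 x L T a b (by omega)⟩
    obtain ⟨W₁, _, h⟩ := hD.split B (hB'.trans (Finset.subset_insert _ _)) W (hW'.trans (Finset.subset_insert _ _)) (by
      intro y hy hc
      obtain ⟨⟨h0, h1⟩, h2, h3⟩ := (rsc_amb_mem_C x L T a b).1 hy
      by_cases hj : y.2 = a - 1
      · exfalso
        apply hc
        right
        rw [rsc_amb_sv0 x L T a b hj]
        intro v hv hvB
        simp only [Finset.mem_insert, Finset.mem_singleton] at hv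
        rcases hv with rfl | rfl | rfl
        · have := (rsc_mem_sites.1 (hB' hvB)).2.1
          simp only at this
          omega
        · exact Finset.disjoint_left.1 hdis hvB (rsc_mem_row.2 ⟨⟨h0, h1⟩, rfl⟩)
        · exact Finset.disjoint_left.1 hdis hvB (rsc_mem_row.2 ⟨rsc_nx_mem h0 h1, rfl⟩)
      · have hy' : y ∈ sdCells L a b := rsc_mem_cells.2 ⟨⟨h0, h1⟩, by omega, h3⟩
        rw [(hsv y hy').2] at hc ⊢
        exact hyp y hy' hc)
    refine ⟨W₁ ∩ sdSites L a b, Finset.inter_subset_right, fun y hy => ?_⟩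
    have hy' : y ∈ sdCells L a b := hy
    have hs : sdCell L T y ⊆ sdSites L a b := rsc_cell_sub hy'
    obtain ⟨hyC, e⟩ := hsv y hy'
    have h' := h y hyC
    rw [e] at h'
    have hm : ∀ u ∈ sdCell L T y, (u ∈ W₁ ∩ sdSites L a b ↔ u ∈ W₁) := fun u hu =>
      ⟨fun hh => (Finset.mem_inter.1 hh).1, fun hh => Finset.mem_inter.2 ⟨hh, hs hu⟩⟩
    refine ⟨fun hsub u hu v hv => ?_, fun hsub => ?_⟩
    · rw [hm u hu, hm v hv]
      exact h'.1 hsub u hu v hv
    · rcases h'.2 hsub with hc | hc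
      · exact Or.inl fun u hu => (hm u hu).2 (hc hu)
      · exact Or.inr fun u hu hh => hc u hu ((hm u hu).1 hh)

/-! ## §3 exits -/

theorem lor_K_legal (S : ClSys TV TV) (L H : ℕ) : ClLegal S (lcyK L H) where
  wp := rfl
  wm := rfl
  full := fun y _ hy => by simp [lcyK] at hy
  eq := fun e he => by simp [lcyK] at he

theorem lor_cyl_K (x : ℝ) (hx0 : 0 < x) (hx1 : x ≤ 1) (L H : ℕ) (T : Bool) (hL : 3 ≤ L) (hH : 1 ≤ H) :
    LorDisk (sdSys x L T 0 H) (lcyK L H).Bm :=
  lor_cyl x hx0 hx1 L (by omega) T 0 H (by exact_mod_cast hH)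

/-- **FKG under the mixed boundary condition and under every record** -/
theorem lor_cyl_fkg (x : ℝ) (hx0 : 0 < x) (hx1 : x ≤ 1) : LcyFkg x :=
  fun L H T hL hH => lor_fkg _ _ (lor_cyl_K x hx0 hx1 L H T hL hH) (lor_K_legal _ L H)

/-- **(ORD) on the mixed cylinder**: conditional order between the legal histories which keep the mixed pins.   THE ONLY DEFINITION (`Ann/LenGeo` imports this file). -/
def LcyOrd (x : ℝ) : Prop := ∀ (L H : ℕ) (T : Bool), 3 ≤ L → 1 ≤ H → LseOrd (sdSys x L T 0 H) (lcyK L H)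

theorem lor_eqns_cite2 : True := by
  have := @LcyOrd.eq_1
  trivial

/-- **order on the mixed cylinder** -/
theorem lor_cyl_ord (x : ℝ) (hx0 : 0 < x) (hx1 : x ≤ 1) : LcyOrd x :=
  fun L H T hL hH => lor_ord _ _ (lor_cyl_K x hx0 hx1 L H T hL hH)

end Claimed.Agent.R291
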