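/-
# Row 291 (S0539), unit ANN, block A2, Ann/LenGeo : THE GEOMETRY OF THE CHART `lcyG` FOR THE ADAPTER OF 20      (owner: helper193; prefix `lge_` / `lge` / `Lge`)

`Ann/LenSE` (20): `lse_main : LseGeo → (ports ≤ 4) → LseLSS → LenSE`.      Here, for the mixed cylinder `sdSys x L T 0 H`, BOTH classes, chart `lcyG L H w c d`, box `[a, b] × [c, d]` inside the window:
* Part A: arithmetic of the cylinder: `lge_red_inj`, `lge_cell_red`, `lge_mem_cell` (offset form of the cells), `lge_share` (two cells which share a site have equal or adjacent lifts)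
* Part B: **`lge_geo : LseGeo`** (fields band, adj, out, clr, clrE), `lge_K_legal`, `lge_card3`
* Part C: transport of the walks of the chart to the plane; the forced intersections `lge_cross_top`, `lge_cross_bot` (from `pls_cross_h` of 112);
  `lge_noQ_left`, `lge_noQ_right`: no cell looked at lies in the first (last) column strictly between two retained cells
* Part D: classification of the ports (four types), **`lge_ports : (lseP ..).card ≤ 4`**
* Part E: the two model inputs as CLOSED contracts `LcyLSS x` (straight short crossing; OWNER A1) and `LcyOrd x` (order of histories; def + proof in `Ann/LenOrd` of 20);   **`lge_se : LcyLSS x → LcyOrd x → LcySE x`**.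
-/
import Claimed.Agent.R291.Ann.LenSE
import Claimed.Agent.R291.Ann.LenCyl
import Claimed.Agent.R291.Ann.LenOrd

set_option autoImplicit false
set_option linter.unusedSectionVars false
set_option linter.unusedVariables false

namespace Claimed.Agent.R291

open Claims Claims.C0467 Relation

/-! ## Part A: arithmetic of the cylinder -/

/-- the reduction is injective on every window of length `L` -/
theorem lge_red_inj {L : ℕ} {u v : TV} (h : sdRed L u = sdRed L v) (h1 : u.1 - v.1 < L) (h2 : v.1 - u.1 < L) : u = v := by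
  unfold sdRed at h
  obtain ⟨e1, e2⟩ := Prod.ext_iff.1 h
  simp only at e1 e2
  have hd : (L : ℤ) ∣ u.1 - v.1 := Int.dvd_of_emod_eq_zero (Int.emod_eq_emod_iff_emod_sub_eq_zero.1 e1)
  have h0 : u.1 - v.1 = 0 := Int.eq_zero_of_abs_lt_dvd hd (abs_lt.2 ⟨by omega, h1⟩)
  exact Prod.ext (by omega) e2

theorem lge_red_add (L : ℕ) (p o : TV) : sdRed L (sdRed L p + o) = sdRed L (p + o) := by
  unfold sdRed
  simp only [Prod.fst_add, Prod.snd_add, Int.emod_add_emod]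

/-- the cells are periodic -/
theorem lge_cell_red (L : ℕ) (T : Bool) (p : TV) : sdCell L T (sdRed L p) = sdCell L T p := by
  have e0 : sdRed L (sdRed L p) = sdRed L p := by
    have := lge_red_add L p 0
    simpa using this
  unfold sdCell
  cases T
  · simp only [Bool.false_eq_true, if_false, cellD, Finset.image_insert, Finset.image_singleton, lge_red_add]
  · simp only [if_true, cellV, Finset.image_insert, Finset.image_singleton, lge_red_add, e0]

/-- the lowest value of `o.1 + o.2` on the offsets of the class -/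
def lgeT (T : Bool) : ℤ := if T then 0 else 1

/-- offset form of the cells of both classes -/
theorem lge_mem_cell {L : ℕ} {T : Bool} {p v : TV} (h : v ∈ sdCell L T p) :
    ∃ o : TV, 0 ≤ o.1 ∧ o.1 ≤ 1 ∧ 0 ≤ o.2 ∧ o.2 ≤ 1 ∧ lgeT T ≤ o.1 + o.2 ∧ o.1 + o.2 ≤ lgeT T + 1 ∧ v = sdRed L (p + o) := by
  unfold sdCell at h
  cases T
  · simp only [Bool.false_eq_true, if_false, cellD, Finset.image_insert, Finset.image_singleton, Finset.mem_insert, Finset.mem_singleton] at h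
    rcases h with h | h | h
    · exact ⟨(1, 0), by simp, by simp, by simp, by simp, by simp [lgeT], by simp [lgeT], h⟩
    · exact ⟨(0, 1), by simp, by simp, by simp, by simp, by simp [lgeT], by simp [lgeT], h⟩
    · exact ⟨(1, 1), by simp, by simp, by simp, by simp, by simp [lgeT], by simp [lgeT], h⟩
  · simp only [if_true, cellV, Finset.image_insert, Finset.image_singleton, Finset.mem_insert, Finset.mem_singleton] at h
    rcases h with h | h | h
    · exact ⟨(0, 0), by simp, by simp, by simp, by simp, by simp [lgeT], by simp [lgeT], by rw [h]; congr 1; ext <;> simp⟩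
    · exact ⟨(1, 0), by simp, by simp, by simp, by simp, by simp [lgeT], by simp [lgeT], h⟩
    · exact ⟨(0, 1), by simp, by simp, by simp, by simp, by simp [lgeT], by simp [lgeT], h⟩

theorem lge_adj_iff (p q : TV) : (p = q ∨ triAdj p q) ↔
    (q.1 - p.1 ≤ 1 ∧ p.1 - q.1 ≤ 1 ∧ q.2 - p.2 ≤ 1 ∧ p.2 - q.2 ≤ 1 ∧ q.1 - p.1 + (q.2 - p.2) ≤ 1 ∧ p.1 - q.1 + (p.2 - q.2) ≤ 1) := by
  rw [tsc_adj_iff, Prod.ext_iff]
  omega

/-- planar form of a shared site -/
theorem lge_share_pt {L : ℕ} {T : Bool} {p q v : TV} (hp : v ∈ sdCell L T p) (hq : v ∈ sdCell L T q) (h1 : p.1 - q.1 + 2 ≤ L) (h2 : q.1 - p.1 + 2 ≤ L) :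
    ∃ o o' : TV, 0 ≤ o.1 ∧ o.1 ≤ 1 ∧ 0 ≤ o.2 ∧ o.2 ≤ 1 ∧ lgeT T ≤ o.1 + o.2 ∧ o.1 + o.2 ≤ lgeT T + 1 ∧
      0 ≤ o'.1 ∧ o'.1 ≤ 1 ∧ 0 ≤ o'.2 ∧ o'.2 ≤ 1 ∧ lgeT T ≤ o'.1 + o'.2 ∧ o'.1 + o'.2 ≤ lgeT T + 1 ∧ v = sdRed L (p + o) ∧ p + o = q + o' := by
  obtain ⟨o, a1, a2, a3, a4, a5, a6, e⟩ := lge_mem_cell hp
  obtain ⟨o', b1, b2, b3, b4, b5, b6, e'⟩ := lge_mem_cell hq
  refine ⟨o, o', a1, a2, a3, a4, a5, a6, b1, b2, b3, b4, b5, b6, e, ?_⟩
  refine lge_red_inj (L := L) (e.symm.trans e') ?_ ?_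
  · simp only [Prod.fst_add]; omega
  · simp only [Prod.fst_add]; omega

/-- two cells of one class which share a site, lifts at distance `< L - 1`: the lifts are equal or adjacent -/
theorem lge_share {L : ℕ} {T : Bool} {p q : TV} (h : ∃ v ∈ sdCell L T p, v ∈ sdCell L T q) (h1 : p.1 - q.1 + 2 ≤ L) (h2 : q.1 - p.1 + 2 ≤ L) :
    p = q ∨ triAdj p q := by
  obtain ⟨v, hp, hq⟩ := h
  obtain ⟨o, o', a1, a2, a3, a4, a5, a6, b1, b2, b3, b4, b5, b6, _, e⟩ := lge_share_pt hp hq h1 h2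
  obtain ⟨e1, e2⟩ := Prod.ext_iff.1 e
  simp only [Prod.fst_add, Prod.snd_add] at e1 e2
  rw [lge_adj_iff]
  omega


/-! ## Part B: the fields of `LseGeo` -/

section Chart

variable {x : ℝ} {L H : ℕ} {T : Bool} {w a b c d : ℤ}

theorem lge_K_legal (x : ℝ) (L H : ℕ) (T : Bool) : ClLegal (sdSys x L T 0 H) (lcyK L H) := by
  refine ⟨rfl, rfl, ?_, ?_⟩
  · intro y _ hy
    simp [lcyK] at hy
  · intro e he
    simp [lcyK] at he

theorem lge_card3 (x : ℝ) (L : ℕ) (T : Bool) (a b : ℤ) : ∀ y ∈ (sdSys x L T a b).C, ((sdSys x L T a b).sv y).card ≤ 3 := by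
  intro y _
  show (sdCell L T y).card ≤ 3
  unfold sdCell
  refine Finset.card_image_le.trans ?_
  cases T
  · simp only [Bool.false_eq_true, if_false, cellD]
    exact Finset.card_le_three
  · simp only [if_true, cellV]
    exact Finset.card_le_three

theorem lge_X_range (hL : 0 < L) (w : ℤ) (y : TV) : w ≤ lcyX L w y ∧ lcyX L w y < w + L := by
  have hL' : (0 : ℤ) < L := by exact_mod_cast hL
  unfold lcyX
  have h1 := Int.emod_nonneg (y.1 - w) hL'.ne'
  have h2 := Int.emod_lt_of_pos (y.1 - w) hL'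
  omega

theorem lge_mem_O {y : TV} : y ∈ lseO (sdSys x L T 0 H) (lcyG L H w c d) a b ↔
    y ∈ sdCells L 0 H ∧ c ≤ y.2 ∧ y.2 ≤ d ∧ a ≤ lcyX L w y ∧ lcyX L w y ≤ b := by
  rw [lse_mem_O]
  constructor
  · rintro ⟨h1, ⟨_, h2, h3⟩, h4, h5⟩
    exact ⟨h1, h2, h3, h4, h5⟩
  · rintro ⟨h1, h2, h3, h4, h5⟩
    exact ⟨h1, ⟨h1, h2, h3⟩, h4, h5⟩

/-- the lift of a cell of the box -/
theorem lge_lift_box {y : TV} (hy : y ∈ lseO (sdSys x L T 0 H) (lcyG L H w c d) a b) :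
    lcyLift L w y ∈ tscBox a b c d ∧ sdRed L (lcyLift L w y) = y := by
  obtain ⟨h1, h2, h3, h4, h5⟩ := lge_mem_O.1 hy
  obtain ⟨m1, m2, _, _⟩ := lcy_mem_cells h1
  exact ⟨⟨h4, h5, h2, h3⟩, lcy_red_lift m1 m2⟩

/-- the reduction of a point of the box -/
theorem lge_red_O (hL : 0 < L) (hw : w ≤ a) (hb : b < w + L) (hc : 0 ≤ c) (hd : d < H) {p : TV} (hp : p ∈ tscBox a b c d) :
    sdRed L p ∈ lseO (sdSys x L T 0 H) (lcyG L H w c d) a b ∧ lcyLift L w (sdRed L p) = p := by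
  have hbx := lcy_box_down hL hw hb hc hd hp
  exact ⟨lse_mem_O.2 ⟨hbx.1.1, hbx⟩, lcy_lift_red (by have := hp.1; omega) (by have := hp.2.1; omega)⟩

theorem lge_cell_lift (T : Bool) (w' : ℤ) {y : TV} (hy : y ∈ sdCells L 0 H) : sdCell L T (lcyLift L w' y) = sdCell L T y := by
  obtain ⟨m1, m2, _, _⟩ := lcy_mem_cells hy
  rw [← lge_cell_red, lcy_red_lift m1 m2]

/-- a cell which touches a cell of the box: its lift into the window `[a - 1, a - 1 + L)` is equal or adjacent to the lift of the cell of the box -/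
theorem lge_touch (hL : 0 < L) (hgap : b - a + 3 ≤ L) {e y : TV} (he : e ∈ sdCells L 0 H)
    (hy : y ∈ lseO (sdSys x L T 0 H) (lcyG L H w c d) a b) (h : ∃ v ∈ sdCell L T e, v ∈ sdCell L T y) :
    lcyLift L (a - 1) e = lcyLift L w y ∨ triAdj (lcyLift L (a - 1) e) (lcyLift L w y) := by
  obtain ⟨hbx, _⟩ := lge_lift_box hy
  have hr := lge_X_range hL (a - 1) e
  have hyC := (lge_mem_O.1 hy).1
  refine lge_share (L := L) (T := T) ?_ ?_ ?_
  · rw [lge_cell_lift T _ he, lge_cell_lift T _ hyC]; exact h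
  · have := hbx.1
    show lcyX L (a - 1) e - (lcyLift L w y).1 + 2 ≤ L
    omega
  · have := hbx.2.1
    show (lcyLift L w y).1 - lcyX L (a - 1) e + 2 ≤ L
    omega

/-- an outer cell has its lift outside the box -/
theorem lge_outer (hL : 0 < L) (hw : w ≤ a) (hb : b < w + L) (hc : 0 ≤ c) (hd : d < H) {e : TV} (he : e ∈ sdCells L 0 H)
    (heO : e ∉ lseO (sdSys x L T 0 H) (lcyG L H w c d) a b) (w' : ℤ) : lcyLift L w' e ∉ tscBox a b c d := by
  intro hp
  obtain ⟨m1, m2, _, _⟩ := lcy_mem_cells he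
  have := (lge_red_O (x := x) (T := T) hL hw hb hc hd hp).1
  rw [lcy_red_lift m1 m2] at this
  exact heO this

/-- planar: two cells of a box adjacent to one cell outside the box are equal or adjacent -/
theorem lge_out_plane {e y z : TV} (he : e ∉ tscBox a b c d) (hy : y ∈ tscBox a b c d) (hz : z ∈ tscBox a b c d) (h1 : triAdj e y) (h2 : triAdj e z) :
    y = z ∨ triAdj y z := by
  have he' : e.1 < a ∨ b < e.1 ∨ e.2 < c ∨ d < e.2 := by
    by_contra hh
    simp only [not_or, not_lt] at hh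
    exact he ⟨hh.1, hh.2.1, hh.2.2.1, hh.2.2.2⟩
  obtain ⟨y1, y2, y3, y4⟩ := hy
  obtain ⟨z1, z2, z3, z4⟩ := hz
  rw [tsc_adj_iff] at h1 h2
  rw [lge_adj_iff]
  omega

/-- the rows of the sites of a cell -/
theorem lge_cell_rows {p v : TV} (h : v ∈ sdCell L T p) : p.2 ≤ v.2 ∧ v.2 ≤ p.2 + 1 := by
  obtain ⟨o, _, _, a3, a4, _, _, e⟩ := lge_mem_cell h
  rw [e]
  show p.2 ≤ (p + o).2 ∧ (p + o).2 ≤ p.2 + 1
  simp only [Prod.snd_add]
  omega

/-- **the chart of the window satisfies the hypotheses of the adapter** -/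
theorem lge_geo (x : ℝ) (T : Bool) (hL : 0 < L) (hw : w ≤ a) (hb : b < w + L) (hgap : b - a + 4 ≤ L) (hc : 2 ≤ c) (hd : d + 3 ≤ H) :
    LseGeo (sdSys x L T 0 H) (lcyK L H) (lcyG L H w c d) a b := by
  refine ⟨fun y hy => hy.1, ?_, ?_, ?_, ?_⟩
  · intro y hy z hz hne h
    obtain ⟨by1, ry⟩ := lge_lift_box hy
    obtain ⟨bz1, rz⟩ := lge_lift_box hz
    have hs : lcyLift L w y = lcyLift L w z ∨ triAdj (lcyLift L w y) (lcyLift L w z) := by
      refine lge_share (L := L) (T := T) ?_ ?_ ?_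
      · rw [lge_cell_lift T _ (lge_mem_O.1 hy).1, lge_cell_lift T _ (lge_mem_O.1 hz).1]; exact h
      · have := by1.2.1; have := bz1.1; omega
      · have := by1.1; have := bz1.2.1; omega
    rcases hs with hs | hs
    · exact absurd (by rw [← ry, ← rz, hs]) hne
    · exact hs
  · intro e he heO y hy z hz h1 h2
    obtain ⟨by1, ry⟩ := lge_lift_box hy
    obtain ⟨bz1, rz⟩ := lge_lift_box hz
    have ho := lge_outer hL hw hb (by omega) (by omega) he heO (a - 1)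
    have t1 := lge_touch hL (by omega) he hy h1
    have t2 := lge_touch hL (by omega) he hz h2
    have t1' : triAdj (lcyLift L (a - 1) e) (lcyLift L w y) := t1.resolve_left fun hh => ho (hh ▸ by1)
    have t2' : triAdj (lcyLift L (a - 1) e) (lcyLift L w z) := t2.resolve_left fun hh => ho (hh ▸ bz1)
    rcases lge_out_plane ho by1 bz1 t1' t2' with hs | hs
    · exact Or.inl (by rw [← ry, ← rz, hs])
    · exact Or.inr hs
  · intro e he h
    obtain ⟨v, hve, hvO⟩ := h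
    obtain ⟨y, hy, hvy⟩ := lse_mem_sv.1 hvO
    obtain ⟨_, y2, y3, _, _⟩ := lge_mem_O.1 hy
    have r1 := lge_cell_rows (L := L) (T := T) hve
    have r2 := lge_cell_rows (L := L) (T := T) hvy
    refine ⟨fun u hu => ?_, by simp [lcyK], by simp [lcyK], by simp [lcyK]⟩
    have r3 := lge_cell_rows (L := L) (T := T) hu
    constructor
    · intro hh
      have : u.2 = H := by
        simp only [lcyK, sdRow, Finset.mem_product, Finset.mem_singleton] at hh
        exact hh.2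
      omega
    · intro hh
      have : u.2 = 0 := by
        simp only [lcyK, sdRow, Finset.mem_product, Finset.mem_singleton] at hh
        exact hh.2
      omega
  · intro e he
    simp [lcyK] at he

end Chart

/-! ## Part C: walks of the chart seen in the plane, forced intersections -/

section Abs

variable {V Y : Type} [DecidableEq V] [DecidableEq Y]

/-- the explored clusters have been looked at -/
theorem lge_D_Q {G : LenGeo Y} {np : Y → Prop} {a b : ℤ} {y : Y} (h : G.D np a b y) : G.Q np a b y := by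
  rcases h with h | h
  · obtain ⟨h1, h2, u, hu, h3⟩ := h
    rcases ReflTransGen.cases_tail h3 with e | ⟨y', h4, hs⟩
    · exact ⟨h2, Or.inl (e ▸ hu)⟩
    · exact ⟨h2, Or.inr (Or.inr ⟨y', Or.inl ⟨hs.2.1, hs.2.2.2.1, u, hu, h4⟩, hs.1⟩)⟩
  · obtain ⟨h1, h2, u, hu, h3⟩ := h
    rcases ReflTransGen.cases_tail h3 with e | ⟨y', h4, hs⟩
    · exact ⟨h2, Or.inr (Or.inl (e ▸ hu))⟩
    · exact ⟨h2, Or.inr (Or.inr ⟨y', Or.inr ⟨hs.2.1, hs.2.2.2.1, u, hu, h4⟩, hs.1⟩)⟩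

/-- a walk of an exploration is a walk of cells looked at -/
theorem lge_cl_walk {S : ClSys V Y} {G : LenGeo Y} {a b : ℤ} {ω₀ : ClCfg V Y} (hb : ∀ y, G.band y → y ∈ S.C) {S0 : Y → Prop}
    (hS0 : ∀ y, G.cl (lenNp S ω₀) a b S0 y → G.D (lenNp S ω₀) a b y) {u y : Y} (hu : S0 u)
    (h : ReflTransGen (G.st (lenNp S ω₀) a b) u y) : ReflTransGen (LseSt G (lenQ S G a b ω₀)) u y := by
  induction h with
  | refl => exact ReflTransGen.refl
  | @tail y' y h1 hs ih =>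
    have c1 : G.cl (lenNp S ω₀) a b S0 y' := ⟨hs.2.1, hs.2.2.2.1, u, hu, h1⟩
    have c2 : G.cl (lenNp S ω₀) a b S0 y := ⟨hs.2.2.1, hs.2.2.2.2, u, hu, h1.tail hs⟩
    exact ih.tail ⟨hs.1, lse_mem_Q.2 ⟨hb _ hs.2.2.2.1.1, lge_D_Q (hS0 _ c1)⟩, lse_mem_Q.2 ⟨hb _ hs.2.2.2.2.1, lge_D_Q (hS0 _ c2)⟩⟩

/-- every cell looked at is joined inside the cells looked at to the top row or to the bottom row -/
theorem lge_Q_walk {S : ClSys V Y} {G : LenGeo Y} {a b : ℤ} {ω₀ : ClCfg V Y} (hb : ∀ y, G.band y → y ∈ S.C) {z : Y}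
    (hz : z ∈ lenQ S G a b ω₀) : ∃ u, (G.top u ∨ G.bot u) ∧ ReflTransGen (LseSt G (lenQ S G a b ω₀)) u z := by
  obtain ⟨_, hbox, h⟩ := lse_mem_Q.1 hz
  rcases h with h | h | ⟨z', hD, hadj⟩
  · exact ⟨z, Or.inl h, ReflTransGen.refl⟩
  · exact ⟨z, Or.inr h, ReflTransGen.refl⟩
  · have hz' : z' ∈ lenQ S G a b ω₀ := by
      have hq := lge_D_Q hD
      exact lse_mem_Q.2 ⟨hb _ hq.1.1, hq⟩
    rcases hD with hD | hD
    · obtain ⟨_, _, u, hu, h3⟩ := hD
      exact ⟨u, Or.inl hu, (lge_cl_walk hb (fun y hy => Or.inl hy) hu h3).tail ⟨hadj, hz', hz⟩⟩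
    · obtain ⟨_, _, u, hu, h3⟩ := hD
      exact ⟨u, Or.inr hu, (lge_cl_walk hb (fun y hy => Or.inr hy) hu h3).tail ⟨hadj, hz', hz⟩⟩

end Abs

/-- planar: a left-right path of `F` which starts (ends) above `z` on the side of `z`, against a path of `Q` from `z` to the top row -/
theorem lge_cross_top {F Q : Set TV} {a b c d : ℤ} (hF : F ⊆ tscBox a b c d) (hQ : Q ⊆ tscBox a b c d) (hdis : ∀ y ∈ F, y ∉ Q)
    {p q : TV} (hp : p ∈ F) (hpq : TscR tscG F p q) (hpa : p.1 = a) (hqb : q.1 = b) {z t : TV} (hz : z ∈ Q) (hzt : TscR tscG Q z t) (ht : t.2 = d)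
    (s : ℤ) (hs : (s = a - 1 ∧ z.1 = a ∧ z.2 < p.2) ∨ (s = b + 1 ∧ z.1 = b ∧ z.2 < q.2)) : False := by
  obtain ⟨T, hT⟩ : ∃ T : Set TV, T = Q ∪ {y | y.1 = s ∧ c ≤ y.2 ∧ y.2 ≤ z.2} := ⟨_, rfl⟩
  have hzb := hQ hz
  have hpb := hF hp
  have hcz : c ≤ z.2 := hzb.2.2.1
  have hseg : ∀ r, c ≤ r → r ≤ z.2 → ((s, r) : TV) ∈ T := fun r h1 h2 => by rw [hT]; exact Or.inr ⟨rfl, h1, h2⟩
  have hQT : Q ⊆ T := by rw [hT]; exact Set.subset_union_left
  have w1 : TscR tscG T (s, c) (s, z.2) :=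
    tsc_R_vseg fun r h1 h2 => hseg r (by rwa [min_eq_left hcz] at h1) (by rwa [max_eq_right hcz] at h2)
  have w2 : TscR tscG T (s, z.2) z := by
    refine tsc_R_step ?_ (hseg _ hcz le_rfl) (hQT hz)
    show triAdj (s, z.2) z
    rw [tsc_adj_iff]
    simp only [and_true]
    omega
  have w3 : TscR tscG T (s, c) t := (w1.trans w2).trans (tsc_R_mono hQT hzt)
  obtain ⟨y, hyF, hyT⟩ := pls_cross_h hp hpq (hseg c le_rfl hcz) w3 (fun y hy => (hF hy).2.2.1) (fun y hy => by rw [ht]; exact (hF hy).2.2.2)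
    (fun y hy hh => by
      rw [hT] at hy
      rcases hy with hy | hy
      · have := (hQ hy).1; omega
      · have h1 := hy.1; have h2 := hy.2.2; have := hpb.1; have := hpb.2.1; omega)
    (fun y hy hh => by
      rw [hT] at hy
      rcases hy with hy | hy
      · have := (hQ hy).2.1; omega
      · have h1 := hy.1; have h2 := hy.2.2; have := hpb.1; have := hpb.2.1; omega)
  rw [hT] at hyT
  rcases hyT with hy | hy
  · exact hdis y hyF hy
  · have h1 := hy.1; have := (hF hyF).1; have := (hF hyF).2.1; omega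

/-- planar: the mirror statement, path of `Q` from `z` to the bottom row -/
theorem lge_cross_bot {F Q : Set TV} {a b c d : ℤ} (hF : F ⊆ tscBox a b c d) (hQ : Q ⊆ tscBox a b c d) (hdis : ∀ y ∈ F, y ∉ Q)
    {p q : TV} (hp : p ∈ F) (hpq : TscR tscG F p q) (hpa : p.1 = a) (hqb : q.1 = b) {z t : TV} (hz : z ∈ Q) (hzt : TscR tscG Q z t) (ht : t.2 = c)
    (s : ℤ) (hs : (s = a - 1 ∧ z.1 = a ∧ p.2 < z.2) ∨ (s = b + 1 ∧ z.1 = b ∧ q.2 < z.2)) : False := by
  obtain ⟨T, hT⟩ : ∃ T : Set TV, T = Q ∪ {y | y.1 = s ∧ z.2 ≤ y.2 ∧ y.2 ≤ d} := ⟨_, rfl⟩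
  have hzb := hQ hz
  have hpb := hF hp
  have hzd : z.2 ≤ d := hzb.2.2.2
  have hseg : ∀ r, z.2 ≤ r → r ≤ d → ((s, r) : TV) ∈ T := fun r h1 h2 => by rw [hT]; exact Or.inr ⟨rfl, h1, h2⟩
  have hQT : Q ⊆ T := by rw [hT]; exact Set.subset_union_left
  have w1 : TscR tscG T (s, z.2) (s, d) :=
    tsc_R_vseg fun r h1 h2 => hseg r (by rwa [min_eq_left hzd] at h1) (by rwa [max_eq_right hzd] at h2)
  have w2 : TscR tscG T z (s, z.2) := by
    refine tsc_R_step ?_ (hQT hz) (hseg _ le_rfl hzd)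
    show triAdj z (s, z.2)
    rw [tsc_adj_iff]
    simp only [and_true]
    omega
  have w3 : TscR tscG T t (s, d) := ((tsc_R_mono hQT (tsc_R_symm hzt)).trans w2).trans w1
  obtain ⟨y, hyF, hyT⟩ := pls_cross_h hp hpq (hQT (tsc_R_mem hzt hz)) w3 (fun y hy => by rw [ht]; exact (hF hy).2.2.1) (fun y hy => (hF hy).2.2.2)
    (fun y hy hh => by
      rw [hT] at hy
      rcases hy with hy | hy
      · have := (hQ hy).1; omega
      · have h1 := hy.1; have h2 := hy.2.1; have := hpb.1; have := hpb.2.1; omega)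
    (fun y hy hh => by
      rw [hT] at hy
      rcases hy with hy | hy
      · have := (hQ hy).2.1; omega
      · have h1 := hy.1; have h2 := hy.2.1; have := hpb.1; have := hpb.2.1; omega)
  rw [hT] at hyT
  rcases hyT with hy | hy
  · exact hdis y hyF hy
  · have h1 := hy.1; have := (hF hyF).1; have := (hF hyF).2.1; omega

section Chart2

variable {x : ℝ} {L H : ℕ} {T : Bool} {w a b c d : ℤ} {ω₀ : ClCfg TV TV}

/-- the lifted set of a set of cells of the box -/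
def lgeUp (L : ℕ) (a b c d : ℤ) (A : Finset TV) : Set TV := {p | p ∈ tscBox a b c d ∧ sdRed L p ∈ A}

theorem lge_up_mem {A : Finset TV} (hA : A ⊆ lseO (sdSys x L T 0 H) (lcyG L H w c d) a b) {y : TV} (hy : y ∈ A) :
    lcyLift L w y ∈ lgeUp L a b c d A := by
  obtain ⟨h1, h2⟩ := lge_lift_box (hA hy)
  exact ⟨h1, by rw [h2]; exact hy⟩

theorem lge_path_up {A : Finset TV} (hA : A ⊆ lseO (sdSys x L T 0 H) (lcyG L H w c d) a b) {u v : TV}
    (h : ReflTransGen (LseSt (lcyG L H w c d) A) u v) : TscR tscG (lgeUp L a b c d A) (lcyLift L w u) (lcyLift L w v) :=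
  ReflTransGen.lift (lcyLift L w) (fun _ _ hs => ⟨hs.1, lge_up_mem hA hs.2.1, lge_up_mem hA hs.2.2⟩) _ _ h

theorem lge_mem_M {S : ClSys TV TV} {G : LenGeo TV} {m : TV} (hm : m ∈ lseM S G a b ω₀) :
    m ∈ lseFr S G a b ω₀ ∧ (∃ l ∈ lseFr S G a b ω₀, G.X l = a ∧ ReflTransGen (LseSt G (lseFr S G a b ω₀)) l m) ∧
      (∃ r ∈ lseFr S G a b ω₀, G.X r = b ∧ ReflTransGen (LseSt G (lseFr S G a b ω₀)) m r) := by
  classical
  unfold lseM at hm
  exact Finset.mem_filter.1 hm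

/-- **no cell looked at lies in the first (last) column strictly between two retained cells** -/
theorem lge_noQ {m1 m2 z : TV} (hm1 : m1 ∈ lseM (sdSys x L T 0 H) (lcyG L H w c d) a b ω₀)
    (hm2 : m2 ∈ lseM (sdSys x L T 0 H) (lcyG L H w c d) a b ω₀) (hz : z ∈ lenQ (sdSys x L T 0 H) (lcyG L H w c d) a b ω₀)
    (hX : (lcyX L w m1 = a ∧ lcyX L w m2 = a ∧ lcyX L w z = a) ∨ (lcyX L w m1 = b ∧ lcyX L w m2 = b ∧ lcyX L w z = b))
    (h1 : m1.2 < z.2) (h2 : z.2 < m2.2) : False := by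
  have hFO : lseFr (sdSys x L T 0 H) (lcyG L H w c d) a b ω₀ ⊆ lseO (sdSys x L T 0 H) (lcyG L H w c d) a b :=
    fun y hy => (lse_mem_Fr.1 hy).1
  have hQO := lse_Q_sub_O (sdSys x L T 0 H) (lcyG L H w c d) a b ω₀
  have sF : lgeUp L a b c d (lseFr (sdSys x L T 0 H) (lcyG L H w c d) a b ω₀) ⊆ tscBox a b c d := fun y hy => hy.1
  have sQ : lgeUp L a b c d (lenQ (sdSys x L T 0 H) (lcyG L H w c d) a b ω₀) ⊆ tscBox a b c d := fun y hy => hy.1
  have hdis : ∀ y ∈ lgeUp L a b c d (lseFr (sdSys x L T 0 H) (lcyG L H w c d) a b ω₀),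
      y ∉ lgeUp L a b c d (lenQ (sdSys x L T 0 H) (lcyG L H w c d) a b ω₀) := fun y hy hy' => (lse_mem_Fr.1 hy.2).2 hy'.2
  obtain ⟨u, hu, hwk⟩ := lge_Q_walk (S := sdSys x L T 0 H) (G := lcyG L H w c d) (fun y hy => hy.1) hz
  have pQ := tsc_R_symm (lge_path_up hQO hwk)
  have zQ := lge_up_mem hQO hz
  rcases hu with hu | hu
  · obtain ⟨hmF, ⟨l, hl, hla, hlm⟩, r, hr, hrb, hmr⟩ := lge_mem_M hm2
    rcases hX with ⟨_, e2, e3⟩ | ⟨_, e2, e3⟩
    · exact lge_cross_top sF sQ hdis (lge_up_mem hFO hmF) (lge_path_up hFO hmr) e2 hrb zQ pQ hu (a - 1) (Or.inl ⟨rfl, e3, h2⟩)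
    · exact lge_cross_top sF sQ hdis (lge_up_mem hFO hl) (lge_path_up hFO hlm) hla e2 zQ pQ hu (b + 1) (Or.inr ⟨rfl, e3, h2⟩)
  · obtain ⟨hmF, ⟨l, hl, hla, hlm⟩, r, hr, hrb, hmr⟩ := lge_mem_M hm1
    rcases hX with ⟨e1, _, e3⟩ | ⟨e1, _, e3⟩
    · exact lge_cross_bot sF sQ hdis (lge_up_mem hFO hmF) (lge_path_up hFO hmr) e1 hrb zQ pQ hu (a - 1) (Or.inl ⟨rfl, e3, h1⟩)
    · exact lge_cross_bot sF sQ hdis (lge_up_mem hFO hl) (lge_path_up hFO hlm) hla e1 zQ pQ hu (b + 1) (Or.inr ⟨rfl, e3, h1⟩)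

end Chart2

/-! ## Part D: the ports -/

section Ports

variable {x : ℝ} {L H : ℕ} {T : Bool} {w a b c d : ℤ} {ω₀ : ClCfg TV TV}

/-- a type of port: retained cell `(X0, j)`, cell looked at `(X0, j + σ)`, port = the site `(X1, j + ε)` -/
def LgeTy (L : ℕ) (M Q : Finset TV) (X0 X1 σ ε : ℤ) (v : TV) : Prop :=
  ∃ j : ℤ, sdRed L (X0, j) ∈ M ∧ sdRed L (X0, j + σ) ∈ Q ∧ v = sdRed L (X1, j + ε)

theorem lge_X_red {X0 j : ℤ} (h1 : w ≤ X0) (h2 : X0 < w + L) : lcyX L w (sdRed L (X0, j)) = X0 :=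
  congrArg Prod.fst (lcy_lift_red (L := L) (w := w) (u := (X0, j)) h1 h2)

/-- at most one port of each type -/
theorem lge_ty_uniq (hw : w ≤ a) (hb : b < w + L) (hab : a ≤ b) {X0 X1 σ ε : ℤ} (hX0 : X0 = a ∨ X0 = b) (hσ : σ = 1 ∨ σ = -1) {v v' : TV}
    (h : LgeTy L (lseM (sdSys x L T 0 H) (lcyG L H w c d) a b ω₀) (lenQ (sdSys x L T 0 H) (lcyG L H w c d) a b ω₀) X0 X1 σ ε v)
    (h' : LgeTy L (lseM (sdSys x L T 0 H) (lcyG L H w c d) a b ω₀) (lenQ (sdSys x L T 0 H) (lcyG L H w c d) a b ω₀) X0 X1 σ ε v') :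
    v = v' := by
  have hX : ∀ j : ℤ, lcyX L w (sdRed L (X0, j)) = X0 := fun j => lge_X_red (by omega) (by omega)
  have key : ∀ j j' : ℤ, j < j' → sdRed L (X0, j) ∈ lseM (sdSys x L T 0 H) (lcyG L H w c d) a b ω₀ →
      sdRed L (X0, j') ∈ lseM (sdSys x L T 0 H) (lcyG L H w c d) a b ω₀ →
      sdRed L (X0, j + σ) ∈ lenQ (sdSys x L T 0 H) (lcyG L H w c d) a b ω₀ →
      sdRed L (X0, j' + σ) ∈ lenQ (sdSys x L T 0 H) (lcyG L H w c d) a b ω₀ → False := by
    intro j j' hjj m1 m2 q1 q2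
    have hXX : ∀ t : ℤ, (lcyX L w (sdRed L (X0, j)) = a ∧ lcyX L w (sdRed L (X0, j')) = a ∧ lcyX L w (sdRed L (X0, t)) = a) ∨
        (lcyX L w (sdRed L (X0, j)) = b ∧ lcyX L w (sdRed L (X0, j')) = b ∧ lcyX L w (sdRed L (X0, t)) = b) := by
      intro t
      rw [hX, hX, hX]
      rcases hX0 with e | e
      · exact Or.inl ⟨e, e, e⟩
      · exact Or.inr ⟨e, e, e⟩
    rcases hσ with e | e
    · subst e
      by_cases hj : j + 1 = j'
      · rw [hj] at q1
        exact lse_M_not_Q m2 q1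
      · exact lge_noQ m1 m2 q1 (hXX _) (show j < j + 1 by omega) (show j + 1 < j' by omega)
    · subst e
      by_cases hj : j' + -1 = j
      · rw [hj] at q2
        exact lse_M_not_Q m1 q2
      · exact lge_noQ m1 m2 q2 (hXX _) (show j < j' + -1 by omega) (show j' + -1 < j' by omega)
  obtain ⟨j, m1, q1, e1⟩ := h
  obtain ⟨j', m2, q2, e2⟩ := h'
  rcases lt_trichotomy j j' with hj | hj | hj
  · exact (key j j' hj m1 m2 q1 q2).elim
  · rw [e1, e2, hj]
  · exact (key j' j hj m2 m1 q2 q1).elim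

/-- planar: the position of a retained cell, an outer cell and a cell looked at which touch -/
theorem lge_pos {m e q : TV} (hm : m ∈ tscBox a b c d) (hm1 : c < m.2) (hm2 : m.2 < d) (hq : q ∈ tscBox a b c d) (he : e ∉ tscBox a b c d)
    (hne : m ≠ q) (t1 : triAdj e m) (t2 : triAdj e q) :
    (e.1 = a - 1 ∧ m.1 = a ∧ q.1 = a ∧ ((e.2 = m.2 + 1 ∧ q.2 = m.2 + 1) ∨ (e.2 = m.2 ∧ q.2 = m.2 - 1))) ∨
    (e.1 = b + 1 ∧ m.1 = b ∧ q.1 = b ∧ ((e.2 = m.2 ∧ q.2 = m.2 + 1) ∨ (e.2 = m.2 - 1 ∧ q.2 = m.2 - 1))) := by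
  have he' : e.1 < a ∨ b < e.1 ∨ e.2 < c ∨ d < e.2 := by
    by_contra hh
    simp only [not_or, not_lt] at hh
    exact he ⟨hh.1, hh.2.1, hh.2.2.1, hh.2.2.2⟩
  have hne' : m.1 ≠ q.1 ∨ m.2 ≠ q.2 := by
    by_contra hh
    simp only [not_or, not_not] at hh
    exact hne (Prod.ext hh.1 hh.2)
  obtain ⟨y1, y2, y3, y4⟩ := hm
  obtain ⟨z1, z2, z3, z4⟩ := hq
  rw [tsc_adj_iff] at t1 t2
  rcases t1 with h | h | h | h | h | h <;> rcases t2 with g | g | g | g | g | g <;> omega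

/-- **classification of the ports** -/
theorem lge_port_ty (hL : 0 < L) (hw : w ≤ a) (hb : b < w + L) (hgap : b - a + 4 ≤ L) (hc : 2 ≤ c) (hd : d + 3 ≤ H) {v : TV}
    (hv : v ∈ lseP (sdSys x L T 0 H) (lcyK L H) (lcyG L H w c d) a b ω₀) :
    LgeTy L (lseM (sdSys x L T 0 H) (lcyG L H w c d) a b ω₀) (lenQ (sdSys x L T 0 H) (lcyG L H w c d) a b ω₀) a a 1 1 v ∨
    LgeTy L (lseM (sdSys x L T 0 H) (lcyG L H w c d) a b ω₀) (lenQ (sdSys x L T 0 H) (lcyG L H w c d) a b ω₀) a a (-1) (lgeT T) v ∨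
    LgeTy L (lseM (sdSys x L T 0 H) (lcyG L H w c d) a b ω₀) (lenQ (sdSys x L T 0 H) (lcyG L H w c d) a b ω₀) b (b + 1) 1 (lgeT T) v ∨
    LgeTy L (lseM (sdSys x L T 0 H) (lcyG L H w c d) a b ω₀) (lenQ (sdSys x L T 0 H) (lcyG L H w c d) a b ω₀) b (b + 1) (-1) 0 v := by
  have hG := lge_geo x T hL hw hb hgap hc hd
  unfold lseP at hv
  obtain ⟨hvR, hvX⟩ := Finset.mem_inter.1 hv
  obtain ⟨m, hm, hvm⟩ := lse_mem_R.1 hvR
  obtain ⟨e, heX, hve⟩ := lse_mem_sv.1 hvX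
  unfold lseXp at heX
  obtain ⟨heE, heW⟩ := Finset.mem_sdiff.1 heX
  obtain ⟨heC, heO, _⟩ := lse_mem_Eo.1 heE
  obtain ⟨v', hv'e, hv'p⟩ : ∃ v' ∈ (sdSys x L T 0 H).sv e, v' ∈ (lenRec (sdSys x L T 0 H) (lcyK L H) (lcyG L H w c d) a b ω₀).Bp := by
    by_contra hh
    exact heW (lse_mem_Xw.2 ⟨heE, fun u hu hup => hh ⟨u, hu, hup⟩⟩)
  have hclr := (hG.clr e heC ⟨v, hve, lse_R_sub hvR⟩).1
  obtain ⟨q, hq, hv'q⟩ : ∃ q ∈ lenQ (sdSys x L T 0 H) (lcyG L H w c d) a b ω₀, v' ∈ (sdSys x L T 0 H).sv q := by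
    rcases lse_rec_bp.1 hv'p with h | h
    · exact absurd h (hclr v' hv'e).1
    · exact lse_mem_sv.1 h.1
  obtain ⟨hmO, hmQ⟩ := lse_M_OnQ hm
  have hqO := lse_Q_sub_O _ _ _ _ _ hq
  obtain ⟨bm, rm⟩ := lge_lift_box hmO
  obtain ⟨bq, rq⟩ := lge_lift_box hqO
  have hmbox := (lse_mem_O.1 hmO)
  have hm1 : c < m.2 := by
    rcases lt_or_eq_of_le bm.2.2.1 with h | h
    · exact h
    · exact absurd (lse_mem_Q.2 ⟨hmbox.1, hmbox.2, Or.inr (Or.inl h.symm)⟩) hmQ
  have hm2 : m.2 < d := by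
    rcases lt_or_eq_of_le bm.2.2.2 with h | h
    · exact h
    · exact absurd (lse_mem_Q.2 ⟨hmbox.1, hmbox.2, Or.inl h⟩) hmQ
  have ho := lge_outer hL hw hb (by omega) (by omega) heC heO (a - 1)
  have t1 : triAdj (lcyLift L (a - 1) e) (lcyLift L w m) :=
    (lge_touch hL (by omega) heC hmO ⟨v, hve, hvm⟩).resolve_left fun hh => ho (hh ▸ bm)
  have t2 : triAdj (lcyLift L (a - 1) e) (lcyLift L w q) :=
    (lge_touch hL (by omega) heC hqO ⟨v', hv'e, hv'q⟩).resolve_left fun hh => ho (hh ▸ bq)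
  have hne : lcyLift L w m ≠ lcyLift L w q := by
    intro hh
    apply hmQ
    rw [← rm, hh, rq]
    exact hq
  have pos := lge_pos bm hm1 hm2 bq ho hne t1 t2
  have hvm' : v ∈ sdCell L T (lcyLift L w m) := by rw [lge_cell_lift T _ hmbox.1]; exact hvm
  have hve' : v ∈ sdCell L T (lcyLift L (a - 1) e) := by rw [lge_cell_lift T _ heC]; exact hve
  have af := tsc_adj_fst t1
  have hab1 := bm.1
  have hab2 := bm.2.1
  obtain ⟨o, o', a1, a2, a3, a4, a5, a6, b1, b2, b3, b4, b5, b6, ev, eo⟩ := lge_share_pt hvm' hve' (by omega) (by omega)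
  obtain ⟨eo1, eo2⟩ := Prod.ext_iff.1 eo
  simp only [Prod.fst_add, Prod.snd_add] at eo1 eo2
  have mk : ∀ X0 X1 σ ε : ℤ, (lcyLift L w m).1 = X0 → (lcyLift L w q).1 = X0 → (lcyLift L w q).2 = (lcyLift L w m).2 + σ →
      (lcyLift L w m).1 + o.1 = X1 → o.2 = ε →
      LgeTy L (lseM (sdSys x L T 0 H) (lcyG L H w c d) a b ω₀) (lenQ (sdSys x L T 0 H) (lcyG L H w c d) a b ω₀) X0 X1 σ ε v := by
    intro X0 X1 σ ε h1 h2 h3 h4 h5
    refine ⟨(lcyLift L w m).2, ?_, ?_, ?_⟩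
    · have : ((X0, (lcyLift L w m).2) : TV) = lcyLift L w m := Prod.ext h1.symm rfl
      rw [this, rm]; exact hm
    · have : ((X0, (lcyLift L w m).2 + σ) : TV) = lcyLift L w q := Prod.ext h2.symm h3.symm
      rw [this, rq]; exact hq
    · rw [ev]
      congr 1
      exact Prod.ext h4 (by simp only [Prod.snd_add]; omega)
  rcases pos with ⟨p1, p2, p3, ⟨p4, p5⟩ | ⟨p4, p5⟩⟩ | ⟨p1, p2, p3, ⟨p4, p5⟩ | ⟨p4, p5⟩⟩
  · exact Or.inl (mk _ _ _ _ p2 p3 p5 (by omega) (by omega))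
  · exact Or.inr (Or.inl (mk _ _ _ _ p2 p3 (by omega) (by omega) (by omega)))
  · exact Or.inr (Or.inr (Or.inl (mk _ _ _ _ p2 p3 p5 (by omega) (by omega))))
  · exact Or.inr (Or.inr (Or.inr (mk _ _ _ _ p2 p3 (by omega) (by omega) (by omega))))

/-- **at most four ports** -/
theorem lge_ports (x : ℝ) (T : Bool) (hL : 0 < L) (hw : w ≤ a) (hb : b < w + L) (hgap : b - a + 4 ≤ L) (hc : 2 ≤ c) (hd : d + 3 ≤ H)
    (ω₀ : ClCfg TV TV) : (lseP (sdSys x L T 0 H) (lcyK L H) (lcyG L H w c d) a b ω₀).card ≤ 4 := by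
  classical
  by_cases hab : a ≤ b
  · obtain ⟨P, hP⟩ : ∃ P, P = lseP (sdSys x L T 0 H) (lcyK L H) (lcyG L H w c d) a b ω₀ := ⟨_, rfl⟩
    obtain ⟨M, hM⟩ : ∃ M, M = lseM (sdSys x L T 0 H) (lcyG L H w c d) a b ω₀ := ⟨_, rfl⟩
    obtain ⟨Q, hQ⟩ : ∃ Q, Q = lenQ (sdSys x L T 0 H) (lcyG L H w c d) a b ω₀ := ⟨_, rfl⟩
    have one : ∀ X0 X1 σ ε : ℤ, (X0 = a ∨ X0 = b) → (σ = 1 ∨ σ = -1) → (P.filter (LgeTy L M Q X0 X1 σ ε)).card ≤ 1 := by
      intro X0 X1 σ ε h1 h2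
      refine Finset.card_le_one.2 fun u hu u' hu' => ?_
      have t := (Finset.mem_filter.1 hu).2
      have t' := (Finset.mem_filter.1 hu').2
      rw [hM, hQ] at t t'
      exact lge_ty_uniq hw hb hab h1 h2 t t'
    have hsub : P ⊆ (P.filter (LgeTy L M Q a a 1 1) ∪ P.filter (LgeTy L M Q a a (-1) (lgeT T))) ∪
        (P.filter (LgeTy L M Q b (b + 1) 1 (lgeT T)) ∪ P.filter (LgeTy L M Q b (b + 1) (-1) 0)) := by
      intro v hv
      have hv' := hv
      rw [hP] at hv'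
      have := lge_port_ty hL hw hb hgap hc hd hv'
      rw [← hM, ← hQ] at this
      simp only [Finset.mem_union, Finset.mem_filter]
      tauto
    rw [← hP]
    refine (Finset.card_le_card hsub).trans ?_
    refine (Finset.card_union_le _ _).trans ?_
    have u1 := Finset.card_union_le (P.filter (LgeTy L M Q a a 1 1)) (P.filter (LgeTy L M Q a a (-1) (lgeT T)))
    have u2 := Finset.card_union_le (P.filter (LgeTy L M Q b (b + 1) 1 (lgeT T))) (P.filter (LgeTy L M Q b (b + 1) (-1) 0))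
    have o1 := one a a 1 1 (Or.inl rfl) (Or.inl rfl)
    have o2 := one a a (-1) (lgeT T) (Or.inl rfl) (Or.inr rfl)
    have o3 := one b (b + 1) 1 (lgeT T) (Or.inr rfl) (Or.inl rfl)
    have o4 := one b (b + 1) (-1) 0 (Or.inr rfl) (Or.inr rfl)
    omega
  · have : lseP (sdSys x L T 0 H) (lcyK L H) (lcyG L H w c d) a b ω₀ = ∅ := by
      refine Finset.eq_empty_of_forall_notMem fun v hv => ?_
      unfold lseP at hv
      obtain ⟨m, hm, _⟩ := lse_mem_R.1 (Finset.mem_inter.1 hv).1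
      obtain ⟨_, _, _, h4, h5⟩ := lge_mem_O.1 (lse_M_sub_O hm)
      omega
    rw [this]; simp

end Ports

/-! ## Part E: the two model inputs, as closed contracts; the assembly -/

/-- **straight short crossing on the mixed cylinder** (TEX[annulus:straight-short], dual form; both classes), SAME ranges as `LcySE`: box `[a, b] × [k, k + r - 1]` of index coordinates, `3.5 r ≤ b - a ≤ 5 r`,
vertical room `r / 4`, circumference `≥ 10 r`.   History `lseH3` = mixed b.c. + top and bottom ROWS OF CELLS of the box open-plus + the sites of the two short sides minus + open-minus walls outside the short sides.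
Under it, with probability `≥ c`, no left-right walk of non-plus cells of the box.      OWNER: A1 (55, 191, 164, 267). -/
def LcyLSS (x : ℝ) : Prop :=
  ∃ c : ℝ, 0 < c ∧ ∃ r₀ : ℕ, ∀ (L H : ℕ) (T : Bool) (k r w a b : ℤ), (r₀ : ℤ) ≤ r → 10 * r ≤ L → 12 + r ≤ 4 * k →
    4 * k + 5 * r ≤ 4 * (H : ℤ) - 16 → w ≤ a → b < w + L → 7 * r ≤ 2 * (b - a) → b - a ≤ 5 * r →
    LseLSS (sdSys x L T 0 H) (lcyK L H) (lcyG L H w k (k + r - 1)) c a b

theorem lge_eqns_cite : True := by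
  have := @lgeT.eq_1
  have := @lgeUp.eq_1
  have := @LgeTy.eq_1
  have := @LcyLSS.eq_1
  trivial

/-- **(SE) on the mixed cylinder from the straight short crossing** -/
theorem lge_se (x : ℝ) (hx0 : 0 < x) (hx1 : x ≤ 1) (hLSS : LcyLSS x) (hO : LcyOrd x) : LcySE x := by
  obtain ⟨c, hc, r₀, h⟩ := hLSS
  refine ⟨c / 64, by positivity, max r₀ 1, ?_⟩
  intro L H T k r w a b hr hL hk1 hk2 hw hb h7 h5
  have hr' : ((max r₀ 1 : ℕ) : ℤ) ≤ r := hr
  have hr0 : (r₀ : ℤ) ≤ r := le_trans (by exact_mod_cast le_max_left _ _) hr'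
  have hr1 : (1 : ℤ) ≤ r := le_trans (by exact_mod_cast le_max_right r₀ 1) hr'
  exact lse_main _ (sd_sys_ok x hx0 hx1 L (by omega) T 0 H) (lge_card3 x L T 0 H) _ (lge_K_legal x L H T) (hO L H T (by omega) (by omega)) _ a b
    (lge_geo x T (by omega) hw hb (by omega) (by omega) (by omega))
    (fun ω₀ _ _ _ => lge_ports x T (by omega) hw hb (by omega) (by omega) (by omega) ω₀) hc.le (h L H T k r w a b hr0 hL hk1 hk2 hw hb h7 h5)

end Claimed.Agent.R291
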