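import Claimed.Agent.R291.Glue.EnterB
import Claimed.Agent.R291.Glue.Box
import Claimed.Agent.R291.Ann.LenOrd

/-!
# Row 291 (S0539), unit ANN, Ann/LenLSS : THE STRAIGHT SHORT CROSSING ON THE MIXED CYLINDER = `LcyLSS x`      (owner helper267; prefix `lls_` / `Lls`)

TEX[annulus:straight-short] + TEX[annulus:gluing].      CONSUMER: `Exit/AnnLSS.exit_ann_lss` (193: `lge_se`, `exit_ann_se`).      INPUTS: `ent_join_iso`, `ent_geo_clip`, `ent_P2_sub` (164, `Glue/Enter`), `enb_win_gen` + kit `EnbWin` (63, `Glue/EnterB`),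
`glb_three`, `glb_block` (191 / 88, `Glue/Box`), `lor_cyl_ord` (20, `Ann/LenOrd`).
* Part 1 (ABSTRACT, 0 sorry): `LlsCh T K G a b φ ψ A B C D` = a PLANAR CHART (up-triangle model) of the ambient `T` near the box: sites `φ`, cell indices `ψ`;  strip `Q0 = [A, B] × [C, D]` (sites), box of cells `[A, B] × [C - 1, D]`,
  rows of cells `C - 1` and `D` = `lseTB`.      `lls_rec : EntRec T (lseH3 ..) (φ Q0) ..` with `Pl = (lseH3).Bp`, `Rib = lseTB`;   `lls_cb`, `lls_mem_cin`;   `lls_ports` (at most 6 ports);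
  `lls_pull`, `lls_det` = (J): a path of open-plus cells of the rhombus + the two open-plus rows stop every left-right walk of non-plus cells;   **`lls_core : LseLSS T K G (1 / 64 / 2 ^ 10) a b`**  (`Z(h3) = 0` is trivial: NO `LseGeo`).
* Part 2: the charts of `sdSys x L T 0 H`, `lcyG L H w k d`: `lls_ch_gen` (from a window `EnbWin` of 63 on the enlarged box), `lls_ch_true` (`φ = ψ = sdRed L`, `(A, B, C, D) = (a, b, k + 1, d)`),
  `lls_ch_false` (point reflection `u ↦ (a + b + 1, k + d + 1) - u`), `lls_box`, **`lls_main`** = the body of `LcyLSS x`.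
-/

set_option autoImplicit false
set_option linter.unusedSectionVars false
set_option linter.unusedVariables false
set_option linter.unusedSimpArgs false

namespace Claimed.Agent.R291

open Relation Claims Claims.C0467

/-! ## Part 1: the planar chart of the box -/

/-- **a planar chart** -/
structure LlsCh (T : ClSys TV TV) (K : ClCon TV TV) (G : LenGeo TV) (a b : ℤ) (φ ψ : TV → TV) (A B C D : ℤ) : Prop where
  inj : ∀ u ∈ amBox (A - 1) (B + 1) (C - 1) (D + 1), ∀ v ∈ amBox (A - 1) (B + 1) (C - 1) (D + 1), φ u = φ v → u = v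
  site : ∀ u ∈ amBox (A - 1) (B + 1) (C - 1) (D + 1), φ u ∈ T.A ∧ φ u ∉ K.Bp ∧ φ u ∉ K.Bm
  cell : ∀ y ∈ amBox (A - 1) B (C - 1) D, ψ y ∈ T.C ∧ T.sv (ψ y) = (cellV y).image φ
  sur : ∀ w ∈ T.C, ∀ u ∈ amBox A B C D, φ u ∈ T.sv w → ∃ y, u ∈ cellV y ∧ ψ y = w
  box : ∀ w, w ∈ lseO T G a b ↔ ∃ y ∈ amBox A B (C - 1) D, ψ y = w
  tb : ∀ y ∈ amBox A B (C - 1) D, (G.top (ψ y) ∨ G.bot (ψ y)) ↔ (y.2 = C - 1 ∨ y.2 = D)
  adj : ∀ y ∈ amBox A B (C - 1) D, ∀ z ∈ amBox A B (C - 1) D, G.adj (ψ y) (ψ z) → triAdj y z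
  ends : ∀ y ∈ amBox A B (C - 1) D, ∀ z ∈ amBox A B (C - 1) D, G.X (ψ y) = a → G.X (ψ z) = b → (y.1 = A ∧ z.1 = B) ∨ (y.1 = B ∧ z.1 = A)
  band : ∀ y, G.band y → y ∈ T.C
  kEq : K.Eq = ∅
  kOp : K.Op = ∅
  kOm : K.Om = ∅
  kCl : K.Cl = ∅

/-- the sites of the top and bottom rows of cells, in the chart -/
def LlsPl (A B C D : ℤ) (u : TV) : Prop :=
  A ≤ u.1 ∧ ((u.1 ≤ B + 1 ∧ (u.2 = C - 1 ∨ u.2 = D)) ∨ (u.1 ≤ B ∧ (u.2 = C ∨ u.2 = D + 1)))

section chart

variable {T : ClSys TV TV} {K : ClCon TV TV} {G : LenGeo TV} {a b : ℤ} {φ ψ : TV → TV} {A B C D : ℤ}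

/-- the sites of a cell of the window lie in the window -/
theorem lls_cell_win {y u : TV} (hy : y ∈ amBox (A - 1) B (C - 1) D) (hu : u ∈ cellV y) : u ∈ amBox (A - 1) (B + 1) (C - 1) (D + 1) := by
  rw [glb_mem_box] at hy ⊢
  rw [pcp_mem_cell'] at hu
  omega

theorem lls_mem_sv (ch : LlsCh T K G a b φ ψ A B C D) {y u : TV} (hy : y ∈ amBox (A - 1) B (C - 1) D)
    (hu : u ∈ amBox (A - 1) (B + 1) (C - 1) (D + 1)) : φ u ∈ T.sv (ψ y) ↔ u ∈ cellV y := by
  rw [(ch.cell y hy).2, Finset.mem_image]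
  constructor
  · rintro ⟨v, hv, e⟩
    rw [← ch.inj v (lls_cell_win hy hv) u hu e]
    exact hv
  · exact fun h => ⟨u, h, rfl⟩

theorem lls_psi_inj (ch : LlsCh T K G a b φ ψ A B C D) {y z : TV} (hy : y ∈ amBox (A - 1) B (C - 1) D) (hz : z ∈ amBox (A - 1) B (C - 1) D)
    (e : ψ y = ψ z) : y = z := by
  have h1 : y ∈ cellV z := by
    rw [← lls_mem_sv ch hz (lls_cell_win hy (by simp [cellV])), ← e, lls_mem_sv ch hy (lls_cell_win hy (by simp [cellV]))]
    simp [cellV]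
  have h2 : z ∈ cellV y := by
    rw [← lls_mem_sv ch hy (lls_cell_win hz (by simp [cellV])), e, lls_mem_sv ch hz (lls_cell_win hz (by simp [cellV]))]
    simp [cellV]
  rw [pcp_mem_cell'] at h1 h2
  exact Prod.ext (by omega) (by omega)

/-- a cell of the ambient which touches the strip -/
theorem lls_touch (ch : LlsCh T K G a b φ ψ A B C D) {w u : TV} (hw : w ∈ T.C) (hu : u ∈ amBox A B C D) (h : φ u ∈ T.sv w) :
    ∃ y ∈ amBox (A - 1) B (C - 1) D, u ∈ cellV y ∧ ψ y = w := by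
  obtain ⟨y, h1, h2⟩ := ch.sur w hw u hu h
  refine ⟨y, ?_, h1, h2⟩
  rw [glb_mem_box] at hu ⊢
  rw [pcp_mem_cell'] at h1
  omega

theorem lls_mem_Q (ch : LlsCh T K G a b φ ψ A B C D) {u : TV} (hu : u ∈ amBox (A - 1) (B + 1) (C - 1) (D + 1)) :
    φ u ∈ (amBox A B C D).image φ ↔ u ∈ amBox A B C D := by
  rw [Finset.mem_image]
  constructor
  · rintro ⟨v, hv, e⟩
    rw [← ch.inj v (by rw [glb_mem_box] at hv ⊢; omega) u hu e]
    exact hv
  · exact fun h => ⟨u, h, rfl⟩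

/-- the retained cells -/
theorem lls_mem_cin (ch : LlsCh T K G a b φ ψ A B C D) (hT : ClOk T) {w : TV} :
    w ∈ T.cin ((amBox A B C D).image φ) ↔ ∃ y ∈ amBox A (B - 1) C (D - 1), ψ y = w := by
  rw [ent_mem_cin]
  constructor
  · rintro ⟨hw, hs⟩
    obtain ⟨v, hv⟩ := hT.ne w hw
    obtain ⟨u, hu, rfl⟩ := Finset.mem_image.1 (hs hv)
    obtain ⟨y, hy, _, rfl⟩ := lls_touch ch hw hu hv
    refine ⟨y, ?_, rfl⟩
    have key : ∀ v ∈ cellV y, v ∈ amBox A B C D := by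
      intro v hv
      rw [← lls_mem_Q ch (lls_cell_win hy hv)]
      exact hs ((lls_mem_sv ch hy (lls_cell_win hy hv)).2 hv)
    have k1 := key y (by simp [cellV])
    have k2 := key (y + (1, 0)) (by simp [cellV])
    have k3 := key (y + (0, 1)) (by simp [cellV])
    rw [glb_mem_box] at k1 k2 k3 ⊢
    simp only [Prod.fst_add, Prod.snd_add] at k2 k3
    omega
  · rintro ⟨y, hy, rfl⟩
    have hy' : y ∈ amBox (A - 1) B (C - 1) D := by rw [glb_mem_box] at hy ⊢; omega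
    refine ⟨(ch.cell y hy').1, ?_⟩
    rw [(ch.cell y hy').2]
    refine Finset.image_subset_image fun v hv => ?_
    rw [glb_mem_box] at hy ⊢
    rw [pcp_mem_cell'] at hv
    omega

theorem lls_mem_TB (ch : LlsCh T K G a b φ ψ A B C D) {w : TV} :
    w ∈ lseTB T G a b ↔ ∃ y ∈ amBox A B (C - 1) D, (y.2 = C - 1 ∨ y.2 = D) ∧ ψ y = w := by
  classical
  unfold lseTB
  rw [Finset.mem_filter, ch.box]
  constructor
  · rintro ⟨⟨y, hy, rfl⟩, h⟩
    exact ⟨y, hy, (ch.tb y hy).1 h, rfl⟩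
  · rintro ⟨y, hy, h, rfl⟩
    exact ⟨⟨y, hy, rfl⟩, (ch.tb y hy).2 h⟩

theorem lls_O_win {y : TV} (hy : y ∈ amBox A B (C - 1) D) : y ∈ amBox (A - 1) B (C - 1) D := by
  rw [glb_mem_box] at hy ⊢; omega

/-- the sites of the two rows -/
theorem lls_mem_svTB (ch : LlsCh T K G a b φ ψ A B C D) (hAB : A ≤ B) (hCD : C ≤ D) {u : TV} (hu : u ∈ amBox (A - 1) (B + 1) (C - 1) (D + 1)) :
    φ u ∈ lseSv T (lseTB T G a b) ↔ LlsPl A B C D u := by
  rw [lse_mem_sv]
  constructor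
  · rintro ⟨w, hw, h⟩
    obtain ⟨y, hy, h2, rfl⟩ := (lls_mem_TB ch).1 hw
    rw [lls_mem_sv ch (lls_O_win hy) hu, pcp_mem_cell'] at h
    rw [glb_mem_box] at hy
    unfold LlsPl
    omega
  · intro h
    unfold LlsPl at h
    rw [glb_mem_box] at hu
    by_cases h1 : u.2 = C - 1 ∨ u.2 = D
    · by_cases h2 : u.1 ≤ B
      · have hy : u ∈ amBox A B (C - 1) D := by rw [glb_mem_box]; omega
        exact ⟨ψ u, (lls_mem_TB ch).2 ⟨u, hy, h1, rfl⟩, (lls_mem_sv ch (lls_O_win hy) (by rw [glb_mem_box]; omega)).2 (by simp [cellV])⟩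
      · have hy : u - (1, 0) ∈ amBox A B (C - 1) D := by
          rw [glb_mem_box]; simp only [Prod.fst_sub, Prod.snd_sub]; omega
        exact ⟨ψ (u - (1, 0)), (lls_mem_TB ch).2 ⟨_, hy, by simpa using h1, rfl⟩,
          (lls_mem_sv ch (lls_O_win hy) (by rw [glb_mem_box]; omega)).2 (by simp [cellV])⟩
    · have hy : u - (0, 1) ∈ amBox A B (C - 1) D := by
        rw [glb_mem_box]; simp only [Prod.fst_sub, Prod.snd_sub]; omega
      exact ⟨ψ (u - (0, 1)), (lls_mem_TB ch).2 ⟨_, hy, by simp only [Prod.snd_sub]; omega, rfl⟩,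
        (lls_mem_sv ch (lls_O_win hy) (by rw [glb_mem_box]; omega)).2 (by simp [cellV])⟩

theorem lls_H3_bp : (lseH3 T K G a b).Bp = K.Bp ∪ lseSv T (lseTB T G a b) := rfl
theorem lls_H3_bm : (lseH3 T K G a b).Bm = K.Bm ∪ lseN3 T G a b := rfl
theorem lls_H3_op : (lseH3 T K G a b).Op = K.Op ∪ lseTB T G a b := rfl
theorem lls_H3_om : (lseH3 T K G a b).Om = K.Om ∪ lseW3 T G a b := rfl
theorem lls_H3_cl : (lseH3 T K G a b).Cl = K.Cl := rfl
theorem lls_H3_eq : (lseH3 T K G a b).Eq = K.Eq := rfl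

theorem lls_mem_bp (ch : LlsCh T K G a b φ ψ A B C D) (hAB : A ≤ B) (hCD : C ≤ D) {u : TV} (hu : u ∈ amBox (A - 1) (B + 1) (C - 1) (D + 1)) :
    φ u ∈ (lseH3 T K G a b).Bp ↔ LlsPl A B C D u := by
  rw [lls_H3_bp, Finset.mem_union, lls_mem_svTB ch hAB hCD hu]
  exact ⟨fun h => h.resolve_left (ch.site u hu).2.1, Or.inr⟩

theorem lls_Q_win {u : TV} (hu : u ∈ amBox A B C D) : u ∈ amBox (A - 1) (B + 1) (C - 1) (D + 1) := by
  rw [glb_mem_box] at hu ⊢; omega

theorem lls_cin_O (ch : LlsCh T K G a b φ ψ A B C D) (hT : ClOk T) {w : TV} (hw : w ∈ T.cin ((amBox A B C D).image φ)) : w ∈ lseO T G a b := by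
  obtain ⟨y, hy, rfl⟩ := (lls_mem_cin ch hT).1 hw
  exact (ch.box _).2 ⟨y, by rw [glb_mem_box] at hy ⊢; omega, rfl⟩

/-- the layer of the strip is its boundary -/
theorem lls_lay (ch : LlsCh T K G a b φ ψ A B C D) (hT : ClOk T) (hAB : A ≤ B) (hCD : C ≤ D) :
    entLay T ((amBox A B C D).image φ) (T.cin ((amBox A B C D).image φ)) =
      (amBox A B C C).image φ ∪ (amBox A B D D).image φ ∪ (amBox A A C D).image φ ∪ (amBox B B C D).image φ := by
  ext v
  rw [ent_mem_lay, ← Finset.image_union, ← Finset.image_union, ← Finset.image_union]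
  constructor
  · rintro ⟨hv, w, hw, hvw⟩
    obtain ⟨u, hu, rfl⟩ := Finset.mem_image.1 hv
    obtain ⟨hwC, hwR⟩ := Finset.mem_sdiff.1 hw
    obtain ⟨y, hy, huy, rfl⟩ := lls_touch ch hwC hu hvw
    refine Finset.mem_image_of_mem φ ?_
    have hn : ¬ y ∈ amBox A (B - 1) C (D - 1) := fun hc => hwR ((lls_mem_cin ch hT).2 ⟨y, hc, rfl⟩)
    simp only [Finset.mem_union, glb_mem_box] at hu hy hn ⊢
    rw [pcp_mem_cell'] at huy
    omega
  · intro hv
    obtain ⟨u, hu, rfl⟩ := Finset.mem_image.1 hv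
    have huQ : u ∈ amBox A B C D := by
      simp only [Finset.mem_union, glb_mem_box] at hu ⊢
      omega
    refine ⟨Finset.mem_image_of_mem φ huQ, ?_⟩
    -- a cell through `u` which leaves the strip
    obtain ⟨y, hy, huy, hn⟩ : ∃ y ∈ amBox (A - 1) B (C - 1) D, u ∈ cellV y ∧ ¬ y ∈ amBox A (B - 1) C (D - 1) := by
      simp only [Finset.mem_union, glb_mem_box] at hu
      rw [glb_mem_box] at huQ
      by_cases h1 : u.2 = C
      · exact ⟨u - (0, 1), by rw [glb_mem_box]; simp only [Prod.fst_sub, Prod.snd_sub]; omega, by simp [cellV],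
          by rw [glb_mem_box]; simp only [Prod.fst_sub, Prod.snd_sub]; omega⟩
      · by_cases h2 : u.1 = A
        · exact ⟨u - (1, 0), by rw [glb_mem_box]; simp only [Prod.fst_sub, Prod.snd_sub]; omega, by simp [cellV],
            by rw [glb_mem_box]; simp only [Prod.fst_sub, Prod.snd_sub]; omega⟩
        · exact ⟨u, by rw [glb_mem_box]; omega, by simp [cellV], by rw [glb_mem_box]; omega⟩
    refine ⟨ψ y, Finset.mem_sdiff.2 ⟨(ch.cell y hy).1, fun hc => hn ?_⟩, (lls_mem_sv ch hy (lls_Q_win huQ)).2 huy⟩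
    obtain ⟨z, hz, e⟩ := (lls_mem_cin ch hT).1 hc
    rw [← lls_psi_inj ch (by rw [glb_mem_box] at hz ⊢; omega) hy e]
    exact hz

/-- **the record `lseH3` enters the strip** -/
theorem lls_rec (ch : LlsCh T K G a b φ ψ A B C D) (hT : ClOk T) (hK : ClLegal T K) (hAB : A ≤ B) (hCD : C ≤ D)
    (hZ : 0 < T.Z ((lseH3 T K G a b).Holds T)) :
    EntRec T (lseH3 T K G a b) ((amBox A B C D).image φ) ((amBox A B C C).image φ) ((amBox A B D D).image φ) ((amBox A A C D).image φ)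
      ((amBox B B C D).image φ) (lseH3 T K G a b).Bp (lseTB T G a b) where
  okT := hT
  legal := lse_legal3 hK
  feas := hZ
  QA := by
    intro v hv
    obtain ⟨u, hu, rfl⟩ := Finset.mem_image.1 hv
    exact (ch.site u (lls_Q_win hu)).1
  pl := Finset.Subset.refl _
  rib := Finset.subset_union_right
  ribS := fun y hy v hv => Finset.mem_union_right _ (lse_mem_sv.2 ⟨y, hy, hv⟩)
  bm := by
    intro v hv hvQ
    obtain ⟨u, hu, rfl⟩ := Finset.mem_image.1 hvQ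
    rw [lls_H3_bm, Finset.mem_union] at hv
    have hv' := hv.resolve_left (ch.site u (lls_Q_win hu)).2.2
    have key : ∃ w ∈ T.C, w ∉ lseO T G a b ∧ φ u ∈ T.sv w := by
      unfold lseN3 at hv'
      rcases Finset.mem_union.1 hv' with h | h
      · obtain ⟨w, hw, hvw⟩ := lse_mem_sv.1 h
        exact ⟨w, (lse_mem_W3.1 hw).1, (lse_mem_W3.1 hw).2.1, hvw⟩
      · obtain ⟨w, hw, hvw⟩ := lse_mem_sv.1 (Finset.mem_inter.1 (Finset.mem_sdiff.1 h).1).2
        exact ⟨w, (Finset.mem_sdiff.1 hw).1, (Finset.mem_sdiff.1 hw).2, hvw⟩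
    obtain ⟨w, hw, hwO, hvw⟩ := key
    exact ent_mem_lay.2 ⟨hvQ, w, Finset.mem_sdiff.2 ⟨hw, fun hc => hwO (lls_cin_O ch hT hc)⟩, hvw⟩
  obs := by
    intro w hw
    rw [lls_H3_op, lls_H3_om, lls_H3_cl, ch.kOp, ch.kOm, ch.kCl, Finset.empty_union, Finset.empty_union]
    refine ⟨fun hc => ?_, fun hc => (lse_mem_W3.1 hc).2.1 (lls_cin_O ch hT hw), Finset.notMem_empty _⟩
    obtain ⟨y, hy, rfl⟩ := (lls_mem_cin ch hT).1 hw
    obtain ⟨z, hz, h2, e⟩ := (lls_mem_TB ch).1 hc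
    have := lls_psi_inj ch (lls_O_win hz) (by rw [glb_mem_box] at hy ⊢; omega) e
    subst this
    rw [glb_mem_box] at hy
    omega
  eq := by
    intro e he
    rw [lls_H3_eq, ch.kEq] at he
    exact absurd he (Finset.notMem_empty _)
  plQ := by
    ext v
    rw [Finset.mem_inter, ← Finset.image_union]
    constructor
    · rintro ⟨h1, h2⟩
      obtain ⟨u, hu, rfl⟩ := Finset.mem_image.1 h2
      rw [lls_mem_bp ch hAB hCD (lls_Q_win hu)] at h1
      refine Finset.mem_image_of_mem φ ?_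
      unfold LlsPl at h1
      simp only [Finset.mem_union, glb_mem_box] at hu ⊢
      omega
    · intro h
      obtain ⟨u, hu, rfl⟩ := Finset.mem_image.1 h
      have huQ : u ∈ amBox A B C D := by
        simp only [Finset.mem_union, glb_mem_box] at hu ⊢
        omega
      refine ⟨(lls_mem_bp ch hAB hCD (lls_Q_win huQ)).2 ?_, Finset.mem_image_of_mem φ huQ⟩
      unfold LlsPl
      simp only [Finset.mem_union, glb_mem_box] at hu
      omega
  lay := lls_lay ch hT hAB hCD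

/-- the boundary cells of the clipped system -/
theorem lls_cb (ch : LlsCh T K G a b φ ψ A B C D) (hT : ClOk T) :
    entCb T ((amBox A B C D).image φ) = (glbCb A B C D).image ψ := by
  ext w
  unfold entCb glbCb
  rw [Finset.mem_filter, Finset.mem_image]
  constructor
  · rintro ⟨hw, ⟨v, hv⟩, hn⟩
    obtain ⟨h1, h2⟩ := Finset.mem_inter.1 hv
    obtain ⟨u, hu, rfl⟩ := Finset.mem_image.1 h2
    obtain ⟨y, hy, huy, rfl⟩ := lls_touch ch hw hu h1
    refine ⟨y, Finset.mem_sdiff.2 ⟨lat_mem_cells.2 ⟨u, huy, hu⟩, fun hc => hn ?_⟩, rfl⟩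
    rw [(ch.cell y hy).2]
    exact Finset.image_subset_image (lat_mem_cellsIn.1 hc)
  · rintro ⟨y, hy, rfl⟩
    obtain ⟨h1, h2⟩ := Finset.mem_sdiff.1 hy
    obtain ⟨u, huy, hu⟩ := lat_mem_cells.1 h1
    have hy' : y ∈ amBox (A - 1) B (C - 1) D := by
      rw [glb_mem_box] at hu ⊢
      rw [pcp_mem_cell'] at huy
      omega
    refine ⟨(ch.cell y hy').1, ⟨φ u, Finset.mem_inter.2 ⟨(lls_mem_sv ch hy' (lls_Q_win hu)).2 huy, Finset.mem_image_of_mem φ hu⟩⟩, fun hc => h2 ?_⟩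
    rw [lat_mem_cellsIn]
    intro v hv
    rw [← lls_mem_Q ch (lls_cell_win hy' hv)]
    exact hc ((lls_mem_sv ch hy' (lls_cell_win hy' hv)).2 hv)

/-- **at most six ports** -/
theorem lls_ports (ch : LlsCh T K G a b φ ψ A B C D) (hT : ClOk T) (hK : ClLegal T K) (hAB : A ≤ B) (hCD : C ≤ D)
    (hZ : 0 < T.Z ((lseH3 T K G a b).Holds T)) :
    (entP1 T (lseH3 T K G a b) ((amBox A B C D).image φ) (T.cin ((amBox A B C D).image φ)) (lseH3 T K G a b).Bp (lseTB T G a b)).card ≤ 6 := by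
  have g := ent_geo_clip (lls_rec ch hT hK hAB hCD hZ) (qb := 1) one_pos le_rfl
  have hsub : entP1 T (lseH3 T K G a b) ((amBox A B C D).image φ) (T.cin ((amBox A B C D).image φ)) (lseH3 T K G a b).Bp (lseTB T G a b) ⊆
      ({(A, C), (A, D), (B, C), (B, C + 1), (B, D - 1), (B, D)} : Finset TV).image φ := by
    intro v hv
    obtain ⟨hvQ, w, hw, hwR, hwT, hvw, p, hp, hpP⟩ := (ent_mem_P1 g).1 hv
    obtain ⟨u, hu, rfl⟩ := Finset.mem_image.1 hvQ
    obtain ⟨y, hy, huy, rfl⟩ := lls_touch ch hw hu hvw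
    rw [(ch.cell y hy).2] at hp
    obtain ⟨u', hu', rfl⟩ := Finset.mem_image.1 hp
    rw [lls_mem_bp ch hAB hCD (lls_cell_win hy hu')] at hpP
    have h1 : ¬ y ∈ amBox A (B - 1) C (D - 1) := fun hc => hwR ((lls_mem_cin ch hT).2 ⟨y, hc, rfl⟩)
    have h2 : ¬ (y ∈ amBox A B (C - 1) D ∧ (y.2 = C - 1 ∨ y.2 = D)) := fun hc => hwT ((lls_mem_TB ch).2 ⟨y, hc.1, hc.2, rfl⟩)
    refine Finset.mem_image_of_mem φ ?_
    unfold LlsPl at hpP
    rw [pcp_mem_cell'] at huy hu'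
    simp only [glb_mem_box] at hu hy h1 h2
    simp only [Finset.mem_insert, Finset.mem_singleton, Prod.ext_iff]
    omega
  exact (Finset.card_le_card hsub).trans (Finset.card_image_le.trans Finset.card_le_six)

/-! ### (J) the deterministic step -/

theorem lls_Kc_win {k : ℤ} (hk1 : A ≤ k) (hk2 : k + (D - C) ≤ B) {y : TV} (hy : y ∈ amBox k (k + (D - C) - 1) C (D - 1)) :
    y ∈ amBox A (B - 1) C (D - 1) := by
  rw [glb_mem_box] at hy ⊢; omega

/-- the path of open-plus cells, read in the chart -/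
theorem lls_pull (x : ℝ) (ch : LlsCh T K G a b φ ψ A B C D) {k : ℤ} (hk1 : A ≤ k) (hk2 : k + (D - C) ≤ B) {ω : ClCfg TV TV}
    (hj : GlJoinC T (↑((amBox k (k + (D - C) - 1) C (D - 1)).image ψ) ∩ glOn T 1 ω) ((amBox A B C C).image φ) ((amBox A B D D).image φ)) :
    GlJoinC (clAmb x (amBox A B C D)) (↑(amBox k (k + (D - C) - 1) C (D - 1)) ∩ {y | clTau T ω (ψ y) = 1}) (amBox A B C C) (amBox A B D D) := by
  have hwin : ∀ y ∈ amBox k (k + (D - C) - 1) C (D - 1), y ∈ amBox (A - 1) B (C - 1) D := by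
    intro y hy
    rw [glb_mem_box] at hy ⊢; omega
  have hin : ∀ y ∈ amBox k (k + (D - C) - 1) C (D - 1), ∀ u ∈ cellV y, u ∈ amBox A B C D := by
    intro y hy u hu
    rw [glb_mem_box] at hy ⊢
    rw [pcp_mem_cell'] at hu
    omega
  have hZ : ∀ w, w ∈ (↑((amBox k (k + (D - C) - 1) C (D - 1)).image ψ) ∩ glOn T 1 ω : Set TV) →
      ∃ y, y ∈ (↑(amBox k (k + (D - C) - 1) C (D - 1)) ∩ {y | clTau T ω (ψ y) = 1} : Set TV) ∧ ψ y = w := by
    rintro w ⟨h1, _, h3⟩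
    obtain ⟨y, hy, rfl⟩ := Finset.mem_image.1 (Finset.mem_coe.1 h1)
    exact ⟨y, ⟨Finset.mem_coe.2 hy, h3⟩, rfl⟩
  have hside : ∀ (y : TV) (R : Finset TV), y ∈ amBox k (k + (D - C) - 1) C (D - 1) → R ⊆ amBox A B C D → (∃ p ∈ R.image φ, p ∈ T.sv (ψ y)) →
      ∃ p ∈ R, p ∈ (clAmb x (amBox A B C D)).sv y := by
    rintro y R hy hR ⟨p, hp, hpy⟩
    obtain ⟨u, hu, rfl⟩ := Finset.mem_image.1 hp
    rw [lls_mem_sv ch (hwin y hy) (lls_Q_win (hR hu))] at hpy
    exact ⟨u, hu, Finset.mem_inter.2 ⟨hpy, hR hu⟩⟩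
  obtain ⟨w, w', h1, h2, h3, h4, h5⟩ := hj
  obtain ⟨y, hy, rfl⟩ := hZ w h1
  have key : ∀ w', TscR (glCg T) (↑((amBox k (k + (D - C) - 1) C (D - 1)).image ψ) ∩ glOn T 1 ω) (ψ y) w' →
      ∃ y', ψ y' = w' ∧ y' ∈ (↑(amBox k (k + (D - C) - 1) C (D - 1)) ∩ {y | clTau T ω (ψ y) = 1} : Set TV) ∧
        TscR (glCg (clAmb x (amBox A B C D))) (↑(amBox k (k + (D - C) - 1) C (D - 1)) ∩ {y | clTau T ω (ψ y) = 1}) y y' := by
    intro w' hp
    induction hp with
    | refl => exact ⟨y, rfl, hy, ReflTransGen.refl⟩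
    | @tail p q _ hpq ih =>
      obtain ⟨yp, rfl, hyp, hR⟩ := ih
      obtain ⟨yq, hyq, rfl⟩ := hZ q hpq.2.2
      refine ⟨yq, rfl, hyq, hR.tail ⟨⟨fun e => hpq.1.1 (by rw [e]), ?_⟩, hyp, hyq⟩⟩
      obtain ⟨v, b1, b2⟩ := hpq.1.2
      rw [(ch.cell yp (hwin yp (Finset.mem_coe.1 hyp.1))).2] at b1
      obtain ⟨u, hu, rfl⟩ := Finset.mem_image.1 b1
      have huQ := hin yp (Finset.mem_coe.1 hyp.1) u hu
      rw [lls_mem_sv ch (hwin yq (Finset.mem_coe.1 hyq.1)) (lls_Q_win huQ)] at b2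
      exact ⟨u, Finset.mem_inter.2 ⟨hu, huQ⟩, Finset.mem_inter.2 ⟨b2, huQ⟩⟩
  obtain ⟨y', rfl, hy', hR⟩ := key w' h5
  refine ⟨y, y', hy, hy', hside y _ (Finset.mem_coe.1 hy.1) ?_ h3, hside y' _ (Finset.mem_coe.1 hy'.1) ?_ h4, hR⟩
  · intro u hu
    have := hin y (Finset.mem_coe.1 hy.1) y (by simp [cellV])
    rw [glb_mem_box] at hu this ⊢; omega
  · intro u hu
    have := hin y (Finset.mem_coe.1 hy.1) y (by simp [cellV])
    rw [glb_mem_box] at hu this ⊢; omega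

/-- **(J)**: on the straight reference, a path of open-plus cells of the rhombus from the lower to the upper side stops every left-right walk of non-plus cells of the box -/
theorem lls_det (x : ℝ) (ch : LlsCh T K G a b φ ψ A B C D) (hr : C + 2 ≤ D) {k : ℤ} (hk1 : A ≤ k) (hk2 : k + (D - C) ≤ B) {ω : ClCfg TV TV}
    (hω : (lseH3 T K G a b).Holds T ω)
    (hj : GlJoinC T (↑((amBox k (k + (D - C) - 1) C (D - 1)).image ψ) ∩ glOn T 1 ω) ((amBox A B C C).image φ) ((amBox A B D D).image φ)) :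
    G.Vp (lenNp T ω) a b := by
  have hp := lls_pull x ch hk1 hk2 hj
  -- the non-plus cells of the box, in the chart
  set W : Set TV := {y | y ∈ amBox A B (C - 1) D ∧ lenNp T ω (ψ y)} with hW
  have hrow : ∀ z ∈ W, C ≤ z.2 ∧ z.2 ≤ D - 1 := by
    rintro z ⟨hz, hn⟩
    have h1 : ¬ (z.2 = C - 1 ∨ z.2 = D) := by
      intro hc
      exact hn (hω.2.2.2.1 (ψ z) (Finset.mem_union_right _ ((lls_mem_TB ch).2 ⟨z, hz, hc, rfl⟩)))
    rw [glb_mem_box] at hz
    omega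
  have hup : ∀ p, G.box a b p → lenNp T ω p → ∃ y ∈ W, ψ y = p := by
    intro p hb hn
    obtain ⟨y, hy, rfl⟩ := (ch.box p).1 (lse_mem_O.2 ⟨ch.band p hb.1, hb⟩)
    exact ⟨y, ⟨hy, hn⟩, rfl⟩
  have hno : ∀ u ∈ W, ∀ v, TscR tscG W u v → u.1 = A → v.1 = B → False := by
    intro u hu v huv h1 h2
    obtain ⟨z, hz, hzP, -⟩ := glb_block x A B C D k hr hk1 hk2 _ hp hrow hu huv (by omega) (by omega)
    exact hz.2 hzP
  intro v hv hvb
  obtain ⟨hn, hb, u, hua, hR⟩ := hv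
  obtain ⟨yv, hyv, rfl⟩ := hup v hb hn
  -- lift the walk, backwards from `v`
  have key : ∀ u, ReflTransGen (G.st (lenNp T ω) a b) u (ψ yv) → ∃ yu ∈ W, ψ yu = u ∧ TscR tscG W yu yv := by
    intro u hR
    induction hR using ReflTransGen.head_induction_on with
    | refl => exact ⟨yv, hyv, rfl, ReflTransGen.refl⟩
    | @head p q hpq _ ih =>
      obtain ⟨yq, hyq, rfl, hR'⟩ := ih
      obtain ⟨yp, hyp, rfl⟩ := hup p hpq.2.2.2.1 hpq.2.1
      exact ⟨yp, hyp, rfl, ReflTransGen.head ⟨ch.adj yp hyp.1 yq hyq.1 hpq.1, hyp, hyq⟩ hR'⟩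
  obtain ⟨yu, hyu, rfl, hR'⟩ := key u hR
  rcases ch.ends yu hyu.1 yv hyv.1 hua hvb with ⟨e1, e2⟩ | ⟨e1, e2⟩
  · exact hno yu hyu yv hR' e1 e2
  · exact hno yv hyv yu (tsc_R_symm hR') e2 e1

/-! ### the core -/

/-- **THE STRAIGHT SHORT CROSSING IN A CHART**: entrance (164) + the straight instance of the three places (191) + (J) -/
theorem lls_core (x : ℝ) (hx0 : 0 < x) (hx1 : x ≤ 1) (hxh : 1 / 2 ≤ x ^ 2) (ch : LlsCh T K G a b φ ψ A B C D)
    (i : CuIso (clAmb x (amBox A B C D)) (entClip T ((amBox A B C D).image φ) x) φ ψ)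
    (hT : ClOk T) (hK : ClLegal T K) (hO : LseOrd T K) (hr : C + 2 ≤ D) (hL : A + 3 * (D - C) + 4 ≤ B) :
    LseLSS T K G (1 / 64 / 2 ^ 10) a b := by
  unfold LseLSS
  have hN0 : 0 ≤ T.N ((lseH3 T K G a b).Holds T) (lenInd fun ω => G.Vp (lenNp T ω) a b) := dis_N_nonneg T hT _ (len_ind_nonneg _)
  rcases (dis_Z_nonneg T hT ((lseH3 T K G a b).Holds T)).eq_or_lt with hZ | hZ
  · rw [← hZ, mul_zero]; exact hN0
  have hAB : A ≤ B := by omega
  have hCD : C ≤ D := by omega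
  have r := lls_rec ch hT hK hAB hCD hZ
  have g := ent_geo_clip r hx0 hx1
  have hP1 := lls_ports ch hT hK hAB hCD hZ
  have hP2 := (Finset.card_le_card (ent_P2_sub r hx0 hx1)).trans hP1
  rw [lls_cb ch hT] at g hP2
  have hord : EntOrd T (entSea T (lseH3 T K G a b) ((amBox A B C D).image φ) (T.cin ((amBox A B C D).image φ)) (lseH3 T K G a b).Bp (lseTB T G a b))
      (lseH3 T K G a b) := fun F hF =>
    hO _ _ (ent_sea_legal g) g.legal Finset.subset_union_left (fun v hv => ent_mem_M.2 (Or.inr (Finset.mem_union_left _ hv)))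
      Finset.subset_union_left Finset.subset_union_left (ent_sea_le g) F hF
  have hbox : ∀ a' b' c' d' : ℤ, A ≤ a' → b' ≤ B → C ≤ c' → d' ≤ D → amBox a' b' c' d' ⊆ (clAmb x (amBox A B C D)).A := by
    intro a' b' c' d' h1 h2 h3 h4 u hu
    show u ∈ amBox A B C D
    rw [glb_mem_box] at hu ⊢; omega
  have m := ent_join_iso i (pcp_amb_ok x hx0 hx1 _) (Cb₀ := glbCb A B C D) Finset.sdiff_subset
    (hbox A B C C le_rfl le_rfl le_rfl hCD) (hbox A B D D le_rfl le_rfl hCD le_rfl) (hbox A A C D le_rfl hAB le_rfl le_rfl)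
    (hbox B B C D hAB le_rfl le_rfl le_rfl) g hord
    (Kc₀ := amBox (A + (D - C) + 2) (A + (D - C) + 2 + (D - C) - 1) C (D - 1))
    (by
      intro w hw
      obtain ⟨y, hy, rfl⟩ := Finset.mem_image.1 hw
      exact (lls_mem_cin ch hT).2 ⟨y, lls_Kc_win (by omega) (by omega) hy, rfl⟩)
    (glb_three x hx0 hx1 hxh A B C D hr hL)
  have hmono : T.N ((lseH3 T K G a b).Holds T) (glInd (fun ω => GlJoinC T
      (↑((amBox (A + (D - C) + 2) (A + (D - C) + 2 + (D - C) - 1) C (D - 1)).image ψ) ∩ glOn T 1 ω) ((amBox A B C C).image φ) ((amBox A B D D).image φ))) ≤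
      T.N ((lseH3 T K G a b).Holds T) (lenInd fun ω => G.Vp (lenNp T ω) a b) := by
    refine len_N_mono T hT _ _ _ fun ω hω => ?_
    by_cases hj : GlJoinC T
      (↑((amBox (A + (D - C) + 2) (A + (D - C) + 2 + (D - C) - 1) C (D - 1)).image ψ) ∩ glOn T 1 ω) ((amBox A B C C).image φ) ((amBox A B D D).image φ)
    · rw [gl_ind_pos hj, len_ind_pos (L := fun ω => G.Vp (lenNp T ω) a b) (lls_det x ch hr (by omega) (by omega) hω hj)]
    · rw [gl_ind_neg hj]; exact len_ind_nonneg _ _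
  have hpow : (2 : ℝ) ^ (((entP2 (entClip T ((amBox A B C D).image φ) x) ((glbCb A B C D).image ψ) ((amBox A B C C).image φ) ((amBox A B D D).image φ)
      ((amBox A A C D).image φ) ((amBox B B C D).image φ)).card - 1) +
      ((entP1 T (lseH3 T K G a b) ((amBox A B C D).image φ) (T.cin ((amBox A B C D).image φ)) (lseH3 T K G a b).Bp (lseTB T G a b)).card - 1)) ≤ 2 ^ 10 :=
    pow_le_pow_right₀ (by norm_num) (by omega)
  have hJ0 : 0 ≤ T.N ((lseH3 T K G a b).Holds T) (glInd (fun ω => GlJoinC T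
      (↑((amBox (A + (D - C) + 2) (A + (D - C) + 2 + (D - C) - 1) C (D - 1)).image ψ) ∩ glOn T 1 ω) ((amBox A B C C).image φ) ((amBox A B D D).image φ))) :=
    dis_N_nonneg T hT _ (gl_ind_nonneg _)
  have fin := m.trans ((mul_le_mul_of_nonneg_right hpow hJ0).trans (mul_le_mul_of_nonneg_left hmono (by positivity)))
  rw [div_mul_eq_mul_div, div_le_iff₀ (by positivity), mul_comm _ ((2 : ℝ) ^ 10)]
  exact fin

end chart

/-! ## Part 2: the charts of the mixed cylinder -/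

/-- **the chart of the cylinder from a window of 63** (`σ`, `ι` planar symmetries: sites, indices) -/
theorem lls_ch_gen (x : ℝ) {L H : ℕ} {T : Bool} {w w' a b k d A B C D : ℤ} {σ ι : TV → TV}
    (g : EnbWin L H w' T σ ι (amBox (A - 1) (B + 1) (C - 1) (D + 1))) (hL : 0 < L) (hw : w ≤ a) (hb : b < w + L) (hk : 0 ≤ k) (hd : d < H)
    (hbox : ∀ y, y ∈ amBox A B (C - 1) D ↔ ι y ∈ amBox a b k d)
    (htb : ∀ y ∈ amBox A B (C - 1) D, ((ι y).2 = d ∨ (ι y).2 = k) ↔ (y.2 = C - 1 ∨ y.2 = D))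
    (hadj : ∀ y z, triAdj (ι y) (ι z) → triAdj y z)
    (hends : ∀ y ∈ amBox A B (C - 1) D, ∀ z ∈ amBox A B (C - 1) D, (ι y).1 = a → (ι z).1 = b → (y.1 = A ∧ z.1 = B) ∨ (y.1 = B ∧ z.1 = A)) :
    LlsCh (sdSys x L T 0 H) (lcyK L H) (lcyG L H w k d) a b (fun u => sdRed L (σ u)) (fun y => sdRed L (ι y)) A B C D := by
  have hcells : ∀ y ∈ amBox (A - 1) B (C - 1) D, y ∈ latCells (amBox (A - 1) (B + 1) (C - 1) (D + 1)) := by
    intro y hy
    refine lat_mem_cells.2 ⟨y, by simp [cellV], ?_⟩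
    rw [glb_mem_box] at hy ⊢; omega
  have hlift : ∀ y ∈ amBox A B (C - 1) D, lcyLift L w (sdRed L (ι y)) = ι y := by
    intro y hy
    have h1 := (hbox y).1 hy
    rw [glb_mem_box] at h1
    exact lcy_lift_red (by omega) (by omega)
  refine ⟨?_, ?_, ?_, ?_, ?_, ?_, ?_, ?_, fun y hy => hy.1, rfl, rfl, rfl, rfl⟩
  · intro u hu v hv e
    exact enb_injV g (Finset.mem_coe.2 hu) (Finset.mem_coe.2 hv) e
  · intro u hu
    have h1 := g.win u hu
    refine ⟨enb_site_mem g (Finset.mem_image_of_mem _ hu), ?_, ?_⟩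
    · intro hc
      have : (sdRed L (σ u)).2 = (H : ℤ) := by
        have hc' : sdRed L (σ u) ∈ sdRow L (H : ℤ) := hc
        unfold sdRow at hc'
        simpa using (Finset.mem_product.1 hc').2
      have e : (sdRed L (σ u)).2 = (σ u).2 := rfl
      omega
    · intro hc
      have : (sdRed L (σ u)).2 = 0 := by
        have hc' : sdRed L (σ u) ∈ sdRow L 0 := hc
        unfold sdRow at hc'
        simpa using (Finset.mem_product.1 hc').2
      have e : (sdRed L (σ u)).2 = (σ u).2 := rfl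
      omega
  · intro y hy
    exact ⟨enb_idx_mem g (hcells y hy), enb_cell g y⟩
  · intro z hz u hu hp
    obtain ⟨y, _, h1, h2⟩ := enb_lift g hz (lls_Q_win hu) hp
    exact ⟨y, h1, h2⟩
  · intro z
    rw [lse_mem_O]
    constructor
    · rintro ⟨hz, ⟨_, h1, h2⟩, h3, h4⟩
      obtain ⟨y, hy⟩ := g.bijψ.2 (lcyLift L w z)
      obtain ⟨m1, m2, _, _⟩ := lcy_mem_cells hz
      refine ⟨y, (hbox y).2 ?_, ?_⟩
      · rw [hy, glb_mem_box]
        exact ⟨h3, h4, h1, h2⟩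
      · show sdRed L (ι y) = z
        rw [hy]
        exact lcy_red_lift m1 m2
    · rintro ⟨y, hy, rfl⟩
      have h1 := (hbox y).1 hy
      rw [glb_mem_box] at h1
      have h2 := lcy_box_down (L := L) (H := H) (w := w) hL hw hb hk hd (u := ι y) h1
      exact ⟨h2.1.1, h2⟩
  · intro y hy
    exact htb y hy
  · intro y hy z hz h
    have h' : triAdj (lcyLift L w (sdRed L (ι y))) (lcyLift L w (sdRed L (ι z))) := h
    rw [hlift y hy, hlift z hz] at h'
    exact hadj y z h'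
  · intro y hy z hz h1 h2
    have e1 : lcyX L w (sdRed L (ι y)) = (ι y).1 := congrArg Prod.fst (hlift y hy)
    have e2 : lcyX L w (sdRed L (ι z)) = (ι z).1 := congrArg Prod.fst (hlift z hz)
    exact hends y hy z hz (e1.symm.trans h1) (e2.symm.trans h2)

/-- class `true` -/
theorem lls_ch_true (x : ℝ) {L H : ℕ} {w a b k d : ℤ} (hw : w ≤ a) (hb : b < w + L) (hgap : b - a + 5 ≤ L) (hk : 1 ≤ k) (hd : d + 2 ≤ H) (hab : a ≤ b) (hkd : k ≤ d) :
    LlsCh (sdSys x L true 0 H) (lcyK L H) (lcyG L H w k d) a b (sdRed L) (sdRed L) a b (k + 1) d := by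
  have g : EnbWin L H (a - 2) true id id (amBox (a - 1) (b + 1) (k + 1 - 1) (d + 1)) := enb_W_true (by
    intro u hu
    rw [glb_mem_box] at hu
    omega)
  refine lls_ch_gen x g (by omega) hw hb (by omega) (by omega) ?_ ?_ (fun _ _ h => h) ?_
  · intro y
    simp only [glb_mem_box, id]
    omega
  · intro y _
    show (y.2 = d ∨ y.2 = k) ↔ _
    omega
  · intro y _ z _ h1 h2
    exact Or.inl ⟨h1, h2⟩

/-- class `false`: point reflection -/
theorem lls_ch_false (x : ℝ) {L H : ℕ} {w a b k d : ℤ} (hw : w ≤ a) (hb : b < w + L) (hgap : b - a + 5 ≤ L) (hk : 1 ≤ k) (hd : d + 2 ≤ H) (hab : a ≤ b) (hkd : k ≤ d) :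
    LlsCh (sdSys x L false 0 H) (lcyK L H) (lcyG L H w k d) a b (fun u => sdRed L ((a + b + 1, k + d + 1) - u))
      (fun y => sdRed L ((a + b + 1, k + d + 1) - (1, 1) - y)) a b (k + 1) d := by
  have g : EnbWin L H (a - 1) false (fun u => ((a + b + 1, k + d + 1) : TV) - u) (fun y => ((a + b + 1, k + d + 1) : TV) - (1, 1) - y)
      (amBox (a - 1) (b + 1) (k + 1 - 1) (d + 1)) := enb_W_false _ (by
    intro u hu
    rw [glb_mem_box] at hu
    simp only [Prod.fst_sub, Prod.snd_sub]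
    omega)
  refine lls_ch_gen x g (by omega) hw hb (by omega) (by omega) ?_ ?_ ?_ ?_
  · intro y
    simp only [glb_mem_box, Prod.fst_sub, Prod.snd_sub]
    omega
  · intro y _
    simp only [Prod.fst_sub, Prod.snd_sub]
    omega
  · intro y z h
    rw [tsc_adj_iff] at h ⊢
    simp only [Prod.fst_sub, Prod.snd_sub] at h
    omega
  · intro y _ z _ h1 h2
    simp only [Prod.fst_sub, Prod.snd_sub] at h1 h2
    exact Or.inr ⟨by omega, by omega⟩

/-- the straight short crossing for one box of the mixed cylinder, both classes -/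
theorem lls_box (x : ℝ) (hx0 : 0 < x) (hx1 : x ≤ 1) (hxh : 1 / 2 ≤ x ^ 2) (L H : ℕ) (T : Bool) {w a b k d : ℤ} (hw : w ≤ a) (hb : b < w + L)
    (hgap : b - a + 5 ≤ L) (hk : 1 ≤ k) (hd : d + 2 ≤ H) (hr : k + 3 ≤ d) (hL : a + 3 * (d - k - 1) + 4 ≤ b) :
    LseLSS (sdSys x L T 0 H) (lcyK L H) (lcyG L H w k d) (1 / 64 / 2 ^ 10) a b := by
  have hT : ClOk (sdSys x L T 0 H) := rsc_sys_ok x hx0 hx1 L T 0 H
  have hK : ClLegal (sdSys x L T 0 H) (lcyK L H) := lor_K_legal _ L H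
  have hO : LseOrd (sdSys x L T 0 H) (lcyK L H) := lor_cyl_ord x hx0 hx1 L H T (by omega) (by omega)
  cases T
  · refine lls_core x hx0 hx1 hxh (lls_ch_false x hw hb hgap hk hd (by omega) (by omega)) ?_ hT hK hO (by omega) (by omega)
    refine enb_win_false x (w := a - 1) _ _ ?_
    intro u hu
    rw [glb_mem_box] at hu
    simp only [Prod.fst_sub, Prod.snd_sub]
    omega
  · refine lls_core x hx0 hx1 hxh (lls_ch_true x hw hb hgap hk hd (by omega) (by omega)) ?_ hT hK hO (by omega) (by omega)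
    refine enb_win_true x (w := a - 1) _ ?_
    intro u hu
    rw [glb_mem_box] at hu
    omega

/-- **`LcyLSS x`** (the body of the definition of `Ann/LenGeo`) -/
theorem lls_main (x : ℝ) (hx1 : 1 / Real.sqrt 2 ≤ x) (hx2 : x ≤ 1) :
    ∃ c : ℝ, 0 < c ∧ ∃ r₀ : ℕ, ∀ (L H : ℕ) (T : Bool) (k r w a b : ℤ), (r₀ : ℤ) ≤ r → 10 * r ≤ L → 12 + r ≤ 4 * k →
      4 * k + 5 * r ≤ 4 * (H : ℤ) - 16 → w ≤ a → b < w + L → 7 * r ≤ 2 * (b - a) → b - a ≤ 5 * r →
      LseLSS (sdSys x L T 0 H) (lcyK L H) (lcyG L H w k (k + r - 1)) c a b := by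
  have hs : 0 < Real.sqrt 2 := Real.sqrt_pos.2 (by norm_num)
  have hx0 : 0 < x := lt_of_lt_of_le (by positivity) hx1
  have hxh : 1 / 2 ≤ x ^ 2 := by
    have h1 : (1 / Real.sqrt 2) ^ 2 ≤ x ^ 2 := pow_le_pow_left₀ (by positivity) hx1 2
    rwa [div_pow, one_pow, Real.sq_sqrt (by norm_num)] at h1
  refine ⟨1 / 64 / 2 ^ 10, by positivity, 4, ?_⟩
  intro L H T k r w a b hr hL hk1 hk2 hw hb h1 h2
  have hr' : (4 : ℤ) ≤ r := by exact_mod_cast hr
  exact lls_box x hx0 hx2 hxh L H T hw hb (by omega) (by omega) (by omega) (by omega) (by omega)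

theorem lls_eqns_cite : True := by
  have := @LlsPl.eq_1
  trivial

end Claimed.Agent.R291
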