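import Claimed.Agent.R291.Ann.LenSE
import Claimed.Agent.R291.Ann.LenCyl
import Claimed.Agent.R291.Ann.SeedIso

/-!
# Row 291 (S0539), Ann/LenPort : AT MOST FOUR PORTS      (owner helper112, unit PLA; prefix `lpo_` / `Lpo` / `lpo`)

The hypothesis `hP` of `lse_main` (20, `Ann/LenSE`) on the chart `lcyG L H w c d` (193, `Ann/LenCyl`) of the mixed cylinder `sdSys x L T 0 H`, both classes.

* Part 1 (plane, index lattice; reusable): `F ⊆ Box`, every cell of `Box \ F` is joined inside `Box \ F` to the top or to the bottom row.   Then the cells of a short side which are joined inside `F`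
  to the opposite short side form an INTERVAL (`lpo_int_left`, `lpo_int_right`): one `pls_cross_h` per case (the path of `Box \ F` is continued outside the box along the column `a - 1` / `b + 1`).
  `lpoM a b F` = the cells of `F` joined inside `F` to both short sides; `lpo_M_left`, `lpo_M_right` : its trace on each short side is an interval.
* Part 2 (dictionary): lifted sets `lpoF`, `lpoQ` of the fresh cells and of the cells looked at; walks up and down.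
* Part 3 (cells and sites): two cells of the cylinder which share a site have adjacent lifts.
* Part 4: **`lpo_ports`** : `(lseP S K G a b ω₀).card ≤ 4`.   (No use of `H⁺(box)`.)
-/

set_option autoImplicit false
set_option linter.unusedSectionVars false
set_option linter.unusedVariables false

namespace Claimed.Agent.R291

open Claims Claims.C0467 Relation

/-! ## Part 1: the plane -/

/-- a vertical segment is connected -/
theorem lpo_col {s : Set TV} {i : ℤ} {j1 : ℤ} (n : ℕ) (h : ∀ j, j1 ≤ j → j ≤ j1 + n → (i, j) ∈ s) : TscR tscG s (i, j1) (i, j1 + n) := by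
  induction n with
  | zero => simp only [Nat.cast_zero, add_zero]; exact tsc_R_refl _
  | succ n ih =>
    refine (ih fun j h1 h2 => h j h1 (by push_cast; omega)).tail ⟨?_, h _ (by omega) (by push_cast; omega), h _ (by push_cast; omega) le_rfl⟩
    show triAdj _ _
    rw [tsc_adj_iff]
    exact Or.inr (Or.inl ⟨rfl, by push_cast; ring⟩)

theorem lpo_col' {s : Set TV} {i j1 j2 : ℤ} (h12 : j1 ≤ j2) (h : ∀ j, j1 ≤ j → j ≤ j2 → (i, j) ∈ s) : TscR tscG s (i, j1) (i, j2) := by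
  obtain ⟨n, hn⟩ := Int.le.dest h12
  subst hn
  exact lpo_col n h

/-- the basic forced intersection, left side, path to the TOP row: the starting point of the crossing lies BELOW -/
theorem lpo_cross_lt {a b c d : ℤ} {S Q : Set TV} (hS : S ⊆ tscBox a b c d) (hQ : Q ⊆ tscBox a b c d) {j j' : ℤ} {r t : TV}
    (hp : (a, j') ∈ S) (hpr : TscR tscG S (a, j') r) (hr : r.1 = b) (hq : (a, j) ∈ Q) (hqt : TscR tscG Q (a, j) t) (ht : t.2 = d)
    (hjj : j < j') : (S ∩ Q).Nonempty := by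
  set Tt : Set TV := Q ∪ {z | z.1 = a - 1 ∧ c ≤ z.2 ∧ z.2 ≤ j} with hT
  have hcj : c ≤ j := (hQ hq).2.2.1
  have h1 : TscR tscG Tt (a - 1, c) (a - 1, j) := lpo_col' hcj fun i h1 h2 => Or.inr ⟨rfl, h1, h2⟩
  have h2 : TscR tscG Tt (a - 1, j) (a, j) := tsc_R_step (by show triAdj _ _; rw [tsc_adj_iff]; simp) (Or.inr ⟨rfl, hcj, le_rfl⟩) (Or.inl hq)
  have h3 : TscR tscG Tt (a - 1, c) t := (h1.trans h2).trans (tsc_R_mono Set.subset_union_left hqt)
  obtain ⟨z, hz1, hz2⟩ := pls_cross_h hp hpr (T := Tt) (u := (a - 1, c)) (v := t) (Or.inr ⟨rfl, le_rfl, hcj⟩) h3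
    (fun z hz => (hS hz).2.2.1) (fun z hz => by rw [ht]; exact (hS hz).2.2.2)
    (by
      rintro z (hz | hz) ⟨e1, e2⟩
      · have := (hQ hz).1; simp only at e2; omega
      · have := hz.2.2; simp only at e1; omega)
    (by
      rintro z (hz | hz) ⟨e1, e2⟩
      · have := (hQ hz).2.1; omega
      · have := hz.1; have := (hS hp).1; have := (hS hp).2.1; simp only at *; omega)
  rcases hz2 with hz2 | hz2
  · exact ⟨z, hz1, hz2⟩
  · have := (hS hz1).1; have := hz2.1; omega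

/-- left side, path to the BOTTOM row: the starting point of the crossing lies ABOVE -/
theorem lpo_cross_lb {a b c d : ℤ} {S Q : Set TV} (hS : S ⊆ tscBox a b c d) (hQ : Q ⊆ tscBox a b c d) {j j' : ℤ} {r t : TV}
    (hp : (a, j') ∈ S) (hpr : TscR tscG S (a, j') r) (hr : r.1 = b) (hq : (a, j) ∈ Q) (hqt : TscR tscG Q (a, j) t) (ht : t.2 = c)
    (hjj : j' < j) : (S ∩ Q).Nonempty := by
  set Tt : Set TV := Q ∪ {z | z.1 = a - 1 ∧ j ≤ z.2 ∧ z.2 ≤ d} with hT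
  have hjd : j ≤ d := (hQ hq).2.2.2
  have h1 : TscR tscG Tt (a - 1, j) (a - 1, d) := lpo_col' hjd fun i h1 h2 => Or.inr ⟨rfl, h1, h2⟩
  have h2 : TscR tscG Tt (a, j) (a - 1, j) := tsc_R_step (by show triAdj _ _; rw [tsc_adj_iff]; simp) (Or.inl hq) (Or.inr ⟨rfl, le_rfl, hjd⟩)
  have h3 : TscR tscG Tt t (a - 1, d) := ((tsc_R_mono Set.subset_union_left (tsc_R_symm hqt)).trans h2).trans h1
  obtain ⟨z, hz1, hz2⟩ := pls_cross_h hp hpr (T := Tt) (u := t) (v := (a - 1, d)) (Or.inl (tsc_R_mem hqt hq)) h3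
    (fun z hz => by rw [ht]; exact (hS hz).2.2.1) (fun z hz => (hS hz).2.2.2)
    (by
      rintro z (hz | hz) ⟨e1, e2⟩
      · have := (hQ hz).1; simp only at e2; omega
      · have := hz.2.1; simp only at e1; omega)
    (by
      rintro z (hz | hz) ⟨e1, e2⟩
      · have := (hQ hz).2.1; omega
      · have := hz.1; have := (hS hp).1; have := (hS hp).2.1; simp only at *; omega)
  rcases hz2 with hz2 | hz2
  · exact ⟨z, hz1, hz2⟩
  · have := (hS hz1).1; have := hz2.1; omega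

/-- right side, path to the TOP row: the end point of the crossing lies BELOW -/
theorem lpo_cross_rt {a b c d : ℤ} {S Q : Set TV} (hS : S ⊆ tscBox a b c d) (hQ : Q ⊆ tscBox a b c d) {j j' : ℤ} {l t : TV}
    (hp : l ∈ S) (hpr : TscR tscG S l (b, j')) (hl : l.1 = a) (hq : (b, j) ∈ Q) (hqt : TscR tscG Q (b, j) t) (ht : t.2 = d)
    (hjj : j < j') : (S ∩ Q).Nonempty := by
  set Tt : Set TV := Q ∪ {z | z.1 = b + 1 ∧ c ≤ z.2 ∧ z.2 ≤ j} with hT
  have hcj : c ≤ j := (hQ hq).2.2.1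
  have h1 : TscR tscG Tt (b + 1, c) (b + 1, j) := lpo_col' hcj fun i h1 h2 => Or.inr ⟨rfl, h1, h2⟩
  have h2 : TscR tscG Tt (b + 1, j) (b, j) := tsc_R_step (by show triAdj _ _; rw [tsc_adj_iff]; simp) (Or.inr ⟨rfl, hcj, le_rfl⟩) (Or.inl hq)
  have h3 : TscR tscG Tt (b + 1, c) t := (h1.trans h2).trans (tsc_R_mono Set.subset_union_left hqt)
  obtain ⟨z, hz1, hz2⟩ := pls_cross_h hp hpr (T := Tt) (u := (b + 1, c)) (v := t) (Or.inr ⟨rfl, le_rfl, hcj⟩) h3
    (fun z hz => (hS hz).2.2.1) (fun z hz => by rw [ht]; exact (hS hz).2.2.2)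
    (by
      rintro z (hz | hz) ⟨e1, e2⟩
      · have := (hQ hz).1; omega
      · have := hz.1; have := (hS hp).1; have := (hS hp).2.1; omega)
    (by
      rintro z (hz | hz) ⟨e1, e2⟩
      · have := (hQ hz).2.1; simp only at e2; omega
      · have := hz.2.2; simp only at e1; omega)
  rcases hz2 with hz2 | hz2
  · exact ⟨z, hz1, hz2⟩
  · have := (hS hz1).2.1; have := hz2.1; omega

/-- right side, path to the BOTTOM row: the end point of the crossing lies ABOVE -/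
theorem lpo_cross_rb {a b c d : ℤ} {S Q : Set TV} (hS : S ⊆ tscBox a b c d) (hQ : Q ⊆ tscBox a b c d) {j j' : ℤ} {l t : TV}
    (hp : l ∈ S) (hpr : TscR tscG S l (b, j')) (hl : l.1 = a) (hq : (b, j) ∈ Q) (hqt : TscR tscG Q (b, j) t) (ht : t.2 = c)
    (hjj : j' < j) : (S ∩ Q).Nonempty := by
  set Tt : Set TV := Q ∪ {z | z.1 = b + 1 ∧ j ≤ z.2 ∧ z.2 ≤ d} with hT
  have hjd : j ≤ d := (hQ hq).2.2.2
  have h1 : TscR tscG Tt (b + 1, j) (b + 1, d) := lpo_col' hjd fun i h1 h2 => Or.inr ⟨rfl, h1, h2⟩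
  have h2 : TscR tscG Tt (b, j) (b + 1, j) := tsc_R_step (by show triAdj _ _; rw [tsc_adj_iff]; simp) (Or.inl hq) (Or.inr ⟨rfl, le_rfl, hjd⟩)
  have h3 : TscR tscG Tt t (b + 1, d) := ((tsc_R_mono Set.subset_union_left (tsc_R_symm hqt)).trans h2).trans h1
  obtain ⟨z, hz1, hz2⟩ := pls_cross_h hp hpr (T := Tt) (u := t) (v := (b + 1, d)) (Or.inl (tsc_R_mem hqt hq)) h3
    (fun z hz => by rw [ht]; exact (hS hz).2.2.1) (fun z hz => (hS hz).2.2.2)
    (by
      rintro z (hz | hz) ⟨e1, e2⟩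
      · have := (hQ hz).1; omega
      · have := hz.1; have := (hS hp).1; have := (hS hp).2.1; omega)
    (by
      rintro z (hz | hz) ⟨e1, e2⟩
      · have := (hQ hz).2.1; simp only at e2; omega
      · have := hz.2.1; simp only at e1; omega)
  rcases hz2 with hz2 | hz2
  · exact ⟨z, hz1, hz2⟩
  · have := (hS hz1).2.1; have := hz2.1; omega

/-- every cell of the box off `F` is joined off `F` to the top or to the bottom row -/
def LpoTB (a b c d : ℤ) (F : Set TV) : Prop :=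
  ∀ q ∈ tscBox a b c d \ F, ∃ t : TV, (t.2 = c ∨ t.2 = d) ∧ TscR tscG (tscBox a b c d \ F) q t

/-- the cells of `F` joined inside `F` to both short sides -/
def lpoM (a b : ℤ) (F : Set TV) : Set TV :=
  {u | u ∈ F ∧ (∃ l ∈ F, l.1 = a ∧ TscR tscG F l u) ∧ (∃ r ∈ F, r.1 = b ∧ TscR tscG F u r)}

theorem lpo_eqns_cite : True := by
  have := @LpoTB.eq_1
  have := @lpoM.eq_1
  trivial

/-- **interval, left side** -/
theorem lpo_int_left {a b c d : ℤ} {F : Set TV} (hF : F ⊆ tscBox a b c d) (hQ : LpoTB a b c d F) {j1 j j2 : ℤ} {r1 r2 : TV}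
    (h1 : (a, j1) ∈ F) (g1 : TscR tscG F (a, j1) r1) (e1 : r1.1 = b) (h2 : (a, j2) ∈ F) (g2 : TscR tscG F (a, j2) r2) (e2 : r2.1 = b)
    (hj1 : j1 ≤ j) (hj2 : j ≤ j2) : (a, j) ∈ F := by
  by_contra hn
  have hb : (a, j) ∈ tscBox a b c d :=
    ⟨le_rfl, (hF h1).2.1, (hF h1).2.2.1.trans hj1, hj2.trans (hF h2).2.2.2⟩
  have hj1' : j1 < j := lt_of_le_of_ne hj1 fun e => hn (e ▸ h1)
  have hj2' : j < j2 := lt_of_le_of_ne hj2 fun e => hn (e ▸ h2)
  obtain ⟨t, ht | ht, hR⟩ := hQ _ ⟨hb, hn⟩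
  · obtain ⟨z, hz1, hz2⟩ := lpo_cross_lb hF Set.sdiff_subset h1 g1 e1 ⟨hb, hn⟩ hR ht hj1'
    exact hz2.2 hz1
  · obtain ⟨z, hz1, hz2⟩ := lpo_cross_lt hF Set.sdiff_subset h2 g2 e2 ⟨hb, hn⟩ hR ht hj2'
    exact hz2.2 hz1

/-- **interval, right side** -/
theorem lpo_int_right {a b c d : ℤ} {F : Set TV} (hF : F ⊆ tscBox a b c d) (hQ : LpoTB a b c d F) {j1 j j2 : ℤ} {l1 l2 : TV}
    (h1 : l1 ∈ F) (g1 : TscR tscG F l1 (b, j1)) (e1 : l1.1 = a) (h2 : l2 ∈ F) (g2 : TscR tscG F l2 (b, j2)) (e2 : l2.1 = a)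
    (hj1 : j1 ≤ j) (hj2 : j ≤ j2) : (b, j) ∈ F := by
  by_contra hn
  have m1 := tsc_R_mem g1 h1
  have m2 := tsc_R_mem g2 h2
  have hb : (b, j) ∈ tscBox a b c d :=
    ⟨(hF m1).1, le_rfl, (hF m1).2.2.1.trans hj1, hj2.trans (hF m2).2.2.2⟩
  have hj1' : j1 < j := lt_of_le_of_ne hj1 fun e => hn (e ▸ m1)
  have hj2' : j < j2 := lt_of_le_of_ne hj2 fun e => hn (e ▸ m2)
  obtain ⟨t, ht | ht, hR⟩ := hQ _ ⟨hb, hn⟩
  · obtain ⟨z, hz1, hz2⟩ := lpo_cross_rb hF Set.sdiff_subset h1 g1 e1 ⟨hb, hn⟩ hR ht hj1'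
    exact hz2.2 hz1
  · obtain ⟨z, hz1, hz2⟩ := lpo_cross_rt hF Set.sdiff_subset h2 g2 e2 ⟨hb, hn⟩ hR ht hj2'
    exact hz2.2 hz1

/-- the trace of `lpoM` on the left side is an interval -/
theorem lpo_M_left {a b c d : ℤ} {F : Set TV} (hF : F ⊆ tscBox a b c d) (hQ : LpoTB a b c d F) {j1 j j2 : ℤ}
    (h1 : (a, j1) ∈ lpoM a b F) (h2 : (a, j2) ∈ lpoM a b F) (hj1 : j1 ≤ j) (hj2 : j ≤ j2) : (a, j) ∈ lpoM a b F := by
  obtain ⟨f1, -, r1, -, e1, g1⟩ := h1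
  obtain ⟨f2, -, r2, -, e2, g2⟩ := h2
  have hall : ∀ i, j1 ≤ i → i ≤ j2 → (a, i) ∈ F := fun i hi1 hi2 => lpo_int_left hF hQ f1 g1 e1 f2 g2 e2 hi1 hi2
  have hj := hall j hj1 hj2
  refine ⟨hj, ⟨(a, j), hj, rfl, tsc_R_refl _⟩, r1, tsc_R_mem g1 f1, e1, ?_⟩
  exact (tsc_R_symm (lpo_col' hj1 fun i hi1 hi2 => hall i hi1 (hi2.trans hj2))).trans g1

/-- the trace of `lpoM` on the right side is an interval -/
theorem lpo_M_right {a b c d : ℤ} {F : Set TV} (hF : F ⊆ tscBox a b c d) (hQ : LpoTB a b c d F) {j1 j j2 : ℤ}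
    (h1 : (b, j1) ∈ lpoM a b F) (h2 : (b, j2) ∈ lpoM a b F) (hj1 : j1 ≤ j) (hj2 : j ≤ j2) : (b, j) ∈ lpoM a b F := by
  obtain ⟨f1, ⟨l1, m1, e1, g1⟩, -⟩ := h1
  obtain ⟨f2, ⟨l2, m2, e2, g2⟩, -⟩ := h2
  have hall : ∀ i, j1 ≤ i → i ≤ j2 → (b, i) ∈ F := fun i hi1 hi2 => lpo_int_right hF hQ m1 g1 e1 m2 g2 e2 hi1 hi2
  have hj := hall j hj1 hj2
  refine ⟨hj, ⟨l1, m1, e1, ?_⟩, (b, j), hj, rfl, tsc_R_refl _⟩
  exact g1.trans (lpo_col' hj1 fun i hi1 hi2 => hall i hi1 (hi2.trans hj2))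

/-! ## Part 2: the dictionary between the chart and the plane -/

section Dict

variable {x : ℝ} {L H : ℕ} {T : Bool} {w a b c d : ℤ} {ω₀ : ClCfg TV TV}

/-- the lifted set of the fresh cells -/
def lpoF (x : ℝ) (L H : ℕ) (T : Bool) (w a b c d : ℤ) (ω₀ : ClCfg TV TV) : Set TV :=
  {u | u ∈ tscBox a b c d ∧ sdRed L u ∈ lseFr (sdSys x L T 0 H) (lcyG L H w c d) a b ω₀}

theorem lpo_eqns_cite2 : True := by
  have := @lpoF.eq_1
  trivial

theorem lpo_F_sub : lpoF x L H T w a b c d ω₀ ⊆ tscBox a b c d := fun _ h => h.1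

/-- a cell of the box of the chart, lifted -/
theorem lpo_box_up {y : TV} (h : (lcyG L H w c d).box a b y) : lcyLift L w y ∈ tscBox a b c d ∧ sdRed L (lcyLift L w y) = y := by
  obtain ⟨⟨hm, h3, h4⟩, h1, h2⟩ := h
  obtain ⟨m1, m2, m3, m4⟩ := lcy_mem_cells hm
  exact ⟨⟨h1, h2, h3, h4⟩, lcy_red_lift m1 m2⟩

theorem lpo_lift_red (hw : w ≤ a) (hb : b < w + L) {u : TV} (hu : u ∈ tscBox a b c d) : lcyLift L w (sdRed L u) = u :=
  lcy_lift_red (by have := hu.1; omega) (by have := hu.2.1; omega)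

theorem lpo_fr_up {y : TV} (h : y ∈ lseFr (sdSys x L T 0 H) (lcyG L H w c d) a b ω₀) : lcyLift L w y ∈ lpoF x L H T w a b c d ω₀ := by
  obtain ⟨h1, h2⟩ := lpo_box_up (lse_mem_O.1 (lse_mem_Fr.1 h).1).2
  exact ⟨h1, by rw [h2]; exact h⟩

/-- a cell looked at, lifted -/
theorem lpo_Q_up {y : TV} (h : (lcyG L H w c d).Q (lenNp (sdSys x L T 0 H) ω₀) a b y) :
    lcyLift L w y ∈ tscBox a b c d \ lpoF x L H T w a b c d ω₀ := by
  obtain ⟨h1, h2⟩ := lpo_box_up h.1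
  refine ⟨h1, fun hF => ?_⟩
  have h3 := hF.2
  rw [h2] at h3
  exact (lse_mem_Fr.1 h3).2 (lse_mem_Q.2 ⟨h.1.1.1, h⟩)

/-- the walk of an explored cluster, lifted -/
theorem lpo_cl_up {S₀ : TV → Prop} (hS : ∀ u, S₀ u → (lcyG L H w c d).top u ∨ (lcyG L H w c d).bot u) {u z : TV} (hu : S₀ u)
    (hn : lenNp (sdSys x L T 0 H) ω₀ u) (hbx : (lcyG L H w c d).box a b u)
    (h : ReflTransGen ((lcyG L H w c d).st (lenNp (sdSys x L T 0 H) ω₀) a b) u z) :
    (lcyG L H w c d).cl (lenNp (sdSys x L T 0 H) ω₀) a b S₀ z ∧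
      TscR tscG (tscBox a b c d \ lpoF x L H T w a b c d ω₀) (lcyLift L w u) (lcyLift L w z) := by
  have hu' : lcyLift L w u ∈ tscBox a b c d \ lpoF x L H T w a b c d ω₀ :=
    lpo_Q_up ⟨hbx, by rcases hS u hu with h | h; exacts [Or.inl h, Or.inr (Or.inl h)]⟩
  induction h with
  | refl => exact ⟨len_cl_self hn hbx hu, tsc_R_refl _⟩
  | @tail z' z'' _ hst ih =>
    obtain ⟨ih1, ih2⟩ := ih
    refine ⟨len_cl_step ih1 hst, ih2.tail ⟨hst.1, tsc_R_mem ih2 hu', lpo_Q_up ⟨hst.2.2.2.2, Or.inr (Or.inr ⟨z', ?_, hst.1⟩)⟩⟩⟩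
    obtain ⟨k1, k2, u0, k3, k4⟩ := ih1
    rcases hS u0 k3 with k5 | k5
    · exact Or.inl ⟨k1, k2, u0, k5, k4⟩
    · exact Or.inr ⟨k1, k2, u0, k5, k4⟩

theorem lpo_cl_path {S₀ : TV → Prop} (hS : ∀ u, S₀ u → (lcyG L H w c d).top u ∨ (lcyG L H w c d).bot u) {z : TV}
    (h : (lcyG L H w c d).cl (lenNp (sdSys x L T 0 H) ω₀) a b S₀ z) :
    lcyLift L w z ∈ tscBox a b c d \ lpoF x L H T w a b c d ω₀ ∧
    ∃ t : TV, (t.2 = c ∨ t.2 = d) ∧ TscR tscG (tscBox a b c d \ lpoF x L H T w a b c d ω₀) (lcyLift L w z) t := by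
  obtain ⟨k1, k2, u, k3, k4⟩ := h
  have hu : lenNp (sdSys x L T 0 H) ω₀ u ∧ (lcyG L H w c d).box a b u := by
    rcases ReflTransGen.cases_head k4 with e | ⟨u', hst, -⟩
    · subst e; exact ⟨k1, k2⟩
    · exact ⟨hst.2.1, hst.2.2.2.1⟩
  have hu' : lcyLift L w u ∈ tscBox a b c d \ lpoF x L H T w a b c d ω₀ :=
    lpo_Q_up ⟨hu.2, by rcases hS u k3 with h | h; exacts [Or.inl h, Or.inr (Or.inl h)]⟩
  have hR := (lpo_cl_up hS k3 hu.1 hu.2 k4).2
  refine ⟨tsc_R_mem hR hu', lcyLift L w u, ?_, tsc_R_symm hR⟩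
  rcases hS u k3 with h | h
  · exact Or.inr h
  · exact Or.inl h

/-- **the cells looked at are joined to the top or to the bottom row** -/
theorem lpo_TB (hL : 0 < L) (hw : w ≤ a) (hb : b < w + L) (hc : 0 ≤ c) (hd : d < H) : LpoTB a b c d (lpoF x L H T w a b c d ω₀) := by
  rintro q ⟨hq, hqF⟩
  have hbx := lcy_box_down (H := H) hL hw hb hc hd hq
  have hQ : (lcyG L H w c d).Q (lenNp (sdSys x L T 0 H) ω₀) a b (sdRed L q) := by
    by_contra hn
    exact hqF ⟨hq, lse_mem_Fr.2 ⟨lse_mem_O.2 ⟨hbx.1.1, hbx⟩, fun h => hn (lse_mem_Q.1 h).2⟩⟩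
  have e := lpo_lift_red (L := L) hw hb hq
  obtain ⟨-, h | h | ⟨z, hz, hadj⟩⟩ := hQ
  · exact ⟨q, Or.inr h, tsc_R_refl _⟩
  · exact ⟨q, Or.inl h, tsc_R_refl _⟩
  · have hzq : TscR tscG (tscBox a b c d \ lpoF x L H T w a b c d ω₀) q (lcyLift L w z) := by
      refine tsc_R_step ?_ ⟨hq, hqF⟩ ?_
      · have : triAdj (lcyLift L w z) (lcyLift L w (sdRed L q)) := hadj
        rw [e] at this
        exact lat_adj_symm this
      · rcases hz with hz | hz
        · exact (lpo_cl_path (S₀ := (lcyG L H w c d).top) (fun _ h => Or.inl h) hz).1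
        · exact (lpo_cl_path (S₀ := (lcyG L H w c d).bot) (fun _ h => Or.inr h) hz).1
    rcases hz with hz | hz
    · obtain ⟨-, t, ht, hR⟩ := lpo_cl_path (S₀ := (lcyG L H w c d).top) (fun _ h => Or.inl h) hz
      exact ⟨t, ht, hzq.trans hR⟩
    · obtain ⟨-, t, ht, hR⟩ := lpo_cl_path (S₀ := (lcyG L H w c d).bot) (fun _ h => Or.inr h) hz
      exact ⟨t, ht, hzq.trans hR⟩

/-- a retained cell, lifted -/
theorem lpo_M_up {y : TV} (h : y ∈ lseM (sdSys x L T 0 H) (lcyG L H w c d) a b ω₀) :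
    lcyLift L w y ∈ lpoM a b (lpoF x L H T w a b c d ω₀) := by
  classical
  unfold lseM at h
  obtain ⟨hy, ⟨l, hl, el, gl⟩, r, hr, er, gr⟩ := Finset.mem_filter.1 h
  have up : ∀ p q : TV, LseSt (lcyG L H w c d) (lseFr (sdSys x L T 0 H) (lcyG L H w c d) a b ω₀) p q →
      TscStep tscG (lpoF x L H T w a b c d ω₀) (lcyLift L w p) (lcyLift L w q) :=
    fun p q hs => ⟨hs.1, lpo_fr_up hs.2.1, lpo_fr_up hs.2.2⟩
  exact ⟨lpo_fr_up hy, ⟨lcyLift L w l, lpo_fr_up hl, el, ReflTransGen.lift (lcyLift L w) up _ _ gl⟩,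
    lcyLift L w r, lpo_fr_up hr, er, ReflTransGen.lift (lcyLift L w) up _ _ gr⟩

end Dict

/-! ## Part 3: cells and sites -/

theorem lpo_mem_up {y s : TV} : s ∈ sdiTri true y ↔ (s.1 = y.1 ∧ s.2 = y.2) ∨ (s.1 = y.1 + 1 ∧ s.2 = y.2) ∨ (s.1 = y.1 ∧ s.2 = y.2 + 1) := by
  simp [sdiTri, cellV, Prod.ext_iff]

theorem lpo_mem_dn {y s : TV} : s ∈ sdiTri false y ↔ (s.1 = y.1 + 1 ∧ s.2 = y.2) ∨ (s.1 = y.1 ∧ s.2 = y.2 + 1) ∨ (s.1 = y.1 + 1 ∧ s.2 = y.2 + 1) := by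
  simp [sdiTri, cellD, Prod.ext_iff]

/-- two planar cells of one class which share a site are equal or adjacent -/
theorem lpo_tri_adj {T : Bool} {y z s : TV} (h1 : s ∈ sdiTri T y) (h2 : s ∈ sdiTri T z) : y = z ∨ triAdj y z := by
  rw [tsc_adj_iff, Prod.ext_iff]
  cases T
  · rw [lpo_mem_dn] at h1 h2; omega
  · rw [lpo_mem_up] at h1 h2; omega

/-- two distinct planar cells of one class share at most one site -/
theorem lpo_tri_uniq {T : Bool} {y z s s' : TV} (hyz : y ≠ z) (h1 : s ∈ sdiTri T y) (h2 : s ∈ sdiTri T z) (h1' : s' ∈ sdiTri T y)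
    (h2' : s' ∈ sdiTri T z) : s = s' := by
  rw [Ne, Prod.ext_iff] at hyz
  rw [Prod.ext_iff]
  cases T
  · rw [lpo_mem_dn] at h1 h2 h1' h2'; omega
  · rw [lpo_mem_up] at h1 h2 h1' h2'; omega

/-- the rows of the sites of a cell -/
theorem lpo_tri_row {T : Bool} {y s : TV} (h : s ∈ sdiTri T y) : y.2 ≤ s.2 ∧ s.2 ≤ y.2 + 1 := by
  cases T
  · rw [lpo_mem_dn] at h; omega
  · rw [lpo_mem_up] at h; omega

theorem lpo_mem_cell {L : ℕ} {T : Bool} {y v : TV} : v ∈ sdCell L T y ↔ ∃ s ∈ sdiTri T y, sdRed L s = v := by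
  rw [sdi_cell_eq]; exact Finset.mem_image

/-- a cell of the cylinder through the reduction of a planar site has a lift through this site -/
theorem lpo_cell_lift {L : ℕ} {T : Bool} {z s : TV} (h : sdRed L s ∈ sdCell L T z) : ∃ z' : TV, sdRed L z' = sdRed L z ∧ s ∈ sdiTri T z' := by
  obtain ⟨s', hs', e⟩ := lpo_mem_cell.1 h
  have e1 : s'.1 % (L : ℤ) = s.1 % (L : ℤ) := by have := congrArg Prod.fst e; exact this
  have e2 : s'.2 = s.2 := by have := congrArg Prod.snd e; exact this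
  obtain ⟨k, hk⟩ : (L : ℤ) ∣ s.1 - s'.1 := Int.ModEq.dvd e1
  refine ⟨(z.1 + L * k, z.2), ?_, ?_⟩
  · unfold sdRed
    simp
  · cases T
    · rw [lpo_mem_dn] at hs' ⊢
      simp only
      omega
    · rw [lpo_mem_up] at hs' ⊢
      simp only
      omega

/-! ## Part 4: the four ports -/

/-- a port at a corner: `m` = last retained cell of the column `col` in the direction `δq`, `m + δw` = the outer cell -/
def LpoCor (L : ℕ) (T : Bool) (Mt : Set TV) (col : ℤ) (δw δq v : TV) : Prop :=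
  ∃ m s : TV, m.1 = col ∧ m ∈ Mt ∧ m + δq ∉ Mt ∧ s ∈ sdiTri T m ∧ s ∈ sdiTri T (m + δw) ∧ v = sdRed L s

theorem lpo_eqns_cite3 : True := by
  have := @LpoCor.eq_1
  trivial

/-- one port per corner -/
theorem lpo_cor_uniq {L : ℕ} {T : Bool} {Mt : Set TV} {col : ℤ} {δw δq v v' : TV}
    (hint : ∀ j1 j j2 : ℤ, (col, j1) ∈ Mt → (col, j2) ∈ Mt → j1 ≤ j → j ≤ j2 → (col, j) ∈ Mt) (hw : δw ≠ 0)
    (hq : δq = (0, 1) ∨ δq = (0, -1)) (h : LpoCor L T Mt col δw δq v) (h' : LpoCor L T Mt col δw δq v') : v = v' := by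
  obtain ⟨m, s, e, hm, hmq, h1, h2, rfl⟩ := h
  obtain ⟨m', s', e', hm', hmq', h1', h2', rfl⟩ := h'
  obtain ⟨m1, m2⟩ := m
  obtain ⟨m1', m2'⟩ := m'
  simp only at e e'
  subst e
  subst e'
  have hmm : m2 = m2' := by
    rcases hq with rfl | rfl
    · simp only [Prod.mk_add_mk, add_zero] at hmq hmq'
      rcases lt_trichotomy m2 m2' with hlt | heq | hlt
      · exact absurd (hint m2 (m2 + 1) m2' hm hm' (by omega) (by omega)) hmq
      · exact heq
      · exact absurd (hint m2' (m2' + 1) m2 hm' hm (by omega) (by omega)) hmq'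
    · simp only [Prod.mk_add_mk, add_zero] at hmq hmq'
      rcases lt_trichotomy m2 m2' with hlt | heq | hlt
      · exact absurd (hint m2 (m2' + -1) m2' hm hm' (by omega) (by omega)) hmq'
      · exact heq
      · exact absurd (hint m2' (m2 + -1) m2 hm' hm (by omega) (by omega)) hmq
  subst hmm
  rw [lpo_tri_uniq (fun e => hw (by simpa using e)) h1 h2 h1' h2']

section Main

variable {x : ℝ} {L H : ℕ} {T : Bool} {w a b c d : ℤ} {ω₀ : ClCfg TV TV}

/-- reductions which agree, at distance `< L` -/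
theorem lpo_red_inj {L : ℕ} {p q : TV} (h : sdRed L p = sdRed L q) (h1 : |p.1 - q.1| < L) : p = q := by
  have e1 : p.1 % (L : ℤ) = q.1 % (L : ℤ) := by have := congrArg Prod.fst h; exact this
  have e2 : p.2 = q.2 := by have := congrArg Prod.snd h; exact this
  have hd : (L : ℤ) ∣ p.1 - q.1 := Int.ModEq.dvd e1.symm
  have := Int.eq_zero_of_abs_lt_dvd hd h1
  exact Prod.ext (by omega) e2

/-- **classification of the ports** -/
theorem lpo_class (hL : 0 < L) (hw : w ≤ a) (hb : b < w + L) (hab : b - a + 2 < L) (hc : 0 ≤ c) (hd : d + 1 < H) {v : TV}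
    (hv : v ∈ lseP (sdSys x L T 0 H) (lcyK L H) (lcyG L H w c d) a b ω₀) :
    LpoCor L T (lpoM a b (lpoF x L H T w a b c d ω₀)) a (-1, 1) (0, 1) v ∨ LpoCor L T (lpoM a b (lpoF x L H T w a b c d ω₀)) a (-1, 0) (0, -1) v ∨
    LpoCor L T (lpoM a b (lpoF x L H T w a b c d ω₀)) b (1, 0) (0, 1) v ∨ LpoCor L T (lpoM a b (lpoF x L H T w a b c d ω₀)) b (1, -1) (0, -1) v := by
  classical
  unfold lseP at hv
  obtain ⟨hvR, hvX⟩ := Finset.mem_inter.1 hv
  obtain ⟨m, hm, hvm⟩ := lse_mem_R.1 hvR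
  obtain ⟨w', hw', hvw⟩ := lse_mem_sv.1 hvX
  unfold lseXp at hw'
  obtain ⟨hwE, hwX⟩ := Finset.mem_sdiff.1 hw'
  obtain ⟨hwC, hwO, -⟩ := lse_mem_Eo.1 hwE
  have hpin : ∃ v' ∈ (sdSys x L T 0 H).sv w', v' ∈ (lenRec (sdSys x L T 0 H) (lcyK L H) (lcyG L H w c d) a b ω₀).Bp := by
    by_contra hn
    push Not at hn
    exact hwX (lse_mem_Xw.2 ⟨hwE, hn⟩)
  obtain ⟨v', hv'w, hv'B⟩ := hpin
  -- the retained cell, lifted
  have hmF := lse_M_sub_Fr _ _ _ _ _ hm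
  have hmbox := (lse_mem_O.1 (lse_mem_Fr.1 hmF).1).2
  obtain ⟨hmt, hmr⟩ := lpo_box_up hmbox
  have hmM : lcyLift L w m ∈ lpoM a b (lpoF x L H T w a b c d ω₀) := lpo_M_up hm
  have hmQ : ¬ (lcyG L H w c d).Q (lenNp (sdSys x L T 0 H) ω₀) a b m := fun h => (lse_mem_Fr.1 hmF).2 (lse_mem_Q.2 ⟨hmbox.1.1, h⟩)
  have hr1 : (lcyLift L w m).2 ≠ d := fun e => hmQ ⟨hmbox, Or.inl e⟩
  have hr2 : (lcyLift L w m).2 ≠ c := fun e => hmQ ⟨hmbox, Or.inr (Or.inl e)⟩
  generalize lcyLift L w m = mt at hmt hmr hmM hr1 hr2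
  -- the port, lifted
  have hvm' : v ∈ sdCell L T mt := by rw [← sdi_cell_red, hmr]; exact hvm
  obtain ⟨s, hs, rfl⟩ := lpo_mem_cell.1 hvm'
  obtain ⟨wt, hwt, hswt⟩ := lpo_cell_lift (T := T) (z := w') hvw
  have hw'red : sdRed L w' = w' := by
    obtain ⟨k1, k2, -, -⟩ := lcy_mem_cells hwC
    exact sdi_red_eq ⟨k1, k2⟩
  rw [hw'red] at hwt
  have hwtbox : wt ∉ tscBox a b c d := fun h => hwO (lse_mem_O.2 ⟨hwC, by
    have := lcy_box_down (H := H) hL hw hb hc (by omega) h; rwa [hwt] at this⟩)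
  have hadj := lpo_tri_adj hs hswt
  -- the plus pin, lifted
  have hv'w' : v' ∈ sdCell L T wt := by rw [← sdi_cell_red, hwt]; exact hv'w
  obtain ⟨s', hs', rfl⟩ := lpo_mem_cell.1 hv'w'
  have hrow' := lpo_tri_row hs'
  have hadj' : triAdj mt wt := by
    rcases hadj with e | h
    · exact absurd (e ▸ hmt) hwtbox
    · exact h
  have hadj2 := hadj'
  rw [tsc_adj_iff] at hadj2
  obtain ⟨t1, t2, t3, t4⟩ := hmt
  have hB : sdRed L s' ∈ ((lenQ (sdSys x L T 0 H) (lcyG L H w c d) a b ω₀).biUnion (sdSys x L T 0 H).sv) := by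
    unfold lenRec lenObs at hv'B
    simp only at hv'B
    rcases Finset.mem_union.1 hv'B with hB | hB
    · have e : s'.2 = H := (sdi_mem_row.1 hB).2
      omega
    · exact (Finset.mem_filter.1 hB).1
  obtain ⟨q, hq, hs'q⟩ := Finset.mem_biUnion.1 hB
  obtain ⟨qt, hqt, hs'qt⟩ := lpo_cell_lift (T := T) (z := q) hs'q
  have hqQ := (lse_mem_Q.1 hq).2
  obtain ⟨hql, hqr⟩ := lpo_box_up hqQ.1
  have hqX := lpo_Q_up hqQ
  have hadjq := lpo_tri_adj hs' hs'qt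
  rw [tsc_adj_iff, Prod.ext_iff] at hadjq
  have hwt' : ¬ (a ≤ wt.1 ∧ wt.1 ≤ b ∧ c ≤ wt.2 ∧ wt.2 ≤ d) := hwtbox
  have hqe : qt = lcyLift L w q := by
    refine lpo_red_inj (L := L) ?_ ?_
    · rw [hqt, hqr]
      obtain ⟨k1, k2, -, -⟩ := lcy_mem_cells hqQ.1.1.1
      exact sdi_red_eq ⟨k1, k2⟩
    · have := hql.1
      have := hql.2.1
      rw [abs_lt]
      constructor <;> omega
  rw [← hqe] at hqX hql
  have hqM : qt ∉ lpoM a b (lpoF x L H T w a b c d ω₀) := fun h => hqX.2 h.1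
  obtain ⟨u1, u2, u3, u4⟩ := hql
  have hne : mt ≠ qt := fun e => hqM (e ▸ hmM)
  rw [Ne, Prod.ext_iff] at hne
  by_cases hside : wt.1 < a
  · by_cases hup : qt.2 = mt.2 + 1
    · refine Or.inl ⟨mt, s, by omega, hmM, ?_, hs, ?_, rfl⟩
      · have : mt + (0, 1) = qt := Prod.ext (by simp; omega) (by simp; omega)
        rw [this]; exact hqM
      · have : mt + (-1, 1) = wt := Prod.ext (by simp; omega) (by simp; omega)
        rw [this]; exact hswt
    · refine Or.inr (Or.inl ⟨mt, s, by omega, hmM, ?_, hs, ?_, rfl⟩)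
      · have : mt + (0, -1) = qt := Prod.ext (by simp; omega) (by simp; omega)
        rw [this]; exact hqM
      · have : mt + (-1, 0) = wt := Prod.ext (by simp; omega) (by simp; omega)
        rw [this]; exact hswt
  · by_cases hup : qt.2 = mt.2 + 1
    · refine Or.inr (Or.inr (Or.inl ⟨mt, s, by omega, hmM, ?_, hs, ?_, rfl⟩))
      · have : mt + (0, 1) = qt := Prod.ext (by simp; omega) (by simp; omega)
        rw [this]; exact hqM
      · have : mt + (1, 0) = wt := Prod.ext (by simp; omega) (by simp; omega)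
        rw [this]; exact hswt
    · refine Or.inr (Or.inr (Or.inr ⟨mt, s, by omega, hmM, ?_, hs, ?_, rfl⟩))
      · have : mt + (0, -1) = qt := Prod.ext (by simp; omega) (by simp; omega)
        rw [this]; exact hqM
      · have : mt + (1, -1) = wt := Prod.ext (by simp; omega) (by simp; omega)
        rw [this]; exact hswt

/-- **AT MOST FOUR PORTS** on the chart of the mixed cylinder (hypothesis `hP` of `lse_main`; `H⁺(box)` is not used) -/
theorem lpo_ports (x : ℝ) {L H : ℕ} (T : Bool) {w a b c d : ℤ} (hw : w ≤ a) (hb : b < w + L) (hab : b - a + 2 < L) (hc : 0 ≤ c) (hd : d + 1 < H)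
    (hL : 0 < L) (ω₀ : ClCfg TV TV) : (lseP (sdSys x L T 0 H) (lcyK L H) (lcyG L H w c d) a b ω₀).card ≤ 4 := by
  classical
  have hTB : LpoTB a b c d (lpoF x L H T w a b c d ω₀) := lpo_TB hL hw hb hc (by omega)
  have iL : ∀ j1 j j2 : ℤ, (a, j1) ∈ lpoM a b (lpoF x L H T w a b c d ω₀) → (a, j2) ∈ lpoM a b (lpoF x L H T w a b c d ω₀) → j1 ≤ j → j ≤ j2 →
      (a, j) ∈ lpoM a b (lpoF x L H T w a b c d ω₀) := fun j1 j j2 h1 h2 h3 h4 => lpo_M_left lpo_F_sub hTB h1 h2 h3 h4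
  have iR : ∀ j1 j j2 : ℤ, (b, j1) ∈ lpoM a b (lpoF x L H T w a b c d ω₀) → (b, j2) ∈ lpoM a b (lpoF x L H T w a b c d ω₀) → j1 ≤ j → j ≤ j2 →
      (b, j) ∈ lpoM a b (lpoF x L H T w a b c d ω₀) := fun j1 j j2 h1 h2 h3 h4 => lpo_M_right lpo_F_sub hTB h1 h2 h3 h4
  have hcl := fun v hv => lpo_class (x := x) (T := T) (ω₀ := ω₀) (v := v) hL hw hb hab hc hd hv
  generalize lseP (sdSys x L T 0 H) (lcyK L H) (lcyG L H w c d) a b ω₀ = P at hcl ⊢
  generalize lpoM a b (lpoF x L H T w a b c d ω₀) = Mt at hcl iL iR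
  have hsub : P ⊆ ((P.filter (LpoCor L T Mt a (-1, 1) (0, 1)) ∪ P.filter (LpoCor L T Mt a (-1, 0) (0, -1))) ∪
      P.filter (LpoCor L T Mt b (1, 0) (0, 1))) ∪ P.filter (LpoCor L T Mt b (1, -1) (0, -1)) := by
    intro v hv
    simp only [Finset.mem_union, Finset.mem_filter]
    rcases hcl v hv with h | h | h | h
    · exact Or.inl (Or.inl (Or.inl ⟨hv, h⟩))
    · exact Or.inl (Or.inl (Or.inr ⟨hv, h⟩))
    · exact Or.inl (Or.inr ⟨hv, h⟩)
    · exact Or.inr ⟨hv, h⟩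
  have c1 : (P.filter (LpoCor L T Mt a (-1, 1) (0, 1))).card ≤ 1 := Finset.card_le_one.2 fun v hv v' hv' =>
    lpo_cor_uniq iL (by simp) (Or.inl rfl) (Finset.mem_filter.1 hv).2 (Finset.mem_filter.1 hv').2
  have c2 : (P.filter (LpoCor L T Mt a (-1, 0) (0, -1))).card ≤ 1 := Finset.card_le_one.2 fun v hv v' hv' =>
    lpo_cor_uniq iL (by simp) (Or.inr rfl) (Finset.mem_filter.1 hv).2 (Finset.mem_filter.1 hv').2
  have c3 : (P.filter (LpoCor L T Mt b (1, 0) (0, 1))).card ≤ 1 := Finset.card_le_one.2 fun v hv v' hv' =>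
    lpo_cor_uniq iR (by simp) (Or.inl rfl) (Finset.mem_filter.1 hv).2 (Finset.mem_filter.1 hv').2
  have c4 : (P.filter (LpoCor L T Mt b (1, -1) (0, -1))).card ≤ 1 := Finset.card_le_one.2 fun v hv v' hv' =>
    lpo_cor_uniq iR (by simp) (Or.inr rfl) (Finset.mem_filter.1 hv).2 (Finset.mem_filter.1 hv').2
  have k1 := Finset.card_le_card hsub
  have k2 := Finset.card_union_le ((P.filter (LpoCor L T Mt a (-1, 1) (0, 1)) ∪ P.filter (LpoCor L T Mt a (-1, 0) (0, -1))) ∪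
      P.filter (LpoCor L T Mt b (1, 0) (0, 1))) (P.filter (LpoCor L T Mt b (1, -1) (0, -1)))
  have k3 := Finset.card_union_le (P.filter (LpoCor L T Mt a (-1, 1) (0, 1)) ∪ P.filter (LpoCor L T Mt a (-1, 0) (0, -1)))
      (P.filter (LpoCor L T Mt b (1, 0) (0, 1)))
  have k4 := Finset.card_union_le (P.filter (LpoCor L T Mt a (-1, 1) (0, 1))) (P.filter (LpoCor L T Mt a (-1, 0) (0, -1)))
  omega

/-- the form consumed by `lse_main`, with the numerology of `LcySE` -/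
theorem lpo_hP (x : ℝ) {L H : ℕ} (T : Bool) {k r w a b : ℤ} (hr : 1 ≤ r) (hL : 10 * r ≤ L) (hk : 12 + r ≤ 4 * k) (hH : 4 * k + 5 * r ≤ 4 * (H : ℤ) - 16)
    (hw : w ≤ a) (hb : b < w + L) (hba : b - a ≤ 5 * r) :
    ∀ ω₀ ∈ (sdSys x L T 0 H).cfgs, (lcyK L H).Holds (sdSys x L T 0 H) ω₀ →
      (lcyG L H w k (k + r - 1)).Hp (lenNp (sdSys x L T 0 H) ω₀) a b →
      (lseP (sdSys x L T 0 H) (lcyK L H) (lcyG L H w k (k + r - 1)) a b ω₀).card ≤ 4 :=
  fun ω₀ _ _ _ => lpo_ports x T hw hb (by omega) (by omega) (by omega) (by omega) ω₀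

end Main

end Claimed.Agent.R291
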