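import Claimed.Agent.R291.Ann.Model
import Claimed.Agent.R291.Cell.Host

/-!
# Row 291 (S0539), Ann/ModelS : A0, CUT LAWS WITH A SIGN FUNCTION (MIXED BOUNDARY CONDITIONS)      (owner + architect helper22; prefix `ams_` / `Ams` / `ams`)

TEX 09-annulus l.10-21 (`P_T`: `B = +` on the top layer, `B = -` on the bottom layer), TEX[annulus:ambient] second half ("two such cuts isolate the law between them"), TEX[annulus:slide] (`μ_{a,b}`), TEX[annulus:search].
The tools T1-T3 of `Ann/Model.lean` are typed for ONE sign `s` on the whole layer of the domain `I`.   Here the sign is a FUNCTION `σ : V → Bool` of the site: the law between a lower open-minus contour and an upper open-plus contour is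
`cuES S σ I K F` with `σ = false` near the lower contour, `σ = true` near the upper one.   NO contours: a domain `I`, its crossing cells, its layer.

* `ClCutS S σ I ω`   every crossing cell `y` of `I` is open of the sign `σ v`, for ALL `v ∈ S.sv y` (so the event is empty unless `σ` is constant on every crossing cell)
* `CuPinS σ T ω`     the first spin equals `σ` on `T`;      **`cuES S σ I K F`, `cuPS S σ I K L`** the intrinsic law: system `S.inn I`, `B = σ` on the layer `cuLay S I`, `W` free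
* `AmsAdm S σ I`     ADMISSIBLE: `σ` is constant on every crossing cell of `I` (outer sites included): the pins are realised by open cells of the ambient system
* `K.opnS S σ X`     the history `K` + "the cells of `X` are open of the sign `σ`, their sites are pinned"   (σ-version of `K.opn` of 46)
* `amsSg S σ I s`    the sign function after a search of sign `s` inside `I`: `s` on the sites of `I` off its layer, `σ` elsewhere

THEOREMS (σ-versions; proofs = the kits `dam_` (62, Dis/Amb), `amo_` (46, Ann/Model) with `s` replaced by `σ`):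
`ams_cut` (MASTER), `ams_amb`, `ams_feas`, `ams_hist` (the cut as a LEGAL history: `ams_legal`), `ams_fkg` (T1), `ams_order` (T2), `ams_dom_plus`, `ams_dom_minus` (T2; a SLIDE of TEX[annulus:slide] = one `dom_minus` + one `dom_plus`, `ams_slide`),
`ams_search`, `ams_search_adm` (T3 inside a mixed law), `ams_lay_sdiff`.
-/

set_option autoImplicit false
set_option linter.unusedSectionVars false
set_option linter.unusedVariables false

namespace Claimed.Agent.R291

open Relation Claims Claims.C0467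

section abstract

variable {V Y : Type} [DecidableEq V] [DecidableEq Y]

/-- cut with a sign function -/
def ClCutS (S : ClSys V Y) (σ : V → Bool) (I : Finset V) (ω : ClCfg V Y) : Prop :=
  ∀ y ∈ S.C, clCross S I y → ∀ v ∈ S.sv y, clTau S ω y = clSg (σ v)

/-- the first spin equals `σ` on `T` -/
def CuPinS (σ : V → Bool) (T : Finset V) (ω : ClCfg V Y) : Prop := ∀ v ∈ T, (v ∈ ω.B ↔ σ v = true)

/-- **the intrinsic cut law with the sign function `σ`** -/
noncomputable def cuES (S : ClSys V Y) (σ : V → Bool) (I : Finset V) (K : ClCfg V Y → Prop) (F : ClCfg V Y → ℝ) : ℝ :=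
  (S.inn I).E (fun ω => CuPinS σ (cuLay S I) ω ∧ K ω) F

/-- probability under the intrinsic cut law with the sign function `σ` -/
noncomputable def cuPS (S : ClSys V Y) (σ : V → Bool) (I : Finset V) (K L : ClCfg V Y → Prop) : ℝ :=
  (S.inn I).P (fun ω => CuPinS σ (cuLay S I) ω ∧ K ω) L

/-- `σ` is constant on every crossing cell of `I` -/
def AmsAdm (S : ClSys V Y) (σ : V → Bool) (I : Finset V) : Prop :=
  ∀ y ∈ S.C, clCross S I y → ∀ u ∈ S.sv y, ∀ v ∈ S.sv y, σ u = σ v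

/-- add to a history: the cells of `X` are open of the sign `σ`, their sites are pinned -/
def ClCon.opnS (K : ClCon V Y) (S : ClSys V Y) (σ : V → Bool) (X : Finset Y) : ClCon V Y :=
  { K with
    Bp := K.Bp ∪ (X.biUnion S.sv).filter (fun v => σ v = true)
    Bm := K.Bm ∪ (X.biUnion S.sv).filter (fun v => σ v = false)
    Op := K.Op ∪ X.filter (fun y => ∀ v ∈ S.sv y, σ v = true)
    Om := K.Om ∪ X.filter (fun y => ∀ v ∈ S.sv y, σ v = false) }

/-- the sign function after a search of sign `s` inside `I` -/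
def amsSg (S : ClSys V Y) (σ : V → Bool) (I : Finset V) (s : Bool) : V → Bool :=
  fun v => if v ∈ I ∧ v ∉ cuLay S I then s else σ v

/-! ### the constant sign function -/

theorem ams_cut_const (S : ClSys V Y) (s : Bool) (I : Finset V) (ω : ClCfg V Y) : ClCutS S (fun _ => s) I ω ↔ ClCut S s I ω := by
  constructor
  · intro h y hy hc
    obtain ⟨u, hu, _⟩ := hc.1
    exact h y hy hc u hu
  · intro h y hy hc v _
    exact h y hy hc

theorem ams_cuES_const (S : ClSys V Y) (s : Bool) (I : Finset V) (K : ClCfg V Y → Prop) (F : ClCfg V Y → ℝ) :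
    cuES S (fun _ => s) I K F = cuE S s I K F := rfl

/-- only the values of `σ` on the layer matter -/
theorem ams_cuES_congr (S : ClSys V Y) (σ σ' : V → Bool) (I : Finset V) (h : ∀ v ∈ cuLay S I, σ v = σ' v) (K : ClCfg V Y → Prop)
    (F : ClCfg V Y → ℝ) : cuES S σ I K F = cuES S σ' I K F := by
  have e : (fun ω : ClCfg V Y => CuPinS σ (cuLay S I) ω ∧ K ω) = (fun ω => CuPinS σ' (cuLay S I) ω ∧ K ω) := by
    funext ω
    apply propext
    unfold CuPinS
    refine and_congr_left fun _ => forall₂_congr fun v hv => ?_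
    rw [h v hv]
  unfold cuES
  rw [e]

/-! ### the master formula -/

/-! #### kit of the master formula (helper168): the swap of 62 / 22 for abstract constraints, the strong cut with a sign function -/

/-- STRONG cut with a sign function: the cells of `X` are open, the first spin equals `σ` on their sites -/
def AmsCut (S : ClSys V Y) (X : Finset Y) (σ : V → Bool) (ω : ClCfg V Y) : Prop :=
  ∀ y ∈ X, y ∈ ω.O ∧ ∀ v ∈ S.sv y, (v ∈ ω.B ↔ σ v = true)

/-- the outer part of the strong cut -/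
def AmsCutO (S S' : ClSys V Y) (σ : V → Bool) (ω : ClCfg V Y) : Prop :=
  ∀ y ∈ damX S S', y ∈ ω.O ∧ ∀ v ∈ S.sv y, v ∉ S'.A → (v ∈ ω.B ↔ σ v = true)

theorem ams_kit_eqns_cite : True := by
  have := @AmsCut.eq_1
  have := @AmsCutO.eq_1
  trivial

/-- **SWAP, abstract constraints** (`am_swapG` of 22 with the two properties of the constraints which its proof uses) -/
theorem ams_swapA {S S' : ClSys V Y} (h : DamSub S S') (Ka Ki : ClCfg V Y → Prop) {F G : ClCfg V Y → ℝ}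
    (hev : ∀ η ω : ClCfg V Y, (Ka ω ∧ Ki η) ↔ (Ka (damMix S'.A S'.C η ω) ∧ Ki (damRes S'.A S'.C ω)))
    (hrw : ∀ η ω : ClCfg V Y, Ka ω → Ka (damMix S'.A S'.C η ω) → damRw S S' (damMix S'.A S'.C η ω) = damRw S S' ω)
    (hF : ClLoc S'.A S'.C F) (hG : ∀ η ω : ClCfg V Y, G (damMix S'.A S'.C η ω) = G ω) :
    S.N Ka (fun ω => G ω * F ω) * S'.N Ki (fun _ => 1) = S.N Ka G * S'.N Ki F := by
  classical
  unfold ClSys.N
  rw [Finset.sum_mul_sum, Finset.sum_mul_sum, ← Finset.sum_product', ← Finset.sum_product']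
  refine Finset.sum_nbij' (fun p => (damMix S'.A S'.C p.2 p.1, damRes S'.A S'.C p.1))
    (fun p => (damMix S'.A S'.C p.2 p.1, damRes S'.A S'.C p.1)) ?_ ?_ ?_ ?_ ?_
  · intro p hp
    obtain ⟨h1, _⟩ := Finset.mem_product.1 hp
    exact Finset.mem_product.2 ⟨dam_mix_mem h h1, dam_res_mem S S' _⟩
  · intro p hp
    obtain ⟨h1, _⟩ := Finset.mem_product.1 hp
    exact Finset.mem_product.2 ⟨dam_mix_mem h h1, dam_res_mem S S' _⟩
  · intro p hp
    obtain ⟨_, h2⟩ := Finset.mem_product.1 hp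
    exact Prod.ext (dam_mix_res_mix _ _ _ _) (dam_res_mix h2 _)
  · intro p hp
    obtain ⟨_, h2⟩ := Finset.mem_product.1 hp
    exact Prod.ext (dam_mix_res_mix _ _ _ _) (dam_res_mix h2 _)
  · rintro ⟨ω, η⟩ hp
    obtain ⟨_, h2⟩ := Finset.mem_product.1 hp
    have hev' := hev η ω
    simp only
    by_cases hc : Ka ω ∧ Ki η
    · obtain ⟨c1, c2⟩ := hc
      obtain ⟨c3, c4⟩ := hev'.1 ⟨c1, c2⟩
      rw [if_pos c1, if_pos c2, if_pos c3, if_pos c4, dam_wt_split h ω, dam_wt_split h (damMix S'.A S'.C η ω), dam_res_mix h2,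
        hrw η ω c1 c3, dam_loc_res hF, hG]
      ring
    · have hc' := fun hh => hc (hev'.2 hh)
      have e1 : (if Ka ω then S.wt ω * (G ω * F ω) else 0) * (if Ki η then S'.wt η * 1 else 0) = 0 := by
        by_cases c1 : Ka ω
        · rw [if_neg (fun c2 => hc ⟨c1, c2⟩), mul_zero]
        · rw [if_neg c1, zero_mul]
      have e2 : (if Ka (damMix S'.A S'.C η ω) then S.wt (damMix S'.A S'.C η ω) * G (damMix S'.A S'.C η ω) else 0)
          * (if Ki (damRes S'.A S'.C ω) then S'.wt (damRes S'.A S'.C ω) * F (damRes S'.A S'.C ω) else 0) = 0 := by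
        by_cases c1 : Ka (damMix S'.A S'.C η ω)
        · rw [if_neg (fun c2 => hc' ⟨c1, c2⟩), mul_zero]
        · rw [if_neg c1, zero_mul]
      rw [e1, e2]

/-- the factor of an open cell on which the first spin is `σ` depends on `σ` only -/
theorem ams_cw_cut (S : ClSys V Y) {σ : V → Bool} {ω ω' : ClCfg V Y} {y : Y} (h : y ∈ ω.O ∧ ∀ v ∈ S.sv y, (v ∈ ω.B ↔ σ v = true))
    (h' : y ∈ ω'.O ∧ ∀ v ∈ S.sv y, (v ∈ ω'.B ↔ σ v = true)) : damCw S ω y = damCw S ω' y := by
  unfold damCw clCellW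
  rw [if_pos h.1, if_pos h'.1]
  simp only [dam_const_congr (fun v hv => (h.2 v hv).trans (h'.2 v hv).symm)]

theorem ams_rw_mix {S S' : ClSys V Y} {σ : V → Bool} {η ω : ClCfg V Y} (h1 : AmsCut S (damX S S') σ ω)
    (h2 : AmsCut S (damX S S') σ (damMix S'.A S'.C η ω)) : damRw S S' (damMix S'.A S'.C η ω) = damRw S S' ω := by
  unfold damRw
  refine Finset.prod_congr rfl fun y hy => ?_
  by_cases hX : y ∈ damX S S'
  · exact ams_cw_cut S (h2 y hX) (h1 y hX)
  · have hy' := Finset.mem_sdiff.1 hy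
    have hdis : ∀ v ∈ S.sv y, v ∉ S'.A := fun v hv hv' =>
      hX (Finset.mem_filter.2 ⟨hy, ⟨v, Finset.mem_inter.2 ⟨hv, hv'⟩⟩⟩)
    exact dam_cw_congr S S _ _ y rfl rfl (fun v hv => dam_mix_B_out _ _ _ (hdis v hv)) (fun v hv => dam_mix_W_out _ _ _ (hdis v hv))
      (dam_mix_O_out _ _ _ hy'.2)

theorem ams_cut_iff (S S' : ClSys V Y) (σ : V → Bool) (ω : ClCfg V Y) :
    AmsCut S (damX S S') σ ω ↔ AmsCutO S S' σ ω ∧ CuPinS σ (damLay S S') ω := by
  constructor
  · intro h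
    refine ⟨fun y hy => ⟨(h y hy).1, fun v hv _ => (h y hy).2 v hv⟩, fun v hv => ?_⟩
    obtain ⟨h1, _⟩ := Finset.mem_inter.1 hv
    obtain ⟨y, hy, hvy⟩ := Finset.mem_biUnion.1 h1
    exact (h y hy).2 v hvy
  · rintro ⟨h1, h2⟩ y hy
    refine ⟨(h1 y hy).1, fun v hv => ?_⟩
    by_cases hvA : v ∈ S'.A
    · exact h2 v (Finset.mem_inter.2 ⟨Finset.mem_biUnion.2 ⟨y, hy, hv⟩, hvA⟩)
    · exact (h1 y hy).2 v hv hvA

theorem ams_cutO_mix (S S' : ClSys V Y) (σ : V → Bool) (η ω : ClCfg V Y) :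
    AmsCutO S S' σ (damMix S'.A S'.C η ω) ↔ AmsCutO S S' σ ω := by
  unfold AmsCutO
  refine forall₂_congr fun y hy => ?_
  have hy' : y ∉ S'.C := (Finset.mem_sdiff.1 (Finset.mem_filter.1 hy).1).2
  rw [dam_mix_O_out _ _ _ hy']
  refine and_congr_right fun _ => forall₂_congr fun v _ => ?_
  refine imp_congr_right fun hv => ?_
  rw [dam_mix_B_out _ _ _ hv]

theorem ams_pin_mix (S S' : ClSys V Y) (σ : V → Bool) (η ω : ClCfg V Y) :
    CuPinS σ (damLay S S') (damMix S'.A S'.C η ω) ↔ CuPinS σ (damLay S S') η := by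
  unfold CuPinS
  refine forall₂_congr fun v hv => ?_
  rw [dam_mix_B_in _ _ _ (Finset.mem_inter.1 hv).2]

theorem ams_pin_res (S S' : ClSys V Y) (σ : V → Bool) (ω : ClCfg V Y) :
    CuPinS σ (damLay S S') (damRes S'.A S'.C ω) ↔ CuPinS σ (damLay S S') ω := by
  unfold CuPinS
  refine forall₂_congr fun v hv => ?_
  simp [damRes, (Finset.mem_inter.1 hv).2]

theorem ams_ev_swap (S S' : ClSys V Y) (σ : V → Bool) {Kin Kout : ClCfg V Y → Prop} (hKin : ClLocP S'.A S'.C Kin)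
    (hKout : DamOut S'.A S'.C Kout) (η ω : ClCfg V Y) :
    ((AmsCut S (damX S S') σ ω ∧ Kin ω ∧ Kout ω) ∧ (CuPinS σ (damLay S S') η ∧ Kin η)) ↔
      ((AmsCut S (damX S S') σ (damMix S'.A S'.C η ω) ∧ Kin (damMix S'.A S'.C η ω) ∧ Kout (damMix S'.A S'.C η ω)) ∧
        (CuPinS σ (damLay S S') (damRes S'.A S'.C ω) ∧ Kin (damRes S'.A S'.C ω))) := by
  rw [ams_cut_iff, ams_cut_iff, ams_cutO_mix, ams_pin_mix, ams_pin_res, dam_in_res hKin, dam_in_mix hKin, dam_out_mix hKout]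
  tauto

/-- one cell: on configurations of nonzero weight the status form is the strong form -/
theorem ams_tau_cell {S : ClSys V Y} {y : Y} (hy : y ∈ S.C) (hne : (S.sv y).Nonempty) (σ : V → Bool) {ω : ClCfg V Y} (hw : S.wt ω ≠ 0) :
    (∀ v ∈ S.sv y, clTau S ω y = clSg (σ v)) ↔ (y ∈ ω.O ∧ ∀ v ∈ S.sv y, (v ∈ ω.B ↔ σ v = true)) := by
  constructor
  · intro h
    have ho : y ∈ ω.O := by
      by_contra ho
      obtain ⟨v, hv⟩ := hne
      have := h v hv
      rw [(dis_tau_zero S ω y).2 ho] at this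
      unfold clSg at this
      split_ifs at this <;> exact absurd this (by decide)
    refine ⟨ho, fun v hv => ?_⟩
    have h1 := h v hv
    rcases dam_open_const hw hy ho with hc | hc
    · rw [(amo_tau_pos S ω y).2 ⟨ho, hc⟩] at h1
      have : σ v = true := by
        by_contra hn
        unfold clSg at h1
        rw [if_neg hn] at h1
        exact absurd h1 (by decide)
      exact ⟨fun _ => this, fun _ => hc hv⟩
    · have hns : ¬ S.sv y ⊆ ω.B := fun hs => hc v hv (hs hv)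
      rw [(amo_tau_neg S ω y).2 ⟨ho, hns⟩] at h1
      have : ¬ σ v = true := by
        intro hn
        unfold clSg at h1
        rw [if_pos hn] at h1
        exact absurd h1 (by decide)
      exact ⟨fun hh => absurd hh (hc v hv), fun hh => absurd hh this⟩
  · rintro ⟨ho, h⟩ v hv
    rcases dam_open_const hw hy ho with hc | hc
    · rw [(amo_tau_pos S ω y).2 ⟨ho, hc⟩, (h v hv).1 (hc hv)]
      rfl
    · have hns : ¬ S.sv y ⊆ ω.B := fun hs => hc v hv (hs hv)
      have : σ v = false := by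
        cases hσ : σ v
        · rfl
        · exact absurd ((h v hv).2 hσ) (hc v hv)
      rw [(amo_tau_neg S ω y).2 ⟨ho, hns⟩, this]
      rfl

/-- on configurations of nonzero weight the status form of a cut is the strong form -/
theorem ams_cut_tau (S : ClSys V Y) (hS : ClOk S) (σ : V → Bool) (I : Finset V) {ω : ClCfg V Y} (hw : S.wt ω ≠ 0) :
    ClCutS S σ I ω ↔ AmsCut S (damX S (S.inn I)) σ ω := by
  have hC : (S.inn I).C = S.cin (S.inn I).A := rfl
  constructor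
  · intro h y hy
    obtain ⟨h1, h2⟩ := (dam_X_cross hC y).1 hy
    exact (ams_tau_cell h1 (hS.ne y h1) σ hw).1 (h y h1 h2)
  · intro h y h1 h2
    exact (ams_tau_cell h1 (hS.ne y h1) σ hw).2 (h y ((dam_X_cross hC y).2 ⟨h1, h2⟩))

/-- a positive partition function has a witness -/
theorem ams_Z_wit (S : ClSys V Y) (L : ClCfg V Y → Prop) (hf : 0 < S.Z L) : ∃ ω ∈ S.cfgs, L ω ∧ 0 < S.wt ω := by
  classical
  by_contra hn
  unfold ClSys.Z at hf
  refine absurd hf (not_lt.2 (Finset.sum_nonpos fun ω hω => ?_))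
  split_ifs with h
  · exact not_lt.1 fun hp => hn ⟨ω, hω, h, hp⟩
  · exact le_rfl

/-- feasibility goes down, strong cut -/
theorem ams_feas_inA (S : ClSys V Y) (hS : ClOk S) (σ : V → Bool) (I : Finset V) (hI : I ⊆ S.A) (Kin Kout : ClCfg V Y → Prop)
    (hin : ClLocP I (S.cin I) Kin) (hf : 0 < S.Z (fun ω => AmsCut S (damX S (S.inn I)) σ ω ∧ Kin ω ∧ Kout ω)) :
    0 < (S.inn I).Z (fun ω => CuPinS σ (cuLay S I) ω ∧ Kin ω) := by
  have h : DamSub S (S.inn I) := dam_inn_sub S hI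
  obtain ⟨ω, _, hL, hw⟩ := ams_Z_wit S _ hf
  have hO' := am_inn_ok S hS I
  have hw' : 0 < (S.inn I).wt (damRes (S.inn I).A (S.inn I).C ω) := by
    refine lt_of_le_of_ne (dis_wt_nonneg _ hO' _) fun h0 => ?_
    rw [dam_wt_split h ω, ← h0, zero_mul] at hw
    exact lt_irrefl _ hw
  refine lt_of_lt_of_le hw' (amo_Z_ge _ hO' _ (dam_res_mem S (S.inn I) ω) ⟨?_, (dam_in_res hin ω).2 hL.2.1⟩)
  rw [← am_lay_dam]
  exact (ams_pin_res S (S.inn I) σ ω).2 ((ams_cut_iff S (S.inn I) σ ω).1 hL.1).2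

/-- **MASTER PRODUCT FORMULA, sign function** (TEX[lem:cell-cut], TEX[annulus:ambient]).   No topology, no hypothesis on `σ` (if `σ` is not admissible both sides vanish).
PLAN: `am_swapG` / `am_cut` with `DamCut`, `DamPin` for a sign function. -/
theorem ams_cut (S : ClSys V Y) (hS : ClOk S) (σ : V → Bool) (I : Finset V) (hI : I ⊆ S.A) (Kin Kout : ClCfg V Y → Prop)
    (hin : ClLocP I (S.cin I) Kin) (hout : ClLocP (S.A \ I) (S.cout I) Kout) (F G : ClCfg V Y → ℝ)
    (hF : ClLoc I (S.cin I) F) (hG : ClLoc (S.A \ I) (S.cout I) G) :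
    S.N (fun ω => ClCutS S σ I ω ∧ Kin ω ∧ Kout ω) (fun ω => G ω * F ω) =
      S.N (fun ω => ClCutS S σ I ω ∧ Kin ω ∧ Kout ω) G * cuES S σ I Kin F := by
  have h : DamSub S (S.inn I) := dam_inn_sub S hI
  have hcg : ∀ ω ∈ S.cfgs, S.wt ω ≠ 0 →
      ((ClCutS S σ I ω ∧ Kin ω ∧ Kout ω) ↔ (AmsCut S (damX S (S.inn I)) σ ω ∧ Kin ω ∧ Kout ω)) := by
    intro ω _ hw
    rw [ams_cut_tau S hS σ I hw]
  have hGm : ∀ η ω : ClCfg V Y, G (damMix (S.inn I).A (S.inn I).C η ω) = G ω := by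
    intro η ω
    refine hG _ _ ?_ ?_ ?_
    · ext v
      simp only [damMix, ClSys.inn, Finset.mem_inter, Finset.mem_union, Finset.mem_sdiff]
      tauto
    · ext v
      simp only [damMix, ClSys.inn, Finset.mem_inter, Finset.mem_union, Finset.mem_sdiff]
      tauto
    · ext y
      simp only [damMix, ClSys.inn, ClSys.cin, ClSys.cout, Finset.mem_inter, Finset.mem_union, Finset.mem_sdiff, Finset.mem_filter]
      tauto
  have hsw := ams_swapA (F := F) (G := G) h (fun ω => AmsCut S (damX S (S.inn I)) σ ω ∧ Kin ω ∧ Kout ω)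
    (fun η => CuPinS σ (damLay S (S.inn I)) η ∧ Kin η) (ams_ev_swap S (S.inn I) σ hin (dam_out_of_loc S I hout))
    (fun η ω c1 c3 => ams_rw_mix c1.1 c3.1) hF hGm
  rw [am_lay_dam] at hsw
  rw [dam_N_congr S hcg, dam_N_congr S hcg]
  unfold cuES
  rw [dis_E_eq, dis_Z_eq]
  by_cases h0 : (S.inn I).N (fun ω => CuPinS σ (cuLay S I) ω ∧ Kin ω) (fun _ => 1) = 0
  · rw [h0, div_zero, mul_zero]
    have hz : S.Z (fun ω => AmsCut S (damX S (S.inn I)) σ ω ∧ Kin ω ∧ Kout ω) = 0 := by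
      by_contra hne
      have hp := ams_feas_inA S hS σ I hI Kin Kout hin (lt_of_le_of_ne (amo_Z_nonneg S hS _) (Ne.symm hne))
      rw [dis_Z_eq, h0] at hp
      exact lt_irrefl _ hp
    exact am_N_zero S hS _ hz _
  · rw [← mul_div_assoc, ← hsw, mul_div_cancel_right₀ _ h0]

/-- (AMB) for a sign function -/
theorem ams_amb (S : ClSys V Y) (hS : ClOk S) (σ : V → Bool) (I : Finset V) (hI : I ⊆ S.A) (Kin Kout : ClCfg V Y → Prop)
    (hin : ClLocP I (S.cin I) Kin) (hout : ClLocP (S.A \ I) (S.cout I) Kout)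
    (hf : 0 < S.Z (fun ω => ClCutS S σ I ω ∧ Kin ω ∧ Kout ω)) (F : ClCfg V Y → ℝ) (hF : ClLoc I (S.cin I) F) :
    S.E (fun ω => ClCutS S σ I ω ∧ Kin ω ∧ Kout ω) F = cuES S σ I Kin F := by
  have h := ams_cut S hS σ I hI Kin Kout hin hout F (fun _ => 1) hF (fun _ _ _ _ _ => rfl)
  rw [dis_E_eq, dis_Z_eq]
  rw [dis_Z_eq] at hf
  simp only [one_mul] at h
  rw [h, mul_div_cancel_left₀ _ hf.ne']

/-- **FEASIBILITY GOES UP**, strong form: outside `I` the first spin is `σ`, every cell not inside `I` on which `σ` is constant is open.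
PLAN: `amo_feas`: extend by `B = σ`, `W` constant outside, the cells with `σ` constant open, the others closed. -/
theorem ams_feas (S : ClSys V Y) (hS : ClOk S) (σ : V → Bool) (I : Finset V) (hI : I ⊆ S.A) (hσ : AmsAdm S σ I) (Kin : ClCfg V Y → Prop)
    (hin : ClLocP I (S.cin I) Kin) (hf : 0 < (S.inn I).Z (fun ω => CuPinS σ (cuLay S I) ω ∧ Kin ω)) :
    0 < S.Z (fun ω => Kin ω ∧ CuPinS σ (S.A \ I) ω ∧
      ∀ y ∈ S.cno I, (∀ u ∈ S.sv y, ∀ v ∈ S.sv y, σ u = σ v) → ∀ v ∈ S.sv y, clTau S ω y = clSg (σ v)) := by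
  classical
  obtain ⟨ω, hω, ⟨hpin, hK⟩, hw⟩ := ams_Z_wit _ _ hf
  rw [cl_mem_cfgs] at hω
  obtain ⟨hωB, hωW, hωO⟩ := hω
  have hωB' : ω.B ⊆ I := hωB
  have hωW' : ω.W ⊆ I := hωW
  have hωO' : ω.O ⊆ S.cin I := hωO
  set ω' : ClCfg V Y := ⟨ω.B ∪ (S.A \ I).filter (fun v => σ v = true), ω.W,
    ω.O ∪ (S.cno I).filter (fun y => ∀ u ∈ S.sv y, ∀ v ∈ S.sv y, σ u = σ v)⟩ with hω'
  have hmem : ω' ∈ S.cfgs := (cl_mem_cfgs S ω').2 ⟨Finset.union_subset (hωB'.trans hI) ((Finset.filter_subset _ _).trans Finset.sdiff_subset),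
    hωW'.trans hI, Finset.union_subset (hωO'.trans (Finset.filter_subset _ _)) ((Finset.filter_subset _ _).trans (amo_cno_sub S I))⟩
  have hB : ω.B ∩ I = ω'.B ∩ I := by
    ext v
    simp only [hω', Finset.mem_inter, Finset.mem_union, Finset.mem_filter, Finset.mem_sdiff]
    tauto
  have hO : ω.O ∩ S.cin I = ω'.O ∩ S.cin I := by
    ext y
    simp only [hω', Finset.mem_inter, Finset.mem_union, ClSys.cno, ClSys.cin, Finset.mem_filter]
    tauto
  have hK' : Kin ω' := (hin ω ω' hB rfl hO).1 hK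
  -- the first spin of `ω'` off `I`
  have hout : ∀ v ∈ S.A, v ∉ I → (v ∈ ω'.B ↔ σ v = true) := by
    intro v hvA hvI
    simp only [hω', Finset.mem_union, Finset.mem_filter, Finset.mem_sdiff]
    constructor
    · rintro (h | h)
      · exact absurd (hωB' h) hvI
      · exact h.2
    · intro h
      exact Or.inr ⟨⟨hvA, hvI⟩, h⟩
  -- the first spin of `ω'` on the cells not inside `I`
  have hcell : ∀ y ∈ S.cno I, ∀ v ∈ S.sv y, (v ∈ ω'.B ↔ σ v = true) := by
    intro y hy v hv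
    obtain ⟨h1, h2⟩ := Finset.mem_filter.1 hy
    by_cases hvI : v ∈ I
    · rw [← dcu_mem_of_inter hB hvI]
      exact hpin v (Finset.mem_filter.2 ⟨hvI, y, h1, hv, h2⟩)
    · exact hout v (hS.sub y h1 hv) hvI
  have hwt : 0 < S.wt ω' := by
    refine Finset.prod_pos fun y hy => ?_
    by_cases hs : S.sv y ⊆ I
    · have hy' : y ∈ S.cin I := Finset.mem_filter.2 ⟨hy, hs⟩
      have h1 : clCellW (S.q y) (ClConst ω'.B (S.sv y)) (ClConst ω'.W (S.sv y)) (y ∈ ω'.O)
          = clCellW (S.q y) (ClConst ω.B (S.sv y)) (ClConst ω.W (S.sv y)) (y ∈ ω.O) :=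
        dcu_cellW_congr _ (amo_const_congr fun v hv => (dcu_mem_of_inter hB (hs hv)).symm) Iff.rfl
          (dcu_mem_of_inter hO hy').symm
      rw [h1]
      have h2 : clCellW (S.q y) (ClConst ω.B (S.sv y)) (ClConst ω.W (S.sv y)) (y ∈ ω.O) ≠ 0 :=
        (Finset.prod_ne_zero_iff.1 hw.ne') y hy'
      exact lt_of_le_of_ne (dis_cellW_nonneg (hS.q0 y hy).le (hS.q1 y hy) _ _ _) h2.symm
    · have hy' : y ∈ S.cno I := Finset.mem_filter.2 ⟨hy, hs⟩
      by_cases hc : ∀ u ∈ S.sv y, ∀ v ∈ S.sv y, σ u = σ v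
      · have h1 : y ∈ ω'.O := Finset.mem_union_right _ (Finset.mem_filter.2 ⟨hy', hc⟩)
        have h2 : ClConst ω'.B (S.sv y) := by
          obtain ⟨u, hu⟩ := hS.ne y hy
          cases hσu : σ u
          · exact Or.inr fun v hv hh => by
              have := (hcell y hy' v hv).1 hh
              rw [← hc u hu v hv, hσu] at this
              exact absurd this (by decide)
          · exact Or.inl fun v hv => (hcell y hy' v hv).2 (by rw [← hc u hu v hv, hσu])
        unfold clCellW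
        rw [if_pos h1, if_pos h2]
        exact hS.q0 y hy
      · -- a cell on which `σ` is not constant: it does not cross `I`, it is closed, `W` is minus on it
        have hnx : ¬ clCross S I y := fun hx => hc (hσ y hy hx)
        have hdis : ∀ v ∈ S.sv y, v ∉ I := by
          intro v hv hvI
          apply hnx
          refine ⟨⟨v, hv, hvI⟩, ?_⟩
          by_contra hn
          simp only [not_exists, not_and, not_not] at hn
          exact hs hn
        have h1 : y ∉ ω'.O := by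
          simp only [hω', Finset.mem_union, Finset.mem_filter, not_or, not_and]
          exact ⟨fun hh => hs (Finset.mem_filter.1 (hωO' hh)).2, fun _ => hc⟩
        have h2 : ¬ ClConst ω'.B (S.sv y) := by
          intro hcc
          apply hc
          intro u hu v hv
          rcases hcc with hcc | hcc
          · rw [(hcell y hy' u hu).1 (hcc hu), (hcell y hy' v hv).1 (hcc hv)]
          · have e1 : σ u = false := by
              cases hσu : σ u
              · rfl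
              · exact absurd ((hcell y hy' u hu).2 hσu) (hcc u hu)
            have e2 : σ v = false := by
              cases hσv : σ v
              · rfl
              · exact absurd ((hcell y hy' v hv).2 hσv) (hcc v hv)
            rw [e1, e2]
        have h3 : ClConst ω'.W (S.sv y) := Or.inr fun v hv hh => hdis v hv (hωW' hh)
        unfold clCellW
        rw [if_neg h1, if_pos h3, if_neg h2]
        exact hS.q0 y hy
  refine lt_of_lt_of_le hwt (amo_Z_ge S hS _ hmem ⟨hK', ?_, ?_⟩)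
  · intro v hv
    obtain ⟨h1, h2⟩ := Finset.mem_sdiff.1 hv
    exact hout v h1 h2
  · intro y hy hc
    exact (ams_tau_cell (amo_cno_sub S I hy) (hS.ne y (amo_cno_sub S I hy)) σ hwt.ne').2
      ⟨Finset.mem_union_right _ (Finset.mem_filter.2 ⟨hy, hc⟩), hcell y hy⟩

/-- feasibility goes down -/
theorem ams_feas_in (S : ClSys V Y) (hS : ClOk S) (σ : V → Bool) (I : Finset V) (hI : I ⊆ S.A) (Kin Kout : ClCfg V Y → Prop)
    (hin : ClLocP I (S.cin I) Kin) (hf : 0 < S.Z (fun ω => ClCutS S σ I ω ∧ Kin ω ∧ Kout ω)) :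
    0 < (S.inn I).Z (fun ω => CuPinS σ (cuLay S I) ω ∧ Kin ω) := by
  refine ams_feas_inA S hS σ I hI Kin Kout hin ?_
  rw [dam_Z_congr S (K' := fun ω => AmsCut S (damX S (S.inn I)) σ ω ∧ Kin ω ∧ Kout ω)] at hf
  · exact hf
  · intro ω _ hw
    rw [ams_cut_tau S hS σ I hw]

/-! ### the cut as a legal history -/

/-- the history `K.opnS S σ X` is legal -/
theorem ams_legal (S : ClSys V Y) (K : ClCon V Y) (hK : ClLegal S K) (σ : V → Bool) (X : Finset Y) : ClLegal S (K.opnS S σ X) := by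
  obtain ⟨h1, h2, h3, h4⟩ := hK
  refine ⟨h1, h2, fun y hy hy' v hv => ?_, h4⟩
  simp only [ClCon.opnS, Finset.mem_union, Finset.mem_filter, Finset.mem_biUnion] at hy' ⊢
  by_cases hX : y ∈ X
  · cases hs : σ v
    · exact Or.inr (Or.inr ⟨⟨y, hX, hv⟩, rfl⟩)
    · exact Or.inl (Or.inr ⟨⟨y, hX, hv⟩, rfl⟩)
  · have := h3 y hy (by simp only [Finset.mem_union]; tauto) hv
    rcases Finset.mem_union.1 this with h | h
    · exact Or.inl (Or.inl h)
    · exact Or.inr (Or.inl h)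

/-- the history `K.opnS S σ X` as an event (on the support), if `σ` is constant on the cells of `X` -/
theorem ams_N_opnS (S : ClSys V Y) (K : ClCon V Y) (σ : V → Bool) (X : Finset Y) (hX : X ⊆ S.C) (hne : ∀ y ∈ X, (S.sv y).Nonempty)
    (hσ : ∀ y ∈ X, ∀ u ∈ S.sv y, ∀ v ∈ S.sv y, σ u = σ v) (G : ClCfg V Y → ℝ) :
    S.N ((K.opnS S σ X).Holds S) G = S.N (fun ω => K.Holds S ω ∧ ∀ y ∈ X, ∀ v ∈ S.sv y, clTau S ω y = clSg (σ v)) G := by
  refine dcu_N_congr' S G fun ω _ hw => ?_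
  simp only [ClCon.opnS, ClCon.Holds, Finset.mem_union, Finset.mem_filter, Finset.mem_biUnion]
  constructor
  · rintro ⟨h1, h2, h3, h4, h5, h6, h7, h8⟩
    refine ⟨⟨Finset.union_subset_left h1, fun v hv => h2 v (Or.inl hv), h3, fun y hy => h4 y (Or.inl hy),
      fun y hy => h5 y (Or.inl hy), h6, h7, h8⟩, fun y hy v hv => ?_⟩
    cases hs : σ v
    · exact h5 y (Or.inr ⟨hy, fun u hu => by rw [hσ y hy u hu v hv, hs]⟩)
    · exact h4 y (Or.inr ⟨hy, fun u hu => by rw [hσ y hy u hu v hv, hs]⟩)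
  · rintro ⟨⟨h1, h2, h3, h4, h5, h6, h7, h8⟩, h9⟩
    refine ⟨Finset.union_subset h1 ?_, ?_, h3, ?_, ?_, h6, h7, h8⟩
    · intro v hv
      obtain ⟨hv1, hs⟩ := Finset.mem_filter.1 hv
      obtain ⟨y, hy, hvy⟩ := Finset.mem_biUnion.1 hv1
      have h10 := h9 y hy v hvy
      rw [hs] at h10
      exact ((amo_tau_pos S ω y).1 h10).2 hvy
    · rintro v (hv | ⟨⟨y, hy, hvy⟩, hs⟩)
      · exact h2 v hv
      · have h10 := h9 y hy v hvy
        rw [hs] at h10
        have h11 := (amo_tau_neg S ω y).1 h10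
        rcases dcu_open_const S hw (hX hy) h11.1 with h | h
        · exact absurd h h11.2
        · exact h v hvy
    · rintro y (hy | ⟨hy, hs⟩)
      · exact h4 y hy
      · obtain ⟨v, hv⟩ := hne y hy
        have h10 := h9 y hy v hv
        rwa [hs v hv] at h10
    · rintro y (hy | ⟨hy, hs⟩)
      · exact h5 y hy
      · obtain ⟨v, hv⟩ := hne y hy
        have h10 := h9 y hy v hv
        rwa [hs v hv] at h10

theorem ams_hist_sub (S : ClSys V Y) (I : Finset V) {Xo : Finset Y} (hXo : Xo ⊆ S.cout I) : S.cx I ∪ Xo ⊆ S.C :=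
  Finset.union_subset (amo_cx_sub S I) (hXo.trans (amo_cout_subC S I))

theorem ams_hist_ne (S : ClSys V Y) (hS : ClOk S) (I : Finset V) {Xo : Finset Y} (hXo : Xo ⊆ S.cout I) : ∀ y ∈ S.cx I ∪ Xo, (S.sv y).Nonempty :=
  fun y hy => hS.ne y (ams_hist_sub S I hXo hy)

theorem ams_hist_adm (S : ClSys V Y) (σ : V → Bool) (I : Finset V) (hσ : AmsAdm S σ I) {Xo : Finset Y}
    (hσo : ∀ y ∈ Xo, ∀ u ∈ S.sv y, ∀ v ∈ S.sv y, σ u = σ v) : ∀ y ∈ S.cx I ∪ Xo, ∀ u ∈ S.sv y, ∀ v ∈ S.sv y, σ u = σ v := by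
  intro y hy
  rcases Finset.mem_union.1 hy with h | h
  · obtain ⟨h1, h2⟩ := Finset.mem_filter.1 h
    exact hσ y h1 h2
  · exact hσo y h

theorem ams_hist_ev (S : ClSys V Y) (σ : V → Bool) (I : Finset V) (K : ClCfg V Y → Prop) (Xo : Finset Y) :
    (fun ω => K ω ∧ ∀ y ∈ S.cx I ∪ Xo, ∀ v ∈ S.sv y, clTau S ω y = clSg (σ v))
      = (fun ω => ClCutS S σ I ω ∧ K ω ∧ ∀ y ∈ Xo, ∀ v ∈ S.sv y, clTau S ω y = clSg (σ v)) := by
  funext ω
  apply propext
  unfold ClCutS ClSys.cx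
  simp only [Finset.mem_union, Finset.mem_filter]
  constructor
  · rintro ⟨h1, h2⟩
    exact ⟨fun y hy hc => h2 y (Or.inl ⟨hy, hc⟩), h1, fun y hy => h2 y (Or.inr hy)⟩
  · rintro ⟨h1, h2, h3⟩
    refine ⟨h2, ?_⟩
    rintro y (⟨hy, hc⟩ | hy)
    · exact h1 y hy hc
    · exact h3 y hy

/-- **the cut formula for histories**: cut of sign `σ` around `I`, history `K` inside, some outer cells open of sign `σ` -/
theorem ams_hist (S : ClSys V Y) (hS : ClOk S) (σ : V → Bool) (I : Finset V) (hI : I ⊆ S.A) (hσ : AmsAdm S σ I) (K : ClCon V Y) (hKI : K.In S I)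
    (Xo : Finset Y) (hXo : Xo ⊆ S.cout I) (hσo : ∀ y ∈ Xo, ∀ u ∈ S.sv y, ∀ v ∈ S.sv y, σ u = σ v) (F : ClCfg V Y → ℝ) (hF : ClLoc I (S.cin I) F) :
    S.N ((K.opnS S σ (S.cx I ∪ Xo)).Holds S) F = S.Z ((K.opnS S σ (S.cx I ∪ Xo)).Holds S) * cuES S σ I (K.Holds S) F := by
  have hout : ClLocP (S.A \ I) (S.cout I) (fun ω => ∀ y ∈ Xo, ∀ v ∈ S.sv y, clTau S ω y = clSg (σ v)) := by
    intro ω ω' hB hW hO
    exact forall₂_congr fun y hy => by rw [amo_tau_loc S hB hO (hXo hy) (amo_cout_sub S hS I (hXo hy))]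
  have h := ams_cut S hS σ I hI (K.Holds S) (fun ω => ∀ y ∈ Xo, ∀ v ∈ S.sv y, clTau S ω y = clSg (σ v)) (amo_holds_loc S K I hKI) hout F
    (fun _ => 1) hF (fun _ _ _ _ _ => rfl)
  simp only [one_mul] at h
  have hX : S.cx I ∪ Xo ⊆ S.C := Finset.union_subset (amo_cx_sub S I) (hXo.trans (amo_cout_subC S I))
  have hne : ∀ y ∈ S.cx I ∪ Xo, (S.sv y).Nonempty := fun y hy => hS.ne y (hX hy)
  have hσX : ∀ y ∈ S.cx I ∪ Xo, ∀ u ∈ S.sv y, ∀ v ∈ S.sv y, σ u = σ v := by
    intro y hy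
    rcases Finset.mem_union.1 hy with hy | hy
    · obtain ⟨h1, h2⟩ := Finset.mem_filter.1 hy
      exact hσ y h1 h2
    · exact hσo y hy
  have he : (fun ω => K.Holds S ω ∧ ∀ y ∈ S.cx I ∪ Xo, ∀ v ∈ S.sv y, clTau S ω y = clSg (σ v))
      = (fun ω => ClCutS S σ I ω ∧ K.Holds S ω ∧ ∀ y ∈ Xo, ∀ v ∈ S.sv y, clTau S ω y = clSg (σ v)) := by
    funext ω
    apply propext
    unfold ClCutS ClSys.cx
    simp only [Finset.mem_union, Finset.mem_filter]
    constructor
    · rintro ⟨h1, h2⟩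
      exact ⟨fun y hy hc => h2 y (Or.inl ⟨hy, hc⟩), h1, fun y hy => h2 y (Or.inr hy)⟩
    · rintro ⟨h1, h2, h3⟩
      refine ⟨h2, ?_⟩
      rintro y (⟨hy, hc⟩ | hy)
      · exact h1 y hy hc
      · exact h3 y hy
  rw [dis_Z_eq, ams_N_opnS S K σ _ hX hne hσX, ams_N_opnS S K σ _ hX hne hσX, he]
  exact h

/-- the history which realises a feasible cut law is feasible -/
theorem ams_hist_feas (S : ClSys V Y) (hS : ClOk S) (σ : V → Bool) (I : Finset V) (hI : I ⊆ S.A) (hσ : AmsAdm S σ I) (K : ClCon V Y) (hKI : K.In S I)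
    (Xo : Finset Y) (hXo : Xo ⊆ S.cout I) (hσo : ∀ y ∈ Xo, ∀ u ∈ S.sv y, ∀ v ∈ S.sv y, σ u = σ v)
    (hf : 0 < (S.inn I).Z (fun ω => CuPinS σ (cuLay S I) ω ∧ K.Holds S ω)) : 0 < S.Z ((K.opnS S σ (S.cx I ∪ Xo)).Holds S) := by
  have hX : S.cx I ∪ Xo ⊆ S.C := Finset.union_subset (amo_cx_sub S I) (hXo.trans (amo_cout_subC S I))
  have hne : ∀ y ∈ S.cx I ∪ Xo, (S.sv y).Nonempty := fun y hy => hS.ne y (hX hy)
  have hσX : ∀ y ∈ S.cx I ∪ Xo, ∀ u ∈ S.sv y, ∀ v ∈ S.sv y, σ u = σ v := by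
    intro y hy
    rcases Finset.mem_union.1 hy with hy | hy
    · obtain ⟨h1, h2⟩ := Finset.mem_filter.1 hy
      exact hσ y h1 h2
    · exact hσo y hy
  have hno : S.cx I ∪ Xo ⊆ S.cno I := by
    rw [amo_cno_eq]
    exact Finset.union_subset_union (Finset.Subset.refl _) hXo
  rw [dis_Z_eq, ams_N_opnS S K σ _ hX hne hσX, ← dis_Z_eq]
  refine lt_of_lt_of_le (ams_feas S hS σ I hI hσ _ (amo_holds_loc S K I hKI) hf) (amo_Z_mono S hS fun ω h => ⟨h.1, fun y hy => ?_⟩)
  exact h.2.2 y (hno hy) (hσX y hy)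

/-! ### T1, T2 -/

/-- order of the enlarged histories -/
theorem ams_le_opnS (S : ClSys V Y) {K₁ K₂ : ClCon V Y} (hle : ClLe K₁ K₂) (σ₁ σ₂ : V → Bool) (X₁ X₂ : Finset Y)
    (n₁ : ∀ y ∈ X₁, (S.sv y).Nonempty) (n₂ : ∀ y ∈ X₂, (S.sv y).Nonempty)
    (hp : ∀ y ∈ X₁, ∀ v ∈ S.sv y, σ₁ v = true → y ∈ X₂ ∧ σ₂ v = true)
    (hm : ∀ y ∈ X₂, ∀ v ∈ S.sv y, σ₂ v = false → y ∈ X₁ ∧ σ₁ v = false) :
    ClLe (K₁.opnS S σ₁ X₁) (K₂.opnS S σ₂ X₂) := by
  obtain ⟨a1, a2, a3, a4, a5, a6, a7⟩ := hle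
  refine ⟨Finset.union_subset_union a1 ?_, Finset.union_subset_union a2 ?_, Finset.union_subset_union a3 ?_,
    Finset.union_subset_union a4 ?_, a5.trans ?_, a6.trans ?_, a7⟩
  · intro v hv
    obtain ⟨hv1, hv2⟩ := Finset.mem_filter.1 hv
    obtain ⟨y, hy, hvy⟩ := Finset.mem_biUnion.1 hv1
    obtain ⟨h1, h2⟩ := hp y hy v hvy hv2
    exact Finset.mem_filter.2 ⟨Finset.mem_biUnion.2 ⟨y, h1, hvy⟩, h2⟩
  · intro v hv
    obtain ⟨hv1, hv2⟩ := Finset.mem_filter.1 hv
    obtain ⟨y, hy, hvy⟩ := Finset.mem_biUnion.1 hv1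
    obtain ⟨h1, h2⟩ := hm y hy v hvy hv2
    exact Finset.mem_filter.2 ⟨Finset.mem_biUnion.2 ⟨y, h1, hvy⟩, h2⟩
  · intro y hy
    obtain ⟨hy1, hy2⟩ := Finset.mem_filter.1 hy
    obtain ⟨u, hu⟩ := n₁ y hy1
    exact Finset.mem_filter.2 ⟨(hp y hy1 u hu (hy2 u hu)).1, fun v hv => (hp y hy1 v hv (hy2 v hv)).2⟩
  · intro y hy
    obtain ⟨hy1, hy2⟩ := Finset.mem_filter.1 hy
    obtain ⟨u, hu⟩ := n₂ y hy1
    exact Finset.mem_filter.2 ⟨(hm y hy1 u hu (hy2 u hu)).1, fun v hv => (hm y hy1 v hv (hy2 v hv)).2⟩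
  · intro y hy
    simp only [ClCon.opnS, Finset.mem_union] at hy ⊢
    tauto
  · intro y hy
    simp only [ClCon.opnS, Finset.mem_union] at hy ⊢
    tauto

/-- more open cells: a smaller partition function -/
theorem ams_Z_anti (S : ClSys V Y) (hS : ClOk S) (K : ClCon V Y) (σ : V → Bool) {X X' : Finset Y} (hXX : X ⊆ X') (hX' : X' ⊆ S.C)
    (hσ : ∀ y ∈ X', ∀ u ∈ S.sv y, ∀ v ∈ S.sv y, σ u = σ v) : S.Z ((K.opnS S σ X').Holds S) ≤ S.Z ((K.opnS S σ X).Holds S) := by
  rw [dis_Z_eq, dis_Z_eq, ams_N_opnS S K σ _ hX' (fun y hy => hS.ne y (hX' hy)) hσ,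
    ams_N_opnS S K σ _ (hXX.trans hX') (fun y hy => hS.ne y (hX' (hXX hy))) (fun y hy => hσ y (hXX hy)), ← dis_Z_eq, ← dis_Z_eq]
  exact amo_Z_mono S hS fun ω h => ⟨h.1, fun y hy => h.2 y (hXX hy)⟩

theorem ams_cuES_zero (S : ClSys V Y) (σ : V → Bool) (I : Finset V) (K : ClCfg V Y → Prop)
    (hz : (S.inn I).Z (fun ω => CuPinS σ (cuLay S I) ω ∧ K ω) = 0) (F : ClCfg V Y → ℝ) : cuES S σ I K F = 0 := by
  unfold cuES
  rw [dis_E_eq, hz, div_zero]

/-- the outer cells used in the comparison of the domains `I ⊆ I'`: the crossing cells of `I'` which do not meet `I` -/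
theorem ams_dom_sub (S : ClSys V Y) {I I' : Finset V} (hII : I ⊆ I') : S.cx I' ∪ ∅ ⊆ S.cx I ∪ (S.cx I' ∩ S.cout I) := by
  rw [Finset.union_empty]
  intro y hy
  have := amo_cx_cno S hII hy
  rw [amo_cno_eq] at this
  rcases Finset.mem_union.1 this with h | h
  · exact Finset.mem_union_left _ h
  · exact Finset.mem_union_right _ (Finset.mem_inter.2 ⟨hy, h⟩)

/-- a cell of the larger family which is not a crossing cell of `I'` crosses `I` and lies inside `I'` -/
theorem ams_dom_extra (S : ClSys V Y) {I I' : Finset V} (hII : I ⊆ I') {y : Y} (hy : y ∈ S.cx I ∪ (S.cx I' ∩ S.cout I)) (hn : y ∉ S.cx I' ∪ ∅) :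
    y ∈ S.C ∧ clCross S I y ∧ S.sv y ⊆ I' := by
  rw [Finset.union_empty] at hn
  rcases Finset.mem_union.1 hy with h | h
  · obtain ⟨h1, h2⟩ := Finset.mem_filter.1 h
    refine ⟨h1, h2, ?_⟩
    by_contra hs
    apply hn
    obtain ⟨u, hu, huI⟩ := h2.1
    refine Finset.mem_filter.2 ⟨h1, ⟨u, hu, hII huI⟩, ?_⟩
    by_contra hh
    simp only [not_exists, not_and, not_not] at hh
    exact hs hh
  · exact absurd (Finset.mem_inter.1 h).1 hn

theorem ams_dom_adm (S : ClSys V Y) (σ : V → Bool) (I I' : Finset V) (a' : AmsAdm S σ I') :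
    ∀ y ∈ S.cx I' ∩ S.cout I, ∀ u ∈ S.sv y, ∀ v ∈ S.sv y, σ u = σ v := by
  intro y hy
  obtain ⟨h1, h2⟩ := Finset.mem_filter.1 (Finset.mem_inter.1 hy).1
  exact a' y h1 h2

/-- **T1, FKG** in a mixed cut law under a legal history -/
theorem ams_fkg (S : ClSys V Y) (hS : ClDisk S) (σ : V → Bool) (I : Finset V) (hI : I ⊆ S.A) (hσ : AmsAdm S σ I) (K : ClCon V Y) (hK : ClLegal S K)
    (hKI : K.In S I) (F G : ClCfg V Y → ℝ) (hF : ClMono S F) (hG : ClMono S G) (hFl : ClLoc I (S.cin I) F) (hGl : ClLoc I (S.cin I) G) :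
    cuES S σ I (K.Holds S) F * cuES S σ I (K.Holds S) G ≤ cuES S σ I (K.Holds S) (fun ω => F ω * G ω) := by
  have hO : ClOk S := hS.toClOk
  by_cases hz : (S.inn I).Z (fun ω => CuPinS σ (cuLay S I) ω ∧ K.Holds S ω) = 0
  · rw [ams_cuES_zero S σ I _ hz, ams_cuES_zero S σ I _ hz, ams_cuES_zero S σ I _ hz, mul_zero]
  have hf : 0 < (S.inn I).Z (fun ω => CuPinS σ (cuLay S I) ω ∧ K.Holds S ω) :=
    lt_of_le_of_ne (amo_Z_nonneg _ (amo_inn_ok S hO I) _) (Ne.symm hz)
  have he : ∀ y ∈ (∅ : Finset Y), ∀ u ∈ S.sv y, ∀ v ∈ S.sv y, σ u = σ v := fun y hy => absurd hy (Finset.notMem_empty y)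
  have hZ := ams_hist_feas S hO σ I hI hσ K hKI ∅ (Finset.empty_subset _) he hf
  have e1 := ams_hist S hO σ I hI hσ K hKI ∅ (Finset.empty_subset _) he F hFl
  have e2 := ams_hist S hO σ I hI hσ K hKI ∅ (Finset.empty_subset _) he G hGl
  have e3 := ams_hist S hO σ I hI hσ K hKI ∅ (Finset.empty_subset _) he _ (dde_loc_mul hFl hGl)
  have h := dis_assoc S hS _ (ams_legal S K hK σ (S.cx I ∪ ∅)) F G hF hG
  rw [e1, e2, e3] at h
  refine le_of_mul_le_mul_left ?_ (mul_pos hZ hZ)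
  linarith

/-- **T2, ORDER** in the boundary condition and in the history -/
theorem ams_order (S : ClSys V Y) (hS : ClDisk S) (σ₁ σ₂ : V → Bool) (I : Finset V) (hI : I ⊆ S.A) (a₁ : AmsAdm S σ₁ I) (a₂ : AmsAdm S σ₂ I)
    (hs : ∀ y ∈ S.C, clCross S I y → ∀ v ∈ S.sv y, σ₁ v ≤ σ₂ v) (K₁ K₂ : ClCon V Y)
    (h₁ : ClLegal S K₁) (h₂ : ClLegal S K₂) (hI₁ : K₁.In S I) (hI₂ : K₂.In S I) (hle : ClLe K₁ K₂)
    (f₁ : 0 < (S.inn I).Z (fun ω => CuPinS σ₁ (cuLay S I) ω ∧ K₁.Holds S ω)) (f₂ : 0 < (S.inn I).Z (fun ω => CuPinS σ₂ (cuLay S I) ω ∧ K₂.Holds S ω))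
    (F : ClCfg V Y → ℝ) (hF : ClMono S F) (hFl : ClLoc I (S.cin I) F) :
    cuES S σ₁ I (K₁.Holds S) F ≤ cuES S σ₂ I (K₂.Holds S) F := by
  have hO : ClOk S := hS.toClOk
  have he : ∀ σ : V → Bool, ∀ y ∈ (∅ : Finset Y), ∀ u ∈ S.sv y, ∀ v ∈ S.sv y, σ u = σ v := fun _ y hy => absurd hy (Finset.notMem_empty y)
  have hZ₁ := ams_hist_feas S hO σ₁ I hI a₁ K₁ hI₁ ∅ (Finset.empty_subset _) (he σ₁) f₁
  have hZ₂ := ams_hist_feas S hO σ₂ I hI a₂ K₂ hI₂ ∅ (Finset.empty_subset _) (he σ₂) f₂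
  have e1 := ams_hist S hO σ₁ I hI a₁ K₁ hI₁ ∅ (Finset.empty_subset _) (he σ₁) F hFl
  have e2 := ams_hist S hO σ₂ I hI a₂ K₂ hI₂ ∅ (Finset.empty_subset _) (he σ₂) F hFl
  have hne := ams_hist_ne S hO I (Finset.empty_subset (S.cout I))
  have hcr : ∀ y ∈ S.cx I ∪ ∅, y ∈ S.C ∧ clCross S I y := fun y hy => by
    rw [Finset.union_empty] at hy
    exact Finset.mem_filter.1 hy
  have h := dis_order S hS _ _ (ams_legal S K₁ h₁ σ₁ (S.cx I ∪ ∅)) (ams_legal S K₂ h₂ σ₂ (S.cx I ∪ ∅))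
    (ams_le_opnS S hle σ₁ σ₂ _ _ hne hne (fun y hy v hv h => ⟨hy, cs_b_le_t (hs y (hcr y hy).1 (hcr y hy).2 v hv) h⟩)
      (fun y hy v hv h => ⟨hy, cs_b_le_f (hs y (hcr y hy).1 (hcr y hy).2 v hv) h⟩)) F hF
  rw [e1, e2] at h
  refine le_of_mul_le_mul_left ?_ (mul_pos hZ₁ hZ₂)
  linarith

/-- **T2, DOMAIN MONOTONICITY at a plus boundary**: `I ⊆ I'`, the crossing cells of `I` inside `I'` have the sign plus: the law of the smaller domain is higher.
PLAN (`am_dom_plus`): in `S`: `Cut I'` ≤ `Cut I' ∧ Cut I` (extra open-plus cells above); the second is the law of `I` (the crossing cells of `I'` which do not cross `I` lie in `S.cout I`). -/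
theorem ams_dom_plus (S : ClSys V Y) (hS : ClDisk S) (σ : V → Bool) (I I' : Finset V) (hII : I ⊆ I') (hI : I' ⊆ S.A) (a : AmsAdm S σ I) (a' : AmsAdm S σ I')
    (hp : ∀ y ∈ S.C, clCross S I y → S.sv y ⊆ I' → ∀ v ∈ S.sv y, σ v = true) (K : ClCon V Y) (hK : ClLegal S K) (hKI : K.In S I)
    (hf : 0 < (S.inn I).Z (fun ω => CuPinS σ (cuLay S I) ω ∧ K.Holds S ω)) (F : ClCfg V Y → ℝ) (hF : ClMono S F) (hFl : ClLoc I (S.cin I) F) :
    cuES S σ I' (K.Holds S) F ≤ cuES S σ I (K.Holds S) F := by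
  have hO : ClOk S := hS.toClOk
  have he : ∀ y ∈ (∅ : Finset Y), ∀ u ∈ S.sv y, ∀ v ∈ S.sv y, σ u = σ v := fun y hy => absurd hy (Finset.notMem_empty y)
  have hsub := ams_dom_sub S hII
  have hXo : S.cx I' ∩ S.cout I ⊆ S.cout I := Finset.inter_subset_right
  have hσo := ams_dom_adm S σ I I' a'
  have hZ₂ := ams_hist_feas S hO σ I (hII.trans hI) a K hKI _ hXo hσo hf
  have hZ₁ : 0 < S.Z ((K.opnS S σ (S.cx I' ∪ ∅)).Holds S) :=
    lt_of_lt_of_le hZ₂ (ams_Z_anti S hO K σ hsub (ams_hist_sub S I hXo) (ams_hist_adm S σ I a hσo))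
  have e1 := ams_hist S hO σ I' hI a' K (amo_in_mono S hII hKI) ∅ (Finset.empty_subset _) he F
    (dde_loc_mono hII (dde_cin_mono S hII) hFl)
  have e2 := ams_hist S hO σ I (hII.trans hI) a K hKI _ hXo hσo F hFl
  have h := dis_order S hS _ _ (ams_legal S K hK σ (S.cx I' ∪ ∅)) (ams_legal S K hK σ (S.cx I ∪ (S.cx I' ∩ S.cout I)))
    (ams_le_opnS S (amo_le_refl K) σ σ _ _ (ams_hist_ne S hO I' (Finset.empty_subset _)) (ams_hist_ne S hO I hXo)
      (fun y hy v hv h => ⟨hsub hy, h⟩)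
      (fun y hy v hv h => ⟨by
        by_contra hn
        obtain ⟨h1, h2, h3⟩ := ams_dom_extra S hII hy hn
        rw [hp y h1 h2 h3 v hv] at h
        exact absurd h (by decide), h⟩)) F hF
  rw [e1, e2] at h
  refine le_of_mul_le_mul_left ?_ (mul_pos hZ₁ hZ₂)
  linarith

/-- **T2, DOMAIN MONOTONICITY at a minus boundary**: `I ⊆ I'`, the crossing cells of `I` inside `I'` have the sign minus: the law of the smaller domain is lower -/
theorem ams_dom_minus (S : ClSys V Y) (hS : ClDisk S) (σ : V → Bool) (I I' : Finset V) (hII : I ⊆ I') (hI : I' ⊆ S.A) (a : AmsAdm S σ I) (a' : AmsAdm S σ I')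
    (hm : ∀ y ∈ S.C, clCross S I y → S.sv y ⊆ I' → ∀ v ∈ S.sv y, σ v = false) (K : ClCon V Y) (hK : ClLegal S K) (hKI : K.In S I)
    (hf : 0 < (S.inn I).Z (fun ω => CuPinS σ (cuLay S I) ω ∧ K.Holds S ω)) (F : ClCfg V Y → ℝ) (hF : ClMono S F) (hFl : ClLoc I (S.cin I) F) :
    cuES S σ I (K.Holds S) F ≤ cuES S σ I' (K.Holds S) F := by
  have hO : ClOk S := hS.toClOk
  have he : ∀ y ∈ (∅ : Finset Y), ∀ u ∈ S.sv y, ∀ v ∈ S.sv y, σ u = σ v := fun y hy => absurd hy (Finset.notMem_empty y)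
  have hsub := ams_dom_sub S hII
  have hXo : S.cx I' ∩ S.cout I ⊆ S.cout I := Finset.inter_subset_right
  have hσo := ams_dom_adm S σ I I' a'
  have hZ₂ := ams_hist_feas S hO σ I (hII.trans hI) a K hKI _ hXo hσo hf
  have hZ₁ : 0 < S.Z ((K.opnS S σ (S.cx I' ∪ ∅)).Holds S) :=
    lt_of_lt_of_le hZ₂ (ams_Z_anti S hO K σ hsub (ams_hist_sub S I hXo) (ams_hist_adm S σ I a hσo))
  have e1 := ams_hist S hO σ I' hI a' K (amo_in_mono S hII hKI) ∅ (Finset.empty_subset _) he F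
    (dde_loc_mono hII (dde_cin_mono S hII) hFl)
  have e2 := ams_hist S hO σ I (hII.trans hI) a K hKI _ hXo hσo F hFl
  have h := dis_order S hS _ _ (ams_legal S K hK σ (S.cx I ∪ (S.cx I' ∩ S.cout I))) (ams_legal S K hK σ (S.cx I' ∪ ∅))
    (ams_le_opnS S (amo_le_refl K) σ σ _ _ (ams_hist_ne S hO I hXo) (ams_hist_ne S hO I' (Finset.empty_subset _))
      (fun y hy v hv h => ⟨by
        by_contra hn
        obtain ⟨h1, h2, h3⟩ := ams_dom_extra S hII hy hn
        rw [hm y h1 h2 h3 v hv] at h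
        exact absurd h (by decide), h⟩)
      (fun y hy v hv h => ⟨hsub hy, h⟩)) F hF
  rw [e1, e2] at h
  refine le_of_mul_le_mul_left ?_ (mul_pos hZ₁ hZ₂)
  linarith

/-- **SLIDE** (TEX[annulus:slide], (annulus:slide-cuts)): `I₀` = between `a₀` and `b₀`, `I₁` = between `a₁` and `b₁`, `I₂ ⊇ I₀ ∪ I₁` = between `a₁` and `b₀`; the test lives in `I₀ ∩ I₁` -/
theorem ams_slide (S : ClSys V Y) (hS : ClDisk S) (σ : V → Bool) (I₀ I₁ I₂ : Finset V) (h02 : I₀ ⊆ I₂) (h12 : I₁ ⊆ I₂) (hI : I₂ ⊆ S.A)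
    (a₀ : AmsAdm S σ I₀) (a₁ : AmsAdm S σ I₁) (a₂ : AmsAdm S σ I₂)
    (hm : ∀ y ∈ S.C, clCross S I₀ y → S.sv y ⊆ I₂ → ∀ v ∈ S.sv y, σ v = false)
    (hp : ∀ y ∈ S.C, clCross S I₁ y → S.sv y ⊆ I₂ → ∀ v ∈ S.sv y, σ v = true)
    (K : ClCon V Y) (hK : ClLegal S K) (hK₀ : K.In S I₀) (hK₁ : K.In S I₁)
    (f₀ : 0 < (S.inn I₀).Z (fun ω => CuPinS σ (cuLay S I₀) ω ∧ K.Holds S ω)) (f₁ : 0 < (S.inn I₁).Z (fun ω => CuPinS σ (cuLay S I₁) ω ∧ K.Holds S ω))
    (F : ClCfg V Y → ℝ) (hF : ClMono S F) (hF₀ : ClLoc I₀ (S.cin I₀) F) (hF₁ : ClLoc I₁ (S.cin I₁) F) :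
    cuES S σ I₀ (K.Holds S) F ≤ cuES S σ I₁ (K.Holds S) F :=
  (ams_dom_minus S hS σ I₀ I₂ h02 hI a₀ a₂ hm K hK hK₀ f₀ F hF hF₀).trans (ams_dom_plus S hS σ I₁ I₂ h12 hI a₁ a₂ hp K hK hK₁ f₁ F hF hF₁)

/-! ### T3 inside a mixed law -/

/-- the layer of `I \ J` -/
theorem ams_lay_sdiff (S : ClSys V Y) (I J : Finset V) : cuLay S (I \ J) = cuLay (S.inn I) (I \ J) ∪ (cuLay S I \ J) := by
  have hm : ∀ (S' : ClSys V Y) (X : Finset V) (u : V), u ∈ cuLay S' X ↔ u ∈ X ∧ ∃ y ∈ S'.C, u ∈ S'.sv y ∧ ¬ S'.sv y ⊆ X := by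
    intro S' X u
    unfold cuLay
    rw [Finset.mem_filter]
  ext u
  rw [Finset.mem_union, Finset.mem_sdiff, hm, hm, hm]
  constructor
  · rintro ⟨hu, y, hy, huy, hn⟩
    by_cases hyI : S.sv y ⊆ I
    · exact Or.inl ⟨hu, y, Finset.mem_filter.2 ⟨hy, hyI⟩, huy, hn⟩
    · exact Or.inr ⟨⟨(Finset.mem_sdiff.1 hu).1, y, hy, huy, hyI⟩, (Finset.mem_sdiff.1 hu).2⟩
  · rintro (⟨hu, y, hy, huy, hn⟩ | ⟨⟨huI, y, hy, huy, hn⟩, huJ⟩)
    · exact ⟨hu, y, (Finset.mem_filter.1 hy).1, huy, hn⟩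
    · exact ⟨Finset.mem_sdiff.2 ⟨huI, huJ⟩, y, hy, huy, fun h => hn (h.trans Finset.sdiff_subset)⟩

/-- cells inside `J ⊆ I` in the system `S.inn I` -/
theorem ams_cin_inn (S : ClSys V Y) {J I : Finset V} (h : J ⊆ I) : (S.inn I).cin J = S.cin J := by
  ext y
  rw [am_mem_cin, am_mem_cin, am_inn_C, am_mem_cin, am_inn_sv]
  exact ⟨fun hy => ⟨hy.1.1, hy.2⟩, fun hy => ⟨⟨hy.1, hy.2.trans h⟩, hy.2⟩⟩

/-- pins of the first spin as two sets -/
theorem ams_pin_sets (σ : V → Bool) (T : Finset V) (ω : ClCfg V Y) :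
    (T.filter (fun v => σ v = true) ⊆ ω.B ∧ ∀ v ∈ T.filter (fun v => σ v = false), v ∉ ω.B) ↔ CuPinS σ T ω := by
  constructor
  · rintro ⟨h1, h2⟩ v hv
    cases hσ : σ v
    · simp only [Bool.false_eq_true, iff_false]
      exact h2 v (Finset.mem_filter.2 ⟨hv, hσ⟩)
    · simp only [iff_true]
      exact h1 (Finset.mem_filter.2 ⟨hv, hσ⟩)
  · intro h
    refine ⟨fun v hv => ?_, fun v hv => ?_⟩
    · obtain ⟨h1, h2⟩ := Finset.mem_filter.1 hv
      exact (h v h1).2 h2
    · obtain ⟨h1, h2⟩ := Finset.mem_filter.1 hv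
      intro hB
      have := (h v h1).1 hB
      rw [h2] at this
      exact Bool.false_ne_true this

/-- a history with additional pins of the first spin -/
theorem ams_holds_pins (S : ClSys V Y) (K : ClCon V Y) (P M : Finset V) (ω : ClCfg V Y) :
    ({ K with Bp := K.Bp ∪ P, Bm := K.Bm ∪ M } : ClCon V Y).Holds S ω ↔ (P ⊆ ω.B ∧ ∀ v ∈ M, v ∉ ω.B) ∧ K.Holds S ω := by
  simp only [ClCon.Holds, Finset.union_subset_iff, Finset.mem_union]
  constructor
  · rintro ⟨h1, h2, h3⟩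
    exact ⟨⟨h1.2, fun v hv => h2 v (Or.inr hv)⟩, h1.1, fun v hv => h2 v (Or.inl hv), h3⟩
  · rintro ⟨⟨h1, h2⟩, h3, h4, h5⟩
    exact ⟨⟨h3, h1⟩, fun v hv => hv.elim (h4 v) (h2 v), h5⟩

/-- the history which carries the pins `B = σ` on the layer of `I`, and its restriction -/
theorem ams_search_K (S : ClSys V Y) (σ : V → Bool) (I J : Finset V) (K : ClCon V Y) :
    ∃ K' : ClCon V Y, K'.Eq = K.Eq ∧
      (∀ ω, K'.Holds (S.inn I) ω ↔ (CuPinS σ (cuLay S I) ω ∧ K.Holds S ω)) ∧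
      (∀ ω, (K'.res (S.inn I) (I \ J)).Holds (S.inn I) ω ↔ (CuPinS σ (cuLay S I \ J) ω ∧ (K.res S (I \ J)).Holds S ω)) := by
  have hX : I \ J ⊆ I := Finset.sdiff_subset
  refine ⟨{ K with Bp := K.Bp ∪ (cuLay S I).filter (fun v => σ v = true), Bm := K.Bm ∪ (cuLay S I).filter (fun v => σ v = false) },
    rfl, fun ω => ?_, fun ω => ?_⟩
  · rw [ams_holds_pins, ams_pin_sets]
    exact Iff.rfl
  · have hl : cuLay S I ∩ (I \ J) = cuLay S I \ J := by
      ext v
      rw [Finset.mem_inter, Finset.mem_sdiff, Finset.mem_sdiff]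
      exact ⟨fun h => ⟨h.1, h.2.2⟩, fun h => ⟨h.1, ((am_mem_lay S I v).1 h.1).1, h.2⟩⟩
    have e : ({ K with Bp := K.Bp ∪ (cuLay S I).filter (fun v => σ v = true),
                       Bm := K.Bm ∪ (cuLay S I).filter (fun v => σ v = false) } : ClCon V Y).res (S.inn I) (I \ J)
        = { K.res S (I \ J) with Bp := (K.res S (I \ J)).Bp ∪ (cuLay S I \ J).filter (fun v => σ v = true),
                                 Bm := (K.res S (I \ J)).Bm ∪ (cuLay S I \ J).filter (fun v => σ v = false) } := by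
      simp only [ClCon.res, ams_cin_inn S hX, Finset.union_inter_distrib_right, Finset.filter_inter, hl]
    rw [e, ams_holds_pins, ams_pin_sets]
    exact Iff.rfl

open Classical in
/-- a search whose cut contradicts a pin of the layer has weight zero -/
theorem ams_search_zero (S : ClSys V Y) (hS : ClOk S) (σ : V → Bool) (I : Finset V) (s : Bool) (K : ClCon V Y) (hE : ∀ e ∈ K.Eq, e.1 ∈ I ∧ e.2 ∈ I)
    (O J : Finset V) (hO : O ⊆ J) (hJ : J ⊆ I) {v0 : V} (hv0 : v0 ∈ cuLay (S.inn I) (I \ J)) (hv0' : v0 ∈ cuLay S I) (hne : σ v0 ≠ s)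
    (H : ClCfg V Y → ℝ) :
    (S.inn I).N (fun ω => CuPinS σ (cuLay S I) ω ∧ K.Holds S ω) (fun ω => if clInv (S.inn I) s K.Eq ω O = J then H ω else 0) = 0 := by
  unfold ClSys.N
  refine Finset.sum_eq_zero fun ω _ => ?_
  by_cases hK : CuPinS σ (cuLay S I) ω ∧ K.Holds S ω
  · rw [if_pos hK]
    beta_reduce
    by_cases hinv : clInv (S.inn I) s K.Eq ω O = J
    · rw [if_pos hinv]
      have hcut := ((am_inv_iff (S.inn I) (am_inn_ok S hS I) s K.Eq hE ω O J hO hJ).1 hinv).1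
      obtain ⟨hv0X, y, hy, hvy, hyn⟩ := (am_mem_lay (S.inn I) (I \ J) v0).1 hv0
      obtain ⟨w, hwy, hwX⟩ := Finset.not_subset.1 hyn
      have hτ : clTau (S.inn I) ω y = clSg s := hcut y hy ⟨⟨v0, hvy, hv0X⟩, ⟨w, hwy, hwX⟩⟩
      have hpin := hK.1 v0 hv0'
      have hwt : (S.inn I).wt ω = 0 := by
        unfold ClSys.wt
        refine Finset.prod_eq_zero hy ?_
        unfold clTau clSg at hτ
        cases s
        · have hσ : σ v0 = true := by
            cases h : σ v0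
            · exact absurd h hne
            · rfl
          have hB : v0 ∈ ω.B := hpin.2 hσ
          by_cases hyO : y ∈ ω.O
          · rw [if_pos hyO] at hτ
            by_cases hsub : (S.inn I).sv y ⊆ ω.B
            · rw [if_pos hsub] at hτ
              simp at hτ
            · have hnc : ¬ ClConst ω.B ((S.inn I).sv y) := by
                rintro (h | h)
                · exact hsub h
                · exact h v0 hvy hB
              unfold clCellW
              rw [if_pos hyO, if_neg hnc]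
          · rw [if_neg hyO] at hτ
            simp at hτ
        · exfalso
          by_cases hyO : y ∈ ω.O
          · rw [if_pos hyO] at hτ
            by_cases hsub : (S.inn I).sv y ⊆ ω.B
            · exact hne (hpin.1 (hsub hvy))
            · rw [if_neg hsub] at hτ
              simp at hτ
          · rw [if_neg hyO] at hτ
            simp at hτ
      rw [hwt, zero_mul]
    · rw [if_neg hinv, mul_zero]
  · rw [if_neg hK]

open Classical in
/-- **T3, SEARCH inside a mixed cut law**: a search of sign `s` from `O`; the law off the invaded set `J` is the cut law of `I \ J` for the sign function `amsSg S σ I s`.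
PLAN: `am_search` (or `am_cut` + `am_inv_iff`) in the system `S.inn I`; the pins `CuPinS σ (cuLay S I)` split into a part in `J` and a part in `I \ J`; `ams_lay_sdiff`;
a site of `I \ J` in both layers with `σ ≠ s`: both sides vanish. -/
theorem ams_search (S : ClSys V Y) (hS : ClOk S) (σ : V → Bool) (I : Finset V) (hI : I ⊆ S.A) (s : Bool) (K : ClCon V Y) (hE : ∀ e ∈ K.Eq, e.1 ∈ I ∧ e.2 ∈ I)
    (O J : Finset V) (hO : O ⊆ J) (hJ : J ⊆ I) (G F : ClCfg V Y → ℝ) (hG : ClLoc J (S.cin J) G) (hF : ClLoc (I \ J) (S.cin (I \ J)) F) :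
    cuES S σ I (K.Holds S) (fun ω => if clInv (S.inn I) s K.Eq ω O = J then G ω * F ω else 0) =
      cuES S σ I (K.Holds S) (fun ω => if clInv (S.inn I) s K.Eq ω O = J then G ω else 0) *
        cuES S (amsSg S σ I s) (I \ J) ((K.res S (I \ J)).Holds S) F := by
  have hX : I \ J ⊆ I := Finset.sdiff_subset
  by_cases hcomp : ∀ v ∈ cuLay (S.inn I) (I \ J), v ∈ cuLay S I → σ v = s
  · obtain ⟨K', hKe, hK, hKr⟩ := ams_search_K S σ I J K
    have h := am_search (S.inn I) (am_inn_ok S hS I) s K' (by rw [hKe]; exact hE) O J hO hJ G F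
      (by rw [ams_cin_inn S hJ]; exact hG)
      (by
        show ClLoc (I \ J) ((S.inn I).cin (I \ J)) F
        rw [ams_cin_inn S hX]; exact hF)
    have hKfun : K'.Holds (S.inn I) = fun ω => CuPinS σ (cuLay S I) ω ∧ K.Holds S ω := funext fun ω => propext (hK ω)
    have hA : (S.inn I).A \ J = I \ J := rfl
    rw [hKe, hKfun, hA] at h
    have hlaw : cuE (S.inn I) s (I \ J) ((K'.res (S.inn I) (I \ J)).Holds (S.inn I)) F
        = cuES S (amsSg S σ I s) (I \ J) ((K.res S (I \ J)).Holds S) F := by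
      unfold cuE cuES
      rw [am_inn_inn S hX]
      congr 1
      funext ω
      apply propext
      rw [hKr ω, ams_lay_sdiff S I J]
      constructor
      · rintro ⟨h1, h2, h3⟩
        refine ⟨fun v hv => ?_, h3⟩
        by_cases hvl : v ∈ cuLay S I
        · have e : amsSg S σ I s v = σ v := by
            unfold amsSg
            rw [if_neg (fun hh => hh.2 hvl)]
          rw [e]
          rcases Finset.mem_union.1 hv with hv | hv
          · rw [hcomp v hv hvl]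
            exact h1 v hv
          · exact h2 v hv
        · have hv' : v ∈ cuLay (S.inn I) (I \ J) := by
            rcases Finset.mem_union.1 hv with hv | hv
            · exact hv
            · exact absurd (Finset.mem_sdiff.1 hv).1 hvl
          have e : amsSg S σ I s v = s := by
            unfold amsSg
            rw [if_pos ⟨hX ((am_mem_lay _ _ v).1 hv').1, hvl⟩]
          rw [e]
          exact h1 v hv'
      · rintro ⟨h1, h3⟩
        refine ⟨fun v hv => ?_, fun v hv => ?_, h3⟩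
        · have := h1 v (Finset.mem_union_left _ hv)
          by_cases hvl : v ∈ cuLay S I
          · have e : amsSg S σ I s v = σ v := by
              unfold amsSg
              rw [if_neg (fun hh => hh.2 hvl)]
            rw [e, hcomp v hv hvl] at this
            exact this
          · have e : amsSg S σ I s v = s := by
              unfold amsSg
              rw [if_pos ⟨hX ((am_mem_lay _ _ v).1 hv).1, hvl⟩]
            rw [e] at this
            exact this
        · have := h1 v (Finset.mem_union_right _ hv)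
          have e : amsSg S σ I s v = σ v := by
            unfold amsSg
            rw [if_neg (fun hh => hh.2 (Finset.mem_sdiff.1 hv).1)]
          rw [e] at this
          exact this
    rw [hlaw] at h
    obtain ⟨c, hc⟩ : ∃ c, c = cuES S (amsSg S σ I s) (I \ J) ((K.res S (I \ J)).Holds S) F := ⟨_, rfl⟩
    rw [← hc] at h ⊢
    unfold cuES
    rw [dis_E_eq, dis_E_eq, h]
    ring
  · push Not at hcomp
    obtain ⟨v0, hv0, hv0', hne⟩ := hcomp
    obtain ⟨c, hc⟩ : ∃ c, c = cuES S (amsSg S σ I s) (I \ J) ((K.res S (I \ J)).Holds S) F := ⟨_, rfl⟩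
    rw [← hc]
    unfold cuES
    rw [dis_E_eq, dis_E_eq, ams_search_zero S hS σ I s K hE O J hO hJ hv0 hv0' hne, ams_search_zero S hS σ I s K hE O J hO hJ hv0 hv0' hne]
    simp

/-- on the support an open cell of the sign `s` pins the first spin of its sites -/
theorem ams_tau_pin (S : ClSys V Y) {ω : ClCfg V Y} (hwt : S.wt ω ≠ 0) {y : Y} (hy : y ∈ S.C) {s : Bool} (hτ : clTau S ω y = clSg s) {w : V}
    (hw : w ∈ S.sv y) : w ∈ ω.B ↔ s = true := by
  have hfac := (Finset.prod_ne_zero_iff.1 hwt) y hy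
  unfold clTau clSg at hτ
  by_cases hyO : y ∈ ω.O
  · rw [if_pos hyO] at hτ
    by_cases hsub : S.sv y ⊆ ω.B
    · rw [if_pos hsub] at hτ
      cases s
      · simp at hτ
      · simp only [iff_true]
        exact hsub hw
    · rw [if_neg hsub] at hτ
      cases s
      · simp only [Bool.false_eq_true, iff_false]
        unfold clCellW at hfac
        rw [if_pos hyO] at hfac
        by_cases hc : ClConst ω.B (S.sv y)
        · rcases hc with h | h
          · exact absurd h hsub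
          · exact h w hw
        · rw [if_neg hc] at hfac
          exact absurd rfl hfac
      · simp at hτ
  · rw [if_neg hyO] at hτ
    cases s <;> simp at hτ

open Classical in
/-- a value `J` of positive probability is realised by a configuration of the support -/
theorem ams_search_wit (S : ClSys V Y) (σ : V → Bool) (I : Finset V) (s : Bool) (K : ClCon V Y) (O J : Finset V)
    (hpos : cuES S σ I (K.Holds S) (fun ω => if clInv (S.inn I) s K.Eq ω O = J then 1 else 0) ≠ 0) :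
    ∃ ω : ClCfg V Y, (S.inn I).wt ω ≠ 0 ∧ CuPinS σ (cuLay S I) ω ∧ K.Holds S ω ∧ clInv (S.inn I) s K.Eq ω O = J := by
  unfold cuES at hpos
  rw [dis_E_eq] at hpos
  have hN : (S.inn I).N (fun ω => CuPinS σ (cuLay S I) ω ∧ K.Holds S ω) (fun ω => if clInv (S.inn I) s K.Eq ω O = J then 1 else 0) ≠ 0 := by
    intro h
    rw [h, zero_div] at hpos
    exact hpos rfl
  unfold ClSys.N at hN
  obtain ⟨ω, _, hω⟩ := Finset.exists_ne_zero_of_sum_ne_zero hN
  by_cases hK : CuPinS σ (cuLay S I) ω ∧ K.Holds S ω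
  · rw [if_pos hK] at hω
    beta_reduce at hω
    by_cases hinv : clInv (S.inn I) s K.Eq ω O = J
    · rw [if_pos hinv, mul_one] at hω
      exact ⟨ω, hω, hK.1, hK.2, hinv⟩
    · rw [if_neg hinv, mul_zero] at hω
      exact absurd rfl hω
  · rw [if_neg hK] at hω
    exact absurd rfl hω

open Classical in
/-- the sign function after a search is admissible, for every value `J` of positive probability -/
theorem ams_search_adm (S : ClSys V Y) (hS : ClOk S) (σ : V → Bool) (I : Finset V) (hI : I ⊆ S.A) (hσ : AmsAdm S σ I) (s : Bool) (K : ClCon V Y)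
    (O J : Finset V) (hO : O ⊆ J) (hJ : J ⊆ I)
    (hpos : cuES S σ I (K.Holds S) (fun ω => if clInv (S.inn I) s K.Eq ω O = J then 1 else 0) ≠ 0) : AmsAdm S (amsSg S σ I s) (I \ J) := by
  obtain ⟨ω, hwt, hpin, -, hinv⟩ := ams_search_wit S σ I s K O J hpos
  intro y hy hcr
  by_cases hyI : S.sv y ⊆ I
  · -- the cell lies inside `I`: it is a crossing cell of the search
    have hy' : y ∈ (S.inn I).C := (am_mem_cin S I y).2 ⟨hy, hyI⟩
    have hstep : ∀ a ∈ S.sv y, ∀ b ∈ S.sv y, a ∈ J → clTau (S.inn I) ω y ≠ clSg s → b ∈ J := by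
      intro a ha b hb haJ hne
      rw [← hinv] at haJ ⊢
      unfold clInv at haJ ⊢
      obtain ⟨_, u, hu, hua⟩ := Finset.mem_filter.1 haJ
      exact Finset.mem_filter.2 ⟨hyI hb, u, hu, hua.tail (Or.inl ⟨y, hy', ha, hb, hne⟩)⟩
    have hτ : clTau (S.inn I) ω y = clSg s := by
      by_contra hne
      obtain ⟨⟨a, ha, haX⟩, ⟨b, hb, hbX⟩⟩ := hcr
      have hbJ : b ∈ J := by
        by_contra hbJ
        exact hbX (Finset.mem_sdiff.2 ⟨hyI hb, hbJ⟩)
      exact (Finset.mem_sdiff.1 haX).2 (hstep b hb a ha hbJ hne)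
    have hval : ∀ w ∈ S.sv y, amsSg S σ I s w = s := by
      intro w hw
      unfold amsSg
      by_cases hwl : w ∈ cuLay S I
      · rw [if_neg (fun h => h.2 hwl)]
        have h1 := hpin w hwl
        have h2 := ams_tau_pin (S.inn I) hwt hy' hτ (w := w) hw
        cases hσ : σ w <;> cases s <;> simp_all
      · rw [if_pos ⟨hyI hw, hwl⟩]
    intro u hu v hv
    rw [hval u hu, hval v hv]
  · -- the cell crosses `I`
    have hcrI : clCross S I y := by
      obtain ⟨⟨a, ha, haX⟩, _⟩ := hcr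
      obtain ⟨b, hb, hbI⟩ := Finset.not_subset.1 hyI
      exact ⟨⟨a, ha, (Finset.mem_sdiff.1 haX).1⟩, ⟨b, hb, hbI⟩⟩
    have hval : ∀ w ∈ S.sv y, amsSg S σ I s w = σ w := by
      intro w hw
      unfold amsSg
      rw [if_neg]
      rintro ⟨hwI, hwl⟩
      exact hwl ((am_mem_lay S I w).2 ⟨hwI, y, hy, hw, hyI⟩)
    intro u hu v hv
    rw [hval u hu, hval v hv]
    exact hσ y hy hcrI u hu v hv

/-- the law after a search of positive probability is feasible -/
theorem ams_search_feas (S : ClSys V Y) (hS : ClOk S) (σ : V → Bool) (I : Finset V) (hI : I ⊆ S.A) (s : Bool) (K : ClCon V Y) (hE : ∀ e ∈ K.Eq, e.1 ∈ I ∧ e.2 ∈ I)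
    (O J : Finset V) (hO : O ⊆ J) (hJ : J ⊆ I)
    (hpos : cuES S σ I (K.Holds S) (fun ω => if clInv (S.inn I) s K.Eq ω O = J then 1 else 0) ≠ 0) :
    0 < (S.inn (I \ J)).Z (fun ω => CuPinS (amsSg S σ I s) (cuLay S (I \ J)) ω ∧ (K.res S (I \ J)).Holds S ω) := by
  classical
  have h := ams_search S hS σ I hI s K hE O J hO hJ (fun _ => 1) (fun _ => 1) (fun _ _ _ _ _ => rfl) (fun _ _ _ _ _ => rfl)
  simp only [mul_one] at h
  refine lt_of_le_of_ne (amo_Z_nonneg _ (am_inn_ok S hS _) _) fun hZ => ?_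
  have h0 : cuES S (amsSg S σ I s) (I \ J) ((K.res S (I \ J)).Holds S) (fun _ => 1) = 0 := by
    unfold cuES
    rw [dis_E_eq, ← hZ, div_zero]
  rw [h0, mul_zero] at h
  apply hpos
  convert h using 2

/-- total probability over the values of the invaded set -/
theorem ams_search_sum (S : ClSys V Y) (σ : V → Bool) (I : Finset V) (s : Bool) (K : ClCfg V Y → Prop) (E : Finset (V × V)) (O : Finset V) (F : ClCfg V Y → ℝ) :
    cuES S σ I K F = ∑ J ∈ I.powerset, cuES S σ I K (fun ω => if clInv (S.inn I) s E ω O = J then F ω else 0) := by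
  classical
  unfold cuES
  simp only [dis_E_eq]
  rw [← Finset.sum_div]
  congr 1
  unfold ClSys.N
  rw [Finset.sum_comm]
  refine Finset.sum_congr rfl fun ω _ => ?_
  have hmem : clInv (S.inn I) s E ω O ∈ I.powerset := by
    rw [Finset.mem_powerset]
    unfold clInv
    exact Finset.filter_subset _ _
  by_cases hK : CuPinS σ (cuLay S I) ω ∧ K ω
  · simp only [if_pos hK]
    rw [← Finset.mul_sum, Finset.sum_ite_eq, if_pos hmem]
  · simp only [if_neg hK, Finset.sum_const_zero]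

/-! ### HOST: an admissibly pinned inner system of a disk behaves as a disk -/

/-- **HOST, association** (`dis_assoc` for `S.inn I`, which is NOT a disk in general, e.g. the cylinder `sdSys`): the layer is pinned by the history according to an admissible sign function.
`F`, `G` are increasing for `S.inn I`, no locality asked.   PROVED by 160 DIRECTLY (`Cell/Host.lean`: `ClRel` = relative disk, `chs_inn_rel`; no use of `ams_fkg`).   OLD PLAN: `ams_fkg` for `F ∘ res`, `G ∘ res` (`res` = restriction to `I`, `S.cin I`); `K.Holds` implies the pins; `Z = 0`: `am_N_zero`. -/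
theorem ams_host_assoc (S : ClSys V Y) (hS : ClDisk S) (σ : V → Bool) (I : Finset V) (hI : I ⊆ S.A) (hσ : AmsAdm S σ I)
    (K : ClCon V Y) (hK : ClLegal (S.inn I) K) (hKI : K.In S I)
    (hp : ∀ v ∈ cuLay S I, σ v = true → v ∈ K.Bp) (hm : ∀ v ∈ cuLay S I, σ v = false → v ∈ K.Bm)
    (F G : ClCfg V Y → ℝ) (hF : ClMono (S.inn I) F) (hG : ClMono (S.inn I) G) :
    (S.inn I).N (K.Holds (S.inn I)) F * (S.inn I).N (K.Holds (S.inn I)) G ≤
      (S.inn I).Z (K.Holds (S.inn I)) * (S.inn I).N (K.Holds (S.inn I)) (fun ω => F ω * G ω) :=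
  chs_host_assoc S hS σ I hI hσ K hK hp hm F G hF hG

/-- **HOST, order** (`dis_order` for `S.inn I`) -/
theorem ams_host_order (S : ClSys V Y) (hS : ClDisk S) (σ₁ σ₂ : V → Bool) (I : Finset V) (hI : I ⊆ S.A) (a₁ : AmsAdm S σ₁ I) (a₂ : AmsAdm S σ₂ I)
    (hs : ∀ y ∈ S.C, clCross S I y → ∀ v ∈ S.sv y, σ₁ v ≤ σ₂ v) (K₁ K₂ : ClCon V Y)
    (h₁ : ClLegal (S.inn I) K₁) (h₂ : ClLegal (S.inn I) K₂) (hI₁ : K₁.In S I) (hI₂ : K₂.In S I)
    (hp₁ : ∀ v ∈ cuLay S I, σ₁ v = true → v ∈ K₁.Bp) (hm₁ : ∀ v ∈ cuLay S I, σ₁ v = false → v ∈ K₁.Bm)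
    (hp₂ : ∀ v ∈ cuLay S I, σ₂ v = true → v ∈ K₂.Bp) (hm₂ : ∀ v ∈ cuLay S I, σ₂ v = false → v ∈ K₂.Bm)
    (hle : ClLe K₁ K₂) (F : ClCfg V Y → ℝ) (hF : ClMono (S.inn I) F) :
    (S.inn I).N (K₁.Holds (S.inn I)) F * (S.inn I).Z (K₂.Holds (S.inn I)) ≤ (S.inn I).Z (K₁.Holds (S.inn I)) * (S.inn I).N (K₂.Holds (S.inn I)) F :=
  chs_host_order S hS σ₁ σ₂ I hI a₁ a₂ K₁ K₂ h₁ h₂ hp₁ hm₁ hp₂ hm₂ hle F hF

/-- the equation lemmas of the definitions of this file are generated HERE -/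
theorem ams_defs_eqns_cite : True := by
  have := @ClCutS.eq_1
  have := @CuPinS.eq_1
  have := @cuES.eq_1
  have := @cuPS.eq_1
  have := @AmsAdm.eq_1
  have := @ClCon.opnS.eq_1
  have := @amsSg.eq_1
  trivial

end abstract

end Claimed.Agent.R291
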