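import Claimed.Agent.R291.Defs.Ann
import Claimed.Agent.R291.Pl.CellPath
import Claimed.Agent.R291.Pl.Geo

/-!
# Row 291 (S0539), Ann/PolyDet : THE DETERMINISTIC HALF OF (POLY)      (owner helper191; prefix `apl_` / `Apl`)

TEX[T23_CHAIN A7 POLY 1-4].   Cells are read on their index lattice (`Pl/CellPath`, helper206); the geometry is `plg_geo_strong` (`Pl/Geo`).

* `AplNP ω y` : the up cell `y` is NOT open plus (no reference to a domain);      `AplConn R z z' ω` : the cells `z`, `z'` are joined by non-plus cells with indices in `R`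
* `apl_arm_conn` : an arm of `Λ_n` (event `AnArm`) contains a connection `z → z'` inside the ball of radius `2 n` of the index lattice, `latN z ≤ n + 1`, `latN z' = 2 n`
* `apl_no_arm` : if the open plus cells issued from the ball `sG` of the index lattice stay in a ball, there is no plus arm (`CuCon`) from `Λ_s` to the layer
* `apl_conn_dec`, `apl_conn_loc` : `AplConn` is decreasing and local;      `apl_conn_map` : equivariance under a class preserving map
* `PlgMap.site`, `aplE g`, `aplE' g` : the site map which induces the index map `g`, as equivalences;   `apl_iso` : `DamIso` of the laws `clInn`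
-/

set_option autoImplicit false

namespace Claimed.Agent.R291

open Relation Claims Claims.C0467

/-- the up cell `y` is not open plus -/
def AplNP (ω : ClCfg TV TV) (y : TV) : Prop := ¬ (y ∈ ω.O ∧ cellV y ⊆ ω.B)

/-- the cells `z` and `z'` are joined by a chain of non-plus cells with indices in `R` -/
def AplConn (R : Set TV) (z z' : TV) (ω : ClCfg TV TV) : Prop := TscR tscG ({y | AplNP ω y} ∩ R) z z'

theorem apl_tau (x : ℝ) (I : Finset TV) (ω : ClCfg TV TV) {y : TV} (hy : y ∈ latCellsIn I) :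
    clTau (clPl x I (latCellsIn I)) ω y = clSg true ↔ ¬ AplNP ω y := by
  have hsv : (clPl x I (latCellsIn I)).sv y = cellV y := by
    rw [pcp_sv]
    exact Finset.inter_eq_left.2 (lat_mem_cellsIn.1 hy)
  unfold clTau AplNP clSg
  rw [hsv]
  by_cases h1 : y ∈ ω.O <;> by_cases h2 : cellV y ⊆ ω.B <;> simp [h1, h2]

theorem apl_off (x : ℝ) (I : Finset TV) (ω : ClCfg TV TV) {y : TV} (hy : y ∈ pcpOff x I (latCellsIn I) ω true) : AplNP ω y := by
  by_contra h
  exact hy.2 ((apl_tau x I ω hy.1).2 h)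

theorem apl_on (x : ℝ) (I : Finset TV) (ω : ClCfg TV TV) {y : TV} (hy : y ∈ pcpOn x I (latCellsIn I) ω true) : ¬ AplNP ω y :=
  (apl_tau x I ω hy.1).1 hy.2

theorem apl_cell_N {y u : TV} (hu : u ∈ cellV y) : latN u ≤ latN y + 1 ∧ latN y ≤ latN u + 1 := by
  rcases (pcp_mem_cell y u).1 hu with rfl | rfl | rfl
  · exact ⟨by omega, by omega⟩
  · exact ⟨plh_N_adj (lat_adj_add y (by decide)), plh_N_adj' (lat_adj_add y (by decide))⟩
  · exact ⟨plh_N_adj (lat_adj_add y (by decide)), plh_N_adj' (lat_adj_add y (by decide))⟩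

/-- first passage, set form -/
theorem apl_first {S : Set TV} {a b : TV} (ha : a ∈ S) (h : TscR tscG S a b) {N : ℕ} (h0 : latN a ≤ N) (h1 : N ≤ latN b) :
    ∃ b', latN b' = N ∧ TscR tscG (S ∩ {u | latN u ≤ N}) a b' := by
  obtain ⟨p, p1, p2, p3, p4⟩ := plf_R_walk ha h
  obtain ⟨q, b', q1, q2, q3, q4, q5⟩ := plf_first (g := fun u : TV => (latN u : ℤ)) (N := (N : ℤ)) plf_N_lip p a b p1 p2 p3
    (by exact_mod_cast h0) (by exact_mod_cast h1)
  refine ⟨b', by exact_mod_cast q4, (plf_walk_R (s := S ∩ {u | latN u ≤ N}) (p1.prefix q1) q2 q3 fun u hu => ⟨p4 u (q1.subset hu), ?_⟩).2⟩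
  have := q5 u hu
  show latN u ≤ N
  exact_mod_cast this

/-- TEX[T23_CHAIN A7 POLY 1] an arm contains a connection of two cells at distance `≥ n - 1` inside the ball of radius `2 n` of the index lattice -/
theorem apl_arm_conn (x : ℝ) (M n : ℕ) (hn : 1 ≤ n) (ω : ClCfg TV TV) (h : AnArm x (latBall 0 M) 0 n ω) :
    ∃ z z', latN z ≤ n + 1 ∧ latN z' = 2 * n ∧ AplConn {y | latN y ≤ 2 * n} z z' ω := by
  unfold AnArm clInn at h
  rw [pcp_sep_iff x _ _ (pcp_inn_sub _)] at h
  have hdis : Disjoint (latBall 0 n) (latBall 0 M \ latBall 0 (2 * n)) := by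
    rw [Finset.disjoint_left]
    intro u hu hu'
    exact (Finset.mem_sdiff.1 hu').2 (plh_ball_mono 0 (by omega) hu)
  push Not at h
  obtain ⟨y, hy, y', hy', hyo, hR⟩ := h hdis
  obtain ⟨u, hu, huO⟩ := hy
  obtain ⟨v, hv, hvZ⟩ := hy'
  have hu1 : latN u ≤ n := by
    have := lat_mem_ball.1 (Finset.mem_coe.1 huO)
    simpa using this
  have hv1 : 2 * n < latN v := by
    have h2 := (Finset.mem_sdiff.1 (Finset.mem_coe.1 hvZ)).2
    rw [lat_mem_ball] at h2
    simpa using h2
  have hy1 := (apl_cell_N hu).2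
  have hy2 := (apl_cell_N hv).1
  obtain ⟨z', hz', hR'⟩ := apl_first hyo hR (N := 2 * n) (by omega) (by omega)
  refine ⟨y, z', by omega, hz', ?_⟩
  show TscR tscG ({y | AplNP ω y} ∩ {y | latN y ≤ 2 * n}) y z'
  refine tsc_R_mono ?_ hR'
  intro w hw
  exact ⟨apl_off x _ ω hw.1, hw.2⟩

/-- TEX[T23_CHAIN A7 POLY 4] no plus arm, if the chains of open plus cells issued from the ball of radius `sG` of the index lattice stay in the ball of radius `r` -/
theorem apl_no_arm (x : ℝ) (s M sG r : ℕ) (hsG : s + 1 ≤ sG) (hM : r + 2 ≤ M) (hsM : s < M) (ω : ClCfg TV TV)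
    (hb : ∀ u w, latN u ≤ sG → TscR tscG {y | AplNP ω y}ᶜ u w → latN w ≤ r) :
    ¬ CuCon (clInn x (latBall 0 M)) true ω (latBall 0 s) (latBd (latBall 0 M)) := by
  unfold clInn
  rw [pcp_con_iff x _ _ (pcp_inn_sub _)]
  rintro (⟨u, hu⟩ | ⟨y, ⟨u, hu, huO⟩, y', ⟨v, hv, hvZ⟩, hyo, hR⟩)
  · obtain ⟨h1, h2⟩ := Finset.mem_inter.1 hu
    rw [lat_mem_ball] at h1
    rw [plh_bd_ball] at h2
    omega
  · have hu1 : latN u ≤ s := by
      have := lat_mem_ball.1 (Finset.mem_coe.1 huO)
      simpa using this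
    have hv1 : latN v = M := by
      have := plh_bd_ball.1 (Finset.mem_coe.1 hvZ)
      simpa using this
    have hy1 := (apl_cell_N hu).2
    have hy2 := (apl_cell_N hv).1
    have := hb y y' (by omega) (tsc_R_mono (fun w hw => apl_on x _ ω hw) hR)
    omega

/-! ### monotonicity and locality of the connection events -/

theorem apl_np_dec (x : ℝ) (D : Finset TV) {ω ω' : ClCfg TV TV} (hτ : ∀ y ∈ (clInn x D).C, clTau (clInn x D) ω y ≤ clTau (clInn x D) ω' y)
    {y : TV} (hy : y ∈ latCellsIn D) (h : AplNP ω' y) : AplNP ω y := by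
  by_contra hc
  have h1 : clTau (clInn x D) ω y = 1 := (apl_tau x D ω hy).2 hc
  have h2 := hτ y hy
  have h3 : clTau (clInn x D) ω' y ≠ 1 := fun h' => ((apl_tau x D ω' hy).1 h') h
  rcases dis_tau_cases (clInn x D) ω' y with h4 | h4 | h4 <;> omega

/-- the connection events are decreasing -/
theorem apl_conn_dec (x : ℝ) (D : Finset TV) {R : Set TV} (hR : ∀ y ∈ R, y ∈ latCellsIn D) (z z' : TV) {ω ω' : ClCfg TV TV}
    (hτ : ∀ y ∈ (clInn x D).C, clTau (clInn x D) ω y ≤ clTau (clInn x D) ω' y) (h : AplConn R z z' ω') : AplConn R z z' ω := by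
  show TscR tscG ({y | AplNP ω y} ∩ R) z z'
  refine tsc_R_mono ?_ h
  intro y hy
  exact ⟨apl_np_dec x D hτ (hR y hy.2) hy.1, hy.2⟩

theorem apl_np_loc {D : Finset TV} {ω ω' : ClCfg TV TV} (hB : ω.B ∩ D = ω'.B ∩ D) (hO : ω.O ∩ latCellsIn D = ω'.O ∩ latCellsIn D)
    {y : TV} (hy : y ∈ latCellsIn D) (h : AplNP ω y) : AplNP ω' y := by
  rintro ⟨h1, h2⟩
  refine h ⟨?_, fun u hu => ?_⟩
  · have : y ∈ ω'.O ∩ latCellsIn D := Finset.mem_inter.2 ⟨h1, hy⟩
    rw [← hO] at this
    exact (Finset.mem_inter.1 this).1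
  · have : u ∈ ω'.B ∩ D := Finset.mem_inter.2 ⟨h2 hu, lat_mem_cellsIn.1 hy hu⟩
    rw [← hB] at this
    exact (Finset.mem_inter.1 this).1

/-- the connection events are local -/
theorem apl_conn_loc (D : Finset TV) {R : Set TV} (hR : ∀ y ∈ R, y ∈ latCellsIn D) (z z' : TV) :
    ClLocP D (latCellsIn D) (AplConn R z z') := by
  intro ω ω' hB _ hO
  constructor
  · intro h
    show TscR tscG ({y | AplNP ω' y} ∩ R) z z'
    refine tsc_R_mono ?_ h
    intro y hy
    exact ⟨apl_np_loc hB hO (hR y hy.2) hy.1, hy.2⟩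
  · intro h
    show TscR tscG ({y | AplNP ω y} ∩ R) z z'
    refine tsc_R_mono ?_ h
    intro y hy
    exact ⟨apl_np_loc hB.symm hO.symm (hR y hy.2) hy.1, hy.2⟩

/-! ### class preserving maps: sites, cells, laws -/

/-- the site map which induces the index map `g` on the up cells -/
def PlgMap.site (g : PlgMap) : PlgMap := ⟨g.k, g.m, g.t - plgC g.k.1 g.m⟩

theorem apl_site_cell (g : PlgMap) : g.site.cell = g := by
  unfold PlgMap.site PlgMap.cell
  simp

theorem apl_cell_image (g : PlgMap) (y : TV) : (cellV y).image g.site.app = cellV (g.app y) := by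
  rw [plg_app_cell, apl_site_cell]

/-- a class preserving map as an equivalence -/
noncomputable def PlgMap.eqv (g : PlgMap) : TV ≃ TV := Equiv.ofBijective g.app ⟨fun _ _ h => plg_app_inj g h, plg_app_surj g⟩

theorem apl_eqv_apply (g : PlgMap) (u : TV) : g.eqv u = g.app u := rfl

theorem apl_cell_map (g : PlgMap) (y : TV) : cellV (g.eqv y) = (cellV y).map g.site.eqv.toEmbedding := by
  rw [Finset.map_eq_image]
  exact (apl_cell_image g y).symm

theorem apl_adj_iff (g : PlgMap) (u v : TV) : triAdj (g.app u) (g.app v) ↔ triAdj u v := by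
  rw [plh_N_adj_iff, plh_N_adj_iff, plg_app_dist]

theorem apl_cellsIn_map (g : PlgMap) (D : Finset TV) :
    latCellsIn (D.map g.site.eqv.toEmbedding) = (latCellsIn D).map g.eqv.toEmbedding := by
  ext y'
  obtain ⟨y, rfl⟩ := g.eqv.surjective y'
  rw [lat_mem_cellsIn, apl_cell_map, Finset.map_subset_map]
  have : g.eqv y ∈ (latCellsIn D).map g.eqv.toEmbedding ↔ y ∈ latCellsIn D := Finset.mem_map' g.eqv.toEmbedding
  rw [this, lat_mem_cellsIn]

theorem apl_bd_map (g : PlgMap) (D : Finset TV) : latBd (D.map g.eqv.toEmbedding) = (latBd D).map g.eqv.toEmbedding := by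
  ext u'
  obtain ⟨u, rfl⟩ := g.eqv.surjective u'
  have e1 : ∀ (F : Finset TV) (w : TV), g.eqv w ∈ F.map g.eqv.toEmbedding ↔ w ∈ F := fun F w => Finset.mem_map' g.eqv.toEmbedding
  rw [e1, lat_mem_bd, lat_mem_bd, e1]
  refine and_congr_right fun _ => ?_
  constructor
  · rintro ⟨v', hv, hvD⟩
    obtain ⟨v, rfl⟩ := g.eqv.surjective v'
    exact ⟨v, (apl_adj_iff g u v).1 hv, fun h => hvD ((e1 D v).2 h)⟩
  · rintro ⟨v, hv, hvD⟩
    exact ⟨g.eqv v, (apl_adj_iff g u v).2 hv, fun h => hvD ((e1 D v).1 h)⟩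

theorem apl_ball_map (g : PlgMap) (c : TV) (r : ℕ) : (latBall c r).map g.eqv.toEmbedding = latBall (g.app c) r := by
  ext u'
  obtain ⟨u, rfl⟩ := g.eqv.surjective u'
  have e1 : g.eqv u ∈ (latBall c r).map g.eqv.toEmbedding ↔ u ∈ latBall c r := Finset.mem_map' g.eqv.toEmbedding
  rw [e1, lat_mem_ball, lat_mem_ball, apl_eqv_apply, plg_app_dist]

/-- the laws with the boundary cells excluded are transported by the class preserving maps -/
theorem apl_iso (x : ℝ) (g : PlgMap) (D : Finset TV) :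
    DamIso g.site.eqv g.eqv (clInn x D) (clInn x (D.map g.site.eqv.toEmbedding)) := by
  have e1 : ∀ y, cellV (g.eqv y) ∩ D.map g.site.eqv.toEmbedding = (cellV y ∩ D).map g.site.eqv.toEmbedding := fun y => by
    rw [apl_cell_map, Finset.map_inter]
  refine ⟨rfl, apl_cellsIn_map g D, fun y _ => e1 y, fun y _ => ?_⟩
  show (if (cellV (g.eqv y) ∩ D.map g.site.eqv.toEmbedding).card = 3 then x ^ 2 else x) = (if (cellV y ∩ D).card = 3 then x ^ 2 else x)
  rw [e1, Finset.card_map]

theorem apl_np_map (g : PlgMap) (ω : ClCfg TV TV) (y : TV) : AplNP (damMap g.site.eqv g.eqv ω) (g.app y) ↔ AplNP ω y := by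
  unfold AplNP damMap
  have e1 : g.app y ∈ ω.O.map g.eqv.toEmbedding ↔ y ∈ ω.O := Finset.mem_map' g.eqv.toEmbedding
  have e2 : cellV (g.app y) ⊆ ω.B.map g.site.eqv.toEmbedding ↔ cellV y ⊆ ω.B := by
    rw [← apl_eqv_apply, apl_cell_map, Finset.map_subset_map]
  simp only [e1, e2]

/-- equivariance of the connection events -/
theorem apl_conn_map (g : PlgMap) {R : Set TV} {z z' : TV} {ω : ClCfg TV TV} (h : AplConn R z z' ω) :
    AplConn (g.app '' R) (g.app z) (g.app z') (damMap g.site.eqv g.eqv ω) := by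
  have h1 := tsc_R_map (G' := tscG) g.app (fun a b hab => plg_app_adj g a b hab) h
  show TscR tscG ({y | AplNP (damMap g.site.eqv g.eqv ω) y} ∩ g.app '' R) (g.app z) (g.app z')
  refine tsc_R_mono ?_ h1
  rintro _ ⟨y, hy, rfl⟩
  exact ⟨(apl_np_map g ω y).2 hy.1, y, hy.2, rfl⟩

theorem apl_pin_map (g : PlgMap) (L : Finset TV) (s : Bool) (e' : TV ≃ TV) (ω : ClCfg TV TV) :
    DamPin (L.map g.eqv.toEmbedding) s (damMap g.eqv e' ω) ↔ DamPin L s ω := by
  unfold DamPin DamSg damMap
  constructor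
  · intro h v hv
    have := h (g.eqv v) (Finset.mem_map_of_mem _ hv)
    rwa [show g.eqv v ∈ ω.B.map g.eqv.toEmbedding ↔ v ∈ ω.B from Finset.mem_map' g.eqv.toEmbedding] at this
  · intro h v' hv'
    obtain ⟨v, hv, rfl⟩ := Finset.mem_map.1 hv'
    rw [show g.eqv.toEmbedding v ∈ ω.B.map g.eqv.toEmbedding ↔ v ∈ ω.B from Finset.mem_map' g.eqv.toEmbedding]
    exact h v hv

/-- **T5 for the class preserving maps**: the cut laws are transported -/
theorem apl_sym_gen (x : ℝ) (s : Bool) (g : PlgMap) (D : Finset TV) (L : ClCfg TV TV → Prop) :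
    anP x s (D.map g.site.eqv.toEmbedding) L = anP x s D (fun ω => L (damMap g.site.eqv g.eqv ω)) := by
  unfold anP ClSys.P
  rw [dam_iso_E (apl_iso x g D), apl_bd_map]
  simp only [apl_pin_map]

/-- **T5 for the class preserving maps**: the cut law on a ball is transported -/
theorem apl_sym (x : ℝ) (s : Bool) (g : PlgMap) (M : ℕ) (L : ClCfg TV TV → Prop) :
    anP x s (latBall (g.site.app 0) M) L = anP x s (latBall 0 M) (fun ω => L (damMap g.site.eqv g.eqv ω)) := by
  rw [← apl_ball_map g.site 0 M, apl_sym_gen]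

/-- a path inside the image of a set comes from a path inside the set -/
theorem apl_R_unmap (g : PlgMap) {S : Set TV} {a : TV} : ∀ {b' : TV}, TscR tscG (g.app '' S) (g.app a) b' →
    ∃ b, b' = g.app b ∧ TscR tscG S a b := by
  intro b' h
  induction h with
  | refl => exact ⟨a, rfl, tsc_R_refl a⟩
  | @tail c' d' _ hcd ih =>
    obtain ⟨c, rfl, hc⟩ := ih
    obtain ⟨c0, hc0, hc0'⟩ := hcd.2.1
    obtain ⟨d, hd, rfl⟩ := hcd.2.2
    have : c0 = c := plg_app_inj g hc0'
    subst this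
    exact ⟨d, rfl, hc.tail ⟨(apl_adj_iff g c0 d).1 hcd.1, hc0, hd⟩⟩

/-- equivariance of the connection events, both directions -/
theorem apl_conn_map_iff (g : PlgMap) (R : Set TV) (z z' : TV) (ω : ClCfg TV TV) :
    AplConn (g.app '' R) (g.app z) (g.app z') (damMap g.site.eqv g.eqv ω) ↔ AplConn R z z' ω := by
  refine ⟨fun h => ?_, apl_conn_map g⟩
  have h1 : TscR tscG (g.app '' ({y | AplNP ω y} ∩ R)) (g.app z) (g.app z') := by
    refine tsc_R_mono ?_ h
    rintro _ ⟨hy, y, hyR, rfl⟩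
    exact ⟨y, ⟨(apl_np_map g ω y).1 hy, hyR⟩, rfl⟩
  obtain ⟨b, hb, hR⟩ := apl_R_unmap g h1
  rw [plg_app_inj g hb]
  exact hR

theorem apl_C_N (e : ℕ) (μ : Bool) : latN (plgC e μ) ≤ 1 := by
  unfold plgC
  have he : e % 3 < 3 := Nat.mod_lt _ (by norm_num)
  generalize e % 3 = f at he
  interval_cases f <;> cases μ <;> decide

theorem apl_site_app (g : PlgMap) (u : TV) : g.site.app u = g.app u - plgC g.k.1 g.m := by
  unfold PlgMap.site PlgMap.app plgMap
  simp only
  abel

/-- position of the image of a ball under the site map -/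
theorem apl_site_ball (g : PlgMap) (r c N : ℕ) (hg : latN (g.app 0) ≤ c) (hN : c + 1 + r ≤ N) :
    (latBall 0 r).image g.site.app ⊆ latBall 0 N := by
  intro u' hu'
  obtain ⟨u, hu, rfl⟩ := Finset.mem_image.1 hu'
  rw [lat_mem_ball] at hu ⊢
  have h1 := plg_app_dist g.site u 0
  have h2 := plg_N_add (g.site.app u - g.site.app 0) (g.site.app 0)
  rw [sub_add_cancel, h1] at h2
  have h3 : latN (g.site.app 0) ≤ c + 1 := by
    rw [apl_site_app, sub_eq_add_neg]
    have := plg_N_add (g.app 0) (-plgC g.k.1 g.m)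
    rw [plh_N_neg] at this
    have h4 := apl_C_N g.k.1 g.m
    omega
  rw [sub_zero] at hu ⊢
  rw [sub_zero] at h2
  omega

/-- the cells with indices in the image of a ball are inside the image of a slightly larger ball of sites -/
theorem apl_site_cells (g : PlgMap) (r M : ℕ) (h : r + 1 ≤ M) :
    ∀ y ∈ {p : TV | ∃ u, latN u ≤ r ∧ g.app u = p}, cellV y ⊆ (latBall 0 M).image g.site.app := by
  rintro _ ⟨u, hu, rfl⟩
  rw [← apl_cell_image]
  refine Finset.image_subset_image fun w hw => ?_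
  rw [lat_mem_ball, sub_zero]
  have := (apl_cell_N hw).1
  omega

theorem apl_eqns_cite : True := by
  have := @AplNP.eq_1
  have := @AplConn.eq_1
  have := @PlgMap.site.eq_1
  have := @PlgMap.eqv.eq_1
  trivial

end Claimed.Agent.R291
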