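import Claimed.Agent.R291.Ann.Basic
import Claimed.Agent.R291.Ann.PolyDet
import Claimed.Agent.R291.Pl.Geo

/-!
# Row 291 (S0539), Ann/Poly : (POLY) "POLYNOMIAL IS ENOUGH"      (owner helper121; prefix `ann_`)

`origin/helper121:notes/R291/T23_CHAIN.md` A7 (POLY).   If non-plus arms have a uniformly positive probability under `P^+` then `1 - π(t, κ t) ≥ c t^{-J}`.
Scales for the target scale `t`:   GEO scale `s = 2 t`,   arms across `A(4t, 8t)`,   region of cell indices = ball of radius `5 s = 10 t`,   law of the arm on `Λ_{4 b t}`.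
 1. `ann_arm_join`   an arm contains a path of non-plus cells `z ⟶ z'`, indices in the ball `10 t`, `latN (z' - z) ≥ 2 t`      (deterministic, `pcp_sep_iff`, first exit)
 2. `ann_pigeon`     one pair `(z, z')` has probability `≥ η / (21 t)^4`                                                      (union bound)
 3. `ann_join_iso`   the images under the class preserving maps have the same probability in the image domain               (`dam_iso_E` / `am_iso`, `plg_app_cell`)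
 4. `ann_join_dom`   T2: a larger plus domain makes `AnJoin` (decreasing) more likely                                          (`am_pl_dom_plus`)
 5. `ann_join_fkg`   FKG for decreasing events                                                                                (`am_pl_fkg`)
 6. `ann_block`      (GEO) `plg_geo` (191, PROVED): the copies block every plus arm                                            (deterministic, `pcp_con_iff`)
-/

set_option autoImplicit false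

namespace Claimed.Agent.R291

open Claims Claims.C0467

/-! the SITE map `g.site` which induces the INDEX map `g` on the up-cells is defined in `Ann/PolyDet.lean` (191) -/

theorem ann_site_cell (g : PlgMap) : g.site.cell = g := by
  unfold PlgMap.site PlgMap.cell
  simp

/-- LEAF 1 (deterministic).  PLAN: `AnArm` = `¬ ClSep`; `pcp_sep_iff` (or directly the chain of sites): cut the chain at the FIRST site off `Λ_{8t}`; every cell used has a site in `Λ_{8t}`,
so its index has norm `≤ 8t + 1 ≤ 10 t`; the first cell has a site in `Λ_{4t}` (norm `≤ 4t+1`), the last one a site off `Λ_{8t}` (norm `≥ 8t`); `ann_tau_plus`. -/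
theorem ann_arm_join (x : ℝ) (t M : ℕ) (ht : 1 ≤ t) (hM : 8 * t + 1 ≤ M) (ω : ClCfg TV TV) (h : AnArm x (latBall 0 M) 0 (4 * t) ω) :
    ∃ z z' : TV, latN z ≤ 5 * (2 * t) ∧ latN z' ≤ 5 * (2 * t) ∧ 2 * t ≤ latN (z' - z) ∧ AnJoin (anB (5 * (2 * t))) z z' ω := by
  obtain ⟨z, z', hz, hz', hc⟩ := apl_arm_conn x M (4 * t) (by omega) ω h
  have h1 := plg_N_add (z' - z) z
  rw [sub_add_cancel] at h1
  refine ⟨z, z', by omega, by omega, by omega, ?_⟩
  refine tsc_R_mono ?_ hc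
  rintro y ⟨hy1, hy2⟩
  refine ⟨hy1, ?_⟩
  have hy3 : latN y ≤ 2 * (4 * t) := hy2
  show latN y ≤ 5 * (2 * t)
  omega

theorem ann_pj_ball_card (r : ℕ) : (latBall 0 r).card ≤ (2 * r + 1) ^ 2 := by
  unfold latBall
  refine (Finset.card_filter_le _ _).trans (le_of_eq ?_)
  rw [Finset.card_product, Int.card_Icc, Int.card_Icc]
  have e : ((0 : TV).1 + (r : ℤ) + 1 - ((0 : TV).1 - (r : ℤ))).toNat = 2 * r + 1 := by
    simp only [Prod.fst_zero]
    omega
  have e' : ((0 : TV).2 + (r : ℤ) + 1 - ((0 : TV).2 - (r : ℤ))).toNat = 2 * r + 1 := by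
    simp only [Prod.snd_zero]
    omega
  rw [e, e']
  ring

/-- LEAF 2.  PLAN: `ann_arm_join`, `ann_clP_mono`, `ann_clP_union` over the pairs of `latBall 0 (10 t) ×ˢ latBall 0 (10 t)` (card `≤ (20 t + 1)^4`) with `2t ≤ latN (z' - z)`; a sum of `N` terms
is at most `N` times the largest one (`Finset.exists_max_image` / `Finset.sum_le_card_nsmul`); if the set of pairs is empty the left side is `≤ 0`. -/
theorem ann_pigeon (x : ℝ) (hx0 : 0 < x) (hx2 : x ≤ 1) (t M : ℕ) (ht : 1 ≤ t) (hM : 8 * t + 1 ≤ M) (hpos : 0 < anEta x (4 * t) M) :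
    ∃ z z' : TV, latN z ≤ 5 * (2 * t) ∧ latN z' ≤ 5 * (2 * t) ∧ 2 * t ≤ latN (z' - z) ∧
      anEta x (4 * t) M ≤ (21 * (t : ℝ)) ^ 4 * anP x true (latBall 0 M) (AnJoin (anB (5 * (2 * t))) z z') := by
  classical
  set r := 5 * (2 * t) with hr
  set T : Finset (TV × TV) := ((latBall 0 r) ×ˢ (latBall 0 r)).filter (fun p => 2 * t ≤ latN (p.2 - p.1)) with hT
  set f : TV × TV → ℝ := fun p => anP x true (latBall 0 M) (AnJoin (anB r) p.1 p.2) with hf
  have hmem : ∀ p : TV × TV, p ∈ T ↔ (latN p.1 ≤ r ∧ latN p.2 ≤ r) ∧ 2 * t ≤ latN (p.2 - p.1) := by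
    intro p
    rw [hT, Finset.mem_filter, Finset.mem_product, lat_mem_ball, lat_mem_ball, sub_zero, sub_zero]
  have h1 : anEta x (4 * t) M ≤ ∑ p ∈ T, f p := by
    unfold anEta
    refine (ann_P_mono x hx0 hx2 true _ _ (fun ω => ∃ p ∈ T, AnJoin (anB r) p.1 p.2 ω) ?_).trans
      (ann_clP_union _ (pcp_inn_ok x hx0 hx2 _) _ T (fun p ω => AnJoin (anB r) p.1 p.2 ω))
    intro ω hω
    obtain ⟨z, z', hz, hz', hv, hj⟩ := ann_arm_join x t M ht hM ω hω
    exact ⟨(z, z'), (hmem _).2 ⟨⟨hz, hz'⟩, hv⟩, hj⟩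
  have hne : T.Nonempty := by
    by_contra hcon
    rw [Finset.not_nonempty_iff_eq_empty] at hcon
    rw [hcon, Finset.sum_empty] at h1
    linarith
  obtain ⟨p, hp, hmax⟩ := Finset.exists_max_image T f hne
  obtain ⟨⟨hp1, hp2⟩, hp3⟩ := (hmem p).1 hp
  refine ⟨p.1, p.2, hp1, hp2, hp3, h1.trans ?_⟩
  have h2 : ∑ q ∈ T, f q ≤ T.card • f p := Finset.sum_le_card_nsmul T f (f p) hmax
  have hfp : 0 ≤ f p := ann_P_nonneg x hx0 hx2 _ _ _
  have hcard : (T.card : ℝ) ≤ (21 * (t : ℝ)) ^ 4 := by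
    have c1 : T.card ≤ (2 * r + 1) ^ 2 * (2 * r + 1) ^ 2 := by
      refine (Finset.card_filter_le _ _).trans ?_
      rw [Finset.card_product]
      exact Nat.mul_le_mul (ann_pj_ball_card r) (ann_pj_ball_card r)
    have c2 : (2 * r + 1) ^ 2 * (2 * r + 1) ^ 2 ≤ (21 * t) ^ 4 := by
      have : 2 * r + 1 ≤ 21 * t := by omega
      calc (2 * r + 1) ^ 2 * (2 * r + 1) ^ 2 = (2 * r + 1) ^ 4 := by ring
        _ ≤ (21 * t) ^ 4 := Nat.pow_le_pow_left this 4
    exact_mod_cast c1.trans c2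
  rw [nsmul_eq_mul] at h2
  exact h2.trans (mul_le_mul_of_nonneg_right hcard hfp)

/-- LEAF 3.  PLAN: `σ = g.site`; `DamIso` between `clInn x D` and `clInn x (D.image σ.app)` for the bijections `σ.app`, `g.app` (`plg_app_inj`, `plg_app_surj`, `plg_app_cell`, `ann_site_cell`,
`plg_app_adj` for `latBd`), `dam_iso_E`; `AnPlus (map ω) (g.app y) ↔ AnPlus ω y`; `tsc_R_map` both ways. -/
theorem ann_join_iso (x : ℝ) (g : PlgMap) (D : Finset TV) (r : ℕ) (z z' : TV) :
    anP x true (D.image g.site.app) (AnJoin {p | ∃ u, latN u ≤ r ∧ g.app u = p} (g.app z) (g.app z')) =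
      anP x true D (AnJoin (anB r) z z') := by
  have e1 : D.image g.site.app = D.map g.site.eqv.toEmbedding := by
    rw [Finset.map_eq_image]
    rfl
  have e2 : {p : TV | ∃ u, latN u ≤ r ∧ g.app u = p} = g.app '' anB r := rfl
  rw [e1, apl_sym_gen, e2]
  congr 1
  funext ω
  exact propext (apl_conn_map_iff g (anB r) z z' ω)

/-! ### helpers of leaves 4, 5 (helper168) -/

theorem ann_pj_tau_le (S : ClSys TV TV) (ω : ClCfg TV TV) (y : TV) : clTau S ω y ≤ 1 := by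
  unfold clTau
  split_ifs <;> norm_num

/-- `AnJoin` is decreasing -/
theorem ann_pj_anti (x : ℝ) (D : Finset TV) {R : Set TV} (hR : ∀ y ∈ R, cellV y ⊆ D) (z z' : TV) {ω ω' : ClCfg TV TV}
    (hτ : ∀ y ∈ (clInn x D).C, clTau (clInn x D) ω y ≤ clTau (clInn x D) ω' y) (h : AnJoin R z z' ω') : AnJoin R z z' ω := by
  refine tsc_R_mono ?_ h
  rintro y ⟨hy, hyR⟩
  refine ⟨fun hp => hy ?_, hyR⟩
  have hc : y ∈ latCellsIn D := lat_mem_cellsIn.2 (hR y hyR)
  have h1 := (ann_tau_plus x D ω hc).2 hp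
  have h2 := hτ y hc
  have h3 := ann_pj_tau_le (clInn x D) ω' y
  exact (ann_tau_plus x D ω' hc).1 (by omega)

/-- `AnJoin` is local -/
theorem ann_pj_loc (D : Finset TV) {R : Set TV} (hR : ∀ y ∈ R, cellV y ⊆ D) (z z' : TV) {ω ω' : ClCfg TV TV}
    (hB : ω.B ∩ D = ω'.B ∩ D) (hO : ω.O ∩ latCellsIn D = ω'.O ∩ latCellsIn D) (h : AnJoin R z z' ω') : AnJoin R z z' ω := by
  refine tsc_R_mono ?_ h
  rintro y ⟨hy, hyR⟩
  refine ⟨fun hp => hy ?_, hyR⟩
  have hc : y ∈ latCellsIn D := lat_mem_cellsIn.2 (hR y hyR)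
  refine ⟨?_, fun u hu => ?_⟩
  · have : y ∈ ω.O ∩ latCellsIn D := Finset.mem_inter.2 ⟨hp.1, hc⟩
    rw [hO] at this
    exact (Finset.mem_inter.1 this).1
  · have : u ∈ ω.B ∩ D := Finset.mem_inter.2 ⟨hp.2 hu, hR y hyR hu⟩
    rw [hB] at this
    exact (Finset.mem_inter.1 this).1

theorem ann_pj_free_holds (S : ClSys TV TV) (ω : ClCfg TV TV) : (clFree : ClCon TV TV).Holds S ω ↔ True := by
  simp [clFree, ClCon.Holds]

theorem ann_pj_free_legal (S : ClSys TV TV) : ClLegal S (clFree : ClCon TV TV) :=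
  ⟨rfl, rfl, fun y _ hy => by simp [clFree] at hy, fun e he => by simp [clFree] at he⟩

theorem ann_pj_free_in (S : ClSys TV TV) (I : Finset TV) : (clFree : ClCon TV TV).In S I :=
  ⟨by simp [clFree], by simp [clFree], fun e he => by simp [clFree] at he, by simp [clFree], by simp [clFree], by simp [clFree], by simp [clFree],
    by simp [clFree]⟩

theorem ann_pj_E_free (x : ℝ) (s : Bool) (I : Finset TV) (F : ClCfg TV TV → ℝ) :
    amE x s I ((clFree : ClCon TV TV).Holds (clInn x I)) F = anE x s I F := by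
  rw [ann_E_am]
  congr 1
  funext ω
  exact propext (ann_pj_free_holds _ ω)

theorem ann_pj_Z_free (x : ℝ) (hx0 : 0 < x) (hx2 : x ≤ 1) (s : Bool) (I : Finset TV) :
    0 < (clInn x I).Z (fun ω => CuPin s (amLay I) ω ∧ (clFree : ClCon TV TV).Holds (clInn x I) ω) := by
  have h := ann_Z_pos x hx0 hx2 s I
  have e : (fun ω => CuPin s (amLay I) ω ∧ (clFree : ClCon TV TV).Holds (clInn x I) ω) = DamPin (latBd I) s := by
    funext ω
    rw [propext (ann_pj_free_holds _ ω)]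
    exact propext (ann_pin_iff s I ω)
  rw [e]
  exact h

open Classical in
theorem ann_pj_P_E (x : ℝ) (s : Bool) (I : Finset TV) (L : ClCfg TV TV → Prop) : anP x s I L = anE x s I (fun ω => if L ω then 1 else 0) := rfl

theorem ann_pj_P_E' (x : ℝ) (s : Bool) (I : Finset TV) (L : ClCfg TV TV → Prop) [DecidablePred L] :
    anP x s I L = anE x s I (fun ω => if L ω then 1 else 0) := by
  rw [ann_pj_P_E]
  congr 1
  funext ω
  congr

theorem ann_pj_E_neg (x : ℝ) (s : Bool) (I : Finset TV) (F : ClCfg TV TV → ℝ) : anE x s I (fun ω => -F ω) = -anE x s I F := by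
  classical
  unfold anE ClSys.E
  rw [← neg_div, ← Finset.sum_neg_distrib]
  congr 1
  refine Finset.sum_congr rfl (fun ω _ => ?_)
  split_ifs <;> simp

/-- LEAF 4 (T2).  PLAN: `F = 1 - 1[AnJoin]` is `ClMono (clInn x D)` and `ClLoc D (latCellsIn D)`; `am_pl_dom_plus` with `K = clFree`, `ann_E_am`, `ann_P_compl`, `ann_Z_pos`. -/
theorem ann_join_dom (x : ℝ) (hx0 : 0 < x) (hx2 : x ≤ 1) (D D' : Finset TV) (hD : D ⊆ D') (R : Set TV) (hR : ∀ y ∈ R, cellV y ⊆ D) (z z' : TV) :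
    anP x true D (AnJoin R z z') ≤ anP x true D' (AnJoin R z z') := by
  classical
  set F : ClCfg TV TV → ℝ := fun ω => -(if AnJoin R z z' ω then 1 else 0) with hF
  have hmono : ClMono (clInn x D) F := by
    intro ω ω' _ hτ
    simp only [hF]
    by_cases h' : AnJoin R z z' ω'
    · rw [if_pos h', if_pos (ann_pj_anti x D hR z z' hτ h')]
    · rw [if_neg h']; split_ifs <;> norm_num
  have hloc : ClLoc D (latCellsIn D) F := by
    intro ω ω' hB _ hO
    simp only [hF]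
    have : AnJoin R z z' ω ↔ AnJoin R z z' ω' := ⟨ann_pj_loc D hR z z' hB.symm hO.symm, ann_pj_loc D hR z z' hB hO⟩
    simp only [this]
  have key := am_pl_dom_plus x hx0 hx2 D D' hD clFree (ann_pj_free_legal _) (ann_pj_free_in _ _) (ann_pj_Z_free x hx0 hx2 true D) F hmono hloc
  rw [ann_pj_E_free, ann_pj_E_free, hF, ann_pj_E_neg, ann_pj_E_neg, ← ann_pj_P_E, ← ann_pj_P_E] at key
  linarith

/-- FKG for two decreasing local events -/
theorem ann_pj_fkg2 (x : ℝ) (hx0 : 0 < x) (hx2 : x ≤ 1) (s : Bool) (D : Finset TV) (A B : ClCfg TV TV → Prop)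
    (hA : CuDec (clInn x D) A) (hB : CuDec (clInn x D) B) (hAl : ClLocP D (latCellsIn D) A) (hBl : ClLocP D (latCellsIn D) B) :
    anP x s D A * anP x s D B ≤ anP x s D (fun ω => A ω ∧ B ω) := by
  classical
  have mono : ∀ L : ClCfg TV TV → Prop, CuDec (clInn x D) L → ClMono (clInn x D) (fun ω => -(if L ω then (1 : ℝ) else 0)) := by
    intro L hL ω ω' hb hτ
    by_cases h' : L ω'
    · simp only [if_pos h', if_pos (hL ω ω' hb hτ h')]; exact le_refl _
    · simp only [if_neg h']; split_ifs <;> norm_num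
  have loc : ∀ L : ClCfg TV TV → Prop, ClLocP D (latCellsIn D) L → ClLoc D (latCellsIn D) (fun ω => -(if L ω then (1 : ℝ) else 0)) := by
    intro L hL ω ω' h1 h2 h3
    simp only [hL ω ω' h1 h2 h3]
  have key := am_pl_fkg x hx0 hx2 s D clFree (ann_pj_free_legal _) (ann_pj_free_in _ _) _ _ (mono A hA) (mono B hB) (loc A hAl) (loc B hBl)
  rw [ann_pj_E_free, ann_pj_E_free, ann_pj_E_free, ann_pj_E_neg, ann_pj_E_neg, ← ann_pj_P_E, ← ann_pj_P_E] at key
  have e : (fun ω => -(if A ω then (1 : ℝ) else 0) * -(if B ω then (1 : ℝ) else 0)) = fun ω => if A ω ∧ B ω then (1 : ℝ) else 0 := by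
    funext ω
    by_cases h1 : A ω <;> by_cases h2 : B ω <;> simp [h1, h2]
  rw [e, ← ann_pj_P_E'] at key
  linarith

theorem ann_pj_P_true (x : ℝ) (hx0 : 0 < x) (hx2 : x ≤ 1) (s : Bool) (I : Finset TV) {L : ClCfg TV TV → Prop} (h : ∀ ω, L ω) : anP x s I L = 1 := by
  classical
  rw [ann_pj_P_E]
  simp only [h, if_true]
  unfold anE ClSys.E
  simp only [mul_one]
  exact div_self (ann_Z_pos x hx0 hx2 s I).ne'

theorem ann_pj_join_dec (x : ℝ) (D : Finset TV) {R : Set TV} (hR : ∀ y ∈ R, cellV y ⊆ D) (z z' : TV) : CuDec (clInn x D) (AnJoin R z z') :=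
  fun _ _ _ hτ h => ann_pj_anti x D hR z z' hτ h

theorem ann_pj_join_loc (D : Finset TV) {R : Set TV} (hR : ∀ y ∈ R, cellV y ⊆ D) (z z' : TV) : ClLocP D (latCellsIn D) (AnJoin R z z') :=
  fun _ _ hB _ hO => ⟨ann_pj_loc D hR z z' hB.symm hO.symm, ann_pj_loc D hR z z' hB hO⟩

/-- LEAF 5 (FKG).  PLAN: induction on the list; for two decreasing events apply `am_pl_fkg` to `1 - 1[E]`, `1 - 1[E']`; an intersection of decreasing events is decreasing. -/
theorem ann_join_fkg {ι : Type} (x : ℝ) (hx0 : 0 < x) (hx2 : x ≤ 1) (D : Finset TV) (l : List ι) (R : ι → Set TV) (z z' : ι → TV)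
    (hR : ∀ i ∈ l, ∀ y ∈ R i, cellV y ⊆ D) :
    (l.map (fun i => anP x true D (AnJoin (R i) (z i) (z' i)))).prod ≤ anP x true D (fun ω => ∀ i ∈ l, AnJoin (R i) (z i) (z' i) ω) := by
  induction l with
  | nil =>
    rw [List.map_nil, List.prod_nil, ann_pj_P_true x hx0 hx2]
    intro ω i hi
    simp at hi
  | cons a l ih =>
    have hRl : ∀ i ∈ l, ∀ y ∈ R i, cellV y ⊆ D := fun i hi => hR i (List.mem_cons_of_mem _ hi)
    have hRa := hR a List.mem_cons_self
    have ih' := ih hRl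
    rw [List.map_cons, List.prod_cons]
    have hdec : CuDec (clInn x D) (fun ω => ∀ i ∈ l, AnJoin (R i) (z i) (z' i) ω) :=
      fun ω ω' hb hτ h i hi => ann_pj_join_dec x D (hRl i hi) _ _ ω ω' hb hτ (h i hi)
    have hloc : ClLocP D (latCellsIn D) (fun ω => ∀ i ∈ l, AnJoin (R i) (z i) (z' i) ω) :=
      fun ω ω' h1 h2 h3 => forall_congr' fun i => imp_congr_right fun hi => ann_pj_join_loc D (hRl i hi) _ _ ω ω' h1 h2 h3
    have h2 := ann_pj_fkg2 x hx0 hx2 true D _ _ (ann_pj_join_dec x D hRa (z a) (z' a)) hdec (ann_pj_join_loc D hRa (z a) (z' a)) hloc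
    have h3 : anP x true D (AnJoin (R a) (z a) (z' a)) * (l.map (fun i => anP x true D (AnJoin (R i) (z i) (z' i)))).prod
        ≤ anP x true D (AnJoin (R a) (z a) (z' a)) * anP x true D (fun ω => ∀ i ∈ l, AnJoin (R i) (z i) (z' i) ω) :=
      mul_le_mul_of_nonneg_left ih' (ann_P_nonneg x hx0 hx2 _ _ _)
    refine h3.trans (h2.trans (le_of_eq ?_))
    congr 1
    funext ω
    exact propext (by simp)

/-- LEAF 6 (deterministic).  PLAN: `pcp_con_iff`: the two sets are disjoint (`plh_bd_ball`), a plus arm gives `TscR tscG (pcpOn …) y y'` with `y` meeting `Λ_t` (norm `≤ t + 1`), `y'` meeting the sphere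
of radius `N` (norm `≥ N - 1`); `pcpOn ⊆ {y | ¬ AnPlus ω y}ᶜ` (`ann_tau_plus`), `tsc_R_mono`. -/
theorem ann_block (x : ℝ) (t s K N : ℕ) (h1 : t + 1 ≤ s) (h2 : K + 1 < N) (h3 : t < N) (ω : ClCfg TV TV)
    (h : ∀ u w : TV, latN u ≤ s → K < latN w → ¬ TscR tscG {y | ¬ AnPlus ω y}ᶜ u w) :
    ¬ CuCon (clInn x (latBall 0 N)) true ω (latBall 0 t) (latBd (latBall 0 N)) := by
  refine apl_no_arm x t N s K h1 (by omega) h3 ω fun u w hu hR => ?_
  by_contra hc
  exact h u w hu (by omega) hR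

/-- LEAF 7 (geometry of the images).  PLAN: `plg_app_dist`, `plh_N_tri`; `latN (plgC _ _) ≤ 1`. -/
theorem ann_site_ball (g : PlgMap) (r c N : ℕ) (hg : latN (g.app 0) ≤ c) (hN : c + 1 + r ≤ N) :
    (latBall 0 r).image g.site.app ⊆ latBall 0 N :=
  apl_site_ball g r c N hg hN

/-- LEAF 8 (geometry of the images).  PLAN: a cell with index `g.app u`, `latN u ≤ r`, is the image under `g.site.app` of the cell `u`, whose sites have norm `≤ r + 1`. -/
theorem ann_site_cells (g : PlgMap) (r M : ℕ) (h : r + 1 ≤ M) :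
    ∀ y ∈ {p : TV | ∃ u, latN u ≤ r ∧ g.app u = p}, cellV y ⊆ (latBall 0 M).image g.site.app :=
  apl_site_cells g r M h

/-- one scale -/
theorem ann_poly_scale (x : ℝ) (hx0 : 0 < x) (hx2 : x ≤ 1) (b : ℕ) (hb : 4 ≤ b) (J kap : ℕ)
    (hgeo : ∀ s : ℕ, 1 ≤ s → ∀ z z' : TV, latN z ≤ 5 * s → latN z' ≤ 5 * s → s ≤ latN (z' - z) →
      ∃ G : List PlgMap, G.length ≤ J ∧ (∀ g ∈ G, latN (g.app 0) ≤ kap * s) ∧
        ∀ X : Set TV, (∀ g ∈ G, TscR tscG (X ∩ {p | ∃ u, latN u ≤ 5 * s ∧ g.app u = p}) (g.app z) (g.app z')) →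
          ∀ u w, latN u ≤ s → (kap + 5) * s < latN w → ¬ TscR tscG Xᶜ u w)
    (t : ℕ) (ht : 1 ≤ t) (η0 : ℝ) (hη : 0 < η0) (h : η0 ≤ anEta x (4 * t) (b * (4 * t))) :
    (η0 / (21 * (t : ℝ)) ^ 4) ^ J ≤ 1 - anPi x t ((2 * kap + 4 * b + 13) * t) := by
  set M := b * (4 * t) with hM
  set N := (2 * kap + 4 * b + 13) * t with hN
  have hMt : 8 * t + 1 ≤ M := by rw [hM]; nlinarith
  obtain ⟨z, z', hz, hz', hv, hp⟩ := ann_pigeon x hx0 hx2 t M ht hMt (lt_of_lt_of_le hη h)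
  obtain ⟨G, hG1, hG2, hG3⟩ := hgeo (2 * t) (by omega) z z' hz hz' hv
  set p := anP x true (latBall 0 M) (AnJoin (anB (5 * (2 * t))) z z') with hpdef
  have ht0 : (0 : ℝ) < (21 * (t : ℝ)) ^ 4 := by
    have : (0 : ℝ) < t := by exact_mod_cast ht
    positivity
  have hr : η0 / (21 * (t : ℝ)) ^ 4 ≤ p := by
    rw [div_le_iff₀ ht0, mul_comm]
    exact h.trans hp
  have hr0 : 0 ≤ η0 / (21 * (t : ℝ)) ^ 4 := by positivity
  have hp1 : p ≤ 1 := ann_P_le_one x hx0 hx2 _ _ _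
  -- each copy in the big domain
  have hcopy : ∀ g ∈ G, p ≤ anP x true (latBall 0 N)
      (AnJoin {q | ∃ u, latN u ≤ 5 * (2 * t) ∧ g.app u = q} (g.app z) (g.app z')) := by
    intro g hg
    rw [hpdef, ← ann_join_iso x g (latBall 0 M) (5 * (2 * t)) z z']
    refine ann_join_dom x hx0 hx2 _ _ (ann_site_ball g M (kap * (2 * t)) N (hG2 g hg) ?_) _
      (ann_site_cells g (5 * (2 * t)) M ?_) _ _
    · rw [hM, hN]; nlinarith
    · rw [hM]; nlinarith
  have hcells : ∀ g ∈ G, ∀ y ∈ {q : TV | ∃ u, latN u ≤ 5 * (2 * t) ∧ g.app u = q}, cellV y ⊆ latBall 0 N := by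
    intro g hg y hy
    refine (ann_site_cells g (5 * (2 * t)) M ?_ y hy).trans (ann_site_ball g M (kap * (2 * t)) N (hG2 g hg) ?_)
    · rw [hM]; nlinarith
    · rw [hM, hN]; nlinarith
  have hfkg := ann_join_fkg x hx0 hx2 (latBall 0 N) G (fun g => {q | ∃ u, latN u ≤ 5 * (2 * t) ∧ g.app u = q})
    (fun g => g.app z) (fun g => g.app z') hcells
  -- the product
  have hprod : p ^ G.length ≤ (G.map (fun g => anP x true (latBall 0 N)
      (AnJoin {q | ∃ u, latN u ≤ 5 * (2 * t) ∧ g.app u = q} (g.app z) (g.app z')))).prod := by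
    have hp0 : 0 ≤ p := hr0.trans hr
    clear hfkg hG1 hG3 hcells hG2
    induction G with
    | nil => simp
    | cons g G ih =>
      rw [List.length_cons, pow_succ, List.map_cons, List.prod_cons, mul_comm]
      exact mul_le_mul (hcopy g (List.mem_cons_self)) (ih fun g' hg' => hcopy g' (List.mem_cons_of_mem _ hg'))
        (pow_nonneg hp0 _) (hp0.trans (hcopy g (List.mem_cons_self)))
  -- the event blocks
  have hblock : anP x true (latBall 0 N) (fun ω => ∀ g ∈ G, AnJoin {q | ∃ u, latN u ≤ 5 * (2 * t) ∧ g.app u = q} (g.app z) (g.app z') ω) ≤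
      anP x true (latBall 0 N) (fun ω => ¬ CuCon (clInn x (latBall 0 N)) true ω (latBall 0 t) (latBd (latBall 0 N))) := by
    refine ann_P_mono x hx0 hx2 _ _ _ _ (fun ω hω => ?_)
    refine ann_block x t (2 * t) ((kap + 5) * (2 * t)) N (by omega) ?_ ?_ ω (hG3 _ hω)
    · rw [hN]; nlinarith
    · rw [hN]; nlinarith
  rw [ann_P_compl x hx0 hx2] at hblock
  calc (η0 / (21 * (t : ℝ)) ^ 4) ^ J ≤ (η0 / (21 * (t : ℝ)) ^ 4) ^ G.length :=
        pow_le_pow_of_le_one hr0 (hr.trans hp1) hG1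
    _ ≤ p ^ G.length := pow_le_pow_left₀ hr0 hr _
    _ ≤ _ := hprod
    _ ≤ _ := hfkg
    _ ≤ _ := hblock

/-- **(POLY)** -/
theorem ann_poly (x : ℝ) (hx0 : 0 < x) (hx2 : x ≤ 1) (b : ℕ) (hb : 4 ≤ b) (η0 : ℝ) (hη : 0 < η0) (n0 : ℕ)
    (h : ∀ n, n0 ≤ n → 1 ≤ n → η0 ≤ anEta x n (b * n)) :
    ∃ (κ J : ℕ) (c : ℝ), 2 ≤ κ ∧ 0 < c ∧ ∀ s : ℕ, n0 ≤ s → 1 ≤ s → c / (s : ℝ) ^ J ≤ 1 - anPi x s (κ * s) := by
  obtain ⟨J, kap, hgeo⟩ := plg_geo 5
  refine ⟨2 * kap + 4 * b + 13, 4 * J, (η0 / 21 ^ 4) ^ J, by omega, by positivity, fun s hs h1 => ?_⟩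
  have := ann_poly_scale x hx0 hx2 b hb J kap hgeo s h1 η0 hη (h (4 * s) (by omega) (by omega))
  refine le_trans (le_of_eq ?_) this
  have hs0 : (0 : ℝ) < s := by exact_mod_cast h1
  rw [mul_pow, ← div_div, div_pow (η0 / 21 ^ 4), ← pow_mul]

/-- one scale, TWO RADII (ruling of 24, 06:28Z, (E3)): connections at the scale `t` block the plus arms issued from `Λ_{lam t}`      (191; copy of `ann_poly_scale`) -/
theorem ann_poly_scale2 (x : ℝ) (hx0 : 0 < x) (hx2 : x ≤ 1) (b : ℕ) (hb : 4 ≤ b) (lam : ℕ) (hlam : 1 ≤ lam) (J kap : ℕ)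
    (hgeo : ∀ s : ℕ, 1 ≤ s → ∀ z z' : TV, latN z ≤ 5 * s → latN z' ≤ 5 * s → s ≤ latN (z' - z) →
      ∃ G : List PlgMap, G.length ≤ J ∧ (∀ g ∈ G, latN (g.app 0) ≤ kap * s) ∧
        ∀ X : Set TV, (∀ g ∈ G, TscR tscG (X ∩ {p | ∃ u, latN u ≤ 5 * s ∧ g.app u = p}) (g.app z) (g.app z')) →
          ∀ u w, latN u ≤ lam * s → (kap + 5) * s < latN w → ¬ TscR tscG Xᶜ u w)
    (t : ℕ) (ht : 1 ≤ t) (η0 : ℝ) (hη : 0 < η0) (h : η0 ≤ anEta x (4 * t) (b * (4 * t))) :
    (η0 / (21 * (t : ℝ)) ^ 4) ^ J ≤ 1 - anPi x (lam * t) ((2 * kap + 4 * b + 13 + lam) * t) := by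
  set M := b * (4 * t) with hM
  set N := (2 * kap + 4 * b + 13 + lam) * t with hN
  have hMt : 8 * t + 1 ≤ M := by rw [hM]; nlinarith
  obtain ⟨z, z', hz, hz', hv, hp⟩ := ann_pigeon x hx0 hx2 t M ht hMt (lt_of_lt_of_le hη h)
  obtain ⟨G, hG1, hG2, hG3⟩ := hgeo (2 * t) (by omega) z z' hz hz' hv
  set p := anP x true (latBall 0 M) (AnJoin (anB (5 * (2 * t))) z z') with hpdef
  have ht0 : (0 : ℝ) < (21 * (t : ℝ)) ^ 4 := by
    have : (0 : ℝ) < t := by exact_mod_cast ht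
    positivity
  have hr : η0 / (21 * (t : ℝ)) ^ 4 ≤ p := by
    rw [div_le_iff₀ ht0, mul_comm]
    exact h.trans hp
  have hr0 : 0 ≤ η0 / (21 * (t : ℝ)) ^ 4 := by positivity
  have hp1 : p ≤ 1 := ann_P_le_one x hx0 hx2 _ _ _
  -- each copy in the big domain
  have hcopy : ∀ g ∈ G, p ≤ anP x true (latBall 0 N)
      (AnJoin {q | ∃ u, latN u ≤ 5 * (2 * t) ∧ g.app u = q} (g.app z) (g.app z')) := by
    intro g hg
    rw [hpdef, ← ann_join_iso x g (latBall 0 M) (5 * (2 * t)) z z']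
    refine ann_join_dom x hx0 hx2 _ _ (ann_site_ball g M (kap * (2 * t)) N (hG2 g hg) ?_) _
      (ann_site_cells g (5 * (2 * t)) M ?_) _ _
    · rw [hM, hN]; nlinarith
    · rw [hM]; nlinarith
  have hcells : ∀ g ∈ G, ∀ y ∈ {q : TV | ∃ u, latN u ≤ 5 * (2 * t) ∧ g.app u = q}, cellV y ⊆ latBall 0 N := by
    intro g hg y hy
    refine (ann_site_cells g (5 * (2 * t)) M ?_ y hy).trans (ann_site_ball g M (kap * (2 * t)) N (hG2 g hg) ?_)
    · rw [hM]; nlinarith
    · rw [hM, hN]; nlinarith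
  have hfkg := ann_join_fkg x hx0 hx2 (latBall 0 N) G (fun g => {q | ∃ u, latN u ≤ 5 * (2 * t) ∧ g.app u = q})
    (fun g => g.app z) (fun g => g.app z') hcells
  -- the product
  have hprod : p ^ G.length ≤ (G.map (fun g => anP x true (latBall 0 N)
      (AnJoin {q | ∃ u, latN u ≤ 5 * (2 * t) ∧ g.app u = q} (g.app z) (g.app z')))).prod := by
    have hp0 : 0 ≤ p := hr0.trans hr
    clear hfkg hG1 hG3 hcells hG2
    induction G with
    | nil => simp
    | cons g G ih =>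
      rw [List.length_cons, pow_succ, List.map_cons, List.prod_cons, mul_comm]
      exact mul_le_mul (hcopy g (List.mem_cons_self)) (ih fun g' hg' => hcopy g' (List.mem_cons_of_mem _ hg'))
        (pow_nonneg hp0 _) (hp0.trans (hcopy g (List.mem_cons_self)))
  -- the event blocks
  have hblock : anP x true (latBall 0 N) (fun ω => ∀ g ∈ G, AnJoin {q | ∃ u, latN u ≤ 5 * (2 * t) ∧ g.app u = q} (g.app z) (g.app z') ω) ≤
      anP x true (latBall 0 N) (fun ω => ¬ CuCon (clInn x (latBall 0 N)) true ω (latBall 0 (lam * t)) (latBd (latBall 0 N))) := by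
    refine ann_P_mono x hx0 hx2 _ _ _ _ (fun ω hω => ?_)
    refine ann_block x (lam * t) (lam * (2 * t)) ((kap + 5) * (2 * t)) N (by nlinarith) ?_ ?_ ω (hG3 _ hω)
    · rw [hN]; nlinarith
    · rw [hN]; nlinarith
  rw [ann_P_compl x hx0 hx2] at hblock
  calc (η0 / (21 * (t : ℝ)) ^ 4) ^ J ≤ (η0 / (21 * (t : ℝ)) ^ 4) ^ G.length :=
        pow_le_pow_of_le_one hr0 (hr.trans hp1) hG1
    _ ≤ p ^ G.length := pow_le_pow_left₀ hr0 hr _
    _ ≤ _ := hprod
    _ ≤ _ := hfkg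
    _ ≤ _ := hblock

/-- **(POLY), two radii** (E3): for every `lam` there are `κ`, `J`: ONE good scale `t` gives a polynomial lower bound at that scale -/
theorem ann_poly2 (x : ℝ) (hx0 : 0 < x) (hx2 : x ≤ 1) (b : ℕ) (hb : 4 ≤ b) (lam : ℕ) (hlam : 1 ≤ lam) :
    ∃ κ J : ℕ, lam < κ ∧ ∀ (t : ℕ) (η0 : ℝ), 1 ≤ t → 0 < η0 → η0 ≤ anEta x (4 * t) (b * (4 * t)) →
      (η0 / (21 * (t : ℝ)) ^ 4) ^ J ≤ 1 - anPi x (lam * t) (κ * t) := by
  obtain ⟨J, kap, hgeo⟩ := plg_geo2 5 lam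
  exact ⟨2 * kap + 4 * b + 13 + lam, J, by omega, fun t η0 ht hη h => ann_poly_scale2 x hx0 hx2 b hb lam hlam J kap hgeo t ht η0 hη h⟩

end Claimed.Agent.R291
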