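/-
# Row 291 (S0539), unit ANN, block A1 / tool T4 : FINITE BOUNDARY PORTS and COMPATIBLE PATCHES, abstract      (owner helper116; prefix `prt_`)

TEX[annulus:ports] TEX[annulus:patch]      (09-annulus.tex l.264-328)

Carrier: the abstract cell systems of helper160 (`Defs/CellSys.lean`).  No planarity, no `SC`.

§1 N-KIT.  `prtCnt s t G` = number of second spin configurations `W : V → Bool` which are constant along the edges of `G`.
   `prt_cnt_mul_le`   : `cnt G₁ * cnt G₂ ≤ cnt (G₁ ∪ G₂) * 2 ^ |V|`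
   `prt_cnt_port`     : `cnt (G₁ ∪ G₂) * 2 ^ |V| ≤ 2 ^ (|P| - 1) * (cnt G₁ * cnt G₂)` if every site touched by both lies in `P`
   `prt_cnt_ge`       : `2 ^ |V| ≤ 2 ^ (|P| - 1) * cnt G` if `G` touches only sites of `P`
§2 WEIGHT. `prt_wt_eq` : `C.wt h (B, τ) = 1[pins, observed statuses] * ∏ kf * cnt (E0 ∪ edges of the closed cells)`.
§3 PORTS.  `PrtSplit C h R YR ER P` (retained sites, cells, equality edges; ports `P`), `PrtLoc R YR F` (`F` retained measurable),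
   `prtWR` = the retained weight ("exterior connections removed"; depends only on the retained data), `prtMrg`, `prt_sum_mrg`
   (product structure of the configuration space without subtypes).
   EXITS: `prt_core` (marginal of `h` on the retained variables = const * `prtWR` up to `2 ^ (|P| - 1)`; the exterior may be unobserved),
          `prt_ports` (two histories with the same retained data, cross multiplied), `prt_Ex_ports` (normalised).
§4 PATCH.  `PrtPatch C h hA T YT Tb a`, `PrtOff T YT F` (`F` measurable off the patch), `prtKap a |T| |YT| |Tb|` = the constant.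
   EXITS: `prt_patch`, `prt_patch_kap` (`κ * E_h-sum(F) ≤ E_hA-sum(F)`), `prt_patch_Z` (`P_h(A) ≥ κ`), `prt_patch_Ex_ge`, `prt_patch_Ex_le`.
0 sorry.
-/
import Claimed.Agent.R291.Defs.CellSys

set_option autoImplicit false
set_option linter.unusedSectionVars false
set_option linter.unusedVariables false
set_option linter.unusedSimpArgs false

namespace Claimed.Agent.R291

open Finset

/-! ## 1. The counting kit -/

section Kit

variable {V ι : Type*} [Fintype V] [DecidableEq V] [DecidableEq ι]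

/-- `W` is constant along the edges of `G` -/
def PrtResp (s t : ι → V) (G : Finset ι) (W : V → Bool) : Prop := ∀ e ∈ G, W (s e) = W (t e)

instance prtRespDec (s t : ι → V) (G : Finset ι) : DecidablePred (PrtResp s t G) := fun W => by
  unfold PrtResp; infer_instance

/-- number of spin configurations which are constant along the edges of `G` -/
def prtCnt (s t : ι → V) (G : Finset ι) : ℕ := (univ.filter fun W : V → Bool => PrtResp s t G W).card

/-- pointwise product of two spin configurations -/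
def prtX (a b : V → Bool) : V → Bool := fun v => xor (a v) (b v)

/-- the site `v` is an end of an edge of `G` -/
def PrtTouch (s t : ι → V) (G : Finset ι) (v : V) : Prop := ∃ e ∈ G, s e = v ∨ t e = v

theorem prt_kit_eqns_cite : True := by
  have := @PrtResp.eq_1.{0, 0}
  have := @prtCnt.eq_1.{0, 0}
  have := @prtX.eq_1.{0}
  have := @PrtTouch.eq_1.{0, 0}
  trivial

theorem prt_x_self (a : V → Bool) : prtX a a = fun _ => false := by
  funext v; simp [prtX]

theorem prt_x_comm (a b : V → Bool) : prtX a b = prtX b a := by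
  funext v; simp [prtX, Bool.xor_comm]

theorem prt_x_assoc (a b c : V → Bool) : prtX (prtX a b) c = prtX a (prtX b c) := by
  funext v; simp [prtX, Bool.xor_assoc]

theorem prt_x_cancel (a b : V → Bool) : prtX a (prtX a b) = b := by
  funext v; simp [prtX]

theorem prt_x_inj_left (a : V → Bool) {b c : V → Bool} (h : prtX a b = prtX a c) : b = c := by
  rw [← prt_x_cancel a b, h, prt_x_cancel]

theorem prt_resp_x {s t : ι → V} {G : Finset ι} {a b : V → Bool} (ha : PrtResp s t G a) (hb : PrtResp s t G b) :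
    PrtResp s t G (prtX a b) := fun e he => by
  unfold prtX; rw [ha e he, hb e he]

theorem prt_resp_union {s t : ι → V} {G₁ G₂ : Finset ι} {a : V → Bool} :
    PrtResp s t (G₁ ∪ G₂) a ↔ PrtResp s t G₁ a ∧ PrtResp s t G₂ a := by
  unfold PrtResp
  constructor
  · intro h; exact ⟨fun e he => h e (mem_union_left _ he), fun e he => h e (mem_union_right _ he)⟩
  · rintro ⟨h1, h2⟩ e he
    rcases mem_union.1 he with h | h
    · exact h1 e h
    · exact h2 e h

theorem prt_resp_mono {s t : ι → V} {G₁ G₂ : Finset ι} (h : G₁ ⊆ G₂) {a : V → Bool} (ha : PrtResp s t G₂ a) :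
    PrtResp s t G₁ a := fun e he => ha e (h he)

theorem prt_resp_const (s t : ι → V) (G : Finset ι) (c : Bool) : PrtResp s t G fun _ => c := fun _ _ => rfl

theorem prt_cnt_pos (s t : ι → V) (G : Finset ι) : 0 < prtCnt s t G :=
  card_pos.2 ⟨fun _ => false, by simp [prt_resp_const]⟩

theorem prt_cnt_anti (s t : ι → V) {G₁ G₂ : Finset ι} (h : G₁ ⊆ G₂) : prtCnt s t G₂ ≤ prtCnt s t G₁ :=
  card_le_card fun W hW => by
    simp only [mem_filter, mem_univ, true_and] at hW ⊢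
    exact prt_resp_mono h hW

theorem prt_cnt_le (s t : ι → V) (G : Finset ι) : prtCnt s t G ≤ 2 ^ Fintype.card V := by
  have h : (univ.filter fun W : V → Bool => PrtResp s t G W).card ≤ (univ : Finset (V → Bool)).card := card_le_card (filter_subset _ _)
  simpa [prtCnt] using h

/-- **submultiplicativity** (the rank of a union is at most the sum of the ranks) -/
theorem prt_cnt_mul_le (s t : ι → V) (G₁ G₂ : Finset ι) :
    prtCnt s t G₁ * prtCnt s t G₂ ≤ prtCnt s t (G₁ ∪ G₂) * 2 ^ Fintype.card V := by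
  have h := Finset.card_le_mul_card_image (f := fun p : (V → Bool) × (V → Bool) => prtX p.1 p.2)
    ((univ.filter fun W : V → Bool => PrtResp s t G₁ W) ×ˢ (univ.filter fun W : V → Bool => PrtResp s t G₂ W))
    (prtCnt s t (G₁ ∪ G₂)) ?_
  · rw [card_product] at h
    refine h.trans (Nat.mul_le_mul_left _ ?_)
    refine (card_le_card (subset_univ _)).trans (le_of_eq ?_)
    simp
  · intro w hw
    obtain ⟨⟨a0, b0⟩, h0, rfl⟩ := mem_image.1 hw
    simp only [mem_product, mem_filter, mem_univ, true_and] at h0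
    refine card_le_card_of_injOn (fun p => prtX p.1 a0) ?_ ?_
    · rintro ⟨a, b⟩ hab
      simp only [coe_filter, mem_product, mem_filter, mem_univ, true_and, Set.mem_ofPred_eq] at hab ⊢
      refine prt_resp_union.2 ⟨prt_resp_x hab.1.1 h0.1, ?_⟩
      have e : prtX a a0 = prtX b b0 := by
        have h2 := hab.2
        funext v
        have h3 := congrFun h2 v
        simp only [prtX] at h3 ⊢
        revert h3
        cases a v <;> cases b v <;> cases a0 v <;> cases b0 v <;> simp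
      rw [e]
      exact prt_resp_x hab.1.2 h0.2
    · rintro ⟨a, b⟩ hab ⟨a', b'⟩ hab' he
      simp only [coe_filter, mem_product, mem_filter, mem_univ, true_and, Set.mem_ofPred_eq] at hab hab' he
      have e1 : a = a' := by
        rw [prt_x_comm a, prt_x_comm a'] at he
        exact prt_x_inj_left a0 he
      subst e1
      have e2 : b = b' := prt_x_inj_left a (hab.2.trans hab'.2.symm)
      rw [e2]

/-- the configurations which are constant on `P` -/
def prtU (P : Finset V) : Finset (V → Bool) := univ.filter fun W => ∀ u ∈ P, ∀ v ∈ P, W u = W v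

/-- the functions which vanish off `Q` -/
theorem prt_card_supp (Q : Finset V) : (univ.filter fun ρ : V → Bool => ∀ v, v ∉ Q → ρ v = false).card ≤ 2 ^ Q.card := by
  rw [← card_powerset]
  refine card_le_card_of_injOn (fun ρ => univ.filter fun v => ρ v = true) ?_ ?_
  · intro ρ hρ
    simp only [coe_filter, mem_univ, true_and, Set.mem_ofPred_eq] at hρ
    simp only [coe_powerset, Set.mem_preimage, Set.mem_powerset_iff, coe_subset]
    intro v hv
    simp only [mem_filter, mem_univ, true_and] at hv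
    by_contra hq
    rw [hρ v hq] at hv
    exact Bool.false_ne_true hv
  · intro ρ _ ρ' _ h
    funext v
    have h1 := congrArg (fun A : Finset V => v ∈ A) h
    simp only [mem_filter, mem_univ, true_and, eq_iff_iff] at h1
    cases h2 : ρ v <;> cases h3 : ρ' v <;> simp_all

/-- constancy on `P` costs at most `|P| - 1` bits -/
theorem prt_card_U (P : Finset V) : 2 ^ Fintype.card V ≤ 2 ^ (P.card - 1) * (prtU P).card := by
  rcases P.eq_empty_or_nonempty with rfl | ⟨p0, hp0⟩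
  · simp [prtU]
  have h := Finset.card_le_mul_card_image (f := fun w : V → Bool => fun v => if v ∈ P then xor (w v) (w p0) else false)
    (univ : Finset (V → Bool)) (prtU P).card ?_
  · have h1 : (univ : Finset (V → Bool)).card = 2 ^ Fintype.card V := by simp
    rw [h1, mul_comm] at h
    refine h.trans (Nat.mul_le_mul_right _ ?_)
    rw [← card_erase_of_mem hp0]
    refine le_trans (card_le_card ?_) (prt_card_supp (P.erase p0))
    intro ρ hρ
    obtain ⟨w, -, rfl⟩ := mem_image.1 hρ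
    simp only [mem_filter, mem_univ, true_and, mem_erase, not_and]
    intro v hv
    by_cases h2 : v ∈ P
    · have : v = p0 := by
        by_contra h3
        exact hv h3 h2
      subst this
      simp
    · rw [if_neg h2]
  · intro ρ _
    refine card_le_card_of_injOn (fun w => prtX ρ w) ?_ ?_
    · intro w hw
      simp only [coe_filter, mem_univ, true_and, Set.mem_ofPred_eq] at hw
      subst hw
      simp only [prtU, coe_filter, mem_univ, true_and, Set.mem_ofPred_eq, prtX]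
      intro u hu v hv
      rw [if_pos hu, if_pos hv]
      cases w u <;> cases w v <;> cases w p0 <;> simp
    · intro w _ w' _ h
      exact prt_x_inj_left ρ h

open Classical in
/-- **ports**: two edge sets which share at most the sites of `P` are independent up to `|P| - 1` bits -/
theorem prt_cnt_port (s t : ι → V) (G₁ G₂ : Finset ι) (P : Finset V)
    (hP : ∀ v, PrtTouch s t G₁ v → PrtTouch s t G₂ v → v ∈ P) :
    prtCnt s t (G₁ ∪ G₂) * 2 ^ Fintype.card V ≤ 2 ^ (P.card - 1) * (prtCnt s t G₁ * prtCnt s t G₂) := by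
  -- the common value on `P`
  obtain ⟨c, hc⟩ : ∃ c : (V → Bool) → Bool, ∀ w ∈ prtU P, ∀ v ∈ P, w v = c w := by
    rcases P.eq_empty_or_nonempty with rfl | ⟨p0, hp0⟩
    · exact ⟨fun _ => false, fun _ _ v hv => absurd hv (notMem_empty v)⟩
    · refine ⟨fun w => w p0, fun w hw v hv => ?_⟩
      simp only [prtU, mem_filter, mem_univ, true_and] at hw
      exact hw v hv p0 hp0
  -- the part carried by the first edge set
  let W2 : (V → Bool) → V → Bool := fun w v => if PrtTouch s t G₁ v then xor (w v) (c w) else false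
  have key : (prtU P).card * prtCnt s t (G₁ ∪ G₂) ≤ prtCnt s t G₁ * prtCnt s t G₂ := by
    unfold prtCnt
    rw [← card_product, ← card_product]
    refine card_le_card_of_injOn (fun p => (prtX (prtX p.1 (W2 p.1)) p.2, prtX (W2 p.1) p.2)) ?_ ?_
    · rintro ⟨w, z⟩ hwz
      simp only [coe_product, coe_filter, mem_univ, true_and, Set.mem_prod, Set.mem_ofPred_eq, mem_coe] at hwz ⊢
      obtain ⟨hw, hz⟩ := hwz
      obtain ⟨hz1, hz2⟩ := prt_resp_union.1 hz
      refine ⟨prt_resp_x ?_ hz1, prt_resp_x ?_ hz2⟩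
      · intro e he
        have t1 : PrtTouch s t G₁ (s e) := ⟨e, he, Or.inl rfl⟩
        have t2 : PrtTouch s t G₁ (t e) := ⟨e, he, Or.inr rfl⟩
        simp only [prtX, W2, if_pos t1, if_pos t2]
        cases w (s e) <;> cases w (t e) <;> simp
      · intro e he
        have aux : ∀ v, PrtTouch s t G₂ v → W2 w v = false := by
          intro v hv
          simp only [W2]
          split_ifs with h1
          · rw [hc w hw v (hP v h1 hv)]; simp
          · rfl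
        rw [aux _ ⟨e, he, Or.inl rfl⟩, aux _ ⟨e, he, Or.inr rfl⟩]
    · rintro ⟨w, z⟩ _ ⟨w', z'⟩ _ h
      simp only [Prod.mk.injEq] at h
      obtain ⟨h1, h2⟩ := h
      have e1 : w = w' := by
        funext v
        have a1 := congrFun h1 v
        have a2 := congrFun h2 v
        simp only [prtX] at a1 a2
        revert a1 a2
        cases w v <;> cases w' v <;> cases W2 w v <;> cases W2 w' v <;> cases z v <;> cases z' v <;> simp
      subst e1
      rw [prt_x_inj_left _ h2]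
  calc prtCnt s t (G₁ ∪ G₂) * 2 ^ Fintype.card V
      ≤ prtCnt s t (G₁ ∪ G₂) * (2 ^ (P.card - 1) * (prtU P).card) := Nat.mul_le_mul_left _ (prt_card_U P)
    _ = 2 ^ (P.card - 1) * ((prtU P).card * prtCnt s t (G₁ ∪ G₂)) := by ring
    _ ≤ _ := Nat.mul_le_mul_left _ key

/-- an edge set which touches only the sites of `P` -/
theorem prt_cnt_ge (s t : ι → V) (G : Finset ι) (P : Finset V) (hP : ∀ v, PrtTouch s t G v → v ∈ P) :
    2 ^ Fintype.card V ≤ 2 ^ (P.card - 1) * prtCnt s t G := by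
  refine (prt_card_U P).trans (Nat.mul_le_mul_left _ (card_le_card ?_))
  intro W hW
  simp only [prtU, mem_filter, mem_univ, true_and] at hW ⊢
  exact fun e he => hW _ (hP _ ⟨e, he, Or.inl rfl⟩) _ (hP _ ⟨e, he, Or.inr rfl⟩)

end Kit

/-! ## 2. The weight of `(B, τ)` -/

section Wt

variable {V ι Y : Type*} [Fintype V] [DecidableEq V] [Fintype ι] [DecidableEq ι] [Fintype Y] [DecidableEq Y]

/-- the edges of the closed cells -/
def prtCl (C : CellSys V ι Y) (τ : Y → SignType) : Finset ι := univ.filter fun e => τ (C.cell e) = 0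

theorem prt_wt_eqns_cite : True := by
  have := @prtCl.eq_1.{0, 0, 0}
  have := @prtU.eq_1.{0}
  trivial

variable (C : CellSys V ι Y)

theorem prt_mem_cl {C : CellSys V ι Y} {τ : Y → SignType} {e : ι} : e ∈ prtCl C τ ↔ τ (C.cell e) = 0 := by
  simp [prtCl]

/-- the second spins enter only through the closed cells -/
theorem prt_jw_eq (B W : V → Bool) (τ : Y → SignType) :
    C.jw B W τ = (∏ y, C.kf B y (τ y)) * (if PrtResp C.s C.t (prtCl C τ) W then 1 else 0) := by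
  classical
  unfold CellSys.jw CellSys.cw
  rw [prod_mul_distrib]
  congr 1
  by_cases h : PrtResp C.s C.t (prtCl C τ) W
  · rw [if_pos h]
    refine prod_eq_one fun y _ => if_pos fun hy e he => h e ?_
    simp only [prtCl, mem_filter, mem_univ, true_and]
    rw [he]; exact hy
  · rw [if_neg h]
    unfold PrtResp at h
    push Not at h
    obtain ⟨e, he, hne⟩ := h
    simp only [prtCl, mem_filter, mem_univ, true_and] at he
    refine prod_eq_zero (mem_univ (C.cell e)) (if_neg fun hh => hne (hh he e rfl))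

open Classical in
/-- **the weight of `(B, τ)`**: cell factors times the number of admissible second spins -/
theorem prt_wt_eq (h : CsHist V ι Y) (ω : CsOm V Y) :
    C.wt h ω = if h.OkB ω.1 ∧ h.OkT ω.2 then (∏ y, C.kf ω.1 y (ω.2 y)) * (prtCnt C.s C.t (h.E0 ∪ prtCl C ω.2) : ℝ) else 0 := by
  classical
  unfold CellSys.wt
  refine if_congr Iff.rfl ?_ rfl
  have e : ∀ W : V → Bool, (if h.OkW C W then C.jw ω.1 W ω.2 else 0)
      = (∏ y, C.kf ω.1 y (ω.2 y)) * (if PrtResp C.s C.t (h.E0 ∪ prtCl C ω.2) W then 1 else 0) := by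
    intro W
    rw [prt_jw_eq]
    have : h.OkW C W ↔ PrtResp C.s C.t h.E0 W := Iff.rfl
    by_cases h1 : PrtResp C.s C.t h.E0 W <;> by_cases h2 : PrtResp C.s C.t (prtCl C ω.2) W <;>
      simp [this, h1, h2, prt_resp_union]
  rw [sum_congr rfl fun W _ => e W, ← mul_sum]
  congr 1
  unfold prtCnt
  rw [card_filter]
  push_cast
  rfl

theorem prt_kf_nonneg (hC : C.Ok) (B : V → Bool) (y : Y) (θ : SignType) : 0 ≤ C.kf B y θ := by
  classical
  have h0 := hC.q0 y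
  have h1 := hC.q1 y
  unfold CellSys.kf
  split_ifs <;> linarith

theorem prt_kf_le_one (hC : C.Ok) (B : V → Bool) (y : Y) (θ : SignType) : C.kf B y θ ≤ 1 := by
  classical
  have h0 := hC.q0 y
  have h1 := hC.q1 y
  unfold CellSys.kf
  split_ifs <;> linarith

/-- the cell factor sees the first spins of the cell only -/
theorem prt_kf_congr {B B' : V → Bool} {y : Y} (h : ∀ e, C.cell e = y → B (C.s e) = B' (C.s e) ∧ B (C.t e) = B' (C.t e)) (θ : SignType) :
    C.kf B y θ = C.kf B' y θ := by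
  classical
  have h1 : ∀ β, C.Hom B y β ↔ C.Hom B' y β := fun β => by
    unfold CellSys.Hom
    refine forall_congr' fun e => forall_congr' fun he => ?_
    rw [(h e he).1, (h e he).2]
  have h2 : C.Cst B y ↔ C.Cst B' y := by
    unfold CellSys.Cst
    refine forall_congr' fun e => forall_congr' fun he => ?_
    rw [(h e he).1, (h e he).2]
  unfold CellSys.kf
  simp only [h1, h2]

end Wt

/-! ## 3. Ports -/

section Ports

variable {V ι Y : Type*} [Fintype V] [DecidableEq V] [Fintype ι] [DecidableEq ι] [Fintype Y] [DecidableEq Y]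

/-- merge: `ω₁` on the retained sites and cells, `ω₂` elsewhere -/
def prtMrg (R : Finset V) (YR : Finset Y) (ω₁ ω₂ : CsOm V Y) : CsOm V Y :=
  (fun v => if v ∈ R then ω₁.1 v else ω₂.1 v, fun y => if y ∈ YR then ω₁.2 y else ω₂.2 y)

/-- `F` is a function of the first spins on `R` and of the statuses on `YR` -/
def PrtLoc (R : Finset V) (YR : Finset Y) (F : CsOm V Y → ℝ) : Prop :=
  ∀ ω ω' : CsOm V Y, (∀ v ∈ R, ω.1 v = ω'.1 v) → (∀ y ∈ YR, ω.2 y = ω'.2 y) → F ω = F ω'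

/-- `F` is a function of the first spins off `T` and of the statuses off `YT` -/
def PrtOff (T : Finset V) (YT : Finset Y) (F : CsOm V Y → ℝ) : Prop :=
  ∀ ω ω' : CsOm V Y, (∀ v, v ∉ T → ω.1 v = ω'.1 v) → (∀ y, y ∉ YT → ω.2 y = ω'.2 y) → F ω = F ω'

/-- **retained set with ports**.  `R`, `YR`, `ER` = retained sites, cells, equality edges; the other cells touch `R` only at pinned
sites; `P` contains every site of `R` which lies in an exterior cell that is not observed open or on an exterior equality edge. -/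
structure PrtSplit (C : CellSys V ι Y) (h : CsHist V ι Y) (R : Finset V) (YR : Finset Y) (ER : Finset ι) (P : Finset V) : Prop where
  cellR : ∀ e, C.cell e ∈ YR → C.s e ∈ R ∧ C.t e ∈ R
  pinX : ∀ e, C.cell e ∉ YR → (C.s e ∈ R → (h.pB (C.s e)).isSome) ∧ (C.t e ∈ R → (h.pB (C.t e)).isSome)
  portC : ∀ e, C.cell e ∉ YR → (∃ θ, h.pT (C.cell e) = some θ ∧ θ ≠ 0) ∨ ((C.s e ∈ R → C.s e ∈ P) ∧ (C.t e ∈ R → C.t e ∈ P))
  eqR : ER ⊆ h.E0
  eqR_in : ∀ e ∈ ER, C.s e ∈ R ∧ C.t e ∈ R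
  portE : ∀ e ∈ h.E0, e ∉ ER → (C.s e ∈ R → C.s e ∈ P) ∧ (C.t e ∈ R → C.t e ∈ P)

/-- the retained equalities of the second spin -/
def prtGR (C : CellSys V ι Y) (YR : Finset Y) (ER : Finset ι) (τ : Y → SignType) : Finset ι :=
  ER ∪ (prtCl C τ).filter fun e => C.cell e ∈ YR

/-- the exterior equalities of the second spin -/
def prtGX (C : CellSys V ι Y) (h : CsHist V ι Y) (YR : Finset Y) (ER : Finset ι) (τ : Y → SignType) : Finset ι :=
  (h.E0 \ ER) ∪ (prtCl C τ).filter fun e => C.cell e ∉ YR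

open Classical in
/-- **the retained weight** ("exterior connections removed"): it depends only on the pins on `R`, on the observed statuses on `YR`
and on `ER` -/
noncomputable def prtWR (C : CellSys V ι Y) (h : CsHist V ι Y) (R : Finset V) (YR : Finset Y) (ER : Finset ι) (ω : CsOm V Y) : ℝ :=
  if (∀ v ∈ R, ∀ β, h.pB v = some β → ω.1 v = β) ∧ (∀ y ∈ YR, ∀ θ, h.pT y = some θ → ω.2 y = θ) then
    (∏ y ∈ YR, C.kf ω.1 y (ω.2 y)) * (prtCnt C.s C.t (prtGR C YR ER ω.2) : ℝ) else 0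

open Classical in
/-- the exterior weight -/
noncomputable def prtWX (C : CellSys V ι Y) (h : CsHist V ι Y) (R : Finset V) (YR : Finset Y) (ER : Finset ι) (ω : CsOm V Y) : ℝ :=
  if (∀ v, v ∉ R → ∀ β, h.pB v = some β → ω.1 v = β) ∧ (∀ y, y ∉ YR → ∀ θ, h.pT y = some θ → ω.2 y = θ) then
    (∏ y ∈ YRᶜ, C.kf (fun v => if v ∈ R then (h.pB v).getD false else ω.1 v) y (ω.2 y))
      * (prtCnt C.s C.t (prtGX C h YR ER ω.2) : ℝ) else 0

theorem prt_ports_eqns_cite : True := by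
  have := @prtMrg.eq_1.{0, 0}
  have := @PrtLoc.eq_1.{0, 0}
  have := @PrtOff.eq_1.{0, 0}
  have := @prtGR.eq_1.{0, 0, 0}
  have := @prtGX.eq_1.{0, 0, 0}
  have := @prtWR.eq_1.{0, 0, 0}
  have := @prtWX.eq_1.{0, 0, 0}
  trivial

/-- the exchange of the retained parts is an involution of the pairs of configurations -/
theorem prt_mrg_invol (R : Finset V) (YR : Finset Y) :
    Function.Involutive fun p : CsOm V Y × CsOm V Y => (prtMrg R YR p.1 p.2, prtMrg R YR p.2 p.1) := by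
  rintro ⟨ω₁, ω₂⟩
  simp only [prtMrg]
  refine Prod.ext (Prod.ext ?_ ?_) (Prod.ext ?_ ?_)
  · funext v; by_cases h : v ∈ R <;> simp [h]
  · funext y; by_cases h : y ∈ YR <;> simp [h]
  · funext v; by_cases h : v ∈ R <;> simp [h]
  · funext y; by_cases h : y ∈ YR <;> simp [h]

theorem prt_sum_invol {Ω : Type*} [Fintype Ω] (m : Ω → Ω → Ω)
    (hm : Function.Involutive fun p : Ω × Ω => (m p.1 p.2, m p.2 p.1)) (f : Ω → ℝ) :
    ∑ a, ∑ b, f (m a b) = (Fintype.card Ω : ℝ) * ∑ a, f a := by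
  calc ∑ a, ∑ b, f (m a b)
      = ∑ p : Ω × Ω, f (m p.1 p.2) := (Fintype.sum_prod_type (fun p : Ω × Ω => f (m p.1 p.2))).symm
    _ = ∑ p : Ω × Ω, (fun p : Ω × Ω => f p.1) ((Function.Involutive.toPerm _ hm) p) := rfl
    _ = ∑ p : Ω × Ω, f p.1 := Equiv.sum_comp (Function.Involutive.toPerm _ hm) (fun p : Ω × Ω => f p.1)
    _ = ∑ a : Ω, ∑ _b : Ω, f a := Fintype.sum_prod_type (fun p : Ω × Ω => f p.1)
    _ = _ := by
      simp only [sum_const, card_univ, nsmul_eq_mul]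
      rw [← mul_sum]

/-- **product structure without subtypes** -/
theorem prt_sum_mrg (R : Finset V) (YR : Finset Y) (f : CsOm V Y → ℝ) :
    ∑ ω₁, ∑ ω₂, f (prtMrg R YR ω₁ ω₂) = (Fintype.card (CsOm V Y) : ℝ) * ∑ ω, f ω :=
  prt_sum_invol (prtMrg R YR) (prt_mrg_invol R YR) f

variable {C : CellSys V ι Y} {h : CsHist V ι Y} {R : Finset V} {YR : Finset Y} {ER : Finset ι} {P : Finset V}

theorem prt_mrg_ok (ω₁ ω₂ : CsOm V Y) :
    (h.OkB (prtMrg R YR ω₁ ω₂).1 ∧ h.OkT (prtMrg R YR ω₁ ω₂).2) ↔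
      ((∀ v ∈ R, ∀ β, h.pB v = some β → ω₁.1 v = β) ∧ (∀ y ∈ YR, ∀ θ, h.pT y = some θ → ω₁.2 y = θ)) ∧
      ((∀ v, v ∉ R → ∀ β, h.pB v = some β → ω₂.1 v = β) ∧ (∀ y, y ∉ YR → ∀ θ, h.pT y = some θ → ω₂.2 y = θ)) := by
  unfold CsHist.OkB CsHist.OkT prtMrg
  constructor
  · rintro ⟨h1, h2⟩
    refine ⟨⟨fun v hv β hβ => ?_, fun y hy θ hθ => ?_⟩, ⟨fun v hv β hβ => ?_, fun y hy θ hθ => ?_⟩⟩
    · have := h1 v β hβ; simpa [hv] using this
    · have := h2 y θ hθ; simpa [hy] using this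
    · have := h1 v β hβ; simpa [hv] using this
    · have := h2 y θ hθ; simpa [hy] using this
  · rintro ⟨⟨a1, a2⟩, ⟨b1, b2⟩⟩
    refine ⟨fun v β hβ => ?_, fun y θ hθ => ?_⟩
    · by_cases hv : v ∈ R
      · simpa [hv] using a1 v hv β hβ
      · simpa [hv] using b1 v hv β hβ
    · by_cases hy : y ∈ YR
      · simpa [hy] using a2 y hy θ hθ
      · simpa [hy] using b2 y hy θ hθ

theorem prt_mrg_edges (hs : PrtSplit C h R YR ER P) (ω₁ ω₂ : CsOm V Y) :
    h.E0 ∪ prtCl C (prtMrg R YR ω₁ ω₂).2 = prtGR C YR ER ω₁.2 ∪ prtGX C h YR ER ω₂.2 := by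
  ext e
  have hE := @hs.eqR e
  have hm : (prtMrg R YR ω₁ ω₂).2 (C.cell e) = if C.cell e ∈ YR then ω₁.2 (C.cell e) else ω₂.2 (C.cell e) := rfl
  simp only [prtGR, prtGX, mem_union, mem_filter, mem_sdiff, prt_mem_cl, hm]
  by_cases hy : C.cell e ∈ YR <;> by_cases h1 : e ∈ ER <;> by_cases h2 : e ∈ h.E0 <;> simp [hy, h1, h2] <;> tauto

theorem prt_touch_GR (hs : PrtSplit C h R YR ER P) (τ : Y → SignType) {v : V} (hv : PrtTouch C.s C.t (prtGR C YR ER τ) v) : v ∈ R := by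
  obtain ⟨e, he, hev⟩ := hv
  simp only [prtGR, mem_union, mem_filter] at he
  have : C.s e ∈ R ∧ C.t e ∈ R := by
    rcases he with he | he
    · exact hs.eqR_in e he
    · exact hs.cellR e he.2
  rcases hev with rfl | rfl
  · exact this.1
  · exact this.2

theorem prt_touch_GX (hs : PrtSplit C h R YR ER P) {τ : Y → SignType} (hτ : ∀ y, y ∉ YR → ∀ θ, h.pT y = some θ → τ y = θ) {v : V}
    (hv : PrtTouch C.s C.t (prtGX C h YR ER τ) v) (hR : v ∈ R) : v ∈ P := by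
  obtain ⟨e, he, hev⟩ := hv
  simp only [prtGX, prtCl, mem_union, mem_filter, mem_sdiff, mem_univ, true_and] at he
  have : (C.s e ∈ R → C.s e ∈ P) ∧ (C.t e ∈ R → C.t e ∈ P) := by
    rcases he with he | he
    · exact hs.portE e he.1 he.2
    · rcases hs.portC e he.2 with ⟨θ, h1, h2⟩ | h3
      · exact absurd ((hτ _ he.2 θ h1).symm.trans he.1) h2
      · exact h3
  rcases hev with rfl | rfl
  · exact this.1 hR
  · exact this.2 hR

/-- the cell factors split -/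
theorem prt_mrg_kf (hs : PrtSplit C h R YR ER P) (ω₁ ω₂ : CsOm V Y) (h1 : ∀ v ∈ R, ∀ β, h.pB v = some β → ω₁.1 v = β) :
    ∏ y, C.kf (prtMrg R YR ω₁ ω₂).1 y ((prtMrg R YR ω₁ ω₂).2 y)
      = (∏ y ∈ YR, C.kf ω₁.1 y (ω₁.2 y))
        * ∏ y ∈ YRᶜ, C.kf (fun v => if v ∈ R then (h.pB v).getD false else ω₂.1 v) y (ω₂.2 y) := by
  rw [← prod_mul_prod_compl YR]
  congr 1
  · refine prod_congr rfl fun y hy => ?_
    have e : (prtMrg R YR ω₁ ω₂).2 y = ω₁.2 y := by simp [prtMrg, hy]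
    rw [e]
    refine prt_kf_congr C (fun e he => ?_) _
    have := hs.cellR e (by rw [he]; exact hy)
    simp [prtMrg, this.1, this.2]
  · refine prod_congr rfl fun y hy => ?_
    have hy' : y ∉ YR := by simpa using hy
    have e : (prtMrg R YR ω₁ ω₂).2 y = ω₂.2 y := by simp [prtMrg, hy']
    rw [e]
    refine prt_kf_congr C (fun e he => ?_) _
    have hp := hs.pinX e (by rw [he]; exact hy')
    have aux : ∀ v, (v ∈ R → (h.pB v).isSome) →
        (prtMrg R YR ω₁ ω₂).1 v = (fun v => if v ∈ R then (h.pB v).getD false else ω₂.1 v) v := by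
      intro v hv
      by_cases hR : v ∈ R
      · obtain ⟨β, hβ⟩ := Option.isSome_iff_exists.1 (hv hR)
        simp [prtMrg, hR, hβ, h1 v hR β hβ]
      · simp [prtMrg, hR]
    exact ⟨aux _ hp.1, aux _ hp.2⟩

theorem prt_WR_nonneg (hC : C.Ok) (ω : CsOm V Y) : 0 ≤ prtWR C h R YR ER ω := by
  classical
  unfold prtWR
  split_ifs
  · exact mul_nonneg (prod_nonneg fun y _ => prt_kf_nonneg C hC _ _ _) (Nat.cast_nonneg _)
  · exact le_rfl

theorem prt_WX_nonneg (hC : C.Ok) (ω : CsOm V Y) : 0 ≤ prtWX C h R YR ER ω := by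
  classical
  unfold prtWX
  split_ifs
  · exact mul_nonneg (prod_nonneg fun y _ => prt_kf_nonneg C hC _ _ _) (Nat.cast_nonneg _)
  · exact le_rfl

/-- **one configuration**: the weight is the product of the retained and of the exterior weight, up to `|P| - 1` bits -/
theorem prt_wt_mrg (hC : C.Ok) (hs : PrtSplit C h R YR ER P) (ω₁ ω₂ : CsOm V Y) :
    prtWR C h R YR ER ω₁ * prtWX C h R YR ER ω₂ ≤ C.wt h (prtMrg R YR ω₁ ω₂) * 2 ^ Fintype.card V ∧
    C.wt h (prtMrg R YR ω₁ ω₂) * 2 ^ Fintype.card V ≤ 2 ^ (P.card - 1) * (prtWR C h R YR ER ω₁ * prtWX C h R YR ER ω₂) := by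
  classical
  rw [prt_wt_eq]
  unfold prtWR prtWX
  by_cases c1 : (∀ v ∈ R, ∀ β, h.pB v = some β → ω₁.1 v = β) ∧ (∀ y ∈ YR, ∀ θ, h.pT y = some θ → ω₁.2 y = θ)
  swap
  · rw [if_neg c1, if_neg fun hh => c1 ((prt_mrg_ok ω₁ ω₂).1 hh).1]
    simp
  by_cases c2 : (∀ v, v ∉ R → ∀ β, h.pB v = some β → ω₂.1 v = β) ∧ (∀ y, y ∉ YR → ∀ θ, h.pT y = some θ → ω₂.2 y = θ)
  swap
  · rw [if_neg c2, if_neg fun hh => c2 ((prt_mrg_ok ω₁ ω₂).1 hh).2]
    simp
  rw [if_pos c1, if_pos c2, if_pos ((prt_mrg_ok ω₁ ω₂).2 ⟨c1, c2⟩), prt_mrg_kf hs ω₁ ω₂ c1.1, prt_mrg_edges hs]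
  obtain ⟨a, ha⟩ : ∃ a, a = ∏ y ∈ YR, C.kf ω₁.1 y (ω₁.2 y) := ⟨_, rfl⟩
  obtain ⟨b, hb⟩ : ∃ b, b = ∏ y ∈ YRᶜ, C.kf (fun v => if v ∈ R then (h.pB v).getD false else ω₂.1 v) y (ω₂.2 y) := ⟨_, rfl⟩
  have ha0 : 0 ≤ a := by rw [ha]; exact prod_nonneg fun y _ => prt_kf_nonneg C hC _ _ _
  have hb0 : 0 ≤ b := by rw [hb]; exact prod_nonneg fun y _ => prt_kf_nonneg C hC _ _ _
  rw [← ha, ← hb]
  have n1 := prt_cnt_mul_le C.s C.t (prtGR C YR ER ω₁.2) (prtGX C h YR ER ω₂.2)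
  have n2 := prt_cnt_port C.s C.t (prtGR C YR ER ω₁.2) (prtGX C h YR ER ω₂.2) P
    fun v hv1 hv2 => prt_touch_GX hs c2.2 hv2 (prt_touch_GR hs _ hv1)
  have n1' : (prtCnt C.s C.t (prtGR C YR ER ω₁.2) : ℝ) * prtCnt C.s C.t (prtGX C h YR ER ω₂.2)
      ≤ prtCnt C.s C.t (prtGR C YR ER ω₁.2 ∪ prtGX C h YR ER ω₂.2) * 2 ^ Fintype.card V := by exact_mod_cast n1
  have n2' : (prtCnt C.s C.t (prtGR C YR ER ω₁.2 ∪ prtGX C h YR ER ω₂.2) : ℝ) * 2 ^ Fintype.card V
      ≤ 2 ^ (P.card - 1) * ((prtCnt C.s C.t (prtGR C YR ER ω₁.2) : ℝ) * prtCnt C.s C.t (prtGX C h YR ER ω₂.2)) := by exact_mod_cast n2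
  have hab := mul_nonneg ha0 hb0
  constructor
  · calc _ = a * b * ((prtCnt C.s C.t (prtGR C YR ER ω₁.2) : ℝ) * prtCnt C.s C.t (prtGX C h YR ER ω₂.2)) := by ring
      _ ≤ a * b * (prtCnt C.s C.t (prtGR C YR ER ω₁.2 ∪ prtGX C h YR ER ω₂.2) * 2 ^ Fintype.card V) :=
          mul_le_mul_of_nonneg_left n1' hab
      _ = _ := by ring
  · calc _ = a * b * ((prtCnt C.s C.t (prtGR C YR ER ω₁.2 ∪ prtGX C h YR ER ω₂.2) : ℝ) * 2 ^ Fintype.card V) := by ring
      _ ≤ a * b * (2 ^ (P.card - 1) * ((prtCnt C.s C.t (prtGR C YR ER ω₁.2) : ℝ) * prtCnt C.s C.t (prtGX C h YR ER ω₂.2))) :=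
          mul_le_mul_of_nonneg_left n2' hab
      _ = _ := by ring

theorem prt_loc_mrg {F : CsOm V Y → ℝ} (hF : PrtLoc R YR F) (ω₁ ω₂ : CsOm V Y) : F (prtMrg R YR ω₁ ω₂) = F ω₁ :=
  hF _ _ (fun v hv => by simp [prtMrg, hv]) (fun y hy => by simp [prtMrg, hy])

/-- **ports, core**: the marginal of a history on the retained variables is the retained weight, up to a constant and `|P| - 1` bits.
The exterior need not be observed. -/
theorem prt_core (hC : C.Ok) (hs : PrtSplit C h R YR ER P) {F : CsOm V Y → ℝ} (hF0 : ∀ ω, 0 ≤ F ω) (hF : PrtLoc R YR F) :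
    (∑ ω, prtWR C h R YR ER ω * F ω) * (∑ ω, prtWX C h R YR ER ω)
        ≤ ((Fintype.card (CsOm V Y) : ℝ) * 2 ^ Fintype.card V) * ∑ ω, C.wt h ω * F ω ∧
    ((Fintype.card (CsOm V Y) : ℝ) * 2 ^ Fintype.card V) * ∑ ω, C.wt h ω * F ω
        ≤ 2 ^ (P.card - 1) * ((∑ ω, prtWR C h R YR ER ω * F ω) * (∑ ω, prtWX C h R YR ER ω)) := by
  have e1 : ((Fintype.card (CsOm V Y) : ℝ) * 2 ^ Fintype.card V) * ∑ ω, C.wt h ω * F ω
      = ∑ ω₁, ∑ ω₂, C.wt h (prtMrg R YR ω₁ ω₂) * 2 ^ Fintype.card V * F ω₁ := by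
    have := prt_sum_mrg R YR fun ω => C.wt h ω * F ω
    rw [mul_right_comm, ← this, sum_mul]
    refine sum_congr rfl fun ω₁ _ => ?_
    rw [sum_mul]
    refine sum_congr rfl fun ω₂ _ => ?_
    rw [prt_loc_mrg hF]
    ring
  have e2 : (∑ ω, prtWR C h R YR ER ω * F ω) * (∑ ω, prtWX C h R YR ER ω)
      = ∑ ω₁, ∑ ω₂, prtWR C h R YR ER ω₁ * prtWX C h R YR ER ω₂ * F ω₁ := by
    rw [sum_mul]
    refine sum_congr rfl fun ω₁ _ => ?_
    rw [mul_sum]
    refine sum_congr rfl fun ω₂ _ => ?_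
    ring
  rw [e1, e2]
  constructor
  · exact sum_le_sum fun ω₁ _ => sum_le_sum fun ω₂ _ => mul_le_mul_of_nonneg_right (prt_wt_mrg hC hs ω₁ ω₂).1 (hF0 ω₁)
  · rw [mul_sum]
    refine sum_le_sum fun ω₁ _ => ?_
    rw [mul_sum]
    refine sum_le_sum fun ω₂ _ => ?_
    rw [← mul_assoc]
    exact mul_le_mul_of_nonneg_right (prt_wt_mrg hC hs ω₁ ω₂).2 (hF0 ω₁)

theorem prt_WR_congr {h₁ h₂ : CsHist V ι Y} (hpB : ∀ v ∈ R, h₁.pB v = h₂.pB v) (hpT : ∀ y ∈ YR, h₁.pT y = h₂.pT y) :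
    prtWR C h₁ R YR ER = prtWR C h₂ R YR ER := by
  classical
  funext ω
  unfold prtWR
  refine if_congr (and_congr ?_ ?_) rfl rfl
  · exact forall_congr' fun v => forall_congr' fun hv => by rw [hpB v hv]
  · exact forall_congr' fun y => forall_congr' fun hy => by rw [hpT y hy]

theorem prt_card_pos : (0 : ℝ) < (Fintype.card (CsOm V Y) : ℝ) * 2 ^ Fintype.card V := by
  have : 0 < Fintype.card (CsOm V Y) := Fintype.card_pos_iff.2 ⟨(fun _ => false, fun _ => 0)⟩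
  positivity

/-- **Lemma `annulus:ports`** (cross multiplied): two histories with the same retained data. -/
theorem prt_ports (hC : C.Ok) {h₁ h₂ : CsHist V ι Y} {P₁ P₂ : Finset V} (hs₁ : PrtSplit C h₁ R YR ER P₁)
    (hs₂ : PrtSplit C h₂ R YR ER P₂) (hpB : ∀ v ∈ R, h₁.pB v = h₂.pB v) (hpT : ∀ y ∈ YR, h₁.pT y = h₂.pT y)
    {F : CsOm V Y → ℝ} (hF0 : ∀ ω, 0 ≤ F ω) (hF : PrtLoc R YR F) :
    (∑ ω, C.wt h₁ ω * F ω) * C.Zh h₂ ≤ 2 ^ ((P₁.card - 1) + (P₂.card - 1)) * (C.Zh h₁ * ∑ ω, C.wt h₂ ω * F ω) := by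
  have a1 := (prt_core hC hs₁ hF0 hF).2
  have a2 := (prt_core hC hs₂ hF0 hF).1
  have b1 := (prt_core hC hs₁ (F := fun _ => 1) (fun _ => zero_le_one) (fun _ _ _ _ => rfl)).1
  have b2 := (prt_core hC hs₂ (F := fun _ => 1) (fun _ => zero_le_one) (fun _ _ _ _ => rfl)).2
  simp only [mul_one] at b1 b2
  rw [prt_WR_congr hpB hpT] at a1 b1
  unfold CellSys.Zh
  obtain ⟨c, hc⟩ : ∃ c, c = (Fintype.card (CsOm V Y) : ℝ) * 2 ^ Fintype.card V := ⟨_, rfl⟩
  have hc0 : 0 < c := by rw [hc]; exact prt_card_pos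
  rw [← hc] at a1 a2 b1 b2
  obtain ⟨SF, hSF⟩ : ∃ x, x = ∑ ω, prtWR C h₂ R YR ER ω * F ω := ⟨_, rfl⟩
  obtain ⟨S1, hS1⟩ : ∃ x, x = ∑ ω, prtWR C h₂ R YR ER ω := ⟨_, rfl⟩
  obtain ⟨A1, hA1⟩ : ∃ x, x = ∑ ω, prtWX C h₁ R YR ER ω := ⟨_, rfl⟩
  obtain ⟨A2, hA2⟩ : ∃ x, x = ∑ ω, prtWX C h₂ R YR ER ω := ⟨_, rfl⟩
  have hSF0 : 0 ≤ SF := by rw [hSF]; exact sum_nonneg fun ω _ => mul_nonneg (prt_WR_nonneg hC ω) (hF0 ω)
  have hS10 : 0 ≤ S1 := by rw [hS1]; exact sum_nonneg fun ω _ => prt_WR_nonneg hC ω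
  have hA10 : 0 ≤ A1 := by rw [hA1]; exact sum_nonneg fun ω _ => prt_WX_nonneg hC ω
  have hA20 : 0 ≤ A2 := by rw [hA2]; exact sum_nonneg fun ω _ => prt_WX_nonneg hC ω
  rw [← hSF, ← hA1] at a1
  rw [← hSF, ← hA2] at a2
  rw [← hS1, ← hA1] at b1
  rw [← hS1, ← hA2] at b2
  obtain ⟨X1, hX1⟩ : ∃ x, x = ∑ ω, C.wt h₁ ω * F ω := ⟨_, rfl⟩
  obtain ⟨X2, hX2⟩ : ∃ x, x = ∑ ω, C.wt h₂ ω * F ω := ⟨_, rfl⟩
  obtain ⟨Z1, hZ1⟩ : ∃ x, x = ∑ ω, C.wt h₁ ω := ⟨_, rfl⟩
  obtain ⟨Z2, hZ2⟩ : ∃ x, x = ∑ ω, C.wt h₂ ω := ⟨_, rfl⟩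
  rw [← hX1] at a1
  rw [← hX2] at a2
  rw [← hZ1] at b1
  rw [← hZ2] at b2
  rw [← hX1, ← hX2, ← hZ1, ← hZ2]
  have hX10 : 0 ≤ c * X1 := by
    rw [hX1]
    refine mul_nonneg hc0.le (sum_nonneg fun ω _ => mul_nonneg ?_ (hF0 ω))
    rw [prt_wt_eq]
    split_ifs
    · exact mul_nonneg (prod_nonneg fun y _ => prt_kf_nonneg C hC _ _ _) (Nat.cast_nonneg _)
    · exact le_rfl
  have hp1 : (0 : ℝ) ≤ 2 ^ (P₁.card - 1) := by positivity
  have hp2 : (0 : ℝ) ≤ 2 ^ (P₂.card - 1) := by positivity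
  have key : (c * X1) * (c * Z2) ≤ 2 ^ ((P₁.card - 1) + (P₂.card - 1)) * ((c * Z1) * (c * X2)) := by
    calc (c * X1) * (c * Z2) ≤ (2 ^ (P₁.card - 1) * (SF * A1)) * (2 ^ (P₂.card - 1) * (S1 * A2)) :=
          mul_le_mul a1 b2 (le_trans (mul_nonneg hS10 hA20) (by
            have := (prt_core hC hs₂ (F := fun _ => 1) (fun _ => zero_le_one) (fun _ _ _ _ => rfl)).1
            simp only [mul_one] at this
            rw [← hc, ← hS1, ← hA2, ← hZ2] at this
            exact this)) (mul_nonneg hp1 (mul_nonneg hSF0 hA10))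
      _ = 2 ^ ((P₁.card - 1) + (P₂.card - 1)) * ((S1 * A1) * (SF * A2)) := by rw [pow_add]; ring
      _ ≤ 2 ^ ((P₁.card - 1) + (P₂.card - 1)) * ((c * Z1) * (c * X2)) :=
          mul_le_mul_of_nonneg_left (mul_le_mul b1 a2 (mul_nonneg hSF0 hA20) (le_trans (mul_nonneg hS10 hA10) b1)) (by positivity)
  have hcc : 0 < c * c := mul_pos hc0 hc0
  refine le_of_mul_le_mul_left ?_ hcc
  calc c * c * (X1 * Z2) = (c * X1) * (c * Z2) := by ring
    _ ≤ _ := key
    _ = _ := by ring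

theorem prt_wt_nonneg (hC : C.Ok) (h : CsHist V ι Y) (ω : CsOm V Y) : 0 ≤ C.wt h ω := by
  classical
  rw [prt_wt_eq]
  split_ifs
  · exact mul_nonneg (prod_nonneg fun y _ => prt_kf_nonneg C hC _ _ _) (Nat.cast_nonneg _)
  · exact le_rfl

theorem prt_Ex_nonneg (hC : C.Ok) (h : CsHist V ι Y) {F : CsOm V Y → ℝ} (hF0 : ∀ ω, 0 ≤ F ω) : 0 ≤ C.Ex h F := by
  unfold CellSys.Ex CellSys.Zh
  exact div_nonneg (sum_nonneg fun ω _ => mul_nonneg (prt_wt_nonneg hC h ω) (hF0 ω)) (sum_nonneg fun ω _ => prt_wt_nonneg hC h ω)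

/-- **Lemma `annulus:ports`**, normalised. -/
theorem prt_Ex_ports (hC : C.Ok) {h₁ h₂ : CsHist V ι Y} {P₁ P₂ : Finset V} (hs₁ : PrtSplit C h₁ R YR ER P₁)
    (hs₂ : PrtSplit C h₂ R YR ER P₂) (hpB : ∀ v ∈ R, h₁.pB v = h₂.pB v) (hpT : ∀ y ∈ YR, h₁.pT y = h₂.pT y)
    {F : CsOm V Y → ℝ} (hF0 : ∀ ω, 0 ≤ F ω) (hF : PrtLoc R YR F) (hZ : 0 < C.Zh h₂) :
    C.Ex h₁ F ≤ 2 ^ ((P₁.card - 1) + (P₂.card - 1)) * C.Ex h₂ F := by
  have key := prt_ports hC hs₁ hs₂ hpB hpT hF0 hF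
  have hZ1 : 0 ≤ C.Zh h₁ := sum_nonneg fun ω _ => prt_wt_nonneg hC h₁ ω
  rcases hZ1.eq_or_lt with h0 | hpos
  · have : C.Ex h₁ F = 0 := by unfold CellSys.Ex; rw [← h0, div_zero]
    rw [this]
    exact mul_nonneg (by positivity) (prt_Ex_nonneg hC h₂ hF0)
  · unfold CellSys.Ex
    rw [div_le_iff₀ hpos, mul_assoc, div_mul_eq_mul_div, ← mul_div_assoc, le_div_iff₀ hZ]
    calc _ ≤ _ := key
      _ = _ := by ring

end Ports

/-! ## 4. Patches -/

section Patch

variable {V ι Y : Type*} [Fintype V] [DecidableEq V] [Fintype ι] [DecidableEq ι] [Fintype Y] [DecidableEq Y]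

/-- number of functions which are prescribed off `Q` -/
theorem prt_card_off {α β : Type*} [Fintype α] [DecidableEq α] [Fintype β] [DecidableEq β] (Q : Finset α) (f0 : α → β) :
    (univ.filter fun f : α → β => ∀ x, x ∉ Q → f x = f0 x).card ≤ Fintype.card β ^ Q.card := by
  have h1 : Fintype.card (Q → β) = Fintype.card β ^ Q.card := by simp
  rw [← h1, ← card_univ]
  refine card_le_card_of_injOn (fun f => fun x : Q => f x.1) (fun _ _ => by simp) ?_
  intro f hf g hg hfg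
  simp only [coe_filter, mem_univ, true_and, Set.mem_ofPred_eq] at hf hg
  funext x
  by_cases hx : x ∈ Q
  · exact congrFun hfg ⟨x, hx⟩
  · rw [hf x hx, hg x hx]

/-- a map with fibres of at most `m` points -/
theorem prt_sum_comp_le {Ω : Type*} [Fintype Ω] [DecidableEq Ω] (Φ : Ω → Ω) (m : ℕ) (hm : ∀ b, (univ.filter fun ω => Φ ω = b).card ≤ m)
    {g : Ω → ℝ} (hg : ∀ ω, 0 ≤ g ω) : ∑ ω, g (Φ ω) ≤ m * ∑ ω, g ω := by
  rw [← sum_fiberwise univ Φ fun ω => g (Φ ω), mul_sum]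
  refine sum_le_sum fun b _ => ?_
  have : ∑ ω ∈ univ.filter (fun ω => Φ ω = b), g (Φ ω) = ((univ.filter fun ω => Φ ω = b).card : ℝ) * g b := by
    rw [sum_congr rfl fun ω hω => by rw [(mem_filter.1 hω).2], sum_const, nsmul_eq_mul]
  rw [this]
  exact mul_le_mul_of_nonneg_right (by exact_mod_cast hm b) (hg b)

/-- **compatible patch**.  `T` = mutable sites, `YT` = patch cells (all cells incident to a mutable site), `Tb` ⊇ the sites of the patch
cells; `hA` = `h` with the prescriptions `A`; every feasible configuration can be changed on the patch only into one which satisfies `A`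
and whose patch cells have factors `≥ a`. -/
structure PrtPatch (C : CellSys V ι Y) (h hA : CsHist V ι Y) (T : Finset V) (YT : Finset Y) (Tb : Finset V) (a : ℝ) : Prop where
  inc : ∀ e, (C.s e ∈ T ∨ C.t e ∈ T) → C.cell e ∈ YT
  sites : ∀ e, C.cell e ∈ YT → C.s e ∈ Tb ∧ C.t e ∈ Tb
  E0 : hA.E0 = h.E0
  extB : ∀ v β, h.pB v = some β → hA.pB v = some β
  extT : ∀ y θ, h.pT y = some θ → hA.pT y = some θ
  a_pos : 0 < a
  good : ∀ ω : CsOm V Y, 0 < C.wt h ω → ∃ ω' : CsOm V Y, (∀ v, v ∉ T → ω'.1 v = ω.1 v) ∧ (∀ y, y ∉ YT → ω'.2 y = ω.2 y) ∧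
    hA.OkB ω'.1 ∧ hA.OkT ω'.2 ∧ ∀ y ∈ YT, a ≤ C.kf ω'.1 y (ω'.2 y)

variable {C : CellSys V ι Y} {h hA : CsHist V ι Y} {T : Finset V} {YT : Finset Y} {Tb : Finset V} {a : ℝ}

/-- more prescriptions, less weight -/
theorem prt_patch_le (hC : C.Ok) (hp : PrtPatch C h hA T YT Tb a) (ω : CsOm V Y) : C.wt hA ω ≤ C.wt h ω := by
  classical
  rw [prt_wt_eq, prt_wt_eq, hp.E0]
  by_cases h1 : hA.OkB ω.1 ∧ hA.OkT ω.2
  · have h2 : h.OkB ω.1 ∧ h.OkT ω.2 :=
      ⟨fun v β hβ => h1.1 v β (hp.extB v β hβ), fun y θ hθ => h1.2 y θ (hp.extT y θ hθ)⟩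
    rw [if_pos h1, if_pos h2]
  · rw [if_neg h1]
    split_ifs
    · exact mul_nonneg (prod_nonneg fun y _ => prt_kf_nonneg C hC _ _ _) (Nat.cast_nonneg _)
    · exact le_rfl

/-- **one configuration** -/
theorem prt_patch_pt (hC : C.Ok) (hp : PrtPatch C h hA T YT Tb a) {ω ω' : CsOm V Y} (h1 : ∀ v, v ∉ T → ω'.1 v = ω.1 v)
    (h2 : ∀ y, y ∉ YT → ω'.2 y = ω.2 y) (h3 : hA.OkB ω'.1) (h4 : hA.OkT ω'.2) (h5 : ∀ y ∈ YT, a ≤ C.kf ω'.1 y (ω'.2 y)) :
    a ^ YT.card * C.wt h ω ≤ 2 ^ (Tb.card - 1) * C.wt hA ω' := by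
  classical
  rw [prt_wt_eq C hA, if_pos ⟨h3, h4⟩, hp.E0, prt_wt_eq C h]
  have ha := hp.a_pos
  have hR : 0 ≤ (2 : ℝ) ^ (Tb.card - 1) * ((∏ y, C.kf ω'.1 y (ω'.2 y)) * (prtCnt C.s C.t (h.E0 ∪ prtCl C ω'.2) : ℝ)) :=
    mul_nonneg (by positivity) (mul_nonneg (prod_nonneg fun y _ => prt_kf_nonneg C hC _ _ _) (Nat.cast_nonneg _))
  split_ifs with hok
  swap
  · rw [mul_zero]; exact hR
  -- the edge sets
  obtain ⟨GX, hGX⟩ : ∃ G, G = h.E0 ∪ (prtCl C ω.2).filter fun e => C.cell e ∉ YT := ⟨_, rfl⟩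
  obtain ⟨GT, hGT⟩ : ∃ G : Finset ι, G = univ.filter fun e => C.cell e ∈ YT := ⟨_, rfl⟩
  have s1 : GX ⊆ h.E0 ∪ prtCl C ω.2 := by
    rw [hGX]; exact union_subset_union_right (filter_subset _ _)
  have s2 : h.E0 ∪ prtCl C ω'.2 ⊆ GX ∪ GT := by
    intro e he
    rw [hGX, hGT]
    simp only [mem_union, mem_filter, mem_univ, true_and, prt_mem_cl] at he ⊢
    by_cases hy : C.cell e ∈ YT
    · exact Or.inr hy
    · rcases he with he | he
      · exact Or.inl (Or.inl he)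
      · rw [h2 _ hy] at he
        exact Or.inl (Or.inr ⟨he, hy⟩)
  have c1 := prt_cnt_anti C.s C.t s1
  have c2 := prt_cnt_anti C.s C.t s2
  have c3 := prt_cnt_mul_le C.s C.t GX GT
  have c4 := prt_cnt_ge C.s C.t GT Tb (by
    rintro v ⟨e, he, hev⟩
    rw [hGT] at he
    have := hp.sites e (by simpa using he)
    rcases hev with rfl | rfl
    · exact this.1
    · exact this.2)
  have c5 : prtCnt C.s C.t (h.E0 ∪ prtCl C ω.2) ≤ 2 ^ (Tb.card - 1) * prtCnt C.s C.t (h.E0 ∪ prtCl C ω'.2) := by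
    have hpos : 0 < 2 ^ Fintype.card V := by positivity
    refine Nat.le_of_mul_le_mul_right ?_ hpos
    calc prtCnt C.s C.t (h.E0 ∪ prtCl C ω.2) * 2 ^ Fintype.card V
        ≤ prtCnt C.s C.t GX * (2 ^ (Tb.card - 1) * prtCnt C.s C.t GT) := Nat.mul_le_mul c1 c4
      _ = 2 ^ (Tb.card - 1) * (prtCnt C.s C.t GX * prtCnt C.s C.t GT) := by ring
      _ ≤ 2 ^ (Tb.card - 1) * (prtCnt C.s C.t (GX ∪ GT) * 2 ^ Fintype.card V) := Nat.mul_le_mul_left _ c3
      _ ≤ 2 ^ (Tb.card - 1) * (prtCnt C.s C.t (h.E0 ∪ prtCl C ω'.2) * 2 ^ Fintype.card V) :=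
          Nat.mul_le_mul_left _ (Nat.mul_le_mul_right _ c2)
      _ = _ := by ring
  have c5' : (prtCnt C.s C.t (h.E0 ∪ prtCl C ω.2) : ℝ) ≤ 2 ^ (Tb.card - 1) * prtCnt C.s C.t (h.E0 ∪ prtCl C ω'.2) := by
    exact_mod_cast c5
  -- the cell factors
  rw [← prod_mul_prod_compl YT, ← prod_mul_prod_compl YT fun y => C.kf ω'.1 y (ω'.2 y)]
  have k1 : ∏ y ∈ YTᶜ, C.kf ω'.1 y (ω'.2 y) = ∏ y ∈ YTᶜ, C.kf ω.1 y (ω.2 y) := by
    refine prod_congr rfl fun y hy => ?_
    have hy' : y ∉ YT := by simpa using hy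
    rw [h2 y hy']
    refine prt_kf_congr C (fun e he => ⟨h1 _ fun hT => hy' ?_, h1 _ fun hT => hy' ?_⟩) _
    · rw [← he]; exact hp.inc e (Or.inl hT)
    · rw [← he]; exact hp.inc e (Or.inr hT)
  rw [k1]
  obtain ⟨b, hb⟩ : ∃ b, b = ∏ y ∈ YTᶜ, C.kf ω.1 y (ω.2 y) := ⟨_, rfl⟩
  have hb0 : 0 ≤ b := by rw [hb]; exact prod_nonneg fun y _ => prt_kf_nonneg C hC _ _ _
  rw [← hb]
  have k2 : ∏ y ∈ YT, C.kf ω.1 y (ω.2 y) ≤ 1 := prod_le_one (fun y _ => prt_kf_nonneg C hC _ _ _) fun y _ => prt_kf_le_one C hC _ _ _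
  have k2' : 0 ≤ ∏ y ∈ YT, C.kf ω.1 y (ω.2 y) := prod_nonneg fun y _ => prt_kf_nonneg C hC _ _ _
  have k3 : a ^ YT.card ≤ ∏ y ∈ YT, C.kf ω'.1 y (ω'.2 y) := by
    rw [← prod_const]
    exact prod_le_prod (fun _ _ => ha.le) h5
  have hn : (0 : ℝ) ≤ prtCnt C.s C.t (h.E0 ∪ prtCl C ω.2) := Nat.cast_nonneg _
  have hn' : (0 : ℝ) ≤ prtCnt C.s C.t (h.E0 ∪ prtCl C ω'.2) := Nat.cast_nonneg _
  have hak : 0 ≤ a ^ YT.card := by positivity
  calc a ^ YT.card * ((∏ y ∈ YT, C.kf ω.1 y (ω.2 y)) * b * (prtCnt C.s C.t (h.E0 ∪ prtCl C ω.2) : ℝ))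
      = (∏ y ∈ YT, C.kf ω.1 y (ω.2 y)) * (a ^ YT.card * b * (prtCnt C.s C.t (h.E0 ∪ prtCl C ω.2) : ℝ)) := by ring
    _ ≤ 1 * (a ^ YT.card * b * (prtCnt C.s C.t (h.E0 ∪ prtCl C ω.2) : ℝ)) :=
        mul_le_mul_of_nonneg_right k2 (mul_nonneg (mul_nonneg hak hb0) hn)
    _ = a ^ YT.card * b * (prtCnt C.s C.t (h.E0 ∪ prtCl C ω.2) : ℝ) := one_mul _
    _ ≤ (∏ y ∈ YT, C.kf ω'.1 y (ω'.2 y)) * b * (2 ^ (Tb.card - 1) * prtCnt C.s C.t (h.E0 ∪ prtCl C ω'.2)) :=
        mul_le_mul (mul_le_mul_of_nonneg_right k3 hb0) c5' hn (mul_nonneg (hak.trans k3) hb0)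
    _ = _ := by ring

/-- number of configurations which agree off the patch -/
theorem prt_card_patch (T : Finset V) (YT : Finset Y) (b : CsOm V Y) :
    (univ.filter fun ω : CsOm V Y => (∀ v, v ∉ T → ω.1 v = b.1 v) ∧ (∀ y, y ∉ YT → ω.2 y = b.2 y)).card ≤ 2 ^ T.card * 3 ^ YT.card := by
  have h1 := prt_card_off T b.1
  have h2 := prt_card_off YT b.2
  rw [Fintype.card_bool] at h1
  rw [show Fintype.card SignType = 3 from rfl] at h2
  refine le_trans (card_le_card ?_) ((card_product _ _).le.trans (Nat.mul_le_mul h1 h2))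
  intro ω hω
  simp only [mem_filter, mem_univ, true_and, mem_product] at hω ⊢
  exact hω

/-- **Lemma `annulus:patch`** (integrated form): the prescriptions `A` cost a bounded factor, uniformly in the exterior. -/
theorem prt_patch (hC : C.Ok) (hp : PrtPatch C h hA T YT Tb a) {F : CsOm V Y → ℝ} (hF0 : ∀ ω, 0 ≤ F ω) (hF : PrtOff T YT F) :
    a ^ YT.card * ∑ ω, C.wt h ω * F ω ≤ (2 ^ T.card * 3 ^ YT.card * 2 ^ (Tb.card - 1)) * ∑ ω, C.wt hA ω * F ω := by
  classical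
  obtain ⟨Φ, hΦ⟩ : ∃ Φ : CsOm V Y → CsOm V Y, ∀ ω, (∀ v, v ∉ T → (Φ ω).1 v = ω.1 v) ∧ (∀ y, y ∉ YT → (Φ ω).2 y = ω.2 y) ∧
      (0 < C.wt h ω → hA.OkB (Φ ω).1 ∧ hA.OkT (Φ ω).2 ∧ ∀ y ∈ YT, a ≤ C.kf (Φ ω).1 y ((Φ ω).2 y)) := by
    refine ⟨fun ω => if hpos : 0 < C.wt h ω then (hp.good ω hpos).choose else ω, fun ω => ?_⟩
    by_cases hpos : 0 < C.wt h ω
    · simp only [dif_pos hpos]
      obtain ⟨g1, g2, g3, g4, g5⟩ := (hp.good ω hpos).choose_spec
      exact ⟨g1, g2, fun _ => ⟨g3, g4, g5⟩⟩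
    · simp only [dif_neg hpos]
      exact ⟨fun _ _ => trivial, fun _ _ => trivial, fun hh => absurd hh hpos⟩
  have hg : ∀ ω, 0 ≤ C.wt hA ω * F ω := fun ω => mul_nonneg (prt_wt_nonneg hC hA ω) (hF0 ω)
  have pt : ∀ ω, a ^ YT.card * (C.wt h ω * F ω) ≤ 2 ^ (Tb.card - 1) * (C.wt hA (Φ ω) * F (Φ ω)) := by
    intro ω
    obtain ⟨g1, g2, g3⟩ := hΦ ω
    by_cases hpos : 0 < C.wt h ω
    · obtain ⟨g4, g5, g6⟩ := g3 hpos
      rw [hF (Φ ω) ω g1 g2, ← mul_assoc, ← mul_assoc]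
      exact mul_le_mul_of_nonneg_right (prt_patch_pt hC hp g1 g2 g4 g5 g6) (hF0 ω)
    · have : C.wt h ω = 0 := le_antisymm (not_lt.1 hpos) (prt_wt_nonneg hC h ω)
      rw [this, zero_mul, mul_zero]
      exact mul_nonneg (by positivity) (hg _)
  have fib := prt_sum_comp_le Φ (2 ^ T.card * 3 ^ YT.card) (fun b => le_trans (card_le_card fun ω hω => by
    simp only [mem_filter, mem_univ, true_and] at hω ⊢
    subst hω
    exact ⟨fun v hv => ((hΦ ω).1 v hv).symm, fun y hy => ((hΦ ω).2.1 y hy).symm⟩) (prt_card_patch T YT b)) hg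
  calc a ^ YT.card * ∑ ω, C.wt h ω * F ω = ∑ ω, a ^ YT.card * (C.wt h ω * F ω) := mul_sum _ _ _
    _ ≤ ∑ ω, 2 ^ (Tb.card - 1) * (C.wt hA (Φ ω) * F (Φ ω)) := sum_le_sum fun ω _ => pt ω
    _ = 2 ^ (Tb.card - 1) * ∑ ω, C.wt hA (Φ ω) * F (Φ ω) := (mul_sum _ _ _).symm
    _ ≤ 2 ^ (Tb.card - 1) * (((2 ^ T.card * 3 ^ YT.card : ℕ) : ℝ) * ∑ ω, C.wt hA ω * F ω) :=
        mul_le_mul_of_nonneg_left fib (by positivity)
    _ = _ := by push_cast; ring

/-- the constant of the patch lemma -/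
noncomputable def prtKap (a : ℝ) (nT nY nb : ℕ) : ℝ := a ^ nY / (2 ^ nT * 3 ^ nY * 2 ^ (nb - 1))

theorem prt_kap_eqns_cite : True := by
  have := @prtKap.eq_1
  trivial

theorem prt_kap_pos {a : ℝ} (ha : 0 < a) (nT nY nb : ℕ) : 0 < prtKap a nT nY nb := by
  unfold prtKap; positivity

/-- `P(A | exterior) ≥ κ`, integrated against any nonnegative function of the exterior -/
theorem prt_patch_kap (hC : C.Ok) (hp : PrtPatch C h hA T YT Tb a) {F : CsOm V Y → ℝ} (hF0 : ∀ ω, 0 ≤ F ω) (hF : PrtOff T YT F) :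
    prtKap a T.card YT.card Tb.card * ∑ ω, C.wt h ω * F ω ≤ ∑ ω, C.wt hA ω * F ω := by
  unfold prtKap
  rw [div_mul_eq_mul_div, div_le_iff₀ (by positivity), mul_comm (∑ ω, C.wt hA ω * F ω)]
  exact prt_patch hC hp hF0 hF

/-- the prescriptions are feasible -/
theorem prt_patch_Z (hC : C.Ok) (hp : PrtPatch C h hA T YT Tb a) : prtKap a T.card YT.card Tb.card * C.Zh h ≤ C.Zh hA := by
  have := prt_patch_kap hC hp (F := fun _ => 1) (fun _ => zero_le_one) (fun _ _ _ _ => rfl)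
  simpa [CellSys.Zh] using this

theorem prt_patch_Z_le (hC : C.Ok) (hp : PrtPatch C h hA T YT Tb a) : C.Zh hA ≤ C.Zh h :=
  sum_le_sum fun ω _ => prt_patch_le hC hp ω

/-- **conditioning on `A` changes the exterior law by bounded factors**, lower bound -/
theorem prt_patch_Ex_ge (hC : C.Ok) (hp : PrtPatch C h hA T YT Tb a) (hZ : 0 < C.Zh h) {F : CsOm V Y → ℝ} (hF0 : ∀ ω, 0 ≤ F ω)
    (hF : PrtOff T YT F) : prtKap a T.card YT.card Tb.card * C.Ex h F ≤ C.Ex hA F := by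
  have hk := prt_kap_pos hp.a_pos T.card YT.card Tb.card
  have hZA : 0 < C.Zh hA := lt_of_lt_of_le (mul_pos hk hZ) (prt_patch_Z hC hp)
  have h1 := prt_patch_kap hC hp hF0 hF
  have h2 := prt_patch_Z_le hC hp
  have h3 : 0 ≤ ∑ ω, C.wt h ω * F ω := sum_nonneg fun ω _ => mul_nonneg (prt_wt_nonneg hC h ω) (hF0 ω)
  unfold CellSys.Ex
  rw [← mul_div_assoc, div_le_div_iff₀ hZ hZA]
  calc prtKap a T.card YT.card Tb.card * (∑ ω, C.wt h ω * F ω) * C.Zh hA
      ≤ prtKap a T.card YT.card Tb.card * (∑ ω, C.wt h ω * F ω) * C.Zh h :=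
        mul_le_mul_of_nonneg_left h2 (mul_nonneg hk.le h3)
    _ ≤ _ := mul_le_mul_of_nonneg_right h1 hZ.le

/-- **conditioning on `A` changes the exterior law by bounded factors**, upper bound (any nonnegative `F`) -/
theorem prt_patch_Ex_le (hC : C.Ok) (hp : PrtPatch C h hA T YT Tb a) (hZ : 0 < C.Zh h) {F : CsOm V Y → ℝ} (hF0 : ∀ ω, 0 ≤ F ω) :
    prtKap a T.card YT.card Tb.card * C.Ex hA F ≤ C.Ex h F := by
  have hk := prt_kap_pos hp.a_pos T.card YT.card Tb.card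
  have hZA : 0 < C.Zh hA := lt_of_lt_of_le (mul_pos hk hZ) (prt_patch_Z hC hp)
  have h1 : ∑ ω, C.wt hA ω * F ω ≤ ∑ ω, C.wt h ω * F ω :=
    sum_le_sum fun ω _ => mul_le_mul_of_nonneg_right (prt_patch_le hC hp ω) (hF0 ω)
  have h2 := prt_patch_Z hC hp
  have h3 : 0 ≤ ∑ ω, C.wt hA ω * F ω := sum_nonneg fun ω _ => mul_nonneg (prt_wt_nonneg hC hA ω) (hF0 ω)
  unfold CellSys.Ex
  rw [← mul_div_assoc, div_le_div_iff₀ hZA hZ]
  calc prtKap a T.card YT.card Tb.card * (∑ ω, C.wt hA ω * F ω) * C.Zh h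
      = (∑ ω, C.wt hA ω * F ω) * (prtKap a T.card YT.card Tb.card * C.Zh h) := by ring
    _ ≤ (∑ ω, C.wt hA ω * F ω) * C.Zh hA := mul_le_mul_of_nonneg_left h2 h3
    _ ≤ _ := mul_le_mul_of_nonneg_right h1 hZA.le

end Patch

end Claimed.Agent.R291
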