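/-
# Row 291 (S0539), unit ANN, block A1 / tool T4 : PORTS, second file: extra equalities, CROSS-AMBIENT form      (owner helper116; prefix `prt_`)

TEX[annulus:ports]      (09-annulus.tex l.264-284; use in l.480-500 (straight-short), l.620-640 (gluing); notes ann_A1_55.md X2, adv36_A1A3.md Sec. III)

§5 `prt_cnt_add`, `prt_addEq`, `prt_addEq_Ex` : extra equality edges whose ends lie in a set of `k` sites cost at most `k - 1` bits   (= X2 `gl_ports` of 55).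
§6 CROSS-AMBIENT.  Two cell systems `C₁` on `(V₁, ι₁, Y₁)`, `C₂` on `(V₂, ι₂, Y₂)` whose retained parts are identified by `fV, gV, fY, gY`
   (`PrtIso`).  `prt_WR_iso` : the retained weights agree up to the factor `2 ^ |V₁| / 2 ^ |V₂|`;  `prt_sum_WR_iso` : the retained sums agree;
   EXITS `prt_ports_x` (cross multiplied), `prt_Ex_ports_x` (normalised), `prt_split_closed` + `prt_Ex_ports_closed` (`C₂` = closed system: no ports) .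
-/
import Claimed.Agent.R291.Ann.Ports

set_option autoImplicit false
set_option linter.unusedSectionVars false
set_option linter.unusedVariables false
set_option linter.unusedSimpArgs false

namespace Claimed.Agent.R291

open Finset

/-! ## 5. Extra equalities -/

section AddEq

variable {V ι Y : Type*} [Fintype V] [DecidableEq V] [Fintype ι] [DecidableEq ι] [Fintype Y] [DecidableEq Y]

/-- more equalities between the sites of `P` cost at most `|P| - 1` bits -/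
theorem prt_cnt_add (s t : ι → V) (G G' : Finset ι) (P : Finset V) (hP : ∀ v, PrtTouch s t G' v → v ∈ P) :
    prtCnt s t G ≤ 2 ^ (P.card - 1) * prtCnt s t (G ∪ G') := by
  have hpos : 0 < 2 ^ Fintype.card V := by positivity
  refine Nat.le_of_mul_le_mul_right ?_ hpos
  calc prtCnt s t G * 2 ^ Fintype.card V
      ≤ prtCnt s t G * (2 ^ (P.card - 1) * prtCnt s t G') := Nat.mul_le_mul_left _ (prt_cnt_ge s t G' P hP)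
    _ = 2 ^ (P.card - 1) * (prtCnt s t G * prtCnt s t G') := by ring
    _ ≤ 2 ^ (P.card - 1) * (prtCnt s t (G ∪ G') * 2 ^ Fintype.card V) := Nat.mul_le_mul_left _ (prt_cnt_mul_le s t G G')
    _ = _ := by ring

theorem prt_cnt_sum (s t : ι → V) (G : Finset ι) :
    ∑ W : V → Bool, (if PrtResp s t G W then (1 : ℝ) else 0) = prtCnt s t G := by
  unfold prtCnt
  rw [card_filter]
  push_cast
  rfl

variable {C : CellSys V ι Y}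

/-- **X2**: extra equality edges with ends in `P` -/
theorem prt_addEq (hC : C.Ok) {h h' : CsHist V ι Y} (hB : h'.pB = h.pB) (hT : h'.pT = h.pT) {E' : Finset ι}
    (hE : h'.E0 = h.E0 ∪ E') {P : Finset V} (hP : ∀ e ∈ E', C.s e ∈ P ∧ C.t e ∈ P) (ω : CsOm V Y) :
    C.wt h' ω ≤ C.wt h ω ∧ C.wt h ω ≤ 2 ^ (P.card - 1) * C.wt h' ω := by
  classical
  rw [prt_wt_eq C h', prt_wt_eq C h]
  have e1 : h'.OkB ω.1 ↔ h.OkB ω.1 := by unfold CsHist.OkB; rw [hB]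
  have e2 : h'.OkT ω.2 ↔ h.OkT ω.2 := by unfold CsHist.OkT; rw [hT]
  simp only [e1, e2]
  split_ifs with hok
  swap
  · simp
  have hk : 0 ≤ ∏ y, C.kf ω.1 y (ω.2 y) := prod_nonneg fun y _ => prt_kf_nonneg C hC _ _ _
  have hG : h'.E0 ∪ prtCl C ω.2 = (h.E0 ∪ prtCl C ω.2) ∪ E' := by
    rw [hE, union_right_comm]
  rw [hG]
  have c1 : prtCnt C.s C.t ((h.E0 ∪ prtCl C ω.2) ∪ E') ≤ prtCnt C.s C.t (h.E0 ∪ prtCl C ω.2) :=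
    prt_cnt_anti C.s C.t subset_union_left
  have c2 := prt_cnt_add C.s C.t (h.E0 ∪ prtCl C ω.2) E' P (by
    rintro v ⟨e, he, hev⟩
    rcases hev with rfl | rfl
    · exact (hP e he).1
    · exact (hP e he).2)
  constructor
  · exact mul_le_mul_of_nonneg_left (by exact_mod_cast c1) hk
  · have c2' : (prtCnt C.s C.t (h.E0 ∪ prtCl C ω.2) : ℝ) ≤ 2 ^ (P.card - 1) * prtCnt C.s C.t ((h.E0 ∪ prtCl C ω.2) ∪ E') := by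
      exact_mod_cast c2
    calc _ ≤ (∏ y, C.kf ω.1 y (ω.2 y)) * (2 ^ (P.card - 1) * prtCnt C.s C.t ((h.E0 ∪ prtCl C ω.2) ∪ E')) :=
          mul_le_mul_of_nonneg_left c2' hk
      _ = _ := by ring

/-- two comparable weights give comparable expectations -/
theorem prt_ratio {Ω : Type*} [Fintype Ω] {w w' F : Ω → ℝ} {M : ℝ} (h0 : ∀ ω, 0 ≤ w' ω) (h1 : ∀ ω, w' ω ≤ w ω)
    (h2 : ∀ ω, w ω ≤ M * w' ω) (hF : ∀ ω, 0 ≤ F ω) :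
    (∑ ω, w ω * F ω) * (∑ ω, w' ω) ≤ M * ((∑ ω, w ω) * ∑ ω, w' ω * F ω) ∧
    (∑ ω, w' ω * F ω) * (∑ ω, w ω) ≤ M * ((∑ ω, w' ω) * ∑ ω, w ω * F ω) := by
  have a1 : ∑ ω, w ω * F ω ≤ M * ∑ ω, w' ω * F ω := by
    rw [mul_sum]
    refine sum_le_sum fun ω _ => ?_
    rw [← mul_assoc]
    exact mul_le_mul_of_nonneg_right (h2 ω) (hF ω)
  have a2 : ∑ ω, w' ω ≤ ∑ ω, w ω := sum_le_sum fun ω _ => h1 ω
  have a3 : ∑ ω, w' ω * F ω ≤ ∑ ω, w ω * F ω := sum_le_sum fun ω _ => mul_le_mul_of_nonneg_right (h1 ω) (hF ω)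
  have a4 : ∑ ω, w ω ≤ M * ∑ ω, w' ω := by
    rw [mul_sum]; exact sum_le_sum fun ω _ => h2 ω
  have p1 : 0 ≤ ∑ ω, w' ω := sum_nonneg fun ω _ => h0 ω
  have p2 : 0 ≤ ∑ ω, w' ω * F ω := sum_nonneg fun ω _ => mul_nonneg (h0 ω) (hF ω)
  have p3 : 0 ≤ ∑ ω, w ω * F ω := p2.trans a3
  have p4 : 0 ≤ ∑ ω, w ω := p1.trans a2
  constructor
  · calc _ ≤ (M * ∑ ω, w' ω * F ω) * ∑ ω, w ω := mul_le_mul a1 a2 p1 (p3.trans a1)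
      _ = _ := by ring
  · calc _ ≤ (∑ ω, w ω * F ω) * (M * ∑ ω, w' ω) := mul_le_mul a3 a4 p4 p3
      _ = _ := by ring

/-- **X2**, normalised, both directions -/
theorem prt_addEq_Ex (hC : C.Ok) {h h' : CsHist V ι Y} (hB : h'.pB = h.pB) (hT : h'.pT = h.pT) {E' : Finset ι}
    (hE : h'.E0 = h.E0 ∪ E') {P : Finset V} (hP : ∀ e ∈ E', C.s e ∈ P ∧ C.t e ∈ P) {F : CsOm V Y → ℝ} (hF : ∀ ω, 0 ≤ F ω) :
    C.Ex h F ≤ 2 ^ (P.card - 1) * C.Ex h' F ∧ C.Ex h' F ≤ 2 ^ (P.card - 1) * C.Ex h F := by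
  have hr := prt_ratio (w := C.wt h) (w' := C.wt h') (M := 2 ^ (P.card - 1)) (prt_wt_nonneg hC h')
    (fun ω => (prt_addEq hC hB hT hE hP ω).1) (fun ω => (prt_addEq hC hB hT hE hP ω).2) hF
  have z1 : C.Zh h' ≤ C.Zh h := sum_le_sum fun ω _ => (prt_addEq hC hB hT hE hP ω).1
  have z2 : C.Zh h ≤ 2 ^ (P.card - 1) * C.Zh h' := by
    unfold CellSys.Zh; rw [mul_sum]; exact sum_le_sum fun ω _ => (prt_addEq hC hB hT hE hP ω).2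
  have z0 : 0 ≤ C.Zh h' := sum_nonneg fun ω _ => prt_wt_nonneg hC h' ω
  rcases z0.eq_or_lt with h0 | hpos
  · have h00 : C.Zh h = 0 := le_antisymm (by rw [← h0, mul_zero] at z2; exact z2) (h0 ▸ z1)
    unfold CellSys.Ex
    rw [← h0, h00]
    simp
  · have hpos2 : 0 < C.Zh h := lt_of_lt_of_le hpos z1
    unfold CellSys.Ex
    constructor
    · rw [← mul_div_assoc, div_le_div_iff₀ hpos2 hpos]
      calc _ ≤ _ := hr.1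
        _ = _ := by unfold CellSys.Zh; ring
    · rw [← mul_div_assoc, div_le_div_iff₀ hpos hpos2]
      calc _ ≤ _ := hr.2
        _ = _ := by unfold CellSys.Zh; ring

end AddEq

/-! ## 6. Cross-ambient ports -/

section Exch

/-- `f`, `g` are inverse bijections between `R₁` and `R₂` -/
structure PrtBij {α β : Type*} (R₁ : Finset α) (R₂ : Finset β) (f : α → β) (g : β → α) : Prop where
  f_mem : ∀ a ∈ R₁, f a ∈ R₂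
  g_mem : ∀ b ∈ R₂, g b ∈ R₁
  gf : ∀ a ∈ R₁, g (f a) = a
  fg : ∀ b ∈ R₂, f (g b) = b

theorem PrtBij.symm {α β : Type*} {R₁ : Finset α} {R₂ : Finset β} {f : α → β} {g : β → α} (h : PrtBij R₁ R₂ f g) : PrtBij R₂ R₁ g f :=
  ⟨h.g_mem, h.f_mem, h.fg, h.gf⟩

/-- exchange of the retained parts of two functions -/
def prtEx {α β γ : Type*} [DecidableEq α] [DecidableEq β] (R₁ : Finset α) (R₂ : Finset β) (f : α → β) (g : β → α)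
    (p : (α → γ) × (β → γ)) : (α → γ) × (β → γ) :=
  (fun a => if a ∈ R₁ then p.2 (f a) else p.1 a, fun b => if b ∈ R₂ then p.1 (g b) else p.2 b)

theorem prt_ex_eqns_cite : True := by
  have := @prtEx.eq_1.{0, 0, 0}
  trivial

theorem prt_ex_invol {α β γ : Type*} [DecidableEq α] [DecidableEq β] {R₁ : Finset α} {R₂ : Finset β} {f : α → β} {g : β → α}
    (h : PrtBij R₁ R₂ f g) : Function.Involutive (prtEx (γ := γ) R₁ R₂ f g) := by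
  rintro ⟨a, b⟩
  unfold prtEx
  refine Prod.ext ?_ ?_
  · funext x
    by_cases hx : x ∈ R₁
    · simp [hx, h.f_mem x hx, h.gf x hx]
    · simp [hx]
  · funext x
    by_cases hx : x ∈ R₂
    · simp [hx, h.g_mem x hx, h.fg x hx]
    · simp [hx]

/-- **exchange principle**: no fibre is ever counted -/
theorem prt_sum_exch {Ω₁ Ω₂ : Type*} [Fintype Ω₁] [Fintype Ω₂] (X : Ω₁ × Ω₂ → Ω₁ × Ω₂) (hX : Function.Involutive X)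
    (G₁ : Ω₁ → ℝ) (G₂ : Ω₂ → ℝ) (hG : ∀ p, G₁ (X p).1 = G₂ p.2) :
    (Fintype.card Ω₂ : ℝ) * ∑ a, G₁ a = (Fintype.card Ω₁ : ℝ) * ∑ b, G₂ b := by
  have e1 : ∑ p : Ω₁ × Ω₂, G₁ p.1 = (Fintype.card Ω₂ : ℝ) * ∑ a, G₁ a := by
    rw [Fintype.sum_prod_type (fun p : Ω₁ × Ω₂ => G₁ p.1)]
    simp only [sum_const, card_univ, nsmul_eq_mul]
    rw [← mul_sum]
  have e2 : ∑ p : Ω₁ × Ω₂, G₂ p.2 = (Fintype.card Ω₁ : ℝ) * ∑ b, G₂ b := by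
    rw [Fintype.sum_prod_type (fun p : Ω₁ × Ω₂ => G₂ p.2)]
    simp only [sum_const, card_univ, nsmul_eq_mul]
  rw [← e1, ← e2, ← Equiv.sum_comp (Function.Involutive.toPerm _ hX) (fun p : Ω₁ × Ω₂ => G₁ p.1)]
  exact sum_congr rfl fun p _ => hG p

end Exch

section Cross

variable {V₁ ι₁ Y₁ V₂ ι₂ Y₂ : Type*} [Fintype V₁] [DecidableEq V₁] [Fintype ι₁] [DecidableEq ι₁] [Fintype Y₁] [DecidableEq Y₁]
  [Fintype V₂] [DecidableEq V₂] [Fintype ι₂] [DecidableEq ι₂] [Fintype Y₂] [DecidableEq Y₂]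

/-- the edge `e'` of the second system has the ends of the edge `e` of the first one -/
def PrtSame (C₁ : CellSys V₁ ι₁ Y₁) (C₂ : CellSys V₂ ι₂ Y₂) (fV : V₁ → V₂) (e : ι₁) (e' : ι₂) : Prop :=
  (C₂.s e' = fV (C₁.s e) ∧ C₂.t e' = fV (C₁.t e)) ∨ (C₂.s e' = fV (C₁.t e) ∧ C₂.t e' = fV (C₁.s e))

/-- **identification of the retained parts of two cell systems** -/
structure PrtIso (C₁ : CellSys V₁ ι₁ Y₁) (C₂ : CellSys V₂ ι₂ Y₂) (R₁ : Finset V₁) (YR₁ : Finset Y₁) (ER₁ : Finset ι₁)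
    (R₂ : Finset V₂) (YR₂ : Finset Y₂) (ER₂ : Finset ι₂) (fV : V₁ → V₂) (gV : V₂ → V₁) (fY : Y₁ → Y₂) (gY : Y₂ → Y₁) : Prop where
  bV : PrtBij R₁ R₂ fV gV
  bY : PrtBij YR₁ YR₂ fY gY
  q : ∀ y ∈ YR₁, C₂.q (fY y) = C₁.q y
  in₁ : ∀ e, C₁.cell e ∈ YR₁ → C₁.s e ∈ R₁ ∧ C₁.t e ∈ R₁
  inE₁ : ∀ e ∈ ER₁, C₁.s e ∈ R₁ ∧ C₁.t e ∈ R₁
  edge₁₂ : ∀ e, C₁.cell e ∈ YR₁ → ∃ e', C₂.cell e' = fY (C₁.cell e) ∧ PrtSame C₁ C₂ fV e e'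
  edge₂₁ : ∀ e', C₂.cell e' ∈ YR₂ → ∃ e, C₁.cell e = gY (C₂.cell e') ∧ PrtSame C₁ C₂ fV e e'
  eq₁₂ : ∀ e ∈ ER₁, ∃ e' ∈ ER₂, PrtSame C₁ C₂ fV e e'
  eq₂₁ : ∀ e' ∈ ER₂, ∃ e ∈ ER₁, PrtSame C₁ C₂ fV e e'

/-- the two configurations agree on the retained parts -/
def PrtCor (R₁ : Finset V₁) (YR₁ : Finset Y₁) (fV : V₁ → V₂) (fY : Y₁ → Y₂) (ω₁ : CsOm V₁ Y₁) (ω₂ : CsOm V₂ Y₂) : Prop :=
  (∀ v ∈ R₁, ω₁.1 v = ω₂.1 (fV v)) ∧ (∀ y ∈ YR₁, ω₁.2 y = ω₂.2 (fY y))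

theorem prt_cross_eqns_cite : True := by
  have := @PrtSame.eq_1.{0, 0, 0, 0, 0, 0}
  have := @PrtCor.eq_1.{0, 0, 0, 0}
  trivial

variable {C₁ : CellSys V₁ ι₁ Y₁} {C₂ : CellSys V₂ ι₂ Y₂} {R₁ : Finset V₁} {YR₁ : Finset Y₁} {ER₁ : Finset ι₁}
  {R₂ : Finset V₂} {YR₂ : Finset Y₂} {ER₂ : Finset ι₂} {fV : V₁ → V₂} {gV : V₂ → V₁} {fY : Y₁ → Y₂} {gY : Y₂ → Y₁}

/-- a symmetric relation between the two end values is transported -/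
theorem prt_same_rel {e : ι₁} {e' : ι₂} (hs : PrtSame C₁ C₂ fV e e') {γ : Type*} {a : V₁ → γ} {b : V₂ → γ}
    (h1 : a (C₁.s e) = b (fV (C₁.s e))) (h2 : a (C₁.t e) = b (fV (C₁.t e))) (r : γ → γ → Prop) (hr : ∀ x y, r x y → r y x) :
    r (a (C₁.s e)) (a (C₁.t e)) ↔ r (b (C₂.s e')) (b (C₂.t e')) := by
  rcases hs with ⟨e1, e2⟩ | ⟨e1, e2⟩
  · rw [e1, e2, h1, h2]
  · rw [e1, e2, h1, h2]
    exact ⟨hr _ _, hr _ _⟩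

/-- the cell factors agree -/
theorem prt_kf_iso (iso : PrtIso C₁ C₂ R₁ YR₁ ER₁ R₂ YR₂ ER₂ fV gV fY gY) {B₁ : V₁ → Bool} {B₂ : V₂ → Bool}
    (hB : ∀ v ∈ R₁, B₁ v = B₂ (fV v)) {y : Y₁} (hy : y ∈ YR₁) (θ : SignType) : C₁.kf B₁ y θ = C₂.kf B₂ (fY y) θ := by
  classical
  have gen : ∀ r : Bool → Bool → Prop, (∀ x y, r x y → r y x) →
      ((∀ e, C₁.cell e = y → r (B₁ (C₁.s e)) (B₁ (C₁.t e))) ↔ ∀ e', C₂.cell e' = fY y → r (B₂ (C₂.s e')) (B₂ (C₂.t e'))) := by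
    intro r hr
    constructor
    · intro H e' he'
      obtain ⟨e, he, hs⟩ := iso.edge₂₁ e' (by rw [he']; exact iso.bY.f_mem y hy)
      rw [he', iso.bY.gf y hy] at he
      have hin := iso.in₁ e (by rw [he]; exact hy)
      exact (prt_same_rel hs (hB _ hin.1) (hB _ hin.2) r hr).1 (H e he)
    · intro H e he
      obtain ⟨e', he', hs⟩ := iso.edge₁₂ e (by rw [he]; exact hy)
      rw [he] at he'
      have hin := iso.in₁ e (by rw [he]; exact hy)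
      exact (prt_same_rel hs (hB _ hin.1) (hB _ hin.2) r hr).2 (H e' he')
  have h1 : ∀ β, C₁.Hom B₁ y β ↔ C₂.Hom B₂ (fY y) β := fun β =>
    gen (fun x y => x = β ∧ y = β) fun _ _ h => ⟨h.2, h.1⟩
  have h2 : C₁.Cst B₁ y ↔ C₂.Cst B₂ (fY y) := gen (fun x y => x = y) fun _ _ h => h.symm
  unfold CellSys.kf
  simp only [h1, h2, iso.q y hy]

/-- the retained equalities agree -/
theorem prt_resp_iso (iso : PrtIso C₁ C₂ R₁ YR₁ ER₁ R₂ YR₂ ER₂ fV gV fY gY) {τ₁ : Y₁ → SignType} {τ₂ : Y₂ → SignType}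
    (hτ : ∀ y ∈ YR₁, τ₁ y = τ₂ (fY y)) {W₁ : V₁ → Bool} {W₂ : V₂ → Bool} (hW : ∀ v ∈ R₁, W₁ v = W₂ (fV v)) :
    PrtResp C₁.s C₁.t (prtGR C₁ YR₁ ER₁ τ₁) W₁ ↔ PrtResp C₂.s C₂.t (prtGR C₂ YR₂ ER₂ τ₂) W₂ := by
  unfold PrtResp prtGR
  constructor
  · intro H e' he'
    simp only [mem_union, mem_filter, prt_mem_cl] at he'
    rcases he' with he' | ⟨h0, hy'⟩
    · obtain ⟨e, he, hs⟩ := iso.eq₂₁ e' he'
      have hin := iso.inE₁ e he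
      exact (prt_same_rel hs (hW _ hin.1) (hW _ hin.2) (fun x y => x = y) fun _ _ h => h.symm).1
        (H e (mem_union_left _ he))
    · obtain ⟨e, he, hs⟩ := iso.edge₂₁ e' hy'
      have hy : C₁.cell e ∈ YR₁ := by rw [he]; exact iso.bY.g_mem _ hy'
      have hin := iso.in₁ e hy
      refine (prt_same_rel hs (hW _ hin.1) (hW _ hin.2) (fun x y => x = y) fun _ _ h => h.symm).1 (H e ?_)
      simp only [mem_union, mem_filter, prt_mem_cl]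
      refine Or.inr ⟨?_, hy⟩
      rw [hτ _ hy, he, iso.bY.fg _ hy']
      exact h0
  · intro H e he
    simp only [mem_union, mem_filter, prt_mem_cl] at he
    rcases he with he | ⟨h0, hy⟩
    · obtain ⟨e', he', hs⟩ := iso.eq₁₂ e he
      have hin := iso.inE₁ e he
      exact (prt_same_rel hs (hW _ hin.1) (hW _ hin.2) (fun x y => x = y) fun _ _ h => h.symm).2
        (H e' (mem_union_left _ he'))
    · obtain ⟨e', he', hs⟩ := iso.edge₁₂ e hy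
      have hin := iso.in₁ e hy
      refine (prt_same_rel hs (hW _ hin.1) (hW _ hin.2) (fun x y => x = y) fun _ _ h => h.symm).2 (H e' ?_)
      simp only [mem_union, mem_filter, prt_mem_cl]
      refine Or.inr ⟨?_, by rw [he']; exact iso.bY.f_mem _ hy⟩
      rw [he', ← hτ _ hy]
      exact h0

/-- the numbers of admissible second spins agree up to the sizes of the ambient systems -/
theorem prt_cnt_iso (iso : PrtIso C₁ C₂ R₁ YR₁ ER₁ R₂ YR₂ ER₂ fV gV fY gY) {τ₁ : Y₁ → SignType} {τ₂ : Y₂ → SignType}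
    (hτ : ∀ y ∈ YR₁, τ₁ y = τ₂ (fY y)) :
    (2 : ℝ) ^ Fintype.card V₂ * prtCnt C₁.s C₁.t (prtGR C₁ YR₁ ER₁ τ₁) = 2 ^ Fintype.card V₁ * prtCnt C₂.s C₂.t (prtGR C₂ YR₂ ER₂ τ₂) := by
  have h := prt_sum_exch (prtEx (γ := Bool) R₁ R₂ fV gV) (prt_ex_invol iso.bV)
    (fun W₁ => if PrtResp C₁.s C₁.t (prtGR C₁ YR₁ ER₁ τ₁) W₁ then (1 : ℝ) else 0)
    (fun W₂ => if PrtResp C₂.s C₂.t (prtGR C₂ YR₂ ER₂ τ₂) W₂ then (1 : ℝ) else 0) (fun p => by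
      refine if_congr (prt_resp_iso iso hτ fun v hv => ?_) rfl rfl
      simp [prtEx, hv])
  rw [prt_cnt_sum, prt_cnt_sum] at h
  simpa using h

/-- pins are transported -/
theorem prt_pin_iso {α β γ : Type*} {S₁ : Finset α} {S₂ : Finset β} {f : α → β} {g : β → α} (hb : PrtBij S₁ S₂ f g)
    {p₁ : α → Option γ} {p₂ : β → Option γ} (hp : ∀ a ∈ S₁, p₁ a = p₂ (f a)) {x₁ : α → γ} {x₂ : β → γ}
    (hx : ∀ a ∈ S₁, x₁ a = x₂ (f a)) :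
    (∀ a ∈ S₁, ∀ c, p₁ a = some c → x₁ a = c) ↔ (∀ b ∈ S₂, ∀ c, p₂ b = some c → x₂ b = c) := by
  constructor
  · intro H b hb' c hc
    have h1 := H (g b) (hb.g_mem b hb') c (by rw [hp _ (hb.g_mem b hb'), hb.fg b hb']; exact hc)
    rw [hx _ (hb.g_mem b hb'), hb.fg b hb'] at h1
    exact h1
  · intro H a ha c hc
    rw [hx a ha]
    exact H (f a) (hb.f_mem a ha) c (by rw [← hp a ha]; exact hc)

/-- **the retained weights of two ambient systems agree** -/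
theorem prt_WR_iso (iso : PrtIso C₁ C₂ R₁ YR₁ ER₁ R₂ YR₂ ER₂ fV gV fY gY) {h₁ : CsHist V₁ ι₁ Y₁} {h₂ : CsHist V₂ ι₂ Y₂}
    (hpB : ∀ v ∈ R₁, h₁.pB v = h₂.pB (fV v)) (hpT : ∀ y ∈ YR₁, h₁.pT y = h₂.pT (fY y)) {ω₁ : CsOm V₁ Y₁} {ω₂ : CsOm V₂ Y₂}
    (hc : PrtCor R₁ YR₁ fV fY ω₁ ω₂) :
    (2 : ℝ) ^ Fintype.card V₂ * prtWR C₁ h₁ R₁ YR₁ ER₁ ω₁ = 2 ^ Fintype.card V₁ * prtWR C₂ h₂ R₂ YR₂ ER₂ ω₂ := by
  classical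
  unfold prtWR
  have e1 := prt_pin_iso iso.bV hpB hc.1
  have e2 := prt_pin_iso iso.bY hpT hc.2
  simp only [e1, e2]
  split_ifs with hok
  swap
  · simp
  have k : ∏ y ∈ YR₁, C₁.kf ω₁.1 y (ω₁.2 y) = ∏ y ∈ YR₂, C₂.kf ω₂.1 y (ω₂.2 y) := by
    refine prod_nbij' fY gY iso.bY.f_mem iso.bY.g_mem iso.bY.gf iso.bY.fg fun y hy => ?_
    rw [hc.2 y hy]
    exact prt_kf_iso iso hc.1 hy _
  rw [k]
  have n := prt_cnt_iso iso hc.2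
  calc _ = (∏ y ∈ YR₂, C₂.kf ω₂.1 y (ω₂.2 y)) * ((2 : ℝ) ^ Fintype.card V₂ * prtCnt C₁.s C₁.t (prtGR C₁ YR₁ ER₁ ω₁.2)) := by ring
    _ = _ := by rw [n]; ring

/-- exchange of the retained parts of two configurations -/
def prtExO (R₁ : Finset V₁) (YR₁ : Finset Y₁) (R₂ : Finset V₂) (YR₂ : Finset Y₂) (fV : V₁ → V₂) (gV : V₂ → V₁) (fY : Y₁ → Y₂)
    (gY : Y₂ → Y₁) (p : CsOm V₁ Y₁ × CsOm V₂ Y₂) : CsOm V₁ Y₁ × CsOm V₂ Y₂ :=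
  (((prtEx R₁ R₂ fV gV (p.1.1, p.2.1)).1, (prtEx YR₁ YR₂ fY gY (p.1.2, p.2.2)).1),
   ((prtEx R₁ R₂ fV gV (p.1.1, p.2.1)).2, (prtEx YR₁ YR₂ fY gY (p.1.2, p.2.2)).2))

theorem prt_exO_eqns_cite : True := by
  have := @prtExO.eq_1.{0, 0, 0, 0}
  trivial

theorem prt_exO_invol (hV : PrtBij R₁ R₂ fV gV) (hY : PrtBij YR₁ YR₂ fY gY) :
    Function.Involutive (prtExO R₁ YR₁ R₂ YR₂ fV gV fY gY) := by
  intro p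
  have a := prt_ex_invol (γ := Bool) hV (p.1.1, p.2.1)
  have b := prt_ex_invol (γ := SignType) hY (p.1.2, p.2.2)
  unfold prtExO
  simp only [Prod.mk.eta, a, b]

theorem prt_exO_cor (p : CsOm V₁ Y₁ × CsOm V₂ Y₂) : PrtCor R₁ YR₁ fV fY (prtExO R₁ YR₁ R₂ YR₂ fV gV fY gY p).1 p.2 :=
  ⟨fun v hv => by simp [prtExO, prtEx, hv], fun y hy => by simp [prtExO, prtEx, hy]⟩

/-- **the retained sums of two ambient systems agree** -/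
theorem prt_sum_WR_iso (iso : PrtIso C₁ C₂ R₁ YR₁ ER₁ R₂ YR₂ ER₂ fV gV fY gY) {h₁ : CsHist V₁ ι₁ Y₁} {h₂ : CsHist V₂ ι₂ Y₂}
    (hpB : ∀ v ∈ R₁, h₁.pB v = h₂.pB (fV v)) (hpT : ∀ y ∈ YR₁, h₁.pT y = h₂.pT (fY y)) {F₁ : CsOm V₁ Y₁ → ℝ} {F₂ : CsOm V₂ Y₂ → ℝ}
    (hFF : ∀ ω₁ ω₂, PrtCor R₁ YR₁ fV fY ω₁ ω₂ → F₁ ω₁ = F₂ ω₂) :
    ((Fintype.card (CsOm V₂ Y₂) : ℝ) * 2 ^ Fintype.card V₂) * ∑ ω, prtWR C₁ h₁ R₁ YR₁ ER₁ ω * F₁ ω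
      = ((Fintype.card (CsOm V₁ Y₁) : ℝ) * 2 ^ Fintype.card V₁) * ∑ ω, prtWR C₂ h₂ R₂ YR₂ ER₂ ω * F₂ ω := by
  have h := prt_sum_exch (prtExO R₁ YR₁ R₂ YR₂ fV gV fY gY) (prt_exO_invol iso.bV iso.bY)
    (fun ω => (2 : ℝ) ^ Fintype.card V₂ * prtWR C₁ h₁ R₁ YR₁ ER₁ ω * F₁ ω)
    (fun ω => (2 : ℝ) ^ Fintype.card V₁ * prtWR C₂ h₂ R₂ YR₂ ER₂ ω * F₂ ω) (fun p => by
      rw [prt_WR_iso iso hpB hpT (prt_exO_cor p), hFF _ _ (prt_exO_cor p)])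
  simp only [mul_assoc, ← mul_sum] at h ⊢
  exact h

/-- the algebra of the comparison -/
theorem prt_cross_alg {c₁ c₂ X₁ X₂ Z₁ Z₂ SF₁ SF₂ S₁ S₂ A₁ A₂ M₁ M₂ : ℝ} (hc₁ : 0 < c₁) (hc₂ : 0 < c₂) (hX₁ : 0 ≤ X₁) (hZ₂ : 0 ≤ Z₂)
    (hSF₁ : 0 ≤ SF₁) (hSF₂ : 0 ≤ SF₂) (hS₁ : 0 ≤ S₁) (hS₂ : 0 ≤ S₂) (hA₁ : 0 ≤ A₁) (hA₂ : 0 ≤ A₂) (hM₁ : 0 ≤ M₁) (hM₂ : 0 ≤ M₂)
    (a1 : c₁ * X₁ ≤ M₁ * (SF₁ * A₁)) (b2 : c₂ * Z₂ ≤ M₂ * (S₂ * A₂)) (b1 : S₁ * A₁ ≤ c₁ * Z₁) (a2 : SF₂ * A₂ ≤ c₂ * X₂)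
    (e1 : c₂ * SF₁ = c₁ * SF₂) (e2 : c₂ * S₁ = c₁ * S₂) : X₁ * Z₂ ≤ M₁ * M₂ * (Z₁ * X₂) := by
  have hx : SF₁ * S₂ = SF₂ * S₁ := by
    have : (c₁ * c₂) * (SF₁ * S₂) = (c₁ * c₂) * (SF₂ * S₁) := by
      calc (c₁ * c₂) * (SF₁ * S₂) = (c₂ * SF₁) * (c₁ * S₂) := by ring
        _ = (c₁ * SF₂) * (c₂ * S₁) := by rw [e1, e2]
        _ = _ := by ring
    exact mul_left_cancel₀ (mul_pos hc₁ hc₂).ne' this
  have key : (c₁ * X₁) * (c₂ * Z₂) ≤ M₁ * M₂ * ((c₁ * Z₁) * (c₂ * X₂)) := by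
    calc (c₁ * X₁) * (c₂ * Z₂) ≤ (M₁ * (SF₁ * A₁)) * (M₂ * (S₂ * A₂)) :=
          mul_le_mul a1 b2 (mul_nonneg hc₂.le hZ₂) (mul_nonneg hM₁ (mul_nonneg hSF₁ hA₁))
      _ = M₁ * M₂ * ((SF₁ * S₂) * (A₁ * A₂)) := by ring
      _ = M₁ * M₂ * ((S₁ * A₁) * (SF₂ * A₂)) := by rw [hx]; ring
      _ ≤ M₁ * M₂ * ((c₁ * Z₁) * (c₂ * X₂)) :=
          mul_le_mul_of_nonneg_left (mul_le_mul b1 a2 (mul_nonneg hSF₂ hA₂) ((mul_nonneg hS₁ hA₁).trans b1)) (mul_nonneg hM₁ hM₂)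
  refine le_of_mul_le_mul_left ?_ (mul_pos hc₁ hc₂)
  calc c₁ * c₂ * (X₁ * Z₂) = (c₁ * X₁) * (c₂ * Z₂) := by ring
    _ ≤ _ := key
    _ = _ := by ring

/-- retained measurability follows from the correspondence -/
theorem prt_loc_of_cor (hV : PrtBij R₁ R₂ fV gV) (hY : PrtBij YR₁ YR₂ fY gY) {F₁ : CsOm V₁ Y₁ → ℝ} {F₂ : CsOm V₂ Y₂ → ℝ}
    (hFF : ∀ ω₁ ω₂, PrtCor R₁ YR₁ fV fY ω₁ ω₂ → F₁ ω₁ = F₂ ω₂) : PrtLoc R₁ YR₁ F₁ ∧ PrtLoc R₂ YR₂ F₂ := by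
  constructor
  · intro ω ω' h1 h2
    have c : PrtCor R₁ YR₁ fV fY ω (fun w => ω.1 (gV w), fun y => ω.2 (gY y)) :=
      ⟨fun v hv => by simp [hV.gf v hv], fun y hy => by simp [hY.gf y hy]⟩
    have c' : PrtCor R₁ YR₁ fV fY ω' (fun w => ω.1 (gV w), fun y => ω.2 (gY y)) :=
      ⟨fun v hv => by simp [hV.gf v hv, h1 v hv], fun y hy => by simp [hY.gf y hy, h2 y hy]⟩
    rw [hFF _ _ c, hFF _ _ c']
  · intro ω ω' h1 h2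
    have c : PrtCor R₁ YR₁ fV fY (fun v => ω.1 (fV v), fun y => ω.2 (fY y)) ω := ⟨fun _ _ => rfl, fun _ _ => rfl⟩
    have c' : PrtCor R₁ YR₁ fV fY (fun v => ω.1 (fV v), fun y => ω.2 (fY y)) ω' :=
      ⟨fun v hv => h1 _ (hV.f_mem v hv), fun y hy => h2 _ (hY.f_mem y hy)⟩
    rw [← hFF _ _ c, ← hFF _ _ c']

/-- **Lemma `annulus:ports`, cross-ambient** (cross multiplied): two histories of two cell systems with identified retained parts. -/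
theorem prt_ports_x (hC₁ : C₁.Ok) (hC₂ : C₂.Ok) (iso : PrtIso C₁ C₂ R₁ YR₁ ER₁ R₂ YR₂ ER₂ fV gV fY gY) {h₁ : CsHist V₁ ι₁ Y₁}
    {h₂ : CsHist V₂ ι₂ Y₂} {P₁ : Finset V₁} {P₂ : Finset V₂} (hs₁ : PrtSplit C₁ h₁ R₁ YR₁ ER₁ P₁) (hs₂ : PrtSplit C₂ h₂ R₂ YR₂ ER₂ P₂)
    (hpB : ∀ v ∈ R₁, h₁.pB v = h₂.pB (fV v)) (hpT : ∀ y ∈ YR₁, h₁.pT y = h₂.pT (fY y)) {F₁ : CsOm V₁ Y₁ → ℝ} {F₂ : CsOm V₂ Y₂ → ℝ}
    (hF₁ : ∀ ω, 0 ≤ F₁ ω) (hF₂ : ∀ ω, 0 ≤ F₂ ω) (hFF : ∀ ω₁ ω₂, PrtCor R₁ YR₁ fV fY ω₁ ω₂ → F₁ ω₁ = F₂ ω₂) :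
    (∑ ω, C₁.wt h₁ ω * F₁ ω) * C₂.Zh h₂ ≤ 2 ^ (P₁.card - 1) * 2 ^ (P₂.card - 1) * (C₁.Zh h₁ * ∑ ω, C₂.wt h₂ ω * F₂ ω) ∧
    (∑ ω, C₂.wt h₂ ω * F₂ ω) * C₁.Zh h₁ ≤ 2 ^ (P₂.card - 1) * 2 ^ (P₁.card - 1) * (C₂.Zh h₂ * ∑ ω, C₁.wt h₁ ω * F₁ ω) := by
  obtain ⟨l1, l2⟩ := prt_loc_of_cor iso.bV iso.bY hFF
  have a1 := prt_core hC₁ hs₁ hF₁ l1
  have a2 := prt_core hC₂ hs₂ hF₂ l2
  have b1 := prt_core hC₁ hs₁ (F := fun _ => 1) (fun _ => zero_le_one) (fun _ _ _ _ => rfl)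
  have b2 := prt_core hC₂ hs₂ (F := fun _ => 1) (fun _ => zero_le_one) (fun _ _ _ _ => rfl)
  have e1 := prt_sum_WR_iso iso hpB hpT hFF
  have e2 := prt_sum_WR_iso iso hpB hpT (F₁ := fun _ => 1) (F₂ := fun _ => 1) (fun _ _ _ => rfl)
  simp only [mul_one] at b1 b2 e2
  have n1 : ∀ (F : CsOm V₁ Y₁ → ℝ), (∀ ω, 0 ≤ F ω) → 0 ≤ ∑ ω, C₁.wt h₁ ω * F ω := fun F hF =>
    sum_nonneg fun ω _ => mul_nonneg (prt_wt_nonneg hC₁ h₁ ω) (hF ω)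
  have n2 : ∀ (F : CsOm V₂ Y₂ → ℝ), (∀ ω, 0 ≤ F ω) → 0 ≤ ∑ ω, C₂.wt h₂ ω * F ω := fun F hF =>
    sum_nonneg fun ω _ => mul_nonneg (prt_wt_nonneg hC₂ h₂ ω) (hF ω)
  have z1 : 0 ≤ ∑ ω, C₁.wt h₁ ω := sum_nonneg fun ω _ => prt_wt_nonneg hC₁ h₁ ω
  have z2 : 0 ≤ ∑ ω, C₂.wt h₂ ω := sum_nonneg fun ω _ => prt_wt_nonneg hC₂ h₂ ω
  have r1 : ∀ (F : CsOm V₁ Y₁ → ℝ), (∀ ω, 0 ≤ F ω) → 0 ≤ ∑ ω, prtWR C₁ h₁ R₁ YR₁ ER₁ ω * F ω := fun F hF =>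
    sum_nonneg fun ω _ => mul_nonneg (prt_WR_nonneg hC₁ ω) (hF ω)
  have r2 : ∀ (F : CsOm V₂ Y₂ → ℝ), (∀ ω, 0 ≤ F ω) → 0 ≤ ∑ ω, prtWR C₂ h₂ R₂ YR₂ ER₂ ω * F ω := fun F hF =>
    sum_nonneg fun ω _ => mul_nonneg (prt_WR_nonneg hC₂ ω) (hF ω)
  have s1 : 0 ≤ ∑ ω, prtWR C₁ h₁ R₁ YR₁ ER₁ ω := sum_nonneg fun ω _ => prt_WR_nonneg hC₁ ω
  have s2 : 0 ≤ ∑ ω, prtWR C₂ h₂ R₂ YR₂ ER₂ ω := sum_nonneg fun ω _ => prt_WR_nonneg hC₂ ω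
  have x1 : 0 ≤ ∑ ω, prtWX C₁ h₁ R₁ YR₁ ER₁ ω := sum_nonneg fun ω _ => prt_WX_nonneg hC₁ ω
  have x2 : 0 ≤ ∑ ω, prtWX C₂ h₂ R₂ YR₂ ER₂ ω := sum_nonneg fun ω _ => prt_WX_nonneg hC₂ ω
  unfold CellSys.Zh
  constructor
  · exact prt_cross_alg prt_card_pos prt_card_pos (n1 _ hF₁) z2 (r1 _ hF₁) (r2 _ hF₂) s1 s2 x1 x2 (by positivity) (by positivity)
      a1.2 b2.2 b1.1 a2.1 e1 e2
  · exact prt_cross_alg prt_card_pos prt_card_pos (n2 _ hF₂) z1 (r2 _ hF₂) (r1 _ hF₁) s2 s1 x2 x1 (by positivity) (by positivity)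
      a2.2 b1.2 b2.1 a1.1 e1.symm e2.symm

/-- normalisation -/
theorem prt_norm {X₁ X₂ Z₁ Z₂ M : ℝ} (hZ₁ : 0 ≤ Z₁) (hZ₂ : 0 < Z₂) (hX₂ : 0 ≤ X₂) (hM : 0 ≤ M) (h : X₁ * Z₂ ≤ M * (Z₁ * X₂)) :
    X₁ / Z₁ ≤ M * (X₂ / Z₂) := by
  rcases hZ₁.eq_or_lt with h0 | hpos
  · rw [← h0, div_zero]
    exact mul_nonneg hM (div_nonneg hX₂ hZ₂.le)
  · rw [← mul_div_assoc, div_le_div_iff₀ hpos hZ₂]
    calc _ ≤ _ := h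
      _ = _ := by ring

/-- **Lemma `annulus:ports`, cross-ambient**, normalised -/
theorem prt_Ex_ports_x (hC₁ : C₁.Ok) (hC₂ : C₂.Ok) (iso : PrtIso C₁ C₂ R₁ YR₁ ER₁ R₂ YR₂ ER₂ fV gV fY gY) {h₁ : CsHist V₁ ι₁ Y₁}
    {h₂ : CsHist V₂ ι₂ Y₂} {P₁ : Finset V₁} {P₂ : Finset V₂} (hs₁ : PrtSplit C₁ h₁ R₁ YR₁ ER₁ P₁) (hs₂ : PrtSplit C₂ h₂ R₂ YR₂ ER₂ P₂)
    (hpB : ∀ v ∈ R₁, h₁.pB v = h₂.pB (fV v)) (hpT : ∀ y ∈ YR₁, h₁.pT y = h₂.pT (fY y)) {F₁ : CsOm V₁ Y₁ → ℝ} {F₂ : CsOm V₂ Y₂ → ℝ}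
    (hF₁ : ∀ ω, 0 ≤ F₁ ω) (hF₂ : ∀ ω, 0 ≤ F₂ ω) (hFF : ∀ ω₁ ω₂, PrtCor R₁ YR₁ fV fY ω₁ ω₂ → F₁ ω₁ = F₂ ω₂) :
    (0 < C₂.Zh h₂ → C₁.Ex h₁ F₁ ≤ 2 ^ (P₁.card - 1) * 2 ^ (P₂.card - 1) * C₂.Ex h₂ F₂) ∧
    (0 < C₁.Zh h₁ → C₂.Ex h₂ F₂ ≤ 2 ^ (P₂.card - 1) * 2 ^ (P₁.card - 1) * C₁.Ex h₁ F₁) := by
  obtain ⟨k1, k2⟩ := prt_ports_x hC₁ hC₂ iso hs₁ hs₂ hpB hpT hF₁ hF₂ hFF
  have z1 : 0 ≤ C₁.Zh h₁ := sum_nonneg fun ω _ => prt_wt_nonneg hC₁ h₁ ω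
  have z2 : 0 ≤ C₂.Zh h₂ := sum_nonneg fun ω _ => prt_wt_nonneg hC₂ h₂ ω
  have n1 : 0 ≤ ∑ ω, C₁.wt h₁ ω * F₁ ω := sum_nonneg fun ω _ => mul_nonneg (prt_wt_nonneg hC₁ h₁ ω) (hF₁ ω)
  have n2 : 0 ≤ ∑ ω, C₂.wt h₂ ω * F₂ ω := sum_nonneg fun ω _ => mul_nonneg (prt_wt_nonneg hC₂ h₂ ω) (hF₂ ω)
  exact ⟨fun hZ => prt_norm z1 hZ n2 (by positivity) k1, fun hZ => prt_norm z2 hZ n1 (by positivity) k2⟩

/-- a closed system has no ports -/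
theorem prt_split_closed (C : CellSys V₁ ι₁ Y₁) (h : CsHist V₁ ι₁ Y₁) : PrtSplit C h univ univ h.E0 ∅ where
  cellR := fun _ _ => ⟨mem_univ _, mem_univ _⟩
  pinX := fun e he => absurd (mem_univ _) he
  portC := fun e he => absurd (mem_univ _) he
  eqR := Subset.refl _
  eqR_in := fun _ _ => ⟨mem_univ _, mem_univ _⟩
  portE := fun e he hne => absurd he hne

/-- the exterior weight of a closed system -/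
theorem prt_WX_closed (C : CellSys V₁ ι₁ Y₁) (h : CsHist V₁ ι₁ Y₁) (ω : CsOm V₁ Y₁) : 0 < prtWX C h univ univ h.E0 ω := by
  classical
  unfold prtWX
  rw [if_pos ⟨fun v hv => absurd (mem_univ v) hv, fun y hy => absurd (mem_univ y) hy⟩]
  simp only [compl_univ, prod_empty, one_mul]
  exact_mod_cast prt_cnt_pos _ _ _

/-- feasibility goes from the ambient system to every system with the same retained data and a feasible exterior -/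
theorem prt_feas_x (hC₁ : C₁.Ok) (hC₂ : C₂.Ok) (iso : PrtIso C₁ C₂ R₁ YR₁ ER₁ R₂ YR₂ ER₂ fV gV fY gY) {h₁ : CsHist V₁ ι₁ Y₁}
    {h₂ : CsHist V₂ ι₂ Y₂} {P₁ : Finset V₁} {P₂ : Finset V₂} (hs₁ : PrtSplit C₁ h₁ R₁ YR₁ ER₁ P₁) (hs₂ : PrtSplit C₂ h₂ R₂ YR₂ ER₂ P₂)
    (hpB : ∀ v ∈ R₁, h₁.pB v = h₂.pB (fV v)) (hpT : ∀ y ∈ YR₁, h₁.pT y = h₂.pT (fY y)) (hZ : 0 < C₁.Zh h₁)
    (hX : 0 < ∑ ω, prtWX C₂ h₂ R₂ YR₂ ER₂ ω) : 0 < C₂.Zh h₂ := by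
  have b1 := (prt_core hC₁ hs₁ (F := fun _ => 1) (fun _ => zero_le_one) (fun _ _ _ _ => rfl)).2
  have b2 := (prt_core hC₂ hs₂ (F := fun _ => 1) (fun _ => zero_le_one) (fun _ _ _ _ => rfl)).1
  have e2 := prt_sum_WR_iso iso hpB hpT (F₁ := fun _ => 1) (F₂ := fun _ => 1) (fun _ _ _ => rfl)
  simp only [mul_one] at b1 b2 e2
  have s1 : 0 ≤ ∑ ω, prtWR C₁ h₁ R₁ YR₁ ER₁ ω := sum_nonneg fun ω _ => prt_WR_nonneg hC₁ ω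
  have s2 : 0 ≤ ∑ ω, prtWR C₂ h₂ R₂ YR₂ ER₂ ω := sum_nonneg fun ω _ => prt_WR_nonneg hC₂ ω
  have c1 : (0 : ℝ) < (Fintype.card (CsOm V₁ Y₁) : ℝ) * 2 ^ Fintype.card V₁ := prt_card_pos
  have c2 : (0 : ℝ) < (Fintype.card (CsOm V₂ Y₂) : ℝ) * 2 ^ Fintype.card V₂ := prt_card_pos
  have p1 : 0 < ∑ ω, prtWR C₁ h₁ R₁ YR₁ ER₁ ω := by
    rcases s1.eq_or_lt with h0 | h
    · rw [← h0, zero_mul, mul_zero] at b1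
      exact absurd b1 (not_le.2 (mul_pos c1 hZ))
    · exact h
  have p2 : 0 < ∑ ω, prtWR C₂ h₂ R₂ YR₂ ER₂ ω := by
    rcases s2.eq_or_lt with h0 | h
    · rw [← h0, mul_zero] at e2
      exact absurd e2 (mul_pos c2 p1).ne'
    · exact h
  have : 0 < ((Fintype.card (CsOm V₂ Y₂) : ℝ) * 2 ^ Fintype.card V₂) * ∑ ω, C₂.wt h₂ ω := lt_of_lt_of_le (mul_pos p2 hX) b2
  exact (pos_iff_pos_of_mul_pos this).1 c2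

/-- **`gl_ports_ext`**: an ambient history against the CLOSED system on the retained part -/
theorem prt_Ex_ports_closed (hC₁ : C₁.Ok) (hC₂ : C₂.Ok) {h₁ : CsHist V₁ ι₁ Y₁} {h₂ : CsHist V₂ ι₂ Y₂}
    (iso : PrtIso C₁ C₂ R₁ YR₁ ER₁ univ univ h₂.E0 fV gV fY gY) {P₁ : Finset V₁} (hs₁ : PrtSplit C₁ h₁ R₁ YR₁ ER₁ P₁)
    (hpB : ∀ v ∈ R₁, h₁.pB v = h₂.pB (fV v)) (hpT : ∀ y ∈ YR₁, h₁.pT y = h₂.pT (fY y)) {F₁ : CsOm V₁ Y₁ → ℝ} {F₂ : CsOm V₂ Y₂ → ℝ}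
    (hF₁ : ∀ ω, 0 ≤ F₁ ω) (hF₂ : ∀ ω, 0 ≤ F₂ ω) (hFF : ∀ ω₁ ω₂, PrtCor R₁ YR₁ fV fY ω₁ ω₂ → F₁ ω₁ = F₂ ω₂) (hZ : 0 < C₁.Zh h₁) :
    0 < C₂.Zh h₂ ∧ C₁.Ex h₁ F₁ ≤ 2 ^ (P₁.card - 1) * C₂.Ex h₂ F₂ ∧ C₂.Ex h₂ F₂ ≤ 2 ^ (P₁.card - 1) * C₁.Ex h₁ F₁ := by
  have hs₂ := prt_split_closed C₂ h₂
  have hZ₂ : 0 < C₂.Zh h₂ := prt_feas_x hC₁ hC₂ iso hs₁ hs₂ hpB hpT hZ
    (sum_pos (fun ω _ => prt_WX_closed C₂ h₂ ω) ⟨(fun _ => false, fun _ => 0), mem_univ _⟩)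
  obtain ⟨k1, k2⟩ := prt_Ex_ports_x hC₁ hC₂ iso hs₁ hs₂ hpB hpT hF₁ hF₂ hFF
  refine ⟨hZ₂, ?_, ?_⟩
  · simpa using k1 hZ₂
  · simpa using k2 hZ

end Cross

end Claimed.Agent.R291
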