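import Claimed.Agent.R291.Ann.Model
import Claimed.Agent.R291.Dis.Buffer
import Claimed.Agent.R291.Ann.Basic

/-!
# Row 291 (S0539), Ann/RenAbs : A5 RENORMALISATION, THE ABSTRACT KIT (block B1)      (owner helper12; prefix `rn` / `Rn`)

ONLY DELIVERABLE OF A5 = (REC) = `exit_ann_ren_U`.   Blocks: B1 this file (12), B2 `Ann/RenPush` (92), B3 `Ann/RenSep` (264), B4 `Ann/RenRec` (12), B5 `Ann/RenHP` (278), B6 corridor (144).

LANGUAGE.   `S` = an ambient disk (in the plane `clAmb x V`, `V` a huge box).   A DOMAIN is any finite `I ⊆ S.A`; its law `P^s_I( . | K)` is the cut law `cuE S s I (K.Holds S)`.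
Everything is written UNNORMALISED, so that no feasibility hypothesis is ever needed:
* `rnC S s I K`   the constraint (`B = s` on the layer of `I`, history `K`);   `rnN S s I K F`, `rnZ S s I K`  the sums;   `cuE S s I (K.Holds S) F = rnN / rnZ` (`rn_cuE_eq`, rfl)
* `RnGe S s I K L p`   :   `p * Z ≤ N(1_L)`   = "`P^s_I(L | K) ≥ p` or `K` is infeasible"
* `RnAll S s Z I L p`  :   `RnGe` for EVERY legal history `K` inside `Z` (no equalities)
* `RnT S s X Z' I ω`   :   `ClSep (S.inn I) s ∅ ω (X ∩ I) Z'`  THE TARGET FAMILY: inside the domain `I` no path of cells which are not `s`-open joins `X` to `Z'`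
* `rnI S s I O J`      :   indicator of "the set invaded from `O` (search of sign `s` in `I`) is `J`";      `rnJ I O T` the possible values of `J` on `Sep(O, T)`
THE KIT.
* `rn_search`, `rn_dec`   search of sign `s` in the law `P^{s'}_I( . | K)`, `K` off the invaded set: the law off `J` is `P^s_{I \ J}( . | K)`  (needs `s' = s` or the layer inside the start set)
* `rn_step`    CHAIN LEMMA:  `RnAll I Sep(N, T) c₁`, and `RnAll (I \ J) (RnT (I \ J)) c₂` for every possible `J`   ⟹   `RnAll I (RnT I) (c₁ c₂)`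
* `rn_final`   UPPER BOUND:  `RnAll I Sep(N, T) c`, `P^s_{I \ J}(A) ≤ q` for every possible `J`, `A` read on the statuses inside `Z`   ⟹   `c P^s_I(A) ≤ q`
* `rn_lower`   LOWER BOUND:  `p ≤ P^s_{I \ J}(A)` for every possible `J`   ⟹   `p P^{s'}_I(Sep_s(N, T)) ≤ P^{s'}_I(A)`
* `rn_fkg`, `rn_split` (two domains without a common cell: product law), `rn_dom_plus`, `rn_dom_minus`, `rn_ge_mono`, `rn_ge_one`
PLANAR PART.   `RnPlGe`, `RnPlAll` = the same predicates written on `clInn x D`, `amLay D`;   bridge `rn_pl_all`;   THE TWO INPUTS `RnHP x` (B5, from CYL) and `RnCor x` (B6, from A1).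
-/

set_option autoImplicit false
set_option linter.unusedSectionVars false
set_option linter.unusedVariables false
set_option linter.unusedSimpArgs false

namespace Claimed.Agent.R291

open Claims Claims.C0467 Relation

section abstract

variable {V Y : Type} [DecidableEq V] [DecidableEq Y]

/-! ### 1. vocabulary -/

/-- the constraint of the cut law `P^s_I( . | K)` -/
def rnC (S : ClSys V Y) (s : Bool) (I : Finset V) (K : ClCon V Y) (ω : ClCfg V Y) : Prop :=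
  CuPin s (cuLay S I) ω ∧ K.Holds S ω

/-- unnormalised expectation under `P^s_I( . | K)` -/
noncomputable def rnN (S : ClSys V Y) (s : Bool) (I : Finset V) (K : ClCon V Y) (F : ClCfg V Y → ℝ) : ℝ :=
  (S.inn I).N (rnC S s I K) F

/-- partition function of `P^s_I( . | K)` -/
noncomputable def rnZ (S : ClSys V Y) (s : Bool) (I : Finset V) (K : ClCon V Y) : ℝ := (S.inn I).Z (rnC S s I K)

/-- `P^s_I(L | K) ≥ p`, unnormalised (true if `K` is infeasible) -/
def RnGe (S : ClSys V Y) (s : Bool) (I : Finset V) (K : ClCon V Y) (L : ClCfg V Y → Prop) (p : ℝ) : Prop :=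
  p * rnZ S s I K ≤ rnN S s I K (clInd L)

/-- `P^s_I(L | K) ≥ p` for every legal history `K` inside `Z` -/
def RnAll (S : ClSys V Y) (s : Bool) (Z I : Finset V) (L : ClCfg V Y → Prop) (p : ℝ) : Prop :=
  ∀ K : ClCon V Y, ClLegal S K → K.In S Z → K.Eq = ∅ → RnGe S s I K L p

/-- the target family -/
def RnT (S : ClSys V Y) (s : Bool) (X Z' I : Finset V) (ω : ClCfg V Y) : Prop := ClSep (S.inn I) s ∅ ω (X ∩ I) Z'

/-- indicator of "the set invaded from `O` is `J`" -/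
noncomputable def rnI (S : ClSys V Y) (s : Bool) (I O J : Finset V) : ClCfg V Y → ℝ :=
  clInd (fun ω => clInv (S.inn I) s ∅ ω O = J)

/-- the possible invaded sets on the event `Sep(O, T)` -/
def rnJ (I O T : Finset V) : Finset (Finset V) := I.powerset.filter (fun J => O ⊆ J ∧ Disjoint J T)

/-- add to a history: the first spin equals `s` on `T` -/
def ClCon.pinS (K : ClCon V Y) (s : Bool) (T : Finset V) : ClCon V Y :=
  if s then { K with Bp := K.Bp ∪ T } else { K with Bm := K.Bm ∪ T }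

theorem rn_cuE_eq (S : ClSys V Y) (s : Bool) (I : Finset V) (K : ClCon V Y) (F : ClCfg V Y → ℝ) :
    cuE S s I (K.Holds S) F = rnN S s I K F / rnZ S s I K := rfl

theorem rn_cuP_eq (S : ClSys V Y) (s : Bool) (I : Finset V) (K : ClCon V Y) (L : ClCfg V Y → Prop) :
    cuP S s I (K.Holds S) L = rnN S s I K (clInd L) / rnZ S s I K := dis_P_eq _ _ _

/-! ### 1b. small API -/

theorem rn_up_inn (S : ClSys V Y) (I : Finset V) (t : Bool) (L : ClCfg V Y → Prop) (h : ClUp (S.inn I) t L) : ClUp S t L := by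
  intro ω ω' hB hτ
  exact h ω ω' hB (fun y hy => hτ y (Finset.mem_filter.1 hy).1)

/-- `Sep_t` computed in a domain is favourable for `t` -/
theorem rn_sep_up (S : ClSys V Y) (I : Finset V) (t : Bool) (O A : Finset V) : ClUp S t (fun ω => ClSep (S.inn I) t ∅ ω O A) :=
  rn_up_inn S I t _ (dis_sep_up (S.inn I) t ∅ O A)

/-- `Sep` computed in a domain reads the statuses of the cells inside the domain only -/
theorem rn_sep_tau (S : ClSys V Y) (I : Finset V) (t : Bool) (O A : Finset V) (ω ω' : ClCfg V Y)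
    (h : ∀ y ∈ S.cin I, clTau S ω y = clTau S ω' y) : ClSep (S.inn I) t ∅ ω O A ↔ ClSep (S.inn I) t ∅ ω' O A := by
  have hstep : clStep (S.inn I) t ∅ ω = clStep (S.inn I) t ∅ ω' := by
    funext u v
    refine propext ?_
    unfold clStep
    constructor
    · rintro (⟨y, hy, hu, hv, hne⟩ | h')
      · refine Or.inl ⟨y, hy, hu, hv, ?_⟩
        have e : clTau (S.inn I) ω' y = clTau (S.inn I) ω y := (h y hy).symm
        rw [e]; exact hne
      · exact Or.inr h'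
    · rintro (⟨y, hy, hu, hv, hne⟩ | h')
      · refine Or.inl ⟨y, hy, hu, hv, ?_⟩
        have e : clTau (S.inn I) ω y = clTau (S.inn I) ω' y := h y hy
        rw [e]; exact hne
      · exact Or.inr h'
  unfold ClSep
  rw [hstep]

theorem rn_sep_loc (S : ClSys V Y) (I : Finset V) (t : Bool) (O A : Finset V) : ClLocP I (S.cin I) (fun ω => ClSep (S.inn I) t ∅ ω O A) := by
  intro ω ω' hB _ hO
  exact rn_sep_tau S I t O A ω ω' (fun y hy => amo_tau_loc S hB hO hy (Finset.mem_filter.1 hy).2)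

/-- a smaller domain has fewer paths -/
theorem rn_sep_dom (S : ClSys V Y) {I I' : Finset V} (h : I ⊆ I') (t : Bool) (O A : Finset V) (ω : ClCfg V Y)
    (hs : ClSep (S.inn I') t ∅ ω O A) : ClSep (S.inn I) t ∅ ω O A := by
  intro u hu v hv hp
  refine hs u hu v hv (ReflTransGen.mono ?_ _ _ hp)
  rintro a b (⟨y, hy, ha, hb, hne⟩ | h')
  · exact Or.inl ⟨y, dde_cin_mono S h hy, ha, hb, hne⟩
  · exact Or.inr h'

theorem rn_sep_symm (S : ClSys V Y) (t : Bool) (O A : Finset V) (ω : ClCfg V Y) (h : ClSep S t ∅ ω O A) : ClSep S t ∅ ω A O := by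
  intro u hu v hv hp
  refine h v hv u hu ?_
  have hsym : Std.Symm (clStep S t ∅ ω) := ⟨by
    rintro a b (⟨y, hy, ha, hb, hne⟩ | h' | h')
    · exact Or.inl ⟨y, hy, hb, ha, hne⟩
    · exact Or.inr (Or.inr h')
    · exact Or.inr (Or.inl h')⟩
  exact ReflTransGen.stdSymm.symm _ _ hp

theorem rn_sep_union (S : ClSys V Y) (t : Bool) (O A A' : Finset V) (ω : ClCfg V Y) (h : ClSep S t ∅ ω O A) (h' : ClSep S t ∅ ω O A') :
    ClSep S t ∅ ω O (A ∪ A') := by
  intro u hu v hv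
  rcases Finset.mem_union.1 hv with hv | hv
  · exact h u hu v hv
  · exact h' u hu v hv

theorem rn_ind_loc {T : Finset V} {T' : Finset Y} {L : ClCfg V Y → Prop} (h : ClLocP T T' L) : ClLoc T T' (clInd L) := by
  intro ω ω' h1 h2 h3
  have := h ω ω' h1 h2 h3
  by_cases hL : L ω
  · rw [dis_ind_pos hL, dis_ind_pos (this.1 hL)]
  · rw [dis_ind_neg hL, dis_ind_neg (fun h' => hL (this.2 h'))]

theorem rn_Z_nonneg (S : ClSys V Y) (hS : ClOk S) (s : Bool) (I : Finset V) (K : ClCon V Y) : 0 ≤ rnZ S s I K :=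
  dis_Z_nonneg _ (am_inn_ok S hS I) _

theorem rnq_free (S : ClSys V Y) (ω : ClCfg V Y) : (clFree : ClCon V Y).Holds S ω := by
  simp [ClCon.Holds, clFree]

/-- the free history is feasible -/
theorem rn_Z_pos (S : ClSys V Y) (hS : ClOk S) (s : Bool) (I : Finset V) : 0 < rnZ S s I clFree := by
  have hS' := am_inn_ok S hS I
  refine anq_Z_pos_wit _ hS' _ (ω := ⟨if s = true then I else ∅, ∅, S.cin I⟩) ?_ ?_ ?_
  · rw [cl_mem_cfgs]
    refine ⟨?_, Finset.empty_subset _, Finset.Subset.refl _⟩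
    cases s
    · exact Finset.empty_subset _
    · exact Finset.Subset.refl _
  · refine ⟨?_, ?_⟩
    · intro v hv
      have hvI : v ∈ I := (Finset.mem_filter.1 hv).1
      cases s <;> simp [hvI]
    · simp [ClCon.Holds, clFree]
  · unfold ClSys.wt
    refine Finset.prod_pos fun y hy => ?_
    have h1 : ClConst (if s = true then I else ∅) ((S.inn I).sv y) := anq_const s I _ (hS'.sub y hy)
    have h2 : y ∈ S.cin I := hy
    unfold clCellW
    rw [if_pos h2, if_pos h1]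
    exact hS'.q0 y hy

theorem rn_ge_iff (S : ClSys V Y) (hS : ClOk S) (s : Bool) (I : Finset V) (K : ClCon V Y) (L : ClCfg V Y → Prop) (p : ℝ) :
    RnGe S s I K L p ↔ (0 < rnZ S s I K → p ≤ cuP S s I (K.Holds S) L) := by
  unfold RnGe
  rw [rn_cuP_eq]
  constructor
  · intro h hZ
    rw [le_div_iff₀ hZ]; exact h
  · intro h
    rcases (rn_Z_nonneg S hS s I K).eq_or_lt with hZ | hZ
    · have : rnN S s I K (clInd L) = 0 := dis_N_zero _ (am_inn_ok S hS I) _ hZ.symm _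
      rw [this, ← hZ, mul_zero]
    · exact (le_div_iff₀ hZ).1 (h hZ)

theorem rn_ge_mono (S : ClSys V Y) (hS : ClOk S) (s : Bool) (I : Finset V) (K : ClCon V Y) {L L' : ClCfg V Y → Prop} {p p' : ℝ}
    (hL : ∀ ω, L ω → L' ω) (hp : p' ≤ p) (h : RnGe S s I K L p) : RnGe S s I K L' p' := by
  unfold RnGe at *
  have h1 : rnN S s I K (clInd L) ≤ rnN S s I K (clInd L') :=
    dis_N_mono _ (am_inn_ok S hS I) _ (fun ω _ _ => dis_ind_mono (hL ω))
  have h2 := mul_le_mul_of_nonneg_right hp (rn_Z_nonneg S hS s I K)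
  linarith

theorem rn_all_mono (S : ClSys V Y) (hS : ClOk S) (s : Bool) {Z Z' : Finset V} (I : Finset V) {L L' : ClCfg V Y → Prop} {p p' : ℝ}
    (hZ : Z' ⊆ Z) (hL : ∀ ω, L ω → L' ω) (hp : p' ≤ p) (h : RnAll S s Z I L p) : RnAll S s Z' I L' p' :=
  fun K h1 h2 h3 => rn_ge_mono S hS s I K hL hp (h K h1 (amo_in_mono S hZ h2) h3)

/-- a sure event -/
theorem rn_all_one (S : ClSys V Y) (s : Bool) (Z I : Finset V) (L : ClCfg V Y → Prop) (hL : ∀ ω, L ω) : RnAll S s Z I L 1 := by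
  intro K _ _ _
  unfold RnGe rnZ rnN
  rw [one_mul, dis_Z_eq]
  refine le_of_eq (dis_N_congr _ _ (fun ω _ _ => (dis_ind_pos (hL ω)).symm))

theorem rn_I_pos {S : ClSys V Y} {s : Bool} {I O J : Finset V} {ω : ClCfg V Y} (h : clInv (S.inn I) s ∅ ω O = J) : rnI S s I O J ω = 1 :=
  dis_ind_pos (L := fun ω => clInv (S.inn I) s ∅ ω O = J) h

theorem rn_I_neg {S : ClSys V Y} {s : Bool} {I O J : Finset V} {ω : ClCfg V Y} (h : clInv (S.inn I) s ∅ ω O ≠ J) : rnI S s I O J ω = 0 :=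
  dis_ind_neg (L := fun ω => clInv (S.inn I) s ∅ ω O = J) h

theorem rn_I_nonneg (S : ClSys V Y) (s : Bool) (I O J : Finset V) (ω : ClCfg V Y) : 0 ≤ rnI S s I O J ω := dis_ind_nonneg _ _

theorem rn_pin_union (s : Bool) (A B : Finset V) (ω : ClCfg V Y) : CuPin s (A ∪ B) ω ↔ CuPin s A ω ∧ CuPin s B ω := by
  unfold CuPin
  constructor
  · intro h
    exact ⟨fun v hv => h v (Finset.mem_union_left _ hv), fun v hv => h v (Finset.mem_union_right _ hv)⟩
  · rintro ⟨h1, h2⟩ v hv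
    rcases Finset.mem_union.1 hv with hv | hv
    · exact h1 v hv
    · exact h2 v hv

theorem rn_holds_pinS (S : ClSys V Y) (K : ClCon V Y) (s : Bool) (T : Finset V) (ω : ClCfg V Y) :
    (K.pinS s T).Holds S ω ↔ CuPin s T ω ∧ K.Holds S ω := by
  cases s
  · simp only [ClCon.pinS, ClCon.Holds, CuPin, Bool.false_eq_true, if_false, Finset.mem_union, iff_false]
    constructor
    · rintro ⟨h1, h2, h3⟩
      exact ⟨fun v hv => h2 v (Or.inr hv), h1, fun v hv => h2 v (Or.inl hv), h3⟩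
    · rintro ⟨h0, h1, h2, h3⟩
      exact ⟨h1, fun v hv => hv.elim (h2 v) (h0 v), h3⟩
  · simp only [ClCon.pinS, ClCon.Holds, CuPin, if_true, iff_true, Finset.union_subset_iff]
    constructor
    · rintro ⟨⟨h1, h0⟩, h3⟩
      exact ⟨h0, h1, h3⟩
    · rintro ⟨h0, h1, h3⟩
      exact ⟨⟨h1, h0⟩, h3⟩

theorem rn_pinS_eq (K : ClCon V Y) (s : Bool) (T : Finset V) : (K.pinS s T).Eq = K.Eq := by
  cases s <;> rfl

theorem rn_cin_inn (S : ClSys V Y) {J I : Finset V} (h : J ⊆ I) : (S.inn I).cin J = S.cin J := by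
  ext y
  rw [am_mem_cin, am_mem_cin, am_inn_C, am_inn_sv, am_mem_cin]
  constructor
  · rintro ⟨⟨h1, _⟩, h3⟩; exact ⟨h1, h3⟩
  · rintro ⟨h1, h3⟩; exact ⟨⟨h1, h3.trans h⟩, h3⟩

/-- the layer of a subdomain: the layer inside the domain, and the part of the layer of the domain -/
theorem rn_lay_sub (S : ClSys V Y) {D I : Finset V} (h : D ⊆ I) : cuLay S D = cuLay (S.inn I) D ∪ (cuLay S I ∩ D) := by
  ext u
  simp only [Finset.mem_union, Finset.mem_inter, am_mem_lay, am_inn_C, am_inn_sv, am_mem_cin]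
  constructor
  · rintro ⟨hu, y, hy, huy, hn⟩
    by_cases hyI : S.sv y ⊆ I
    · exact Or.inl ⟨hu, y, ⟨hy, hyI⟩, huy, hn⟩
    · exact Or.inr ⟨⟨h hu, y, hy, huy, hyI⟩, hu⟩
  · rintro (⟨hu, y, ⟨hy, _⟩, huy, hn⟩ | ⟨⟨_, y, hy, huy, hn⟩, hu⟩)
    · exact ⟨hu, y, hy, huy, hn⟩
    · exact ⟨hu, y, hy, huy, fun h' => hn (h'.trans h)⟩

/-- restriction of a pinned history which lives in `D` -/
theorem rn_res_pinS (S S' : ClSys V Y) (K : ClCon V Y) (s : Bool) (T D : Finset V) (hK : K.In S D) (hc : S'.cin D = S.cin D) (hKe : K.Eq = ∅) :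
    (K.pinS s T).res S' D = K.pinS s (T ∩ D) := by
  obtain ⟨Bp, Bm, Eq, Op, Om, Cl, Wp, Wm⟩ := K
  obtain ⟨h1, h2, _, h4, h5, h6, h7, h8⟩ := hK
  simp only at h1 h2 h4 h5 h6 h7 h8 hKe
  subst hKe
  cases s
  · simp only [ClCon.pinS, ClCon.res, Bool.false_eq_true, if_false, hc, ClCon.mk.injEq]
    refine ⟨Finset.inter_eq_left.2 h1, ?_, by simp, Finset.inter_eq_left.2 h4, Finset.inter_eq_left.2 h5, Finset.inter_eq_left.2 h6,
      Finset.inter_eq_left.2 h7, Finset.inter_eq_left.2 h8⟩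
    rw [Finset.union_inter_distrib_right, Finset.inter_eq_left.2 h2]
  · simp only [ClCon.pinS, ClCon.res, if_true, hc, ClCon.mk.injEq]
    refine ⟨?_, Finset.inter_eq_left.2 h2, by simp, Finset.inter_eq_left.2 h4, Finset.inter_eq_left.2 h5, Finset.inter_eq_left.2 h6,
      Finset.inter_eq_left.2 h7, Finset.inter_eq_left.2 h8⟩
    rw [Finset.union_inter_distrib_right, Finset.inter_eq_left.2 h1]

theorem rn_N_sum (S : ClSys V Y) (K : ClCfg V Y → Prop) {ι : Type*} (T : Finset ι) (f : ι → ClCfg V Y → ℝ) :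
    S.N K (fun ω => ∑ j ∈ T, f j ω) = ∑ j ∈ T, S.N K (f j) := by
  classical
  unfold ClSys.N
  rw [Finset.sum_comm]
  refine Finset.sum_congr rfl fun ω _ => ?_
  split_ifs
  · rw [Finset.mul_sum]
  · simp

/-- the constraint of the cut law as a history of the inner system -/
theorem rn_C_eq (S : ClSys V Y) (s : Bool) (I : Finset V) (K : ClCon V Y) : rnC S s I K = (K.pinS s (cuLay S I)).Holds (S.inn I) := by
  funext ω
  exact propext (rn_holds_pinS (S.inn I) K s (cuLay S I) ω).symm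

/-! ### 2. search -/

/-- **SEARCH** of sign `s` in the law `P^{s'}_I( . | K)` -/
theorem rn_search (S : ClSys V Y) (hS : ClOk S) (s' s : Bool) (I : Finset V) (K : ClCon V Y) (hKe : K.Eq = ∅) (O J : Finset V)
    (hO : O ⊆ J) (hJ : J ⊆ I) (hK : K.In S (I \ J)) (hs : s' = s ∨ cuLay S I ⊆ J) (G F : ClCfg V Y → ℝ)
    (hG : ClLoc J (S.cin J) G) (hF : ClLoc (I \ J) (S.cin (I \ J)) F) :
    rnN S s' I K (fun ω => rnI S s I O J ω * (G ω * F ω)) =
      rnN S s' I K (fun ω => rnI S s I O J ω * G ω) * cuE S s (I \ J) (K.Holds S) F := by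
  classical
  have hS' := am_inn_ok S hS I
  have hD : I \ J ⊆ I := Finset.sdiff_subset
  have key := am_search (S.inn I) hS' s (K.pinS s' (cuLay S I)) (by rw [rn_pinS_eq, hKe]; simp) O J hO hJ G F
    (by rw [rn_cin_inn S hJ]; exact hG) (by rw [am_inn_A, rn_cin_inn S hD]; exact hF)
  rw [rn_pinS_eq, hKe, am_inn_A] at key
  have e1 : (S.inn I).inn (I \ J) = S.inn (I \ J) := am_inn_inn S hD
  have e2 : (fun ω => CuPin s (cuLay (S.inn I) (I \ J)) ω ∧ ((K.pinS s' (cuLay S I)).res (S.inn I) (I \ J)).Holds (S.inn I) ω)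
      = fun ω => CuPin s (cuLay S (I \ J)) ω ∧ K.Holds S ω := by
    funext ω
    refine propext ?_
    rw [rn_res_pinS S (S.inn I) K s' (cuLay S I) (I \ J) hK (rn_cin_inn S hD) hKe, rn_holds_pinS, rn_lay_sub S hD, rn_pin_union]
    have hh : K.Holds (S.inn I) ω ↔ K.Holds S ω := Iff.rfl
    rw [hh]
    rcases hs with rfl | hs
    · tauto
    · have : cuLay S I ∩ (I \ J) = ∅ := by
        ext v
        simp only [Finset.mem_inter, Finset.mem_sdiff, Finset.notMem_empty, iff_false]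
        rintro ⟨h1, _, h3⟩
        exact h3 (hs h1)
      rw [this]
      have t : ∀ b : Bool, CuPin b (∅ : Finset V) ω := fun b v hv => absurd hv (Finset.notMem_empty v)
      have t1 := t s; have t2 := t s'
      tauto
  have e3 : cuE (S.inn I) s (I \ J) (((K.pinS s' (cuLay S I)).res (S.inn I) (I \ J)).Holds (S.inn I)) F = cuE S s (I \ J) (K.Holds S) F := by
    unfold cuE
    rw [e1, e2]
  rw [e3] at key
  unfold rnN
  rw [rn_C_eq]
  have f1 : (fun ω => rnI S s I O J ω * (G ω * F ω)) = fun ω => if clInv (S.inn I) s ∅ ω O = J then G ω * F ω else 0 := by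
    funext ω
    by_cases h : clInv (S.inn I) s ∅ ω O = J
    · rw [if_pos h, rn_I_pos h, one_mul]
    · rw [if_neg h, rn_I_neg h, zero_mul]
  have f2 : (fun ω => rnI S s I O J ω * G ω) = fun ω => if clInv (S.inn I) s ∅ ω O = J then G ω else 0 := by
    funext ω
    by_cases h : clInv (S.inn I) s ∅ ω O = J
    · rw [if_pos h, rn_I_pos h, one_mul]
    · rw [if_neg h, rn_I_neg h, zero_mul]
  rw [f1, f2]
  exact key

theorem rn_mem_J {I O T J : Finset V} : J ∈ rnJ I O T ↔ J ⊆ I ∧ O ⊆ J ∧ Disjoint J T := by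
  unfold rnJ
  rw [Finset.mem_filter, Finset.mem_powerset]

theorem rn_sub_sdiff {I J T : Finset V} (hT : T ⊆ I) (hd : Disjoint J T) : T ⊆ I \ J :=
  fun v hv => Finset.mem_sdiff.2 ⟨hT hv, fun h => Finset.disjoint_left.1 hd h hv⟩

/-- `Sep(O, T)` is an event of the invaded set -/
theorem rn_inv_mem (S : ClSys V Y) (s : Bool) (I O T : Finset V) (hO : O ⊆ I) (hT : T ⊆ I) (ω : ClCfg V Y) :
    ClSep (S.inn I) s ∅ ω O T ↔ clInv (S.inn I) s ∅ ω O ∈ rnJ I O T := by
  rw [rn_mem_J]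
  constructor
  · intro h
    refine ⟨fun v hv => ((dde_mem_inv _ _ _ _ _ _).1 hv).1, fun u hu => (dde_mem_inv _ _ _ _ _ _).2 ⟨hO hu, u, hu, ReflTransGen.refl⟩, ?_⟩
    rw [Finset.disjoint_left]
    intro v hv hvT
    obtain ⟨_, u, hu, hr⟩ := (dde_mem_inv _ _ _ _ _ _).1 hv
    exact h u hu v hvT hr
  · rintro ⟨_, _, hd⟩ u hu v hv hr
    exact Finset.disjoint_left.1 hd ((dde_mem_inv _ _ _ _ _ _).2 ⟨hT hv, u, hu, hr⟩) hv

theorem rn_sum_I (S : ClSys V Y) (s : Bool) (I O T : Finset V) (hO : O ⊆ I) (hT : T ⊆ I) (F : Finset V → ClCfg V Y → ℝ) (ω : ClCfg V Y) :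
    clInd (fun ω => ClSep (S.inn I) s ∅ ω O T) ω * F (clInv (S.inn I) s ∅ ω O) ω = ∑ J ∈ rnJ I O T, rnI S s I O J ω * F J ω := by
  by_cases h : ClSep (S.inn I) s ∅ ω O T
  · rw [dis_ind_pos (L := fun ω => ClSep (S.inn I) s ∅ ω O T) h, one_mul, Finset.sum_eq_single (clInv (S.inn I) s ∅ ω O)]
    · rw [rn_I_pos rfl, one_mul]
    · intro J _ hne
      rw [rn_I_neg (Ne.symm hne), zero_mul]
    · intro hn
      exact absurd ((rn_inv_mem S s I O T hO hT ω).1 h) hn
  · rw [dis_ind_neg (L := fun ω => ClSep (S.inn I) s ∅ ω O T) h, zero_mul]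
    symm
    refine Finset.sum_eq_zero fun J hJ => ?_
    rw [rn_I_neg, zero_mul]
    intro e
    exact h ((rn_inv_mem S s I O T hO hT ω).2 (e ▸ hJ))

theorem rn_sum_sep (S : ClSys V Y) (s' s : Bool) (I : Finset V) (K : ClCon V Y) (O T : Finset V) (hO : O ⊆ I) (hT : T ⊆ I) :
    rnN S s' I K (clInd fun ω => ClSep (S.inn I) s ∅ ω O T) = ∑ J ∈ rnJ I O T, rnN S s' I K (rnI S s I O J) := by
  have e : (clInd fun ω => ClSep (S.inn I) s ∅ ω O T) = fun ω => ∑ J ∈ rnJ I O T, rnI S s I O J ω := by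
    funext ω
    have := rn_sum_I S s I O T hO hT (fun _ _ => 1) ω
    simpa using this
  rw [e]
  unfold rnN
  rw [rn_N_sum]

/-- **DECOMPOSITION** over the invaded set on the event `Sep(O, T)`; the observable may depend on the invaded set -/
theorem rn_dec (S : ClSys V Y) (hS : ClOk S) (s' s : Bool) (I : Finset V) (K : ClCon V Y) (hKe : K.Eq = ∅) (O T : Finset V)
    (hO : O ⊆ I) (hT : T ⊆ I) (hK : K.In S T) (hs : s' = s ∨ cuLay S I ⊆ O) (F : Finset V → ClCfg V Y → ℝ)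
    (hF : ∀ J ∈ rnJ I O T, ClLoc (I \ J) (S.cin (I \ J)) (F J)) :
    rnN S s' I K (fun ω => clInd (fun ω => ClSep (S.inn I) s ∅ ω O T) ω * F (clInv (S.inn I) s ∅ ω O) ω) =
      ∑ J ∈ rnJ I O T, rnN S s' I K (rnI S s I O J) * cuE S s (I \ J) (K.Holds S) (F J) := by
  have e : (fun ω => clInd (fun ω => ClSep (S.inn I) s ∅ ω O T) ω * F (clInv (S.inn I) s ∅ ω O) ω)
      = fun ω => ∑ J ∈ rnJ I O T, rnI S s I O J ω * F J ω := funext (rn_sum_I S s I O T hO hT F)
  rw [e]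
  have e2 : rnN S s' I K (fun ω => ∑ J ∈ rnJ I O T, rnI S s I O J ω * F J ω) = ∑ J ∈ rnJ I O T, rnN S s' I K (fun ω => rnI S s I O J ω * F J ω) := by
    unfold rnN
    rw [rn_N_sum]
  rw [e2]
  refine Finset.sum_congr rfl fun J hJ => ?_
  obtain ⟨hJI, hOJ, hd⟩ := rn_mem_J.1 hJ
  have := rn_search S hS s' s I K hKe O J hOJ hJI (amo_in_mono S (rn_sub_sdiff hT hd) hK) (hs.imp id (fun h => h.trans hOJ))
    (fun _ => 1) (F J) (fun _ _ _ _ _ => rfl) (hF J hJ)
  simpa only [one_mul, mul_one] using this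

/-- an invaded set whose complement is infeasible has probability zero -/
theorem rn_search_zero (S : ClSys V Y) (hS : ClOk S) (s' s : Bool) (I : Finset V) (K : ClCon V Y) (hKe : K.Eq = ∅) (O J : Finset V)
    (hO : O ⊆ J) (hJ : J ⊆ I) (hK : K.In S (I \ J)) (hs : s' = s ∨ cuLay S I ⊆ J) (hz : rnZ S s (I \ J) K = 0) :
    rnN S s' I K (rnI S s I O J) = 0 := by
  have := rn_search S hS s' s I K hKe O J hO hJ hK hs (fun _ => 1) (fun _ => 1) (fun _ _ _ _ _ => rfl) (fun _ _ _ _ _ => rfl)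
  rw [rn_cuE_eq, hz, div_zero, mul_zero] at this
  simpa only [mul_one] using this

theorem rn_NI_nonneg (S : ClSys V Y) (hS : ClOk S) (s' s : Bool) (I : Finset V) (K : ClCon V Y) (O J : Finset V) :
    0 ≤ rnN S s' I K (rnI S s I O J) := dis_N_nonneg _ (am_inn_ok S hS I) _ (rn_I_nonneg S s I O J)

/-- one term of the decomposition, lower bound -/
theorem rn_term_ge (S : ClSys V Y) (hS : ClOk S) (s' s : Bool) (I : Finset V) (K : ClCon V Y) (hKe : K.Eq = ∅) (O J : Finset V)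
    (hO : O ⊆ J) (hJ : J ⊆ I) (hK : K.In S (I \ J)) (hs : s' = s ∨ cuLay S I ⊆ J) (L : ClCfg V Y → Prop) (c : ℝ)
    (h : RnGe S s (I \ J) K L c) :
    c * rnN S s' I K (rnI S s I O J) ≤ rnN S s' I K (rnI S s I O J) * cuE S s (I \ J) (K.Holds S) (clInd L) := by
  rcases (rn_Z_nonneg S hS s (I \ J) K).eq_or_lt with hz | hz
  · rw [rn_search_zero S hS s' s I K hKe O J hO hJ hK hs hz.symm, mul_zero, zero_mul]
  · have h1 : c ≤ cuE S s (I \ J) (K.Holds S) (clInd L) := by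
      rw [rn_cuE_eq, le_div_iff₀ hz]; exact h
    rw [mul_comm]
    exact mul_le_mul_of_nonneg_left h1 (rn_NI_nonneg S hS s' s I K O J)

/-! ### 3. the three chain lemmas -/

/-- membership in the invaded set is invariant under the steps (171) -/
theorem rn_inv_step (S : ClSys V Y) (s : Bool) (I O : Finset V) (ω : ClCfg V Y) (a b : V)
    (h : clStep (S.inn I) s ∅ ω a b) : a ∈ clInv (S.inn I) s ∅ ω O ↔ b ∈ clInv (S.inn I) s ∅ ω O := by
  have hsym : clStep (S.inn I) s ∅ ω b a := by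
    rcases h with ⟨y, hy, ha, hb, ht⟩ | he | he
    · exact Or.inl ⟨y, hy, hb, ha, ht⟩
    · exact Or.inr (Or.inr he)
    · exact Or.inr (Or.inl he)
  have hI : a ∈ I ∧ b ∈ I := by
    rcases h with ⟨y, hy, ha, hb, ht⟩ | he | he
    · have := ((am_mem_cin S I y).1 hy).2
      exact ⟨this ha, this hb⟩
    · simp at he
    · simp at he
  unfold clInv
  simp only [Finset.mem_filter]
  constructor
  · rintro ⟨_, u, hu, huv⟩
    exact ⟨hI.2, u, hu, huv.tail h⟩
  · rintro ⟨_, u, hu, huv⟩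
    exact ⟨hI.1, u, hu, huv.tail hsym⟩

/-- deterministic: on `{Inv = J}` the target in `I \ J` implies the target in `I` -/
theorem rn_T_glue (S : ClSys V Y) (s : Bool) (X Z' I O J : Finset V) (ω : ClCfg V Y) (hJ : clInv (S.inn I) s ∅ ω O = J)
    (hd : Disjoint J Z') (h : RnT S s X Z' (I \ J) ω) : RnT S s X Z' I ω := by
  have hfw : ∀ a b, clStep (S.inn I) s ∅ ω a b → a ∈ J → b ∈ J := by
    intro a b hab ha
    rw [← hJ] at ha ⊢
    rw [dde_mem_inv] at ha ⊢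
    obtain ⟨_, o, ho, hr⟩ := ha
    refine ⟨?_, o, ho, hr.tail hab⟩
    rcases hab with ⟨y, hy, _, hb, _⟩ | h' | h'
    · exact (Finset.mem_filter.1 hy).2 hb
    · simp at h'
    · simp at h'
  intro u hu v hv hp
  have huX := (Finset.mem_inter.1 hu).1
  have huI := (Finset.mem_inter.1 hu).2
  by_cases huJ : u ∈ J
  · have : ∀ w, ReflTransGen (clStep (S.inn I) s ∅ ω) u w → w ∈ J := by
      intro w hw
      induction hw with
      | refl => exact huJ
      | tail _ hbc ih => exact hfw _ _ hbc ih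
    exact Finset.disjoint_left.1 hd (this v hp) hv
  · have key : ∀ w, ReflTransGen (clStep (S.inn I) s ∅ ω) u w → (w ∉ J ∧ ReflTransGen (clStep (S.inn (I \ J)) s ∅ ω) u w) := by
      intro w hw
      induction hw with
      | refl => exact ⟨huJ, ReflTransGen.refl⟩
      | @tail b c _ hbc ih =>
        rcases hbc with ⟨y, hy, hb, hc, hne⟩ | h' | h'
        · have hall : ∀ t ∈ S.sv y, t ∉ J := fun t ht htJ => ih.1 (hfw t b (Or.inl ⟨y, hy, ht, hb, hne⟩) htJ)
          refine ⟨hall c hc, ih.2.tail (Or.inl ⟨y, ?_, hb, hc, hne⟩)⟩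
          have hy' := Finset.mem_filter.1 hy
          exact Finset.mem_filter.2 ⟨hy'.1, fun t ht => Finset.mem_sdiff.2 ⟨hy'.2 ht, hall t ht⟩⟩
        · simp at h'
        · simp at h'
    exact h u (Finset.mem_inter.2 ⟨huX, Finset.mem_sdiff.2 ⟨huI, huJ⟩⟩) v hv (key v hp).2

/-- **CHAIN LEMMA** -/
theorem rn_step (S : ClSys V Y) (hS : ClOk S) (s : Bool) (Z Z' X I N T : Finset V) (hZ : Z ⊆ Z') (hZ' : Z' ⊆ T) (hN : N ⊆ I) (hT : T ⊆ I)
    (c₁ c₂ : ℝ) (h0 : 0 ≤ c₂) (h1 : RnAll S s Z I (fun ω => ClSep (S.inn I) s ∅ ω N T) c₁)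
    (h2 : ∀ J, N ⊆ J → J ⊆ I → Disjoint J T → RnAll S s Z (I \ J) (RnT S s X Z' (I \ J)) c₂) :
    RnAll S s Z I (RnT S s X Z' I) (c₁ * c₂) := by
  intro K hK hKZ hKe
  have hKT : K.In S T := amo_in_mono S (hZ.trans hZ') hKZ
  have hdec := rn_dec S hS s s I K hKe N T hN hT hKT (Or.inl rfl) (fun J => clInd (RnT S s X Z' (I \ J)))
    (fun J _ => rn_ind_loc (rn_sep_loc S (I \ J) s _ _))
  have hsum := rn_sum_sep S s s I K N T hN hT
  have hlow : rnN S s I K (fun ω => clInd (fun ω => ClSep (S.inn I) s ∅ ω N T) ω * clInd (RnT S s X Z' (I \ clInv (S.inn I) s ∅ ω N)) ω)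
      ≤ rnN S s I K (clInd (RnT S s X Z' I)) := by
    refine dis_N_mono _ (am_inn_ok S hS I) _ (fun ω _ _ => ?_)
    by_cases h : ClSep (S.inn I) s ∅ ω N T
    · rw [dis_ind_pos (L := fun ω => ClSep (S.inn I) s ∅ ω N T) h, one_mul]
      refine dis_ind_mono (fun h' => ?_)
      have hd := (rn_mem_J.1 ((rn_inv_mem S s I N T hN hT ω).1 h)).2.2
      exact rn_T_glue S s X Z' I N _ ω rfl (Finset.disjoint_of_subset_right hZ' hd) h'
    · rw [dis_ind_neg (L := fun ω => ClSep (S.inn I) s ∅ ω N T) h, zero_mul]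
      exact dis_ind_nonneg _ _
  have hterm : ∑ J ∈ rnJ I N T, c₂ * rnN S s I K (rnI S s I N J)
      ≤ ∑ J ∈ rnJ I N T, rnN S s I K (rnI S s I N J) * cuE S s (I \ J) (K.Holds S) (clInd (RnT S s X Z' (I \ J))) := by
    refine Finset.sum_le_sum fun J hJ => ?_
    obtain ⟨hJI, hNJ, hd⟩ := rn_mem_J.1 hJ
    exact rn_term_ge S hS s s I K hKe N J hNJ hJI (amo_in_mono S (rn_sub_sdiff hT hd) hKT) (Or.inl rfl) _ c₂
      (h2 J hNJ hJI hd K hK hKZ hKe)
  have h1' := h1 K hK hKZ hKe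
  unfold RnGe at h1' ⊢
  rw [← Finset.mul_sum, ← hsum, ← hdec] at hterm
  have := mul_le_mul_of_nonneg_left h1' h0
  nlinarith

/-- a complete observation of `Z` on top of the boundary condition = the boundary condition and a history inside `Z` -/
theorem rn_ext_eq (s : Bool) (T Z : Finset V) (Q : Finset Y) (K' : ClCon V Y) (hx : ClExt ((clFree : ClCon V Y).pinS s T) K' Z Q) :
    K' = (⟨K'.Bp ∩ Z, K'.Bm ∩ Z, ∅, K'.Op, K'.Om, K'.Cl, ∅, ∅⟩ : ClCon V Y).pinS s T := by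
  obtain ⟨Bp, Bm, Eq, Op, Om, Cl, Wp, Wm⟩ := K'
  obtain ⟨h1, h2, _, _, _, _, _, h8, h9, h10⟩ := hx
  cases s
  · simp only [ClCon.pinS, clFree, Bool.false_eq_true, if_false, Finset.empty_union] at h1 h2 h8 h9 h10 ⊢
    simp only [ClCon.mk.injEq]
    refine ⟨(Finset.inter_eq_left.2 h1.2).symm, ?_, h8, trivial, trivial, trivial, h9, h10⟩
    ext v
    simp only [Finset.mem_union, Finset.mem_inter]
    constructor
    · intro hv
      rcases Finset.mem_union.1 (h2.2 hv) with h | h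
      · exact Or.inr h
      · exact Or.inl ⟨hv, h⟩
    · rintro (h | h)
      · exact h.1
      · exact h2.1 h
  · simp only [ClCon.pinS, clFree, if_true, Finset.empty_union] at h1 h2 h8 h9 h10 ⊢
    simp only [ClCon.mk.injEq]
    refine ⟨?_, (Finset.inter_eq_left.2 h2.2).symm, h8, trivial, trivial, trivial, h9, h10⟩
    ext v
    simp only [Finset.mem_union, Finset.mem_inter]
    constructor
    · intro hv
      rcases Finset.mem_union.1 (h1.2 hv) with h | h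
      · exact Or.inr h
      · exact Or.inl ⟨hv, h⟩
    · rintro (h | h)
      · exact h.1
      · exact h1.1 h

theorem rn_tau_loc (S : ClSys V Y) {Z D : Finset V} (hZ : Z ⊆ D) {A : ClCfg V Y → Prop}
    (hA : ∀ ω ω' : ClCfg V Y, (∀ y ∈ S.cin Z, clTau S ω y = clTau S ω' y) → (A ω ↔ A ω')) : ClLocP D (S.cin D) A := by
  intro ω ω' hB _ hO
  exact hA ω ω' (fun y hy => amo_tau_loc S hB hO (dde_cin_mono S hZ hy) ((Finset.mem_filter.1 hy).2.trans hZ))

/-- `RnAll` under a complete observation of `Z` -/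
theorem rn_prim (S : ClSys V Y) (s : Bool) (Z I : Finset V) (G : ClCfg V Y → Prop) (c : ℝ) (h : RnAll S s Z I G c)
    (K' : ClCon V Y) (hx : ClExt ((clFree : ClCon V Y).pinS s (cuLay S I)) K' Z (S.cin Z)) :
    c * (S.inn I).Z (K'.Holds (S.inn I)) ≤ (S.inn I).N (K'.Holds (S.inn I)) (clInd G) := by
  have e := rn_ext_eq s (cuLay S I) Z (S.cin Z) K' hx
  set K'' : ClCon V Y := ⟨K'.Bp ∩ Z, K'.Bm ∩ Z, ∅, K'.Op, K'.Om, K'.Cl, ∅, ∅⟩ with hK''
  have hop : K'.Op ⊆ S.cin Z := by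
    have := hx.op.2
    have e0 : ((clFree : ClCon V Y).pinS s (cuLay S I)).Op = ∅ := by cases s <;> rfl
    rwa [e0, Finset.empty_union] at this
  have hom : K'.Om ⊆ S.cin Z := by
    have := hx.om.2
    have e0 : ((clFree : ClCon V Y).pinS s (cuLay S I)).Om = ∅ := by cases s <;> rfl
    rwa [e0, Finset.empty_union] at this
  have hcl : K'.Cl ⊆ S.cin Z := by
    have := hx.cl.2
    have e0 : ((clFree : ClCon V Y).pinS s (cuLay S I)).Cl = ∅ := by cases s <;> rfl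
    rwa [e0, Finset.empty_union] at this
  have hleg : ClLegal S K'' := by
    refine ⟨rfl, rfl, ?_, ?_⟩
    · intro y _ hy v hv
      have hyZ : y ∈ S.cin Z := by
        rcases Finset.mem_union.1 hy with hy | hy
        · rcases Finset.mem_union.1 hy with hy | hy
          · exact hop hy
          · exact hom hy
        · exact hcl hy
      have hvZ : v ∈ Z := (Finset.mem_filter.1 hyZ).2 hv
      rcases Finset.mem_union.1 (hx.allP hvZ) with h' | h'
      · exact Finset.mem_union_left _ (Finset.mem_inter.2 ⟨h', hvZ⟩)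
      · exact Finset.mem_union_right _ (Finset.mem_inter.2 ⟨h', hvZ⟩)
    · intro e he
      exact absurd he (Finset.notMem_empty e)
  have hin : K''.In S Z :=
    ⟨Finset.inter_subset_right, Finset.inter_subset_right, fun e he => absurd he (Finset.notMem_empty e), hop, hom, hcl,
      Finset.empty_subset _, Finset.empty_subset _⟩
  have := h K'' hleg hin rfl
  unfold RnGe rnZ rnN at this
  rw [rn_C_eq, ← e] at this
  exact this

/-- conditioning on the complete observation of `Z` -/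
theorem rn_cond (S : ClSys V Y) (hS : ClOk S) (s : Bool) (Z I : Finset V) (hZ : Z ⊆ I) (A G : ClCfg V Y → Prop)
    (hA : ∀ ω ω' : ClCfg V Y, (∀ y ∈ S.cin Z, clTau S ω y = clTau S ω' y) → (A ω ↔ A ω')) (c : ℝ) (h : RnAll S s Z I G c) :
    c * rnN S s I clFree (clInd A) ≤ rnN S s I clFree (clInd fun ω => A ω ∧ G ω) := by
  have hS' := am_inn_ok S hS I
  have hc : (S.inn I).cin Z = S.cin Z := rn_cin_inn S hZ
  have key := dis_stack_step (S.inn I) hS' ((clFree : ClCon V Y).pinS s (cuLay S I)) Z A G (c := c) (by rw [hc]; exact hA) ?_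
  · rw [← rn_C_eq] at key
    have hadd : rnN S s I clFree (clInd A) = rnN S s I clFree (clInd fun ω => A ω ∧ G ω) + rnN S s I clFree (clInd fun ω => A ω ∧ ¬ G ω) := by
      unfold rnN
      rw [← dis_N_add]
      refine dis_N_congr _ _ (fun ω _ _ => ?_)
      by_cases a : A ω <;> by_cases g : G ω <;> simp [clInd, a, g]
    unfold rnN at *
    linarith
  · intro K' hx _
    rw [hc] at hx
    exact rn_prim S s Z I G c h K' hx

/-- **UPPER BOUND** -/
theorem rn_final (S : ClSys V Y) (hS : ClOk S) (s : Bool) (Z I N T : Finset V) (hZ : Z ⊆ T) (hN : N ⊆ I) (hT : T ⊆ I) (A : ClCfg V Y → Prop)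
    (hA : ∀ ω ω' : ClCfg V Y, (∀ y ∈ S.cin Z, clTau S ω y = clTau S ω' y) → (A ω ↔ A ω')) (c q : ℝ) (hq : 0 ≤ q)
    (h1 : RnAll S s Z I (fun ω => ClSep (S.inn I) s ∅ ω N T) c)
    (h2 : ∀ J, N ⊆ J → J ⊆ I → Disjoint J T → cuP S s (I \ J) (clFree.Holds S) A ≤ q) :
    c * cuP S s I (clFree.Holds S) A ≤ q := by
  have hZpos := rn_Z_pos S hS s I
  have hfree : (clFree : ClCon V Y).In S T :=
    ⟨Finset.empty_subset _, Finset.empty_subset _, fun e he => absurd he (Finset.notMem_empty e), Finset.empty_subset _, Finset.empty_subset _,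
      Finset.empty_subset _, Finset.empty_subset _, Finset.empty_subset _⟩
  have hc := rn_cond S hS s Z I (hZ.trans hT) A (fun ω => ClSep (S.inn I) s ∅ ω N T) hA c h1
  have hdec := rn_dec S hS s s I clFree rfl N T hN hT hfree (Or.inl rfl) (fun _ => clInd A)
    (fun J hJ => rn_ind_loc (rn_tau_loc S (hZ.trans (rn_sub_sdiff hT (rn_mem_J.1 hJ).2.2)) hA))
  have hsum := rn_sum_sep S s s I clFree N T hN hT
  have e1 : rnN S s I clFree (clInd fun ω => A ω ∧ ClSep (S.inn I) s ∅ ω N T)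
      = rnN S s I clFree (fun ω => clInd (fun ω => ClSep (S.inn I) s ∅ ω N T) ω * clInd A ω) := by
    refine dis_N_congr _ _ (fun ω _ _ => ?_)
    rw [dis_ind_and, mul_comm]
  have hterm : ∑ J ∈ rnJ I N T, rnN S s I clFree (rnI S s I N J) * cuE S s (I \ J) (clFree.Holds S) (clInd A)
      ≤ ∑ J ∈ rnJ I N T, rnN S s I clFree (rnI S s I N J) * q := by
    refine Finset.sum_le_sum fun J hJ => ?_
    obtain ⟨hJI, hNJ, hd⟩ := rn_mem_J.1 hJ
    refine mul_le_mul_of_nonneg_left ?_ (rn_NI_nonneg S hS s s I clFree N J)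
    have := h2 J hNJ hJI hd
    rwa [rn_cuP_eq, ← rn_cuE_eq] at this
  rw [← Finset.sum_mul, ← hsum] at hterm
  have hle : rnN S s I clFree (clInd fun ω => ClSep (S.inn I) s ∅ ω N T) ≤ rnZ S s I clFree := by
    unfold rnN rnZ
    rw [dis_Z_eq]
    exact dis_N_mono _ (am_inn_ok S hS I) _ (fun ω _ _ => dis_ind_le_one _ _)
  rw [rn_cuP_eq, ← mul_div_assoc, div_le_iff₀ hZpos]
  have := mul_le_mul_of_nonneg_right hle hq
  rw [e1, hdec] at hc
  nlinarith

/-- conditioning on the complete observation of `Z`: the event may read the first spin on `Z` and the statuses of the cells inside `Z` -/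
theorem rn_condB (S : ClSys V Y) (hS : ClOk S) (s : Bool) (Z I : Finset V) (hZ : Z ⊆ I) (A G : ClCfg V Y → Prop)
    (hA : ∀ ω ω' : ClCfg V Y, ω.B ∩ Z = ω'.B ∩ Z → (∀ y ∈ S.cin Z, clTau S ω y = clTau S ω' y) → (A ω ↔ A ω')) (c : ℝ)
    (h : RnAll S s Z I G c) :
    c * rnN S s I clFree (clInd A) ≤ rnN S s I clFree (clInd fun ω => A ω ∧ G ω) := by
  unfold rnN
  rw [rn_C_eq, ← dis_N_smul]
  refine dis_cond (S.inn I) _ Z (S.cin Z) _ _ (fun K' hx => ?_)
  have hp := rn_prim S s Z I G c h K' hx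
  have hhalf : ∀ ω ω' : ClCfg V Y, K'.Holds (S.inn I) ω → K'.Holds (S.inn I) ω' → ω.B ∩ Z ⊆ ω'.B ∩ Z := by
    intro ω ω' h1 h2 v hv
    obtain ⟨hvB, hvZ⟩ := Finset.mem_inter.1 hv
    refine Finset.mem_inter.2 ⟨?_, hvZ⟩
    rcases Finset.mem_union.1 (hx.allP hvZ) with hb | hb
    · exact h2.1 hb
    · exact absurd hvB (h1.2.1 v hb)
  have hconst : ∀ ω ω' : ClCfg V Y, K'.Holds (S.inn I) ω → K'.Holds (S.inn I) ω' → (A ω ↔ A ω') := fun ω ω' h1 h2 =>
    hA ω ω' (Finset.Subset.antisymm (hhalf ω ω' h1 h2) (hhalf ω' ω h2 h1)) (fun y hy => dis_ext_tau hx h1 h2 hy)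
  by_cases hex : ∃ ω, K'.Holds (S.inn I) ω ∧ A ω
  · obtain ⟨ω0, h0, a0⟩ := hex
    have e1 : (S.inn I).N (K'.Holds (S.inn I)) (fun ω => c * clInd A ω) = c * (S.inn I).Z (K'.Holds (S.inn I)) := by
      rw [dis_N_smul, dis_Z_eq]
      congr 1
      exact dis_N_congr _ _ (fun ω _ hω => dis_ind_pos ((hconst ω0 ω h0 hω).1 a0))
    have e2 : (S.inn I).N (K'.Holds (S.inn I)) (clInd fun ω => A ω ∧ G ω) = (S.inn I).N (K'.Holds (S.inn I)) (clInd G) :=
      dis_N_congr _ _ (fun ω _ hω => dis_ind_congr (L₁ := fun ω => A ω ∧ G ω) (L₂ := G)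
        ⟨fun h' => h'.2, fun g => ⟨(hconst ω0 ω h0 hω).1 a0, g⟩⟩)
    rw [e1, e2]
    exact hp
  · refine le_of_eq (dis_N_congr _ _ (fun ω _ hω => ?_))
    rw [dis_ind_neg (L := A) (fun a => hex ⟨ω, hω, a⟩), dis_ind_neg (L := fun ω => A ω ∧ G ω) (fun a => hex ⟨ω, hω, a.1⟩), mul_zero]

theorem rn_tauB_loc (S : ClSys V Y) {Z D : Finset V} (hZ : Z ⊆ D) {A : ClCfg V Y → Prop}
    (hA : ∀ ω ω' : ClCfg V Y, ω.B ∩ Z = ω'.B ∩ Z → (∀ y ∈ S.cin Z, clTau S ω y = clTau S ω' y) → (A ω ↔ A ω')) : ClLocP D (S.cin D) A := by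
  intro ω ω' hB _ hO
  exact hA ω ω' (dde_inter_mono hZ hB) (fun y hy => amo_tau_loc S hB hO (dde_cin_mono S hZ hy) ((Finset.mem_filter.1 hy).2.trans hZ))

/-- **UPPER BOUND**, the event may read the first spin on `Z` -/
theorem rn_finalB (S : ClSys V Y) (hS : ClOk S) (s : Bool) (Z I N T : Finset V) (hZ : Z ⊆ T) (hN : N ⊆ I) (hT : T ⊆ I) (A : ClCfg V Y → Prop)
    (hA : ∀ ω ω' : ClCfg V Y, ω.B ∩ Z = ω'.B ∩ Z → (∀ y ∈ S.cin Z, clTau S ω y = clTau S ω' y) → (A ω ↔ A ω')) (c q : ℝ) (hq : 0 ≤ q)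
    (h1 : RnAll S s Z I (fun ω => ClSep (S.inn I) s ∅ ω N T) c)
    (h2 : ∀ J, N ⊆ J → J ⊆ I → Disjoint J T → cuP S s (I \ J) (clFree.Holds S) A ≤ q) :
    c * cuP S s I (clFree.Holds S) A ≤ q := by
  have hZpos := rn_Z_pos S hS s I
  have hfree : (clFree : ClCon V Y).In S T :=
    ⟨Finset.empty_subset _, Finset.empty_subset _, fun e he => absurd he (Finset.notMem_empty e), Finset.empty_subset _, Finset.empty_subset _,
      Finset.empty_subset _, Finset.empty_subset _, Finset.empty_subset _⟩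
  have hc := rn_condB S hS s Z I (hZ.trans hT) A (fun ω => ClSep (S.inn I) s ∅ ω N T) hA c h1
  have hdec := rn_dec S hS s s I clFree rfl N T hN hT hfree (Or.inl rfl) (fun _ => clInd A)
    (fun J hJ => rn_ind_loc (rn_tauB_loc S (hZ.trans (rn_sub_sdiff hT (rn_mem_J.1 hJ).2.2)) hA))
  have hsum := rn_sum_sep S s s I clFree N T hN hT
  have e1 : rnN S s I clFree (clInd fun ω => A ω ∧ ClSep (S.inn I) s ∅ ω N T)
      = rnN S s I clFree (fun ω => clInd (fun ω => ClSep (S.inn I) s ∅ ω N T) ω * clInd A ω) := by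
    refine dis_N_congr _ _ (fun ω _ _ => ?_)
    rw [dis_ind_and, mul_comm]
  have hterm : ∑ J ∈ rnJ I N T, rnN S s I clFree (rnI S s I N J) * cuE S s (I \ J) (clFree.Holds S) (clInd A)
      ≤ ∑ J ∈ rnJ I N T, rnN S s I clFree (rnI S s I N J) * q := by
    refine Finset.sum_le_sum fun J hJ => ?_
    obtain ⟨hJI, hNJ, hd⟩ := rn_mem_J.1 hJ
    refine mul_le_mul_of_nonneg_left ?_ (rn_NI_nonneg S hS s s I clFree N J)
    have := h2 J hNJ hJI hd
    rwa [rn_cuP_eq, ← rn_cuE_eq] at this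
  rw [← Finset.sum_mul, ← hsum] at hterm
  have hle : rnN S s I clFree (clInd fun ω => ClSep (S.inn I) s ∅ ω N T) ≤ rnZ S s I clFree := by
    unfold rnN rnZ
    rw [dis_Z_eq]
    exact dis_N_mono _ (am_inn_ok S hS I) _ (fun ω _ _ => dis_ind_le_one _ _)
  rw [rn_cuP_eq, ← mul_div_assoc, div_le_iff₀ hZpos]
  have := mul_le_mul_of_nonneg_right hle hq
  rw [e1, hdec] at hc
  nlinarith

/-- **LOWER BOUND** -/
theorem rn_lower (S : ClSys V Y) (hS : ClOk S) (s' s : Bool) (I N T : Finset V) (hN : N ⊆ I) (hT : T ⊆ I) (hs : s' = s ∨ cuLay S I ⊆ N)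
    (A : ClCfg V Y → Prop) (hA : ClLocP T (S.cin T) A) (p : ℝ)
    (h : ∀ J, N ⊆ J → J ⊆ I → Disjoint J T → p ≤ cuP S s (I \ J) (clFree.Holds S) A) :
    p * cuP S s' I (clFree.Holds S) (fun ω => ClSep (S.inn I) s ∅ ω N T) ≤ cuP S s' I (clFree.Holds S) A := by
  have hZpos := rn_Z_pos S hS s' I
  have hfree : (clFree : ClCon V Y).In S T :=
    ⟨Finset.empty_subset _, Finset.empty_subset _, fun e he => absurd he (Finset.notMem_empty e), Finset.empty_subset _, Finset.empty_subset _,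
      Finset.empty_subset _, Finset.empty_subset _, Finset.empty_subset _⟩
  have hdec := rn_dec S hS s' s I clFree rfl N T hN hT hfree hs (fun _ => clInd A)
    (fun J hJ => rn_ind_loc (fun ω ω' a b c => hA ω ω' (dde_inter_mono (rn_sub_sdiff hT (rn_mem_J.1 hJ).2.2) a)
      (dde_inter_mono (rn_sub_sdiff hT (rn_mem_J.1 hJ).2.2) b) (dde_inter_mono (dde_cin_mono S (rn_sub_sdiff hT (rn_mem_J.1 hJ).2.2)) c)))
  have hsum := rn_sum_sep S s' s I clFree N T hN hT
  have hlow : rnN S s' I clFree (fun ω => clInd (fun ω => ClSep (S.inn I) s ∅ ω N T) ω * clInd A ω) ≤ rnN S s' I clFree (clInd A) := by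
    refine dis_N_mono _ (am_inn_ok S hS I) _ (fun ω _ _ => ?_)
    have h1 := dis_ind_le_one (fun ω => ClSep (S.inn I) s ∅ ω N T) ω
    have h2 := dis_ind_nonneg A ω
    nlinarith
  have hterm : ∑ J ∈ rnJ I N T, rnN S s' I clFree (rnI S s I N J) * p
      ≤ ∑ J ∈ rnJ I N T, rnN S s' I clFree (rnI S s I N J) * cuE S s (I \ J) (clFree.Holds S) (clInd A) := by
    refine Finset.sum_le_sum fun J hJ => ?_
    obtain ⟨hJI, hNJ, hd⟩ := rn_mem_J.1 hJ
    refine mul_le_mul_of_nonneg_left ?_ (rn_NI_nonneg S hS s' s I clFree N J)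
    have := h J hNJ hJI hd
    rwa [rn_cuP_eq, ← rn_cuE_eq] at this
  rw [← Finset.sum_mul, ← hsum, ← hdec] at hterm
  rw [rn_cuP_eq, rn_cuP_eq, ← mul_div_assoc]
  refine div_le_div_of_nonneg_right ?_ hZpos.le
  linarith

/-! ### 4. FKG, product, domains, small API -/

/-- **FKG** for two events favourable for the same sign `t` -/
theorem rn_fkg (S : ClSys V Y) (hS : ClDisk S) (s t : Bool) (I : Finset V) (hI : I ⊆ S.A) (K : ClCon V Y) (hK : ClLegal S K) (hKI : K.In S I)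
    (L₁ L₂ : ClCfg V Y → Prop) (u₁ : ClUp S t L₁) (u₂ : ClUp S t L₂) (l₁ : ClLocP I (S.cin I) L₁) (l₂ : ClLocP I (S.cin I) L₂)
    (p₁ p₂ : ℝ) (hp₁ : 0 ≤ p₁) (hp₂ : 0 ≤ p₂) (h₁ : RnGe S s I K L₁ p₁) (h₂ : RnGe S s I K L₂ p₂) :
    RnGe S s I K (fun ω => L₁ ω ∧ L₂ ω) (p₁ * p₂) := by
  have hO : ClOk S := hS.toClOk
  rw [rn_ge_iff S hO] at h₁ h₂ ⊢
  intro hZ
  have a₁ := h₁ hZ
  have a₂ := h₂ hZ
  have lσ : ∀ {L : ClCfg V Y → Prop}, ClLocP I (S.cin I) L → ClLoc I (S.cin I) (fun ω => (clSg t : ℝ) * clInd L ω) := by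
    intro L hL ω ω' b1 b2 b3
    show (clSg t : ℝ) * clInd L ω = (clSg t : ℝ) * clInd L ω'
    rw [rn_ind_loc hL ω ω' b1 b2 b3]
  have h := am_fkg S hS s I hI K hK hKI _ _ (dis_up_mono u₁) (dis_up_mono u₂) (lσ l₁) (lσ l₂)
  rw [rn_cuE_eq, rn_cuE_eq, rn_cuE_eq] at h
  rw [rn_cuP_eq] at a₁ a₂ ⊢
  have e1 : ∀ L : ClCfg V Y → Prop, rnN S s I K (fun ω => (clSg t : ℝ) * clInd L ω) = (clSg t : ℝ) * rnN S s I K (clInd L) :=
    fun L => dis_N_smul _ _ _ _
  have e2 : rnN S s I K (fun ω => (clSg t : ℝ) * clInd L₁ ω * ((clSg t : ℝ) * clInd L₂ ω)) = rnN S s I K (clInd fun ω => L₁ ω ∧ L₂ ω) := by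
    refine dis_N_congr _ _ fun ω _ _ => ?_
    rw [dis_ind_and]
    calc (clSg t : ℝ) * clInd L₁ ω * ((clSg t : ℝ) * clInd L₂ ω)
        = ((clSg t : ℝ) * (clSg t : ℝ)) * (clInd L₁ ω * clInd L₂ ω) := by ring
      _ = _ := by rw [dis_sg_sq, one_mul]
  rw [e1, e1, e2] at h
  have e3 : (clSg t : ℝ) * rnN S s I K (clInd L₁) / rnZ S s I K * ((clSg t : ℝ) * rnN S s I K (clInd L₂) / rnZ S s I K)
      = rnN S s I K (clInd L₁) / rnZ S s I K * (rnN S s I K (clInd L₂) / rnZ S s I K) := by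
    calc _ = ((clSg t : ℝ) * (clSg t : ℝ)) * (rnN S s I K (clInd L₁) / rnZ S s I K * (rnN S s I K (clInd L₂) / rnZ S s I K)) := by ring
      _ = _ := by rw [dis_sg_sq, one_mul]
  rw [e3] at h
  exact (mul_le_mul a₁ a₂ hp₂ (hp₁.trans a₁)).trans h

theorem rn_all_fkg (S : ClSys V Y) (hS : ClDisk S) (s t : Bool) (Z I : Finset V) (hZ : Z ⊆ I) (hI : I ⊆ S.A)
    (L₁ L₂ : ClCfg V Y → Prop) (u₁ : ClUp S t L₁) (u₂ : ClUp S t L₂) (l₁ : ClLocP I (S.cin I) L₁) (l₂ : ClLocP I (S.cin I) L₂)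
    (p₁ p₂ : ℝ) (hp₁ : 0 ≤ p₁) (hp₂ : 0 ≤ p₂) (h₁ : RnAll S s Z I L₁ p₁) (h₂ : RnAll S s Z I L₂ p₂) :
    RnAll S s Z I (fun ω => L₁ ω ∧ L₂ ω) (p₁ * p₂) :=
  fun K a b c => rn_fkg S hS s t I hI K a (amo_in_mono S hZ b) L₁ L₂ u₁ u₂ l₁ l₂ p₁ p₂ hp₁ hp₂ (h₁ K a b c) (h₂ K a b c)

/-! #### the abstract product formula (23) -/

/-- restriction of a configuration to the sites `T` and the cells `T'` -/
def rnxRes (T : Finset V) (T' : Finset Y) (ω : ClCfg V Y) : ClCfg V Y := ⟨ω.B ∩ T, ω.W ∩ T, ω.O ∩ T'⟩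

/-- union of two configurations -/
def rnxJoin (ω₁ ω₂ : ClCfg V Y) : ClCfg V Y := ⟨ω₁.B ∪ ω₂.B, ω₁.W ∪ ω₂.W, ω₁.O ∪ ω₂.O⟩

theorem rnx_loc_res {T : Finset V} {T' : Finset Y} {F : ClCfg V Y → ℝ} (h : ClLoc T T' F) (ω : ClCfg V Y) : F (rnxRes T T' ω) = F ω :=
  h _ _ (by simp [rnxRes]) (by simp [rnxRes]) (by simp [rnxRes])

theorem rnx_locP_res {T : Finset V} {T' : Finset Y} {K : ClCfg V Y → Prop} (h : ClLocP T T' K) (ω : ClCfg V Y) : K (rnxRes T T' ω) ↔ K ω :=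
  h _ _ (by simp [rnxRes]) (by simp [rnxRes]) (by simp [rnxRes])

theorem rnx_const_inter {P T t : Finset V} (h : t ⊆ T) : ClConst (P ∩ T) t ↔ ClConst P t :=
  amo_const_congr fun v hv => by rw [Finset.mem_inter]; exact ⟨fun a => a.1, fun a => ⟨a, h hv⟩⟩

/-- the part of the weight carried by a subsystem -/
theorem rnx_wt_part (S S₁ : ClSys V Y) (h₁ : ∀ y ∈ S₁.C, S.sv y = S₁.sv y ∧ S₁.sv y ⊆ S₁.A ∧ S.q y = S₁.q y) (ω : ClCfg V Y) :
    ∏ y ∈ S₁.C, clCellW (S.q y) (ClConst ω.B (S.sv y)) (ClConst ω.W (S.sv y)) (y ∈ ω.O) = S₁.wt (rnxRes S₁.A S₁.C ω) := by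
  unfold ClSys.wt
  refine Finset.prod_congr rfl fun y hy => ?_
  obtain ⟨a, b, c⟩ := h₁ y hy
  rw [a, c]
  refine dcu_cellW_congr _ ?_ ?_ ?_
  · exact (rnx_const_inter b).symm
  · exact (rnx_const_inter b).symm
  · simp only [rnxRes, Finset.mem_inter]; exact ⟨fun h => ⟨h, hy⟩, fun h => h.1⟩

theorem rnx_inter_union {α : Type} [DecidableEq α] {P A₁ A₂ : Finset α} (h : P ⊆ A₁ ∪ A₂) : P ∩ A₁ ∪ P ∩ A₂ = P := by
  rw [← Finset.inter_union_distrib_left]; exact Finset.inter_eq_left.2 h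

theorem rnx_union_inter_left {α : Type} [DecidableEq α] {P₁ P₂ A₁ A₂ : Finset α} (hd : Disjoint A₁ A₂) (h₁ : P₁ ⊆ A₁) (h₂ : P₂ ⊆ A₂) :
    (P₁ ∪ P₂) ∩ A₁ = P₁ := by
  ext v
  have a1 := @h₁ v
  have a2 := @h₂ v
  have a3 := @Finset.disjoint_left _ A₁ A₂
  have a4 := fun h => (a3.1 hd) (a := v) h
  simp only [Finset.mem_inter, Finset.mem_union]
  tauto

theorem rnx_union_inter_right {α : Type} [DecidableEq α] {P₁ P₂ A₁ A₂ : Finset α} (hd : Disjoint A₁ A₂) (h₁ : P₁ ⊆ A₁) (h₂ : P₂ ⊆ A₂) :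
    (P₁ ∪ P₂) ∩ A₂ = P₂ := by
  rw [Finset.union_comm]; exact rnx_union_inter_left hd.symm h₂ h₁

/-- **ABSTRACT PRODUCT FORMULA** -/
theorem rnx_N_prod (S S₁ S₂ : ClSys V Y) (hA : S.A = S₁.A ∪ S₂.A) (hdA : Disjoint S₁.A S₂.A) (hC : S.C = S₁.C ∪ S₂.C) (hdC : Disjoint S₁.C S₂.C)
    (h₁ : ∀ y ∈ S₁.C, S.sv y = S₁.sv y ∧ S₁.sv y ⊆ S₁.A ∧ S.q y = S₁.q y)
    (h₂ : ∀ y ∈ S₂.C, S.sv y = S₂.sv y ∧ S₂.sv y ⊆ S₂.A ∧ S.q y = S₂.q y)
    (K₁ K₂ : ClCfg V Y → Prop) (F₁ F₂ : ClCfg V Y → ℝ) (k₁ : ClLocP S₁.A S₁.C K₁) (k₂ : ClLocP S₂.A S₂.C K₂)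
    (l₁ : ClLoc S₁.A S₁.C F₁) (l₂ : ClLoc S₂.A S₂.C F₂) :
    S.N (fun ω => K₁ ω ∧ K₂ ω) (fun ω => F₁ ω * F₂ ω) = S₁.N K₁ F₁ * S₂.N K₂ F₂ := by
  classical
  unfold ClSys.N
  rw [Finset.sum_mul_sum, ← Finset.sum_product']
  refine Finset.sum_nbij' (fun ω => (rnxRes S₁.A S₁.C ω, rnxRes S₂.A S₂.C ω)) (fun p => rnxJoin p.1 p.2) ?_ ?_ ?_ ?_ ?_
  · intro ω _
    rw [Finset.mem_product, cl_mem_cfgs, cl_mem_cfgs]
    simp only [rnxRes]
    exact ⟨⟨Finset.inter_subset_right, Finset.inter_subset_right, Finset.inter_subset_right⟩,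
      ⟨Finset.inter_subset_right, Finset.inter_subset_right, Finset.inter_subset_right⟩⟩
  · intro p hp
    rw [Finset.mem_product, cl_mem_cfgs, cl_mem_cfgs] at hp
    obtain ⟨⟨a1, a2, a3⟩, b1, b2, b3⟩ := hp
    rw [cl_mem_cfgs, hA, hC]
    exact ⟨Finset.union_subset_union a1 b1, Finset.union_subset_union a2 b2, Finset.union_subset_union a3 b3⟩
  · intro ω hω
    rw [cl_mem_cfgs, hA, hC] at hω
    obtain ⟨a1, a2, a3⟩ := hω
    simp only [rnxJoin, rnxRes]
    rw [rnx_inter_union a1, rnx_inter_union a2, rnx_inter_union a3]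
  · intro p hp
    rw [Finset.mem_product, cl_mem_cfgs, cl_mem_cfgs] at hp
    obtain ⟨⟨a1, a2, a3⟩, b1, b2, b3⟩ := hp
    refine Prod.ext ?_ ?_
    · simp only [rnxJoin, rnxRes]
      rw [rnx_union_inter_left hdA a1 b1, rnx_union_inter_left hdA a2 b2, rnx_union_inter_left hdC a3 b3]
    · simp only [rnxJoin, rnxRes]
      rw [rnx_union_inter_right hdA a1 b1, rnx_union_inter_right hdA a2 b2, rnx_union_inter_right hdC a3 b3]
  · intro ω _
    have hw : S.wt ω = S₁.wt (rnxRes S₁.A S₁.C ω) * S₂.wt (rnxRes S₂.A S₂.C ω) := by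
      rw [← rnx_wt_part S S₁ h₁ ω, ← rnx_wt_part S S₂ h₂ ω, ← Finset.prod_union hdC, ← hC]
      rfl
    simp only [rnx_locP_res k₁, rnx_locP_res k₂, rnx_loc_res l₁, rnx_loc_res l₂]
    by_cases c1 : K₁ ω
    · by_cases c2 : K₂ ω
      · rw [if_pos ⟨c1, c2⟩, if_pos c1, if_pos c2, hw]; ring
      · rw [if_neg (fun h => c2 h.2), if_neg c2, mul_zero]
    · rw [if_neg (fun h => c1 h.1), if_neg c1, zero_mul]

/-- **PRODUCT LAW**: two domains without a common cell -/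
theorem rn_split (S : ClSys V Y) (hS : ClOk S) (s : Bool) (I₁ I₂ : Finset V) (hd : Disjoint I₁ I₂)
    (hx : ∀ y ∈ S.C, (∃ u ∈ S.sv y, u ∈ I₁) → (∃ v ∈ S.sv y, v ∈ I₂) → False) (A₁ A₂ : ClCfg V Y → Prop)
    (l₁ : ClLocP I₁ (S.cin I₁) A₁) (l₂ : ClLocP I₂ (S.cin I₂) A₂) :
    cuP S s (I₁ ∪ I₂) (clFree.Holds S) (fun ω => A₁ ω ∧ A₂ ω) = cuP S s I₁ (clFree.Holds S) A₁ * cuP S s I₂ (clFree.Holds S) A₂ := by
  classical
  have hcell : ∀ y ∈ S.C, S.sv y ⊆ I₁ ∪ I₂ → S.sv y ⊆ I₁ ∨ S.sv y ⊆ I₂ := by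
    intro y hy hsub
    by_cases h1 : ∃ u ∈ S.sv y, u ∈ I₁
    · left
      intro v hv
      rcases Finset.mem_union.1 (hsub hv) with a | a
      · exact a
      · exact (hx y hy h1 ⟨v, hv, a⟩).elim
    · right
      intro v hv
      rcases Finset.mem_union.1 (hsub hv) with a | a
      · exact (h1 ⟨v, hv, a⟩).elim
      · exact a
  have hC : (S.inn (I₁ ∪ I₂)).C = (S.inn I₁).C ∪ (S.inn I₂).C := by
    ext y
    simp only [am_inn_C, Finset.mem_union, am_mem_cin]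
    constructor
    · rintro ⟨hy, hsub⟩
      exact (hcell y hy hsub).elim (fun a => Or.inl ⟨hy, a⟩) (fun a => Or.inr ⟨hy, a⟩)
    · rintro (⟨hy, a⟩ | ⟨hy, a⟩)
      · exact ⟨hy, a.trans Finset.subset_union_left⟩
      · exact ⟨hy, a.trans Finset.subset_union_right⟩
  have hdC : Disjoint (S.inn I₁).C (S.inn I₂).C := by
    rw [Finset.disjoint_left]
    intro y h1 h2
    simp only [am_inn_C, am_mem_cin] at h1 h2
    obtain ⟨u, hu⟩ := hS.ne y h1.1
    exact Finset.disjoint_left.1 hd (h1.2 hu) (h2.2 hu)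
  have hlay : ∀ (J₁ J₂ : Finset V), (∀ y ∈ S.C, (∃ u ∈ S.sv y, u ∈ J₁) → (∃ v ∈ S.sv y, v ∈ J₂) → False) → ∀ u ∈ J₁,
      (u ∈ cuLay S (J₁ ∪ J₂) ↔ u ∈ cuLay S J₁) := by
    intro J₁ J₂ hx' u hu
    rw [am_mem_lay, am_mem_lay]
    constructor
    · rintro ⟨-, y, hy, huy, hn⟩
      exact ⟨hu, y, hy, huy, fun a => hn (a.trans Finset.subset_union_left)⟩
    · rintro ⟨-, y, hy, huy, hn⟩
      refine ⟨Finset.mem_union_left _ hu, y, hy, huy, fun a => hn fun v hv => ?_⟩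
      rcases Finset.mem_union.1 (a hv) with b | b
      · exact b
      · exact (hx' y hy ⟨u, huy, hu⟩ ⟨v, hv, b⟩).elim
  have hL : cuLay S (I₁ ∪ I₂) = cuLay S I₁ ∪ cuLay S I₂ := by
    ext u
    rw [Finset.mem_union]
    constructor
    · intro hu
      rcases Finset.mem_union.1 ((am_mem_lay S _ u).1 hu).1 with a | a
      · exact Or.inl ((hlay I₁ I₂ hx u a).1 hu)
      · refine Or.inr ((hlay I₂ I₁ (fun y hy p q => hx y hy q p) u a).1 ?_)
        rwa [Finset.union_comm]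
    · rintro (hu | hu)
      · exact (hlay I₁ I₂ hx u ((am_mem_lay S _ u).1 hu).1).2 hu
      · have := (hlay I₂ I₁ (fun y hy p q => hx y hy q p) u ((am_mem_lay S _ u).1 hu).1).2 hu
        rwa [Finset.union_comm] at this
  have hpin : ∀ I : Finset V, ClLocP (S.inn I).A (S.inn I).C (fun ω : ClCfg V Y => CuPin s (cuLay S I) ω ∧ (clFree : ClCon V Y).Holds S ω) := by
    intro I ω ω' hB _ _
    have e : CuPin s (cuLay S I) ω ↔ CuPin s (cuLay S I) ω' := by
      unfold CuPin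
      refine forall₂_congr fun v hv => ?_
      rw [dcu_mem_of_inter hB ((am_mem_lay S I v).1 hv).1]
    simp only [e, rnq_free, and_true]
  have key : ∀ F₁ F₂ : ClCfg V Y → ℝ, ClLoc I₁ (S.cin I₁) F₁ → ClLoc I₂ (S.cin I₂) F₂ →
      (S.inn (I₁ ∪ I₂)).N (fun ω => CuPin s (cuLay S (I₁ ∪ I₂)) ω ∧ (clFree : ClCon V Y).Holds S ω) (fun ω => F₁ ω * F₂ ω) =
        (S.inn I₁).N (fun ω => CuPin s (cuLay S I₁) ω ∧ (clFree : ClCon V Y).Holds S ω) F₁ *
          (S.inn I₂).N (fun ω => CuPin s (cuLay S I₂) ω ∧ (clFree : ClCon V Y).Holds S ω) F₂ := by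
    intro F₁ F₂ f₁ f₂
    rw [← rnx_N_prod (S.inn (I₁ ∪ I₂)) (S.inn I₁) (S.inn I₂) rfl hd hC hdC
      (fun y hy => ⟨rfl, ((am_mem_cin S I₁ y).1 hy).2, rfl⟩) (fun y hy => ⟨rfl, ((am_mem_cin S I₂ y).1 hy).2, rfl⟩) _ _ F₁ F₂
      (hpin I₁) (hpin I₂) f₁ f₂]
    refine dmt_N_congr _ (fun ω => ?_) _
    rw [hL, rn_pin_union]
    simp only [rnq_free, and_true]
  unfold cuP
  rw [dis_P_eq, dis_P_eq, dis_P_eq, dis_Z_eq, dis_Z_eq, dis_Z_eq, ← mul_div_mul_comm, ← key _ _ (rn_ind_loc l₁) (rn_ind_loc l₂),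
    ← key _ _ (fun _ _ _ _ _ => rfl) (fun _ _ _ _ _ => rfl)]
  congr 1
  · congr 1
    funext ω
    unfold clInd
    by_cases a : A₁ ω <;> by_cases b : A₂ ω <;> simp [a, b]
  · simp

theorem rn_free_legal (S : ClSys V Y) : ClLegal S (clFree : ClCon V Y) :=
  ⟨rfl, rfl, fun y _ h => by simp [clFree] at h, fun e h => by simp [clFree] at h⟩

theorem rn_free_in (S : ClSys V Y) (I : Finset V) : (clFree : ClCon V Y).In S I :=
  ⟨Finset.empty_subset _, Finset.empty_subset _, fun e h => by simp [clFree] at h, Finset.empty_subset _, Finset.empty_subset _,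
    Finset.empty_subset _, Finset.empty_subset _, Finset.empty_subset _⟩

theorem rn_up_ind {S : ClSys V Y} {A : ClCfg V Y → Prop} (hA : ClUp S true A) : ClMono S (clInd A) := by
  intro ω ω' hB hT
  have := (hA ω ω' hB hT).1 rfl
  by_cases h : A ω
  · rw [dis_ind_pos h, dis_ind_pos (this h)]
  · rw [dis_ind_neg h]; exact dis_ind_nonneg _ _

theorem rnq_free_legal (S : ClSys V Y) : ClLegal S (clFree : ClCon V Y) :=
  ⟨rfl, rfl, fun y _ hy => by simp [clFree] at hy, fun e he => by simp [clFree] at he⟩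

theorem rnq_free_in (S : ClSys V Y) (I : Finset V) : (clFree : ClCon V Y).In S I :=
  ⟨Finset.empty_subset _, Finset.empty_subset _, fun e he => by simp [clFree] at he, Finset.empty_subset _, Finset.empty_subset _,
    Finset.empty_subset _, Finset.empty_subset _, Finset.empty_subset _⟩

theorem rnq_up_mono {S : ClSys V Y} {A : ClCfg V Y → Prop} (hA : ClUp S true A) : ClMono S (clInd A) := by
  have h := dis_up_mono hA
  simpa [clSg] using h

/-- `P^-_I(A) ≤ P^-_I'(A)` for `I ⊆ I'`, `A` increasing -/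
theorem rn_dom_minus (S : ClSys V Y) (hS : ClDisk S) (I I' : Finset V) (hII : I ⊆ I') (hI : I' ⊆ S.A) (A : ClCfg V Y → Prop)
    (hA : ClUp S true A) (hl : ClLocP I (S.cin I) A) : cuP S false I (clFree.Holds S) A ≤ cuP S false I' (clFree.Holds S) A :=
  am_dom_minus S hS I I' hII hI clFree (rn_free_legal S) (rn_free_in S I) (rn_Z_pos S hS.toClOk false I) (clInd A)
    (rn_up_ind hA) (rn_ind_loc hl)

/-- `P^+_I'(A) ≤ P^+_I(A)` for `I ⊆ I'`, `A` increasing -/
theorem rn_dom_plus (S : ClSys V Y) (hS : ClDisk S) (I I' : Finset V) (hII : I ⊆ I') (hI : I' ⊆ S.A) (A : ClCfg V Y → Prop)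
    (hA : ClUp S true A) (hl : ClLocP I (S.cin I) A) : cuP S true I' (clFree.Holds S) A ≤ cuP S true I (clFree.Holds S) A :=
  am_dom_plus S hS I I' hII hI clFree (rn_free_legal S) (rn_free_in S I) (rn_Z_pos S hS.toClOk true I) (clInd A)
    (rn_up_ind hA) (rn_ind_loc hl)

theorem rn_cuP_nonneg (S : ClSys V Y) (hS : ClOk S) (s : Bool) (I : Finset V) (K L : ClCfg V Y → Prop) : 0 ≤ cuP S s I K L :=
  ann_clP_nonneg _ (am_inn_ok S hS I) _ _

theorem rn_cuP_free (S : ClSys V Y) (s : Bool) (I : Finset V) (L : ClCfg V Y → Prop) :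
    cuP S s I (clFree.Holds S) L = cuP S s I (fun _ => True) L := by
  have e : (clFree : ClCon V Y).Holds S = fun _ => True := funext fun ω => propext ⟨fun _ => trivial, fun _ => rnq_free S ω⟩
  rw [e]

end abstract

/-! ### 5. the plane -/

/-- `P^s_D(L | K) ≥ p` in the intrinsic planar language -/
def RnPlGe (x : ℝ) (s : Bool) (D : Finset TV) (K : ClCon TV TV) (L : ClCfg TV TV → Prop) (p : ℝ) : Prop :=
  p * (clInn x D).Z (fun ω => CuPin s (amLay D) ω ∧ K.Holds (clInn x D) ω) ≤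
    (clInn x D).N (fun ω => CuPin s (amLay D) ω ∧ K.Holds (clInn x D) ω) (clInd L)

/-- the same for every legal history inside `Z` -/
def RnPlAll (x : ℝ) (s : Bool) (Z D : Finset TV) (L : ClCfg TV TV → Prop) (p : ℝ) : Prop :=
  ∀ K : ClCon TV TV, ClLegal (clInn x D) K → K.In (clInn x D) Z → K.Eq = ∅ → RnPlGe x s D K L p

/-- the four directions: `0 ↦ b`, `1 ↦ -b`, `2 ↦ a`, `3 ↦ -a` -/
def rnL (d : Fin 4) (p : TV) : ℤ := if d = 0 then p.2 else if d = 1 then -p.2 else if d = 2 then p.1 else -p.1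

/-- the transverse coordinate -/
def rnLt (d : Fin 4) (p : TV) : ℤ := if d = 0 ∨ d = 1 then p.1 else p.2

-- (HP): THE definition of record is `RnHP` / `RnHPd` of `Defs/Ren.lean` (92; producer 278 `Ann/RenHP`, consumer 92 `Ann/RenPush`, PROVED `rnp_push1`, `rnp_box`).   Ruling 121 07:12Z (proposal of 115): one name, one file.

-- (COR): THE definition of record is `RnCor` / `RnCord` of `Defs/Ren.lean` (144; window `6 r`, both signs, both orientations, feasible form).   12, 07:35Z: one name, one file.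

/-- the paths of a domain in the two languages -/
theorem rn_pl_sep (x : ℝ) {V D : Finset TV} (h : latCl D ⊆ V) (s : Bool) (ω : ClCfg TV TV) (O A : Finset TV) :
    ClSep ((clAmb x V).inn D) s ∅ ω O A ↔ ClSep (clInn x D) s ∅ ω O A := by
  have e : clStep ((clAmb x V).inn D) s ∅ ω = clStep (clInn x D) s ∅ ω := by
    funext u v
    apply propext
    unfold clStep
    refine or_congr ?_ Iff.rfl
    have hC : ((clAmb x V).inn D).C = latCellsIn D := amp_cin_amb x h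
    have hC' : (clInn x D).C = latCellsIn D := rfl
    rw [hC, hC']
    refine exists_congr fun y => and_congr_right fun hy => ?_
    have e1 : ((clAmb x V).inn D).sv y = cellV y := amp_sv_amb x h hy
    have e2 : (clInn x D).sv y = cellV y := amp_sv_inn x hy
    have e3 : clTau ((clAmb x V).inn D) ω y = clTau (clInn x D) ω y := amp_tau x h ω hy
    rw [e1, e2, e3]
  unfold ClSep
  rw [e]

/-- **BRIDGE**: the planar predicate gives the abstract one in every ambient which contains the closure of `D` -/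
theorem rn_pl_all (x : ℝ) {V D Z : Finset TV} (h : latCl D ⊆ V) (hZ : Z ⊆ D) (s : Bool) (L : ClCfg TV TV → Prop) (p : ℝ)
    (hp : RnPlAll x s Z D L p) : RnAll (clAmb x V) s Z D L p := by
  intro K hK hKZ hKe
  have hZV : latCl Z ⊆ V := (amp_cl_mono hZ).trans h
  have hin : K.In (clInn x D) Z := by
    obtain ⟨h1, h2, h3, h4, h5, h6, h7, h8⟩ := hKZ
    rw [amp_cin_amb x hZV] at h4 h5 h6
    refine ⟨h1, h2, h3, ?_, ?_, ?_, h7, h8⟩ <;> rw [am_pl_cin_inn x hZ] <;> assumption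
  have hinD : K.In (clInn x D) D := amo_in_mono _ hZ hin
  have hleg : ClLegal (clInn x D) K := by
    refine ⟨hK.wp, hK.wm, fun y hy hy' => ?_, fun e he => by rw [hKe] at he; simp at he⟩
    have hyD : y ∈ latCellsIn D := hy
    have := hK.full y (amp_cells_sub h hyD) hy'
    rwa [amp_sv_amb x h hyD, ← amp_sv_inn x hyD] at this
  have h0 := hp K hleg hin hKe
  unfold RnPlGe at h0
  unfold RnGe rnZ rnN rnC
  rw [am_pl_lay_amb x h, ← amp_holds x h hinD]
  have hs := dam_pl_sub x h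
  have hC : ((clAmb x V).inn D).C = (clInn x D).C := (dam_pl_cin x h).symm
  have hA : ((clAmb x V).inn D).A = (clInn x D).A := rfl
  have eN := fun F => am_sys_N_congr ((clAmb x V).inn D) (clInn x D) hA hC (fun y hy => (hs.sv_eq y (hC ▸ hy)).symm)
    (fun y hy => (hs.q_eq y (hC ▸ hy)).symm) (fun ω => CuPin s (amLay D) ω ∧ K.Holds (clInn x D) ω) F
  rw [dis_Z_eq, eN, eN, ← dis_Z_eq]
  exact h0

/-- the cut law of the ambient is the planar law -/
theorem rn_pl_cuP (x : ℝ) {V D : Finset TV} (h : latCl D ⊆ V) (s : Bool) (L : ClCfg TV TV → Prop) :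
    cuP (clAmb x V) s D (clFree.Holds (clAmb x V)) L = anP x s D L := by
  rw [rn_cuP_free, ann_P_am]
  exact am_pl_eq x V D h s (fun _ => True) (clInd L)

/-- the equation lemmas of the definitions of this file are generated HERE -/
theorem rn_abs_eqns_cite : True := by
  have := @rnxRes.eq_1
  have := @rnxJoin.eq_1
  have := @rnC.eq_1
  have := @rnN.eq_1
  have := @rnZ.eq_1
  have := @RnGe.eq_1
  have := @RnAll.eq_1
  have := @RnT.eq_1
  have := @rnI.eq_1
  have := @rnJ.eq_1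
  have := @ClCon.pinS.eq_1
  have := @RnPlGe.eq_1
  have := @RnPlAll.eq_1
  have := @rnL.eq_1
  have := @rnLt.eq_1
  trivial

end Claimed.Agent.R291
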