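import Claimed.Agent.R291.Defs.Ren
import Claimed.Agent.R291.Ann.PortsCl
import Claimed.Agent.R291.Glue.Box
import Claimed.Agent.R291.Pl.SetForm

/-!
# Row 291 (S0539), Ann/RenCor : A5 block B6 = THE CORRIDOR  `RncLSS x ⟹ RnCor x`      (owner helper144; prefix `rnc_` / `Rnc` / `rnc`)

TEX[annulus:straight-short] used as in 09-annulus l.905-916.   Design: `origin/helper144:notes/R291/ann_A5_144.md` Sec. 4 (cut), in the form of 12 (ANY finite domain in the band, ANY history on the two far sides).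
* `RncLSS x` = THE CONTRACT WITH A1: the conclusion of `gl_three` (55) for the straight strip `Q = [0, 5m] × [0, m]` (closed system `clAmb x Q`, history `glH0`: plus on the two long sides, minus on the two short sides).
* `rncSea V m` = the SEA HISTORY of the ambient box `V`: plus on the rows `≤ 0` and `≥ m`, minus on the rows `1..m-1` left of the column `0` and right of the column `5m`, homogeneous cells open.
* chain:   `P^+_D(K)` = ambient law under `K + (cells not inside D open plus)`  ≥  ambient law under the sea history (`dis_order`)  ≥ `2^-30` strip law (`prc_two_amb`, 16 ports)  ≥ `2^-30 c` (contract);   J1 (`pls_rect`).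
* the other sign: flip of the first spin;   the other orientation and the offsets: transport along class preserving automorphisms of the lattice.
-/

set_option autoImplicit false
set_option linter.unusedSectionVars false
set_option linter.unusedVariables false
set_option linter.unusedSimpArgs false

namespace Claimed.Agent.R291

open Relation Claims Claims.C0467

/-! ## 0. the contract with A1 -/

/-- the straight strip `[0, 5m] × [0, m]` -/
noncomputable def rncQ (m : ℕ) : Finset TV := amBox 0 (5 * m) 0 m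
/-- the bottom side -/
noncomputable def rncLa (m : ℕ) : Finset TV := (rncQ m).filter (fun u => u.2 = 0)
/-- the top side -/
noncomputable def rncLc (m : ℕ) : Finset TV := (rncQ m).filter (fun u => u.2 = m)
/-- the left end -/
noncomputable def rncLd (m : ℕ) : Finset TV := (rncQ m).filter (fun u => u.1 = 0)
/-- the right end -/
noncomputable def rncLb (m : ℕ) : Finset TV := (rncQ m).filter (fun u => u.1 = 5 * m)
/-- the boundary (clipped) cells -/
noncomputable def rncCb (m : ℕ) : Finset TV := latCells (rncQ m) \ latCellsIn (rncQ m)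
/-- the history of the strip law -/
noncomputable def rncH0 (x : ℝ) (m : ℕ) : ClCon TV TV :=
  glH0 (clAmb x (rncQ m)) (rncCb m) (rncLa m) (rncLc m) (rncLd m) (rncLb m)

/-- **THE CONTRACT WITH A1** (straight instance of `gl_three`): in the closed strip `5m × m`, plus on the long sides, minus on the short sides, the two long sides are joined by open-plus cells with probability `≥ c` -/
def RncLSS (x : ℝ) : Prop :=
  ∃ c : ℝ, 0 < c ∧ ∃ m₀ : ℕ, ∀ m : ℕ, m₀ ≤ m →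
    c * (clAmb x (rncQ m)).Z ((rncH0 x m).Holds (clAmb x (rncQ m))) ≤
      (clAmb x (rncQ m)).N ((rncH0 x m).Holds (clAmb x (rncQ m)))
        (glInd (fun ω => GlJoinC (clAmb x (rncQ m)) (glOn (clAmb x (rncQ m)) 1 ω) (rncLa m) (rncLc m)))

/-! ## 1. the sea history -/

/-- plus pins of the sea -/
noncomputable def rncBp (V : Finset TV) (m : ℕ) : Finset TV := V.filter (fun u => u.2 ≤ 0 ∨ (m : ℤ) ≤ u.2)
/-- minus pins of the sea -/
noncomputable def rncBm (V : Finset TV) (m : ℕ) : Finset TV :=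
  V.filter (fun u => 1 ≤ u.2 ∧ u.2 ≤ (m : ℤ) - 1 ∧ (u.1 ≤ 0 ∨ 5 * (m : ℤ) ≤ u.1))
/-- **the sea history** -/
noncomputable def rncSea (V : Finset TV) (m : ℕ) : ClCon TV TV :=
  ⟨rncBp V m, rncBm V m, ∅, (latCells V).filter (fun y => cellV y ∩ V ⊆ rncBp V m),
    (latCells V).filter (fun y => cellV y ∩ V ⊆ rncBm V m), ∅, ∅, ∅⟩

/-- the ports: the sites of the strip next to its four corners -/
noncomputable def rncPo (m : ℕ) : Finset TV :=
  ({0, 1, 5 * (m : ℤ) - 1, 5 * (m : ℤ)} : Finset ℤ) ×ˢ ({0, 1, (m : ℤ) - 1, (m : ℤ)} : Finset ℤ)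

/-- the cells which may carry the blocking path: open-plus cells inside the strip, and all the cells of the index rows `≤ 0` and `≥ m` -/
def rncT (m : ℕ) (ω : ClCfg TV TV) : Set TV :=
  {z | -1 ≤ z.1 ∧ z.1 ≤ 5 * (m : ℤ) ∧ ((z ∈ latCellsIn (rncQ m) ∧ z ∈ ω.O ∧ cellV z ⊆ ω.B) ∨ z.2 ≤ 0 ∨ (m : ℤ) ≤ z.2)}

/-- the blocking event, local in the strip -/
def RncE (m : ℕ) (ω : ClCfg TV TV) : Prop :=
  ∃ y y' : TV, y ∈ rncT m ω ∧ y.2 ≤ 0 ∧ (m : ℤ) - 1 ≤ y'.2 ∧ TscR tscG (rncT m ω) y y'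

/-- the equation lemmas of the definitions of this file are generated HERE -/
theorem rnc_eqns_cite : True := by
  have := @rncQ.eq_1
  have := @rncLa.eq_1
  have := @rncLc.eq_1
  have := @rncLd.eq_1
  have := @rncLb.eq_1
  have := @rncCb.eq_1
  have := @rncH0.eq_1
  have := @RncLSS.eq_1
  have := @rncBp.eq_1
  have := @rncBm.eq_1
  have := @rncSea.eq_1
  have := @rncPo.eq_1
  have := @rncT.eq_1
  have := @RncE.eq_1
  trivial

/-! ### membership -/

theorem rnc_mem_box {a b c d : ℤ} {u : TV} : u ∈ amBox a b c d ↔ a ≤ u.1 ∧ u.1 ≤ b ∧ c ≤ u.2 ∧ u.2 ≤ d := by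
  simp only [amBox, Finset.mem_product, Finset.mem_Icc]; tauto

theorem rnc_mem_Q {m : ℕ} {u : TV} : u ∈ rncQ m ↔ 0 ≤ u.1 ∧ u.1 ≤ 5 * (m : ℤ) ∧ 0 ≤ u.2 ∧ u.2 ≤ (m : ℤ) := by
  unfold rncQ; rw [rnc_mem_box]

theorem rnc_cell_all (y : TV) (P : TV → Prop) : (∀ u ∈ cellV y, P u) ↔ P y ∧ P (y + (1, 0)) ∧ P (y + (0, 1)) := by
  simp [cellV]

theorem rnc_cell_ex (y : TV) (P : TV → Prop) : (∃ u ∈ cellV y, P u) ↔ P y ∨ P (y + (1, 0)) ∨ P (y + (0, 1)) := by
  simp [cellV]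

theorem rnc_mem_cin {m : ℕ} {y : TV} : y ∈ latCellsIn (rncQ m) ↔ 0 ≤ y.1 ∧ y.1 + 1 ≤ 5 * (m : ℤ) ∧ 0 ≤ y.2 ∧ y.2 + 1 ≤ (m : ℤ) := by
  rw [lat_mem_cellsIn, Finset.subset_iff, rnc_cell_all]
  simp only [rnc_mem_Q, Prod.fst_add, Prod.snd_add, add_zero]
  omega

theorem rnc_mem_Po {m : ℕ} {u : TV} : u ∈ rncPo m ↔
    (u.1 = 0 ∨ u.1 = 1 ∨ u.1 = 5 * (m : ℤ) - 1 ∨ u.1 = 5 * (m : ℤ)) ∧ (u.2 = 0 ∨ u.2 = 1 ∨ u.2 = (m : ℤ) - 1 ∨ u.2 = (m : ℤ)) := by
  simp only [rncPo, Finset.mem_product, Finset.mem_insert, Finset.mem_singleton]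

theorem rnc_Po_card (m : ℕ) : (rncPo m).card ≤ 16 := by
  unfold rncPo
  rw [Finset.card_product]
  have h1 : ({0, 1, 5 * (m : ℤ) - 1, 5 * (m : ℤ)} : Finset ℤ).card ≤ 4 := Finset.card_le_four
  have h2 : ({0, 1, (m : ℤ) - 1, (m : ℤ)} : Finset ℤ).card ≤ 4 := Finset.card_le_four
  nlinarith

/-! ## 2. deterministic part -/

theorem rnc_mem_end {m : ℕ} {u : TV} : u ∈ glEnd (rncLa m) (rncLc m) (rncLd m) (rncLb m) ↔
    u ∈ rncQ m ∧ (u.1 = 0 ∨ u.1 = 5 * (m : ℤ)) ∧ u.2 ≠ 0 ∧ u.2 ≠ (m : ℤ) := by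
  simp only [glEnd, rncLa, rncLc, rncLd, rncLb, Finset.mem_sdiff, Finset.mem_union, Finset.mem_filter]
  tauto

theorem rnc_mem_ac {m : ℕ} {u : TV} : u ∈ rncLa m ∪ rncLc m ↔ u ∈ rncQ m ∧ (u.2 = 0 ∨ u.2 = (m : ℤ)) := by
  simp only [rncLa, rncLc, Finset.mem_union, Finset.mem_filter]
  tauto

/-- under the history of the strip law the open-plus cells of the closed strip system lie in `rncT` -/
theorem rnc_on_T (x : ℝ) (m : ℕ) (ω : ClCfg TV TV) (hω : (rncH0 x m).Holds (clAmb x (rncQ m)) ω) :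
    glOn (clAmb x (rncQ m)) 1 ω ⊆ rncT m ω := by
  rintro z ⟨hzC, hzt⟩
  obtain ⟨hzO, hzB⟩ := (amo_tau_pos _ ω z).1 hzt
  have hzB' : ∀ u ∈ cellV z, u ∈ rncQ m → u ∈ ω.B := fun u hu hq => hzB (Finset.mem_inter.2 ⟨hu, hq⟩)
  have hminus : ∀ v ∈ glEnd (rncLa m) (rncLc m) (rncLd m) (rncLb m), v ∉ ω.B := hω.2.1
  have hmeet : ∃ u ∈ cellV z, u ∈ rncQ m := lat_mem_cells.1 hzC
  rw [rnc_cell_ex] at hmeet
  simp only [rnc_mem_Q, Prod.fst_add, Prod.snd_add, add_zero] at hmeet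
  refine ⟨by omega, by omega, ?_⟩
  by_cases hin : z ∈ latCellsIn (rncQ m)
  · exact Or.inl ⟨hin, hzO, fun u hu => hzB' u hu (lat_mem_cellsIn.1 hin hu)⟩
  · right
    by_contra hrow
    rw [rnc_mem_cin] at hin
    rw [rnc_cell_all] at hzB'
    by_cases h1 : z.1 = -1
    · have hq : z + (1, 0) ∈ rncQ m := by
        rw [rnc_mem_Q]; simp only [Prod.fst_add, Prod.snd_add, add_zero]; omega
      refine hminus _ (rnc_mem_end.2 ⟨hq, ?_, ?_, ?_⟩) (hzB'.2.1 hq) <;>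
        simp only [Prod.fst_add, Prod.snd_add, add_zero] <;> omega
    · have hq : z ∈ rncQ m := by rw [rnc_mem_Q]; omega
      refine hminus _ (rnc_mem_end.2 ⟨hq, ?_, ?_, ?_⟩) (hzB'.1 hq) <;> omega

/-- the event of the contract implies the blocking event -/
theorem rnc_join_E (x : ℝ) (m : ℕ) (ω : ClCfg TV TV) (hω : (rncH0 x m).Holds (clAmb x (rncQ m)) ω)
    (h : GlJoinC (clAmb x (rncQ m)) (glOn (clAmb x (rncQ m)) 1 ω) (rncLa m) (rncLc m)) : RncE m ω := by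
  obtain ⟨y, y', hy, hy', ⟨a, ha, hay⟩, ⟨c, hc, hcy⟩, hR⟩ := h
  have hsub := rnc_on_T x m ω hω
  have hay' : a ∈ cellV y := (Finset.mem_inter.1 hay).1
  have hcy' : c ∈ cellV y' := (Finset.mem_inter.1 hcy).1
  have ha2 : a.2 = 0 := (Finset.mem_filter.1 ha).2
  have hc2 : c.2 = (m : ℤ) := (Finset.mem_filter.1 hc).2
  rw [pcp_mem_cell'] at hay' hcy'
  refine ⟨y, y', hsub hy, by omega, by omega, ?_⟩
  refine ReflTransGen.mono ?_ _ _ hR
  rintro u v ⟨⟨hne, w, hw1, hw2⟩, hu, hv⟩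
  refine ⟨?_, hsub hu, hsub hv⟩
  rcases (pcp_share u v).1 ⟨w, (Finset.mem_inter.1 hw1).1, (Finset.mem_inter.1 hw2).1⟩ with h | h
  · exact absurd h hne
  · exact h

/-- **J1**: the blocking event separates the two far sides of every domain inside the band -/
theorem rnc_E_sep (x : ℝ) (m : ℕ) (D : Finset TV) (hD : ∀ u ∈ D, 1 ≤ u.2 ∧ u.2 ≤ (m : ℤ) - 1) (ω : ClCfg TV TV) (h : RncE m ω) :
    ClSep (clInn x D) true ∅ ω (D.filter (fun u => u.1 ≤ -1)) (D.filter (fun u => 5 * (m : ℤ) + 1 ≤ u.1)) := by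
  obtain ⟨y, y', hy, hy0, hy1, hR⟩ := h
  refine (pcp_sep_iff x D (latCellsIn D) (pcp_inn_sub D) true ω _ _).2 ⟨?_, ?_⟩
  · refine Finset.disjoint_left.2 fun u h1 h2 => ?_
    have := (Finset.mem_filter.1 h1).2
    have := (Finset.mem_filter.1 h2).2
    omega
  · rintro p ⟨u, hup, huO⟩ q ⟨v, hvq, hvZ⟩ hp hpq
    have hu1 : u.1 ≤ -1 := (Finset.mem_filter.1 (Finset.mem_coe.1 huO)).2
    have hv1 : 5 * (m : ℤ) + 1 ≤ v.1 := (Finset.mem_filter.1 (Finset.mem_coe.1 hvZ)).2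
    rw [pcp_mem_cell'] at hup hvq
    have hS : ∀ z ∈ pcpOff x D (latCellsIn D) ω true, 1 ≤ z.2 ∧ z.2 ≤ (m : ℤ) - 2 := by
      rintro z ⟨hz, _⟩
      have hz' := lat_mem_cellsIn.1 hz
      have h1 := hD z (hz' (by simp [cellV]))
      have h2 := hD (z + (0, 1)) (hz' (by simp [cellV]))
      simp only [Prod.snd_add] at h2
      omega
    obtain ⟨z, hz1, hz2⟩ := pls_rect (a := -1) (b := 5 * (m : ℤ)) (c := 1) (d := (m : ℤ) - 2) hp hpq hS (by omega) (by omega) hy hR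
      (fun z hz => ⟨hz.1, hz.2.1⟩) (by omega) (by omega)
    have hrow := hS z hz1
    obtain ⟨hzD, hzt⟩ := hz1
    rcases hz2.2.2 with ⟨_, hzO, hzB⟩ | h | h
    · refine hzt ((amo_tau_pos _ ω z).2 ⟨hzO, ?_⟩)
      exact Finset.inter_subset_left.trans hzB
    · omega
    · omega

/-- the blocking event is local in the strip -/
theorem rnc_E_loc (m : ℕ) (ω ω' : ClCfg TV TV) (hB : ω.B ∩ rncQ m = ω'.B ∩ rncQ m)
    (hO : ω.O ∩ latCellsIn (rncQ m) = ω'.O ∩ latCellsIn (rncQ m)) : RncE m ω ↔ RncE m ω' := by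
  have e : rncT m ω = rncT m ω' := by
    ext z
    simp only [rncT, Set.mem_ofPred_eq]
    refine and_congr_right fun _ => and_congr_right fun _ => or_congr_left (and_congr_right fun hz => ?_)
    refine and_congr (dcu_mem_of_inter hO hz) ?_
    have hz' := lat_mem_cellsIn.1 hz
    exact ⟨fun h u hu => (dcu_mem_of_inter hB (hz' hu)).1 (h hu), fun h u hu => (dcu_mem_of_inter hB (hz' hu)).2 (h hu)⟩
  unfold RncE
  rw [e]

/-! ## 3. ports: the strip law against the sea history -/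

theorem rnc_H0_Bp (x : ℝ) (m : ℕ) : (rncH0 x m).Bp = rncLa m ∪ rncLc m := rfl
theorem rnc_H0_Bm (x : ℝ) (m : ℕ) : (rncH0 x m).Bm = glEnd (rncLa m) (rncLc m) (rncLd m) (rncLb m) := rfl
theorem rnc_H0_Op (x : ℝ) (m : ℕ) : (rncH0 x m).Op = (rncCb m).filter (fun y => cellV y ∩ rncQ m ⊆ rncLa m ∪ rncLc m) := rfl
theorem rnc_H0_Om (x : ℝ) (m : ℕ) :
    (rncH0 x m).Om = (rncCb m).filter (fun y => cellV y ∩ rncQ m ⊆ glEnd (rncLa m) (rncLc m) (rncLd m) (rncLb m)) := rfl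

theorem rnc_mem_Bp {V : Finset TV} {m : ℕ} {u : TV} : u ∈ rncBp V m ↔ u ∈ V ∧ (u.2 ≤ 0 ∨ (m : ℤ) ≤ u.2) := Finset.mem_filter
theorem rnc_mem_Bm {V : Finset TV} {m : ℕ} {u : TV} :
    u ∈ rncBm V m ↔ u ∈ V ∧ 1 ≤ u.2 ∧ u.2 ≤ (m : ℤ) - 1 ∧ (u.1 ≤ 0 ∨ 5 * (m : ℤ) ≤ u.1) := Finset.mem_filter

/-- a site of the strip in a cell which is not inside the strip lies on the boundary of the strip -/
theorem rnc_bdy {m : ℕ} {y u : TV} (hy : y ∉ latCellsIn (rncQ m)) (hu : u ∈ cellV y) (hq : u ∈ rncQ m) :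
    u.2 = 0 ∨ u.2 = (m : ℤ) ∨ u.1 = 0 ∨ u.1 = 5 * (m : ℤ) := by
  rw [rnc_mem_cin] at hy
  rw [pcp_mem_cell'] at hu
  rw [rnc_mem_Q] at hq
  omega

/-- the strip law is a retained law with ports -/
theorem rnc_split_Q (x : ℝ) (hx0 : 0 < x) (hx1 : x ≤ 1) (m : ℕ) :
    PrcSplit (clAmb x (rncQ m)) (rncH0 x m) (rncQ m) (latCellsIn (rncQ m)) ∅ (rncPo m) := by
  have hok := pcp_amb_ok x hx0 hx1 (rncQ m)
  refine ⟨Finset.Subset.refl _, ?_, hok.sub, fun y hy => (hok.q0 y hy).le, hok.q1, fun y _ => Finset.inter_subset_right, ?_, ?_,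
    Finset.empty_subset _, fun e he => absurd he (Finset.notMem_empty e), fun e he => absurd he (Finset.notMem_empty e),
    fun e he => absurd he (Finset.notMem_empty e), rfl, rfl⟩
  · intro y hy
    exact lat_mem_cells.2 ⟨y, by simp [cellV], lat_mem_cellsIn.1 hy (by simp [cellV])⟩
  · intro y _ hyn u hu
    have hu1 : u ∈ cellV y := (Finset.mem_inter.1 (Finset.mem_inter.1 hu).1).1
    have hq : u ∈ rncQ m := (Finset.mem_inter.1 hu).2
    have hb := rnc_bdy hyn hu1 hq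
    rw [rnc_H0_Bp, rnc_H0_Bm, Finset.mem_union, rnc_mem_ac, rnc_mem_end]
    by_cases h0 : u.2 = 0
    · exact Or.inl ⟨hq, Or.inl h0⟩
    · by_cases h1 : u.2 = (m : ℤ)
      · exact Or.inl ⟨hq, Or.inr h1⟩
      · exact Or.inr ⟨hq, by omega, h0, h1⟩
  · intro y hyC hyn
    have hCb : y ∈ rncCb m := Finset.mem_sdiff.2 ⟨hyC, hyn⟩
    by_cases h1 : cellV y ∩ rncQ m ⊆ rncLa m ∪ rncLc m
    · exact Or.inl (Finset.mem_union_left _ (by rw [rnc_H0_Op]; exact Finset.mem_filter.2 ⟨hCb, h1⟩))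
    by_cases h2 : cellV y ∩ rncQ m ⊆ glEnd (rncLa m) (rncLc m) (rncLd m) (rncLb m)
    · exact Or.inl (Finset.mem_union_right _ (by rw [rnc_H0_Om]; exact Finset.mem_filter.2 ⟨hCb, h2⟩))
    right
    obtain ⟨u₁, hu₁, hn₁⟩ := Finset.not_subset.1 h1
    obtain ⟨u₂, hu₂, hn₂⟩ := Finset.not_subset.1 h2
    obtain ⟨hc₁, hq₁⟩ := Finset.mem_inter.1 hu₁
    obtain ⟨hc₂, hq₂⟩ := Finset.mem_inter.1 hu₂
    have hb₁ := rnc_bdy hyn hc₁ hq₁
    have hb₂ := rnc_bdy hyn hc₂ hq₂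
    rw [rnc_mem_ac] at hn₁
    rw [rnc_mem_end] at hn₂
    have hn₁' : u₁.2 ≠ 0 ∧ u₁.2 ≠ (m : ℤ) := ⟨fun h => hn₁ ⟨hq₁, Or.inl h⟩, fun h => hn₁ ⟨hq₁, Or.inr h⟩⟩
    have hn₂' : u₂.2 = 0 ∨ u₂.2 = (m : ℤ) := by
      by_contra hh
      push Not at hh
      exact hn₂ ⟨hq₂, by omega, hh.1, hh.2⟩
    intro u hu
    have hc : u ∈ cellV y := (Finset.mem_inter.1 (Finset.mem_inter.1 hu).1).1
    have hq : u ∈ rncQ m := (Finset.mem_inter.1 hu).2
    rw [pcp_mem_cell'] at hc hc₁ hc₂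
    rw [rnc_mem_Q] at hq hq₁ hq₂
    rw [rnc_mem_Po]
    constructor <;> omega

/-- hypotheses on the ambient box -/
structure RncAmb (A₁ A₂ B₁ B₂ : ℤ) (m : ℕ) : Prop where
  a1 : A₁ ≤ -1
  a2 : 5 * (m : ℤ) + 1 ≤ A₂
  b1 : B₁ ≤ -1
  b2 : (m : ℤ) + 1 ≤ B₂
  m3 : 3 ≤ m

/-- the sea history is a retained law with ports -/
theorem rnc_split_V (x : ℝ) (hx0 : 0 < x) (hx1 : x ≤ 1) (m : ℕ) (A₁ A₂ B₁ B₂ : ℤ) (hV : RncAmb A₁ A₂ B₁ B₂ m) :
    PrcSplit (clAmb x (amBox A₁ A₂ B₁ B₂)) (rncSea (amBox A₁ A₂ B₁ B₂) m) (rncQ m) (latCellsIn (rncQ m)) ∅ (rncPo m) := by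
  obtain ⟨a1, a2, b1, b2, m3⟩ := hV
  have hok := pcp_amb_ok x hx0 hx1 (amBox A₁ A₂ B₁ B₂)
  have hQV : rncQ m ⊆ amBox A₁ A₂ B₁ B₂ := by
    intro u hu
    rw [rnc_mem_Q] at hu
    rw [rnc_mem_box]
    omega
  refine ⟨hQV, ?_, hok.sub, fun y hy => (hok.q0 y hy).le, hok.q1, ?_, ?_, ?_,
    Finset.empty_subset _, fun e he => absurd he (Finset.notMem_empty e), fun e he => absurd he (Finset.notMem_empty e),
    fun e he => absurd he (Finset.notMem_empty e), rfl, rfl⟩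
  · intro y hy
    exact lat_mem_cells.2 ⟨y, by simp [cellV], hQV (lat_mem_cellsIn.1 hy (by simp [cellV]))⟩
  · intro y hy
    exact Finset.inter_subset_left.trans (lat_mem_cellsIn.1 hy)
  · intro y _ hyn u hu
    have hu1 : u ∈ cellV y := (Finset.mem_inter.1 (Finset.mem_inter.1 hu).1).1
    have hq : u ∈ rncQ m := (Finset.mem_inter.1 hu).2
    have hb := rnc_bdy hyn hu1 hq
    show u ∈ rncBp _ m ∪ rncBm _ m
    rw [Finset.mem_union, rnc_mem_Bp, rnc_mem_Bm]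
    have hv := hQV hq
    rw [rnc_mem_Q] at hq
    by_cases h0 : u.2 ≤ 0 ∨ (m : ℤ) ≤ u.2
    · exact Or.inl ⟨hv, h0⟩
    · exact Or.inr ⟨hv, by omega, by omega, by omega⟩
  · intro y hyC hyn
    by_cases h1 : cellV y ∩ amBox A₁ A₂ B₁ B₂ ⊆ rncBp (amBox A₁ A₂ B₁ B₂) m
    · exact Or.inl (Finset.mem_union_left _ (Finset.mem_filter.2 ⟨hyC, h1⟩))
    by_cases h2 : cellV y ∩ amBox A₁ A₂ B₁ B₂ ⊆ rncBm (amBox A₁ A₂ B₁ B₂) m
    · exact Or.inl (Finset.mem_union_right _ (Finset.mem_filter.2 ⟨hyC, h2⟩))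
    right
    obtain ⟨u₁, hu₁, hn₁⟩ := Finset.not_subset.1 h1
    obtain ⟨u₂, hu₂, hn₂⟩ := Finset.not_subset.1 h2
    obtain ⟨hc₁, hq₁⟩ := Finset.mem_inter.1 hu₁
    obtain ⟨hc₂, hq₂⟩ := Finset.mem_inter.1 hu₂
    rw [rnc_mem_Bp] at hn₁
    rw [rnc_mem_Bm] at hn₂
    have hn₁' : ¬ (u₁.2 ≤ 0 ∨ (m : ℤ) ≤ u₁.2) := fun h => hn₁ ⟨hq₁, h⟩
    have hn₂' : ¬ (1 ≤ u₂.2 ∧ u₂.2 ≤ (m : ℤ) - 1 ∧ (u₂.1 ≤ 0 ∨ 5 * (m : ℤ) ≤ u₂.1)) := fun h => hn₂ ⟨hq₂, h⟩
    intro u hu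
    have hc : u ∈ cellV y := (Finset.mem_inter.1 (Finset.mem_inter.1 hu).1).1
    have hq : u ∈ rncQ m := (Finset.mem_inter.1 hu).2
    rw [rnc_mem_cin] at hyn
    rw [pcp_mem_cell'] at hc hc₁ hc₂
    rw [rnc_mem_Q] at hq
    rw [rnc_mem_Po]
    constructor <;> omega

theorem rnc_Q_sub {m : ℕ} {A₁ A₂ B₁ B₂ : ℤ} (hV : RncAmb A₁ A₂ B₁ B₂ m) : rncQ m ⊆ amBox A₁ A₂ B₁ B₂ := by
  obtain ⟨a1, a2, b1, b2, m3⟩ := hV
  intro u hu
  rw [rnc_mem_Q] at hu
  rw [rnc_mem_box]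
  omega

/-- the two retained constraints coincide -/
theorem rnc_KR (x : ℝ) (m : ℕ) (A₁ A₂ B₁ B₂ : ℤ) (hV : RncAmb A₁ A₂ B₁ B₂ m) :
    prcKR (rncH0 x m) (rncQ m) (latCellsIn (rncQ m)) ∅ = prcKR (rncSea (amBox A₁ A₂ B₁ B₂) m) (rncQ m) (latCellsIn (rncQ m)) ∅ := by
  have hQV := rnc_Q_sub hV
  obtain ⟨a1, a2, b1, b2, m3⟩ := hV
  have e1 : (rncH0 x m).Bp ∩ rncQ m = (rncSea (amBox A₁ A₂ B₁ B₂) m).Bp ∩ rncQ m := by
    ext u
    rw [rnc_H0_Bp]
    show _ ↔ u ∈ rncBp _ m ∩ rncQ m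
    rw [Finset.mem_inter, Finset.mem_inter, rnc_mem_ac, rnc_mem_Bp]
    constructor
    · rintro ⟨⟨hq, h⟩, _⟩
      exact ⟨⟨hQV hq, by omega⟩, hq⟩
    · rintro ⟨⟨_, h⟩, hq⟩
      have hq' := rnc_mem_Q.1 hq
      exact ⟨⟨hq, by omega⟩, hq⟩
  have e2 : (rncH0 x m).Bm ∩ rncQ m = (rncSea (amBox A₁ A₂ B₁ B₂) m).Bm ∩ rncQ m := by
    ext u
    rw [rnc_H0_Bm]
    show _ ↔ u ∈ rncBm _ m ∩ rncQ m
    rw [Finset.mem_inter, Finset.mem_inter, rnc_mem_end, rnc_mem_Bm]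
    constructor
    · rintro ⟨⟨hq, h⟩, _⟩
      have hq' := rnc_mem_Q.1 hq
      exact ⟨⟨hQV hq, by omega, by omega, by omega⟩, hq⟩
    · rintro ⟨⟨_, h⟩, hq⟩
      have hq' := rnc_mem_Q.1 hq
      exact ⟨⟨hq, by omega, by omega, by omega⟩, hq⟩
  have e3 : (rncH0 x m).Op ∩ latCellsIn (rncQ m) = (rncSea (amBox A₁ A₂ B₁ B₂) m).Op ∩ latCellsIn (rncQ m) := by
    have l : (rncH0 x m).Op ∩ latCellsIn (rncQ m) = ∅ := by
      rw [rnc_H0_Op]
      ext y
      simp only [Finset.mem_inter, Finset.mem_filter, rncCb, Finset.mem_sdiff, Finset.notMem_empty, iff_false]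
      tauto
    have r : (rncSea (amBox A₁ A₂ B₁ B₂) m).Op ∩ latCellsIn (rncQ m) = ∅ := by
      ext y
      simp only [Finset.notMem_empty, iff_false, Finset.mem_inter]
      rintro ⟨hy, hin⟩
      have hsub : cellV y ∩ amBox A₁ A₂ B₁ B₂ ⊆ rncBp (amBox A₁ A₂ B₁ B₂) m := (Finset.mem_filter.1 hy).2
      have hc := lat_mem_cellsIn.1 hin
      have h1 := (rnc_mem_Bp.1 (hsub (Finset.mem_inter.2 ⟨by simp [cellV], hQV (hc (show y ∈ cellV y by simp [cellV]))⟩))).2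
      have h2 := (rnc_mem_Bp.1 (hsub (Finset.mem_inter.2 ⟨by simp [cellV], hQV (hc (show y + (0, 1) ∈ cellV y by simp [cellV]))⟩))).2
      rw [rnc_mem_cin] at hin
      simp only [Prod.snd_add] at h2
      omega
    rw [l, r]
  have e4 : (rncH0 x m).Om ∩ latCellsIn (rncQ m) = (rncSea (amBox A₁ A₂ B₁ B₂) m).Om ∩ latCellsIn (rncQ m) := by
    have l : (rncH0 x m).Om ∩ latCellsIn (rncQ m) = ∅ := by
      rw [rnc_H0_Om]
      ext y
      simp only [Finset.mem_inter, Finset.mem_filter, rncCb, Finset.mem_sdiff, Finset.notMem_empty, iff_false]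
      tauto
    have r : (rncSea (amBox A₁ A₂ B₁ B₂) m).Om ∩ latCellsIn (rncQ m) = ∅ := by
      ext y
      simp only [Finset.notMem_empty, iff_false, Finset.mem_inter]
      rintro ⟨hy, hin⟩
      have hsub : cellV y ∩ amBox A₁ A₂ B₁ B₂ ⊆ rncBm (amBox A₁ A₂ B₁ B₂) m := (Finset.mem_filter.1 hy).2
      have hc := lat_mem_cellsIn.1 hin
      have h1 := (rnc_mem_Bm.1 (hsub (Finset.mem_inter.2 ⟨by simp [cellV], hQV (hc (show y ∈ cellV y by simp [cellV]))⟩))).2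
      have h2 := (rnc_mem_Bm.1 (hsub (Finset.mem_inter.2 ⟨by simp [cellV], hQV (hc (show y + (1, 0) ∈ cellV y by simp [cellV]))⟩))).2
      rw [rnc_mem_cin] at hin
      simp only [Prod.fst_add, Prod.snd_add, add_zero] at h2
      omega
    rw [l, r]
  unfold prcKR
  rw [e1, e2, e3, e4]
  rfl

/-- the strip law is a law -/
theorem rnc_feas_Q (x : ℝ) (hx0 : 0 < x) (hx1 : x ≤ 1) (m : ℕ) (hm : 1 ≤ m) :
    0 < (clAmb x (rncQ m)).Z ((rncH0 x m).Holds (clAmb x (rncQ m))) := by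
  have hok := pcp_amb_ok x hx0 hx1 (rncQ m)
  have hdis : Disjoint (rncLa m ∪ rncLc m) (glEnd (rncLa m) (rncLc m) (rncLd m) (rncLb m)) :=
    Finset.disjoint_left.2 fun u h1 h2 => (Finset.mem_sdiff.1 h2).2 h1
  refine dis_feas _ hok _ ⟨rfl, rfl, ?_, fun e he => absurd he (Finset.notMem_empty e)⟩
    ⟨?_, hdis, ?_, ?_, ?_, ?_, fun y hy => absurd hy (Finset.notMem_empty y), ?_, Finset.disjoint_empty_right _, Finset.disjoint_empty_right _⟩
  · intro y hy hy'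
    have hy'' : y ∈ (rncH0 x m).Op ∪ (rncH0 x m).Om := by
      rcases Finset.mem_union.1 hy' with h | h
      · exact h
      · exact absurd h (Finset.notMem_empty y)
    rcases Finset.mem_union.1 hy'' with h | h
    · exact ((Finset.mem_filter.1 h).2).trans Finset.subset_union_left
    · exact ((Finset.mem_filter.1 h).2).trans Finset.subset_union_right
  · intro u hu
    exact (rnc_mem_ac.1 hu).1
  · intro y hy
    exact (Finset.mem_sdiff.1 (Finset.mem_filter.1 hy).1).1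
  · intro y hy
    exact (Finset.mem_sdiff.1 (Finset.mem_filter.1 hy).1).1
  · intro y hy
    exact (Finset.mem_filter.1 hy).2
  · intro y hy
    exact (Finset.mem_filter.1 hy).2
  · refine Finset.disjoint_left.2 fun y h1 h2 => ?_
    obtain ⟨u, hu⟩ := hok.ne y (Finset.mem_sdiff.1 (Finset.mem_filter.1 h1).1).1
    exact Finset.disjoint_left.1 hdis ((Finset.mem_filter.1 h1).2 hu) ((Finset.mem_filter.1 h2).2 hu)

theorem rnc_sea_dis (V : Finset TV) (m : ℕ) : Disjoint (rncBp V m) (rncBm V m) :=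
  Finset.disjoint_left.2 fun u h1 h2 => by
    have := (rnc_mem_Bp.1 h1).2
    have := (rnc_mem_Bm.1 h2).2
    omega

/-- the sea history is legal -/
theorem rnc_sea_legal (x : ℝ) (V : Finset TV) (m : ℕ) : ClLegal (clAmb x V) (rncSea V m) := by
  refine ⟨rfl, rfl, ?_, fun e he => absurd he (Finset.notMem_empty e)⟩
  intro y hy hy'
  have hy'' : y ∈ (rncSea V m).Op ∪ (rncSea V m).Om := by
    rcases Finset.mem_union.1 hy' with h | h
    · exact h
    · exact absurd h (Finset.notMem_empty y)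
  rcases Finset.mem_union.1 hy'' with h | h
  · exact ((Finset.mem_filter.1 h).2).trans Finset.subset_union_left
  · exact ((Finset.mem_filter.1 h).2).trans Finset.subset_union_right

/-- the sea history is feasible -/
theorem rnc_feas_V (x : ℝ) (hx0 : 0 < x) (hx1 : x ≤ 1) (V : Finset TV) (m : ℕ) :
    0 < (clAmb x V).Z ((rncSea V m).Holds (clAmb x V)) := by
  have hok := pcp_amb_ok x hx0 hx1 V
  refine dis_feas _ hok _ (rnc_sea_legal x V m)
    ⟨Finset.filter_subset _ _, rnc_sea_dis V m, Finset.filter_subset _ _, Finset.filter_subset _ _, ?_, ?_,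
      fun y hy => absurd hy (Finset.notMem_empty y), ?_, Finset.disjoint_empty_right _, Finset.disjoint_empty_right _⟩
  · intro y hy
    exact (Finset.mem_filter.1 hy).2
  · intro y hy
    exact (Finset.mem_filter.1 hy).2
  · refine Finset.disjoint_left.2 fun y h1 h2 => ?_
    obtain ⟨u, hu⟩ := hok.ne y (Finset.mem_filter.1 h1).1
    exact Finset.disjoint_left.1 (rnc_sea_dis V m) ((Finset.mem_filter.1 h1).2 hu) ((Finset.mem_filter.1 h2).2 hu)

/-- **the blocking event under the sea history** -/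
theorem rnc_sea (x : ℝ) (hx0 : 0 < x) (hx1 : x ≤ 1) (m : ℕ) (A₁ A₂ B₁ B₂ : ℤ) (hV : RncAmb A₁ A₂ B₁ B₂ m) (c : ℝ) (hc0 : 0 ≤ c)
    (hc : c * (clAmb x (rncQ m)).Z ((rncH0 x m).Holds (clAmb x (rncQ m))) ≤
      (clAmb x (rncQ m)).N ((rncH0 x m).Holds (clAmb x (rncQ m)))
        (glInd (fun ω => GlJoinC (clAmb x (rncQ m)) (glOn (clAmb x (rncQ m)) 1 ω) (rncLa m) (rncLc m)))) :
    c / 2 ^ 30 * (clAmb x (amBox A₁ A₂ B₁ B₂)).Z ((rncSea (amBox A₁ A₂ B₁ B₂) m).Holds (clAmb x (amBox A₁ A₂ B₁ B₂))) ≤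
      (clAmb x (amBox A₁ A₂ B₁ B₂)).N ((rncSea (amBox A₁ A₂ B₁ B₂) m).Holds (clAmb x (amBox A₁ A₂ B₁ B₂))) (clInd (RncE m)) := by
  have hQV := rnc_Q_sub hV
  set SQ := clAmb x (rncQ m) with hSQ
  set SV := clAmb x (amBox A₁ A₂ B₁ B₂) with hSV
  have hokQ : ClOk SQ := pcp_amb_ok x hx0 hx1 _
  have hokV : ClOk SV := pcp_amb_ok x hx0 hx1 _
  have hZQ : 0 < SQ.Z ((rncH0 x m).Holds SQ) := rnc_feas_Q x hx0 hx1 m (by have := hV.m3; omega)
  have hcell : ∀ y ∈ latCellsIn (rncQ m), cellV y ∩ rncQ m = cellV y ∩ amBox A₁ A₂ B₁ B₂ := by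
    intro y hy
    have h := lat_mem_cellsIn.1 hy
    rw [Finset.inter_eq_left.2 h, Finset.inter_eq_left.2 (h.trans hQV)]
  have h1 : SQ.N ((rncH0 x m).Holds SQ) (glInd (fun ω => GlJoinC SQ (glOn SQ 1 ω) (rncLa m) (rncLc m))) ≤
      SQ.N ((rncH0 x m).Holds SQ) (clInd (RncE m)) := by
    refine dmt_N_mono SQ hokQ _ fun ω hω => ?_
    exact dis_ind_mono (L₁ := fun ω => GlJoinC SQ (glOn SQ 1 ω) (rncLa m) (rncLc m)) (rnc_join_E x m ω hω)
  have h2 := prc_two_amb (rnc_split_Q x hx0 hx1 m) (rnc_split_V x hx0 hx1 m A₁ A₂ B₁ B₂ hV) (fun y hy => hcell y hy)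
    (fun y hy => by
      show (if (cellV y ∩ rncQ m).card = 3 then x ^ 2 else x) = (if (cellV y ∩ amBox A₁ A₂ B₁ B₂).card = 3 then x ^ 2 else x)
      rw [hcell y hy])
    (rnc_KR x m A₁ A₂ B₁ B₂ hV) (F := clInd (RncE m)) (prc_loc_ind (rnc_E_loc m)) (dis_ind_nonneg _)
  have hN : 0 ≤ SV.N ((rncSea (amBox A₁ A₂ B₁ B₂) m).Holds SV) (clInd (RncE m)) := dis_N_nonneg SV hokV _ (dis_ind_nonneg _)
  have hZV : 0 ≤ SV.Z ((rncSea (amBox A₁ A₂ B₁ B₂) m).Holds SV) := dis_Z_nonneg SV hokV _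
  have hpow : (2 : ℝ) ^ (((rncPo m).card - 1) + ((rncPo m).card - 1)) ≤ 2 ^ 30 :=
    pow_le_pow_right₀ (by norm_num) (by have := rnc_Po_card m; omega)
  have h3 : c * SQ.Z ((rncH0 x m).Holds SQ) * SV.Z ((rncSea (amBox A₁ A₂ B₁ B₂) m).Holds SV) ≤
      2 ^ 30 * (SQ.Z ((rncH0 x m).Holds SQ) * SV.N ((rncSea (amBox A₁ A₂ B₁ B₂) m).Holds SV) (clInd (RncE m))) :=
    calc _ ≤ SQ.N ((rncH0 x m).Holds SQ) (clInd (RncE m)) * SV.Z ((rncSea (amBox A₁ A₂ B₁ B₂) m).Holds SV) :=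
          mul_le_mul_of_nonneg_right (hc.trans h1) hZV
      _ ≤ _ := h2
      _ ≤ _ := mul_le_mul_of_nonneg_right hpow (mul_nonneg hZQ.le hN)
  have h4 : c * SV.Z ((rncSea (amBox A₁ A₂ B₁ B₂) m).Holds SV) ≤
      2 ^ 30 * SV.N ((rncSea (amBox A₁ A₂ B₁ B₂) m).Holds SV) (clInd (RncE m)) := by
    refine le_of_mul_le_mul_left ?_ hZQ
    linarith
  rw [div_mul_eq_mul_div, div_le_iff₀ (by positivity)]
  linarith

/-! ## 4. the order step: `P^+_D(K)` against the sea history -/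

/-- locality of a separation event of the inner planar system -/
theorem rnc_sep_loc (x : ℝ) (I O A : Finset TV) (s : Bool) : ClLocP I (latCellsIn I) (fun ω => ClSep (clInn x I) s ∅ ω O A) := by
  intro ω ω' hB _ hO
  have e : clStep (clInn x I) s ∅ ω = clStep (clInn x I) s ∅ ω' := by
    funext u v
    apply propext
    unfold clStep
    refine or_congr_left (exists_congr fun y => and_congr_right fun hy => ?_)
    rw [amo_tau_loc (clInn x I) hB hO (show y ∈ latCellsIn I from hy) Finset.inter_subset_right]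
  show ClSep (clInn x I) s ∅ ω O A ↔ ClSep (clInn x I) s ∅ ω' O A
  unfold ClSep
  rw [e]

theorem rnc_loc_ind {V Y : Type} [DecidableEq V] [DecidableEq Y] {T : Finset V} {T' : Finset Y} {L : ClCfg V Y → Prop}
    (h : ClLocP T T' L) : ClLoc T T' (clInd L) := by
  classical
  intro ω ω' h1 h2 h3
  have := h ω ω' h1 h2 h3
  unfold clInd
  by_cases hl : L ω
  · rw [if_pos hl, if_pos (this.1 hl)]
  · rw [if_neg hl, if_neg fun h' => hl (this.2 h')]

theorem rnc_ind_mono {V Y : Type} [DecidableEq V] [DecidableEq Y] (S : ClSys V Y) {E : ClCfg V Y → Prop} (hE : ClMonoP S E) :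
    ClMono S (clInd E) := by
  classical
  intro ω ω' hB hT
  unfold clInd
  by_cases he : E ω
  · rw [if_pos he, if_pos (hE ω ω' hB hT he)]
  · rw [if_neg he]; split_ifs <;> norm_num

theorem rnc_hist_mono {K : ClCon TV TV} {b b' : Finset TV} (h : RnHist K b) (hb : b ⊆ b') : RnHist K b' :=
  ⟨h.wp, h.wm, h.eq, h.bp.trans hb, h.bm.trans hb, h.op.trans (amp_cellsIn_mono hb), h.om.trans (amp_cellsIn_mono hb),
    h.cl.trans (amp_cellsIn_mono hb), h.full⟩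

theorem rnc_hist_legal (x : ℝ) {K : ClCon TV TV} {b : Finset TV} (h : RnHist K b) (D : Finset TV) : ClLegal (clInn x D) K :=
  ⟨h.wp, h.wm, fun y _ hy => Finset.inter_subset_left.trans (h.full y hy), fun e he => by rw [h.eq] at he; exact absurd he (Finset.notMem_empty e)⟩

theorem rnc_hist_in (x : ℝ) {K : ClCon TV TV} {D : Finset TV} (h : RnHist K D) : K.In (clInn x D) D := by
  refine ⟨h.bp, h.bm, fun e he => by rw [h.eq] at he; exact absurd he (Finset.notMem_empty e), ?_, ?_, ?_, by rw [h.wp]; exact Finset.empty_subset _,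
    by rw [h.wm]; exact Finset.empty_subset _⟩ <;> rw [amp_cin_inn]
  · exact h.op
  · exact h.om
  · exact h.cl

/-- the sea history lies below `K` + (all the cells not inside `D` open plus) -/
theorem rnc_le (x : ℝ) (m : ℕ) (V D : Finset TV) (hVD : latCl D ⊆ V) (hD : ∀ u ∈ D, 1 ≤ u.2 ∧ u.2 ≤ (m : ℤ) - 1) (K : ClCon TV TV)
    (hK : RnHist K (D.filter (fun u => u.1 ≤ -1 ∨ 5 * (m : ℤ) + 1 ≤ u.1))) :
    ClLe (rncSea V m) (K.opn (clAmb x V) true ((clAmb x V).cno D)) := by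
  have hDV : D ⊆ V := (amp_sub_cl D).trans hVD
  have hcell : ∀ y ∈ latCellsIn (D.filter (fun u => u.1 ≤ -1 ∨ 5 * (m : ℤ) + 1 ≤ u.1)), y ∈ (rncSea V m).Om := by
    intro y hy
    have hy' := lat_mem_cellsIn.1 hy
    refine Finset.mem_filter.2 ⟨lat_mem_cells.2 ⟨y, by simp [cellV], hDV (Finset.mem_filter.1 (hy' (by simp [cellV]))).1⟩, ?_⟩
    intro u hu
    obtain ⟨hu1, hu2⟩ := Finset.mem_filter.1 (hy' (Finset.mem_inter.1 hu).1)
    have := hD u hu1
    exact rnc_mem_Bm.2 ⟨hDV hu1, by omega, by omega, by omega⟩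
  simp only [ClCon.opn, if_true]
  refine ⟨?_, ?_, ?_, ?_, Finset.empty_subset _, ?_, hK.eq.symm⟩
  · -- plus pins
    intro u hu
    obtain ⟨huV, hrow⟩ := rnc_mem_Bp.1 hu
    refine Finset.mem_union_right _ (Finset.mem_biUnion.2 ⟨u, ?_, ?_⟩)
    · refine Finset.mem_filter.2 ⟨lat_mem_cells.2 ⟨u, by simp [cellV], huV⟩, fun hsub => ?_⟩
      have := hD u (hsub (Finset.mem_inter.2 ⟨by simp [cellV], huV⟩))
      omega
    · exact Finset.mem_inter.2 ⟨by simp [cellV], huV⟩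
  · -- minus pins
    intro u hu
    obtain ⟨hu1, hu2⟩ := Finset.mem_filter.1 (hK.bm hu)
    have := hD u hu1
    exact rnc_mem_Bm.2 ⟨hDV hu1, by omega, by omega, by omega⟩
  · -- open plus
    intro y hy
    obtain ⟨hyC, hsub⟩ := Finset.mem_filter.1 hy
    refine Finset.mem_union_right _ (Finset.mem_filter.2 ⟨hyC, fun hin => ?_⟩)
    obtain ⟨u, hu, huV⟩ := lat_mem_cells.1 hyC
    have h1 := (rnc_mem_Bp.1 (hsub (Finset.mem_inter.2 ⟨hu, huV⟩))).2
    have h2 := hD u (hin (Finset.mem_inter.2 ⟨hu, huV⟩))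
    omega
  · -- open minus
    intro y hy
    exact hcell y (hK.om hy)
  · -- closed
    intro y hy
    exact Finset.mem_union_right _ (hcell y (hK.cl hy))

/-- **BASE CASE**: plus sign, horizontal corridor, normalised offsets -/
theorem rnc_base (x : ℝ) (hx0 : 0 < x) (hx1 : x ≤ 1) (m : ℕ) (hm : 3 ≤ m) (c : ℝ) (hc0 : 0 ≤ c)
    (hc : c * (clAmb x (rncQ m)).Z ((rncH0 x m).Holds (clAmb x (rncQ m))) ≤
      (clAmb x (rncQ m)).N ((rncH0 x m).Holds (clAmb x (rncQ m)))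
        (glInd (fun ω => GlJoinC (clAmb x (rncQ m)) (glOn (clAmb x (rncQ m)) 1 ω) (rncLa m) (rncLc m))))
    (D : Finset TV) (K : ClCon TV TV) (hD : ∀ u ∈ D, 1 ≤ u.2 ∧ u.2 ≤ (m : ℤ) - 1)
    (hK : RnHist K (D.filter (fun u => u.1 ≤ -1 ∨ 5 * (m : ℤ) + 1 ≤ u.1))) (hf : RnFeas x true D K) :
    c / 2 ^ 30 ≤ amP x true D (K.Holds (clInn x D)) (fun ω => ClSep (clInn x D) true ∅ ω
      (D.filter (fun u => u.1 ≤ -1)) (D.filter (fun u => 5 * (m : ℤ) + 1 ≤ u.1))) := by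
  obtain ⟨a, b, c', d, hab, hcd, hbox⟩ := am_box_exists D
  set A₁ := min a (-1) with hA₁
  set A₂ := max b (5 * (m : ℤ) + 1) with hA₂
  set B₁ := min c' (-1) with hB₁
  set B₂ := max d ((m : ℤ) + 1) with hB₂
  have hamb : RncAmb A₁ A₂ B₁ B₂ m := ⟨min_le_right _ _, le_max_right _ _, min_le_right _ _, le_max_right _ _, hm⟩
  have hVD : latCl D ⊆ amBox A₁ A₂ B₁ B₂ := by
    intro u hu
    have := rnc_mem_box.1 (hbox hu)
    rw [rnc_mem_box]
    exact ⟨(min_le_left _ _).trans this.1, this.2.1.trans (le_max_left _ _), (min_le_left _ _).trans this.2.2.1,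
      this.2.2.2.trans (le_max_left _ _)⟩
  set V := amBox A₁ A₂ B₁ B₂ with hV
  have hS : ClDisk (clAmb x V) := am_box_disk x hx0 hx1 A₁ A₂ B₁ B₂ (by have := hamb.a1; have := hamb.a2; omega)
    (by have := hamb.b1; have := hamb.b2; omega)
  have hO : ClOk (clAmb x V) := hS.toClOk
  have hDV : D ⊆ V := (amp_sub_cl D).trans hVD
  have hKD : RnHist K D := rnc_hist_mono hK (Finset.filter_subset _ _)
  have hIn := rnc_hist_in x hKD
  have hLeg := rnc_hist_legal x hKD D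
  set L : ClCfg TV TV → Prop := fun ω => ClSep (clInn x D) true ∅ ω
      (D.filter (fun u => u.1 ≤ -1)) (D.filter (fun u => 5 * (m : ℤ) + 1 ≤ u.1)) with hL
  have hmono : ClMono (clAmb x V) (clInd L) := amp_mono x hVD (rnc_ind_mono _ (dis_sep_mono _ _ _ _))
  have hloc : ClLoc D ((clAmb x V).cin D) (clInd L) := by
    rw [amp_cin_amb x hVD]
    exact rnc_loc_ind (rnc_sep_loc x D _ _ true)
  have g := amp_feas x hVD hO true _ hf
  rw [amp_holds x hVD hIn] at g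
  have hZ₁ := amo_feas_opn (clAmb x V) hO true D hDV K (amp_in x hVD hIn) g (amo_cno_eq (clAmb x V) D).symm.subset
  have e1 := amo_cut (clAmb x V) hO true D hDV K (amp_in x hVD hIn) ((clAmb x V).cout D) (Finset.Subset.refl _) (clInd L) hloc
  rw [← amo_cno_eq] at hZ₁ e1
  have hord := dis_order (clAmb x V) hS (rncSea V m) _ (rnc_sea_legal x V m)
    (amo_legal_opn (clAmb x V) K (amp_legal x hVD hLeg hIn) true ((clAmb x V).cno D)) (rnc_le x m V D hVD hD K hK) (clInd L) hmono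
  have hsea := rnc_sea x hx0 hx1 m A₁ A₂ B₁ B₂ hamb c hc0 hc
  have hZ₂ := rnc_feas_V x hx0 hx1 V m
  have hle : (clAmb x V).N ((rncSea V m).Holds (clAmb x V)) (clInd (RncE m)) ≤ (clAmb x V).N ((rncSea V m).Holds (clAmb x V)) (clInd L) :=
    dmt_N_mono _ hO _ fun ω _ => dis_ind_mono (rnc_E_sep x m D hD ω)
  rw [e1, am_pl_eq x V D hVD, ← amp_holds x hVD hIn] at hord
  have hfin : c / 2 ^ 30 ≤ amE x true D (K.Holds (clInn x D)) (clInd L) := by
    refine le_of_mul_le_mul_left ?_ (mul_pos hZ₂ hZ₁)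
    nlinarith [hsea.trans hle, hZ₁.le]
  exact hfin

/-! ## 5. transport along a class preserving automorphism of the lattice -/

/-- a class preserving automorphism of the lattice, with its inverse: `φ` on the sites, `ψ` on the up-cells -/
structure RncAut (φ φ' ψ ψ' : TV → TV) : Prop where
  l : ∀ u, φ' (φ u) = u
  r : ∀ u, φ (φ' u) = u
  lc : ∀ y, ψ' (ψ y) = y
  rc : ∀ y, ψ (ψ' y) = y
  cell : ∀ y, cellV (ψ y) = (cellV y).image φ

/-- transport of a planar history -/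
def rncMap (φ ψ : TV → TV) (K : ClCon TV TV) : ClCon TV TV :=
  ⟨K.Bp.image φ, K.Bm.image φ, ∅, K.Op.image ψ, K.Om.image ψ, K.Cl.image ψ, ∅, ∅⟩

theorem rnc_map_eqns_cite : True := by
  have := @rncMap.eq_1
  trivial

section aut

variable {φ φ' ψ ψ' : TV → TV}

theorem rnc_aut_inj (h : RncAut φ φ' ψ ψ') : Function.Injective φ := Function.LeftInverse.injective h.l
theorem rnc_aut_injc (h : RncAut φ φ' ψ ψ') : Function.Injective ψ := Function.LeftInverse.injective h.lc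
theorem rnc_aut_bijc (h : RncAut φ φ' ψ ψ') : Function.Bijective ψ := ⟨rnc_aut_injc h, fun y => ⟨ψ' y, h.rc y⟩⟩

theorem rnc_aut_cin (h : RncAut φ φ' ψ ψ') (D : Finset TV) (y : TV) : ψ y ∈ latCellsIn (D.image φ) ↔ y ∈ latCellsIn D := by
  rw [lat_mem_cellsIn, lat_mem_cellsIn, h.cell, Finset.image_subset_image_iff (rnc_aut_inj h)]

theorem rnc_aut_sv (h : RncAut φ φ' ψ ψ') (x : ℝ) (D : Finset TV) (y : TV) :
    (clInn x (D.image φ)).sv (ψ y) = ((clInn x D).sv y).image φ := by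
  show cellV (ψ y) ∩ D.image φ = (cellV y ∩ D).image φ
  rw [h.cell, Finset.image_inter _ _ (rnc_aut_inj h)]

theorem rnc_aut_tau (h : RncAut φ φ' ψ ψ') (x : ℝ) (D : Finset TV) (ω : ClCfg TV TV) (y : TV) :
    clTau (clInn x (D.image φ)) (ω.map φ ψ) (ψ y) = clTau (clInn x D) ω y := by
  have h1 : ψ y ∈ (ω.map φ ψ).O ↔ y ∈ ω.O := (rnc_aut_injc h).mem_finset_image
  have h2 : (clInn x (D.image φ)).sv (ψ y) ⊆ (ω.map φ ψ).B ↔ (clInn x D).sv y ⊆ ω.B := by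
    rw [rnc_aut_sv h]
    exact Finset.image_subset_image_iff (rnc_aut_inj h)
  unfold clTau
  simp only [h1, h2]

theorem rnc_aut_holds (h : RncAut φ φ' ψ ψ') (x : ℝ) (D : Finset TV) (K : ClCon TV TV) (hwp : K.Wp = ∅) (hwm : K.Wm = ∅) (heq : K.Eq = ∅)
    (ω : ClCfg TV TV) : (rncMap φ ψ K).Holds (clInn x (D.image φ)) (ω.map φ ψ) ↔ K.Holds (clInn x D) ω := by
  unfold ClCon.Holds
  rw [hwp, hwm, heq]
  simp only [rncMap, Finset.mem_image, forall_exists_index, and_imp, forall_apply_eq_imp_iff₂, rnc_aut_tau h]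
  have e1 : K.Bp.image φ ⊆ (ω.map φ ψ).B ↔ K.Bp ⊆ ω.B := Finset.image_subset_image_iff (rnc_aut_inj h)
  have e2 : ∀ v, φ v ∉ (ω.map φ ψ).B ↔ v ∉ ω.B := fun v => not_congr (rnc_aut_inj h).mem_finset_image
  have e3 : ∀ y, ψ y ∉ (ω.map φ ψ).O ↔ y ∉ ω.O := fun y => not_congr (rnc_aut_injc h).mem_finset_image
  simp only [e1, e2, e3, Finset.notMem_empty, false_imp_iff, implies_true, Finset.empty_subset]

theorem rnc_aut_step (h : RncAut φ φ' ψ ψ') (x : ℝ) (D : Finset TV) (s : Bool) (ω : ClCfg TV TV) (u v : TV) :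
    clStep (clInn x (D.image φ)) s ∅ (ω.map φ ψ) (φ u) (φ v) ↔ clStep (clInn x D) s ∅ ω u v := by
  unfold clStep
  refine or_congr ?_ (by simp)
  constructor
  · rintro ⟨y', hy', h1, h2, h3⟩
    obtain ⟨y, rfl⟩ := (rnc_aut_bijc h).2 y'
    rw [rnc_aut_sv h, (rnc_aut_inj h).mem_finset_image] at h1 h2
    rw [rnc_aut_tau h] at h3
    exact ⟨y, (rnc_aut_cin h D y).1 hy', h1, h2, h3⟩
  · rintro ⟨y, hy, h1, h2, h3⟩
    refine ⟨ψ y, (rnc_aut_cin h D y).2 hy, ?_, ?_, ?_⟩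
    · rw [rnc_aut_sv h, (rnc_aut_inj h).mem_finset_image]; exact h1
    · rw [rnc_aut_sv h, (rnc_aut_inj h).mem_finset_image]; exact h2
    · rw [rnc_aut_tau h]; exact h3

theorem rnc_aut_sep (h : RncAut φ φ' ψ ψ') (x : ℝ) (D : Finset TV) (s : Bool) (ω : ClCfg TV TV) (O Z : Finset TV) :
    ClSep (clInn x (D.image φ)) s ∅ (ω.map φ ψ) (O.image φ) (Z.image φ) ↔ ClSep (clInn x D) s ∅ ω O Z := by
  have key : ∀ u v, ReflTransGen (clStep (clInn x (D.image φ)) s ∅ (ω.map φ ψ)) (φ u) (φ v) ↔ ReflTransGen (clStep (clInn x D) s ∅ ω) u v := by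
    intro u v
    constructor
    · intro hr
      have hst : ∀ a b, clStep (clInn x (D.image φ)) s ∅ (ω.map φ ψ) a b → clStep (clInn x D) s ∅ ω (φ' a) (φ' b) := by
        intro a b hab
        rw [← h.r a, ← h.r b] at hab
        exact (rnc_aut_step h x D s ω _ _).1 hab
      have : ReflTransGen (clStep (clInn x D) s ∅ ω) (φ' (φ u)) (φ' (φ v)) := ReflTransGen.lift φ' hst _ _ hr
      rwa [h.l, h.l] at this
    · intro hr
      exact ReflTransGen.lift φ (fun a b hab => (rnc_aut_step h x D s ω a b).2 hab) _ _ hr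
  unfold ClSep
  simp only [Finset.mem_image, forall_exists_index, and_imp, forall_apply_eq_imp_iff₂, key]

theorem rnc_aut_hist (h : RncAut φ φ' ψ ψ') {K : ClCon TV TV} {b : Finset TV} (hK : RnHist K b) : RnHist (rncMap φ ψ K) (b.image φ) := by
  have hc : ∀ X : Finset TV, X ⊆ latCellsIn b → X.image ψ ⊆ latCellsIn (b.image φ) := by
    intro X hX y' hy'
    obtain ⟨y, hy, rfl⟩ := Finset.mem_image.1 hy'
    exact (rnc_aut_cin h b y).2 (hX hy)
  refine ⟨rfl, rfl, rfl, Finset.image_subset_image hK.bp, Finset.image_subset_image hK.bm, hc _ hK.op, hc _ hK.om, hc _ hK.cl, ?_⟩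
  intro y' hy'
  have : ∃ y ∈ K.Op ∪ K.Om ∪ K.Cl, ψ y = y' := by
    simp only [rncMap, Finset.mem_union, Finset.mem_image] at hy' ⊢
    rcases hy' with (⟨y, hy, rfl⟩ | ⟨y, hy, rfl⟩) | ⟨y, hy, rfl⟩
    · exact ⟨y, Or.inl (Or.inl hy), rfl⟩
    · exact ⟨y, Or.inl (Or.inr hy), rfl⟩
    · exact ⟨y, Or.inr hy, rfl⟩
  obtain ⟨y, hy, rfl⟩ := this
  rw [h.cell]
  show (cellV y).image φ ⊆ K.Bp.image φ ∪ K.Bm.image φ
  rw [← Finset.image_union]
  exact Finset.image_subset_image (hK.full y hy)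

/-- transport of the unnormalised sums of `P^s_D(K)` -/
theorem rnc_aut_N (h : RncAut φ φ' ψ ψ') (x : ℝ) (s : Bool) (D : Finset TV) {K : ClCon TV TV} {b : Finset TV} (hK : RnHist K b)
    (F' F : ClCfg TV TV → ℝ) (hF : ∀ ω, F' (ω.map φ ψ) = F ω) :
    (clInn x (D.image φ)).N (fun ω => CuPin s (amLay (D.image φ)) ω ∧ (rncMap φ ψ K).Holds (clInn x (D.image φ)) ω) F' =
      (clInn x D).N (fun ω => CuPin s (amLay D) ω ∧ K.Holds (clInn x D) ω) F := by
  have hiso := am_pl_cuiso x D φ ψ (rnc_aut_inj h) (rnc_aut_bijc h) h.cell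
  rw [am_iso (clInn x D) (clInn x (D.image φ)) φ ψ hiso (fun y _ => Finset.inter_subset_right)]
  have hpin : ∀ ω : ClCfg TV TV, CuPin s (amLay (D.image φ)) (ω.map φ ψ) ↔ CuPin s (amLay D) ω := by
    intro ω
    unfold CuPin
    rw [am_pl_lay_image D φ ψ (rnc_aut_inj h) (rnc_aut_bijc h) h.cell]
    simp only [Finset.mem_image, forall_exists_index, and_imp, forall_apply_eq_imp_iff₂]
    refine forall₂_congr fun v _ => ?_
    rw [show (ω.map φ ψ).B = ω.B.image φ from rfl, (rnc_aut_inj h).mem_finset_image]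
  have e1 : (fun ω : ClCfg TV TV => CuPin s (amLay (D.image φ)) (ω.map φ ψ) ∧ (rncMap φ ψ K).Holds (clInn x (D.image φ)) (ω.map φ ψ)) =
      (fun ω => CuPin s (amLay D) ω ∧ K.Holds (clInn x D) ω) := by
    funext ω
    exact propext (and_congr (hpin ω) (rnc_aut_holds h x D K hK.wp hK.wm hK.eq ω))
  have e2 : (fun ω : ClCfg TV TV => F' (ω.map φ ψ)) = F := funext hF
  rw [e1, e2]

theorem rnc_aut_feas (h : RncAut φ φ' ψ ψ') (x : ℝ) (s : Bool) (D : Finset TV) {K : ClCon TV TV} {b : Finset TV} (hK : RnHist K b)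
    (hf : RnFeas x s D K) : RnFeas x s (D.image φ) (rncMap φ ψ K) := by
  unfold RnFeas at hf ⊢
  rw [dis_Z_eq] at hf ⊢
  rw [rnc_aut_N h x s D hK (fun _ => 1) (fun _ => 1) (fun _ => rfl)]
  exact hf

theorem rnc_aut_P (h : RncAut φ φ' ψ ψ') (x : ℝ) (s : Bool) (D : Finset TV) {K : ClCon TV TV} {b : Finset TV} (hK : RnHist K b) (O Z : Finset TV) :
    amP x s (D.image φ) ((rncMap φ ψ K).Holds (clInn x (D.image φ))) (fun ω => ClSep (clInn x (D.image φ)) s ∅ ω (O.image φ) (Z.image φ)) =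
      amP x s D (K.Holds (clInn x D)) (fun ω => ClSep (clInn x D) s ∅ ω O Z) := by
  unfold amP
  rw [dis_P_eq, dis_P_eq, dis_Z_eq, dis_Z_eq, rnc_aut_N h x s D hK (fun _ => 1) (fun _ => 1) (fun _ => rfl),
    rnc_aut_N h x s D hK (clInd fun ω => ClSep (clInn x (D.image φ)) s ∅ ω (O.image φ) (Z.image φ)) (clInd fun ω => ClSep (clInn x D) s ∅ ω O Z)
      (fun ω => dis_ind_congr (L₁ := fun ω' => ClSep (clInn x (D.image φ)) s ∅ (ω'.map φ ψ) (O.image φ) (Z.image φ)) (rnc_aut_sep h x D s ω O Z))]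

end aut

/-- translations -/
theorem rnc_aut_shift (a : TV) : RncAut (· + a) (· - a) (· + a) (· - a) := by
  refine ⟨fun u => by simp, fun u => by simp, fun u => by simp, fun u => by simp, fun y => ?_⟩
  simp only [cellV, Finset.image_insert, Finset.image_singleton]
  congr 1
  · congr 1
    · abel
    · congr 1; abel

/-- the swap of the two coordinates -/
theorem rnc_aut_swap : RncAut Prod.swap Prod.swap Prod.swap Prod.swap := by
  refine ⟨fun u => rfl, fun u => rfl, fun u => rfl, fun u => rfl, fun y => ?_⟩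
  ext u
  simp only [cellV, Finset.image_insert, Finset.image_singleton, Finset.mem_insert, Finset.mem_singleton, Prod.ext_iff, Prod.fst_add,
    Prod.snd_add, Prod.fst_swap, Prod.snd_swap, add_zero]
  tauto

/-! ## 6. the four cases of (COR) -/

theorem rnc_P_mono (x : ℝ) (hx0 : 0 < x) (hx1 : x ≤ 1) (s : Bool) (D : Finset TV) (K L L' : ClCfg TV TV → Prop) (h : ∀ ω, L ω → L' ω) :
    amP x s D K L ≤ amP x s D K L' := by
  have hS : ClOk (clInn x D) := pcp_inn_ok x hx0 hx1 D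
  unfold amP
  rw [dis_P_eq, dis_P_eq]
  exact div_le_div_of_nonneg_right (dmt_N_mono _ hS _ fun ω _ => dis_ind_mono (h ω)) (dis_Z_nonneg _ hS _)

theorem rnc_sep_anti {V Y : Type} [DecidableEq V] [DecidableEq Y] (S : ClSys V Y) (s : Bool) (ω : ClCfg V Y) {O O' Z Z' : Finset V} (hO : O' ⊆ O) (hZ : Z' ⊆ Z)
    (h : ClSep S s ∅ ω O Z) : ClSep S s ∅ ω O' Z' := fun u hu v hv => h u (hO hu) v (hZ hv)

/-- plus sign, horizontal corridor, all offsets -/
theorem rnc_cord_true (x : ℝ) (hx0 : 0 < x) (hx1 : x ≤ 1) (h : RncLSS x) : RnCord x true (fun u => u.1) (fun u => u.2) := by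
  obtain ⟨c, hc, m₀, hh⟩ := h
  refine ⟨c / 2 ^ 30, by positivity, max m₀ 12, fun r p c' D K hr hD hK hf => ?_⟩
  have hr1 : m₀ ≤ r := le_trans (le_max_left _ _) hr
  have hr2 : 12 ≤ r := le_trans (le_max_right _ _) hr
  have ha := rnc_aut_shift (-p - 1, -c' + 1)
  set φ : TV → TV := (· + (-p - 1, -c' + 1)) with hφ
  have hφ1 : ∀ u : TV, (φ u).1 = u.1 - p - 1 := fun u => by simp only [hφ, Prod.fst_add]; ring
  have hφ2 : ∀ u : TV, (φ u).2 = u.2 - c' + 1 := fun u => by simp only [hφ, Prod.snd_add]; ring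
  have hcast : ((r + 2 : ℕ) : ℤ) = (r : ℤ) + 2 := by push_cast; ring
  have hD' : ∀ u ∈ D.image φ, 1 ≤ u.2 ∧ u.2 ≤ ((r + 2 : ℕ) : ℤ) - 1 := by
    intro u' hu'
    obtain ⟨u, hu, rfl⟩ := Finset.mem_image.1 hu'
    have := hD u hu
    dsimp only at this
    rw [hφ2, hcast]
    constructor <;> omega
  have hK' : RnHist (rncMap φ φ K) ((D.image φ).filter (fun u => u.1 ≤ -1 ∨ 5 * ((r + 2 : ℕ) : ℤ) + 1 ≤ u.1)) := by
    refine rnc_hist_mono (rnc_aut_hist ha hK) ?_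
    intro u' hu'
    obtain ⟨u, hu, rfl⟩ := Finset.mem_image.1 hu'
    obtain ⟨hu1, hu2⟩ := Finset.mem_filter.1 hu
    dsimp only at hu2
    refine Finset.mem_filter.2 ⟨Finset.mem_image_of_mem φ hu1, ?_⟩
    rw [hφ1, hcast]
    omega
  have hb := rnc_base x hx0 hx1 (r + 2) (by omega) c hc.le (hh (r + 2) (by omega)) (D.image φ) (rncMap φ φ K) hD' hK' (rnc_aut_feas ha x true D hK hf)
  rw [← rnc_aut_P ha x true D hK]
  refine hb.trans (rnc_P_mono x hx0 hx1 true _ _ _ _ fun ω hω => rnc_sep_anti _ true ω ?_ ?_ hω)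
  · intro u' hu'
    obtain ⟨u, hu, rfl⟩ := Finset.mem_image.1 hu'
    obtain ⟨hu1, hu2⟩ := Finset.mem_filter.1 hu
    dsimp only at hu2
    refine Finset.mem_filter.2 ⟨Finset.mem_image_of_mem φ hu1, ?_⟩
    rw [hφ1]
    omega
  · intro u' hu'
    obtain ⟨u, hu, rfl⟩ := Finset.mem_image.1 hu'
    obtain ⟨hu1, hu2⟩ := Finset.mem_filter.1 hu
    dsimp only at hu2
    refine Finset.mem_filter.2 ⟨Finset.mem_image_of_mem φ hu1, ?_⟩
    rw [hφ1, hcast]
    omega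

/-- the other orientation -/
theorem rnc_cord_swap (x : ℝ) (s : Bool) (h : RnCord x s (fun u => u.1) (fun u => u.2)) : RnCord x s (fun u => u.2) (fun u => u.1) := by
  obtain ⟨δ, hδ, r₀, hh⟩ := h
  refine ⟨δ, hδ, r₀, fun r p c D K hr hD hK hf => ?_⟩
  have ha := rnc_aut_swap
  have hfil : ∀ P : ℤ → Prop, ∀ [DecidablePred P], (D.image Prod.swap).filter (fun u => P u.1) = (D.filter (fun u => P u.2)).image Prod.swap := by
    intro P _
    rw [Finset.filter_image]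
    rfl
  have key := hh r p c (D.image Prod.swap) (rncMap Prod.swap Prod.swap K) hr
    (by
      intro u' hu'
      obtain ⟨u, hu, rfl⟩ := Finset.mem_image.1 hu'
      exact hD u hu)
    (by
      rw [hfil (fun z => z ≤ p ∨ p + 6 * (r : ℤ) ≤ z)]
      exact rnc_aut_hist ha hK)
    (rnc_aut_feas ha x s D hK hf)
  rw [hfil (fun z => z ≤ p), hfil (fun z => p + 6 * (r : ℤ) ≤ z), rnc_aut_P ha x s D hK] at key
  exact key

/-- the other sign -/
theorem rnc_cord_flip (x : ℝ) (hx0 : 0 < x) (hx1 : x ≤ 1) (s : Bool) (l t : TV → ℤ) (h : RnCord x s l t) : RnCord x (!s) l t := by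
  obtain ⟨δ, hδ, r₀, hh⟩ := h
  refine ⟨δ, hδ, r₀, fun r p c D K hr hD hK hf => ?_⟩
  have hS : ClOk (clInn x D) := pcp_inn_ok x hx0 hx1 D
  have hlay : amLay D ⊆ (clInn x D).A := Finset.filter_subset _ _
  have hbD : D.filter (fun u => l u ≤ p ∨ p + 6 * (r : ℤ) ≤ l u) ⊆ D := Finset.filter_subset _ _
  have hbp : K.Bp ⊆ (clInn x D).A := hK.bp.trans hbD
  have hpin : ∀ ω : ClCfg TV TV, CuPin s (amLay D) ((clInn x D).flipB ω) ↔ CuPin (!s) (amLay D) ω := by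
    intro ω
    refine forall₂_congr fun v hv => ?_
    have hvA := hlay hv
    show (v ∈ (clInn x D).A \ ω.B ↔ s = true) ↔ (v ∈ ω.B ↔ (!s) = true)
    rw [Finset.mem_sdiff]
    cases s <;> simp [hvA]
  have hL : ∀ ω ∈ (clInn x D).cfgs, (clInn x D).wt ω ≠ 0 →
      ((CuPin s (amLay D) ((clInn x D).flipB ω) ∧ (K.flipB (clInn x D)).Holds (clInn x D) ((clInn x D).flipB ω)) ↔
        (CuPin (!s) (amLay D) ω ∧ K.Holds (clInn x D) ω)) :=
    fun ω hm hw => and_congr (hpin ω) (dfl_holds (clInn x D) hS K hbp hm hw)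
  have hZ : (clInn x D).Z (fun ω => CuPin s (amLay D) ω ∧ (K.flipB (clInn x D)).Holds (clInn x D) ω)
      = (clInn x D).Z (fun ω => CuPin (!s) (amLay D) ω ∧ K.Holds (clInn x D) ω) := by
    rw [dis_Z_eq, dis_Z_eq]
    exact dfl_N (clInn x D) hS _ _ _ _ hL (fun _ _ _ _ => rfl)
  have hN : ∀ O A : Finset TV,
      (clInn x D).N (fun ω => CuPin s (amLay D) ω ∧ (K.flipB (clInn x D)).Holds (clInn x D) ω) (clInd fun ω => ClSep (clInn x D) s ∅ ω O A)
      = (clInn x D).N (fun ω => CuPin (!s) (amLay D) ω ∧ K.Holds (clInn x D) ω) (clInd fun ω => ClSep (clInn x D) (!s) ∅ ω O A) := by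
    intro O A
    refine dfl_N (clInn x D) hS _ _ _ _ hL (fun ω hm hw _ => ?_)
    have := dfl_sep (clInn x D) hS (!s) ∅ hm hw O A
    rw [Bool.not_not] at this
    exact dis_ind_congr (L₁ := fun ω' => ClSep (clInn x D) s ∅ ((clInn x D).flipB ω') O A) this
  have hK' : RnHist (K.flipB (clInn x D)) (D.filter (fun u => l u ≤ p ∨ p + 6 * (r : ℤ) ≤ l u)) := by
    refine ⟨hK.wp, hK.wm, hK.eq, Finset.inter_subset_left.trans hK.bm, hK.bp, hK.om, hK.op, hK.cl, ?_⟩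
    intro y hy v hv
    have h1 : y ∈ K.Op ∪ K.Om ∪ K.Cl := by
      simp only [ClCon.flipB, Finset.mem_union] at hy ⊢; tauto
    have h2 := hK.full y h1 hv
    simp only [ClCon.flipB, Finset.mem_union, Finset.mem_inter] at h2 ⊢
    rcases h2 with h2 | h2
    · exact Or.inr h2
    · exact Or.inl ⟨h2, hbD (hK.bm h2)⟩
  have key := hh r p c D (K.flipB (clInn x D)) hr hD hK' (by unfold RnFeas; rw [hZ]; exact hf)
  unfold amP at key ⊢
  rw [dis_P_eq] at key ⊢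
  rw [hN, hZ] at key
  exact key

/-! ## 7. the contract is the straight instance of 191; the exit -/

theorem rnc_glInd_mono {V Y : Type} [DecidableEq V] [DecidableEq Y] {L L' : ClCfg V Y → Prop} {ω : ClCfg V Y} (h : L ω → L' ω) :
    glInd L ω ≤ glInd L' ω := dis_ind_mono (L₁ := L) (L₂ := L') h

theorem rnc_lss (x : ℝ) (hx0 : 0 < x) (hx1 : x ≤ 1) (hxh : 1 / 2 ≤ x ^ 2) : RncLSS x := by
  refine ⟨1 / 64, by norm_num, 2, fun m hm => ?_⟩
  have h := glb_three x hx0 hx1 hxh 0 (5 * (m : ℤ)) 0 (m : ℤ) (by omega) (by omega)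
  have ea : rncLa m = amBox 0 (5 * (m : ℤ)) 0 0 := by
    ext u
    simp only [rncLa, Finset.mem_filter, rnc_mem_Q, rnc_mem_box]
    omega
  have ec : rncLc m = amBox 0 (5 * (m : ℤ)) (m : ℤ) (m : ℤ) := by
    ext u
    simp only [rncLc, Finset.mem_filter, rnc_mem_Q, rnc_mem_box]
    omega
  have ed : rncLd m = amBox 0 0 0 (m : ℤ) := by
    ext u
    simp only [rncLd, Finset.mem_filter, rnc_mem_Q, rnc_mem_box]
    omega
  have eb : rncLb m = amBox (5 * (m : ℤ)) (5 * (m : ℤ)) 0 (m : ℤ) := by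
    ext u
    simp only [rncLb, Finset.mem_filter, rnc_mem_Q, rnc_mem_box]
    omega
  have eH : rncH0 x m = glbH x 0 (5 * (m : ℤ)) 0 (m : ℤ) := by
    unfold rncH0 glbH
    rw [ea, ec, ed, eb]
    rfl
  have hok : ClOk (clAmb x (rncQ m)) := pcp_amb_ok x hx0 hx1 _
  rw [eH, ea, ec]
  refine h.trans (dmt_N_mono _ hok _ fun ω _ => ?_)
  refine rnc_glInd_mono ?_
  rintro ⟨y, y', hy, hy', h1, h2, hR⟩
  exact ⟨y, y', hy.2, hy'.2, h1, h2, tsc_R_mono Set.inter_subset_right hR⟩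

/-- **(COR)** -/
theorem rnc_main (x : ℝ) (hx1 : 1 / Real.sqrt 2 ≤ x) (hx2 : x ≤ 1) : RnCor x := by
  have hx0 : 0 < x := lt_of_lt_of_le (by positivity) hx1
  have hxh : 1 / 2 ≤ x ^ 2 := by
    have h1 : (1 / Real.sqrt 2) ^ 2 = 1 / 2 := by
      rw [div_pow, Real.sq_sqrt (by norm_num)]; norm_num
    rw [← h1]
    exact pow_le_pow_left₀ (by positivity) hx1 2
  have ht := rnc_cord_true x hx0 hx2 (rnc_lss x hx0 hx2 hxh)
  have hf := rnc_cord_flip x hx0 hx2 true _ _ ht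
  intro s
  cases s
  · exact ⟨hf, rnc_cord_swap x false hf⟩
  · exact ⟨ht, rnc_cord_swap x true ht⟩

end Claimed.Agent.R291
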