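import Claimed.Agent.R291.Glue.Box
import Claimed.Agent.R291.Pl.Neck
import Claimed.Agent.R291.Pl.CellPath
import Claimed.Agent.R291.Ann.PortsCl

/-!
# Row 291 (S0539), Ann/RenCorA : B6 (C), THE DETERMINISTIC PART OF THE CORRIDOR      (owner helper181; prefix `rca_` / `Rca`)      no sorry

The straight exit of A1 (`glb_main`, 191) is the event `GlbNo S c d l l'`: no walk of cell INDICES which are not open-plus, inside the rows `c .. d - 1`, from a column `≤ l` to a column `≥ l'`.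

* `RcaNo P c d l l'`      the LOCAL form: no walk inside the rhombus of indices `M = [l, l'] × [c, d - 1]`, off `P`, from the column `l` to the column `l'`
* `rca_no_iff`            `GlbNo S c d l l' ω ↔ RcaNo (glOn S 1 ω) c d l l'`      (intermediate values on the columns, `pnk_R_cross`)
* `rca_no_congr`          `RcaNo` reads `P ∩ M` only
* `rca_on_sys`, `rca_no_sys`      two systems with the same cells over `M` have the same event (strip system `clAmb x (amBox a b c d)` <-> ambient `clAmb x V`)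
* `rca_mono`, `rca_monoT` the event is increasing (in its own system; in any system which agrees over `M`)
* `rca_loc`               `PrcLoc Q YR (glInd (GlbNo S c d l l'))` as soon as `M ⊆ YR` and the cells of `M` are inside `Q`
* `rca_sep`               **(C)** `GlbNo S c d l l' ω → ClSep (clInn x D) true ∅ ω O A` for ANY `D` inside the rows `c .. d`, `O` to the right of `l' + 1`, `A` to the left of `l`,
                          `S` any system whose open-plus cells over `M` inside `D` are open-plus in `clInn x D`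
* `rca_sep_amb`, `rca_sep_box`      the instances `S = clAmb x V` (any `V`): the cells of `M ∩ latCellsIn D` must be inside `V`
* `rca_sep_cor`           the shape of `RnCor`
-/

set_option autoImplicit false
set_option linter.unusedSectionVars false
set_option linter.unusedVariables false
set_option linter.unusedSimpArgs false

namespace Claimed.Agent.R291

open Relation Claims Claims.C0467

/-- the local form of `GlbNo`: no walk off `P` inside the rhombus of indices `[l, l'] × [c, d - 1]` from its left column to its right column -/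
def RcaNo (P : Set TV) (c d l l' : ℤ) : Prop :=
  ∀ u v : TV, u ∈ tscBox l l' c (d - 1) \ P → u.1 = l → v.1 = l' → ¬ TscR tscG (tscBox l l' c (d - 1) \ P) u v

theorem rca_eqns_cite : True := by
  have := @RcaNo.eq_1
  trivial

theorem rca_box_band (l l' c d : ℤ) (P : Set TV) : tscBox l l' c (d - 1) \ P ⊆ plsBand c (d - 1) \ P :=
  fun z hz => ⟨⟨hz.1.2.2.1, hz.1.2.2.2⟩, hz.2⟩

/-- **intermediate values on the columns** -/
theorem rca_band_iff (P : Set TV) (c d l l' : ℤ) (hl : l ≤ l') :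
    (∀ u v : TV, u ∈ plsBand c (d - 1) \ P → u.1 ≤ l → l' ≤ v.1 → ¬ TscR tscG (plsBand c (d - 1) \ P) u v) ↔ RcaNo P c d l l' := by
  constructor
  · intro h u v hu hu1 hv1 huv
    exact h u v (rca_box_band _ _ _ _ _ hu) hu1.le hv1.ge (tsc_R_mono (rca_box_band _ _ _ _ _) huv)
  · intro h u v hu hu1 hv1 huv
    obtain ⟨u', v', h1, h2, h3, h4, -⟩ := pnk_R_cross (g := fun w : TV => w.1) (fun a b hab => (tsc_adj_fst hab).1) huv hl hu1 hv1
    have hu' := tsc_R_mem h3 hu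
    have hsub : (plsBand c (d - 1) \ P) ∩ {w : TV | l ≤ w.1 ∧ w.1 ≤ l'} ⊆ tscBox l l' c (d - 1) \ P :=
      fun z hz => ⟨⟨hz.2.1, hz.2.2, hz.1.1.1, hz.1.1.2⟩, hz.1.2⟩
    refine h u' v' ⟨⟨?_, ?_, hu'.1.1, hu'.1.2⟩, hu'.2⟩ h1 h2 (tsc_R_mono hsub h4)
    · exact h1.ge
    · exact h1.le.trans hl

theorem rca_no_iff (S : ClSys TV TV) (c d l l' : ℤ) (hl : l ≤ l') (ω : ClCfg TV TV) :
    GlbNo S c d l l' ω ↔ RcaNo (glOn S 1 ω) c d l l' :=
  rca_band_iff _ c d l l' hl

/-- the local form reads `P` over the rhombus only -/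
theorem rca_no_congr {P P' : Set TV} {c d l l' : ℤ} (h : ∀ y ∈ tscBox l l' c (d - 1), (y ∈ P ↔ y ∈ P')) :
    RcaNo P c d l l' ↔ RcaNo P' c d l l' := by
  have e : tscBox l l' c (d - 1) \ P = tscBox l l' c (d - 1) \ P' := by
    ext y
    constructor
    · intro hy; exact ⟨hy.1, fun hp => hy.2 ((h y hy.1).2 hp)⟩
    · intro hy; exact ⟨hy.1, fun hp => hy.2 ((h y hy.1).1 hp)⟩
  unfold RcaNo
  rw [e]

/-- more favourable cells: the event is easier -/
theorem rca_no_mono {P P' : Set TV} {c d l l' : ℤ} (h : ∀ y ∈ tscBox l l' c (d - 1), y ∈ P → y ∈ P') (hP : RcaNo P c d l l') :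
    RcaNo P' c d l l' := by
  have e : tscBox l l' c (d - 1) \ P' ⊆ tscBox l l' c (d - 1) \ P := fun y hy => ⟨hy.1, fun hp => hy.2 (h y hy.1 hp)⟩
  intro u v hu hu1 hv1 huv
  exact hP u v (e hu) hu1 hv1 (tsc_R_mono e huv)

/-- two systems with the same cells over the rhombus -/
theorem rca_on_sys {S T : ClSys TV TV} {y : TV} (hC : y ∈ S.C ↔ y ∈ T.C) (hsv : S.sv y = T.sv y) (ω : ClCfg TV TV) :
    y ∈ glOn S 1 ω ↔ y ∈ glOn T 1 ω := by
  unfold glOn clTau
  simp only [Set.mem_ofPred_eq, hC, hsv]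

theorem rca_no_sys {S T : ClSys TV TV} {c d l l' : ℤ} (hl : l ≤ l')
    (h : ∀ y ∈ tscBox l l' c (d - 1), (y ∈ S.C ↔ y ∈ T.C) ∧ S.sv y = T.sv y) (ω : ClCfg TV TV) :
    GlbNo S c d l l' ω ↔ GlbNo T c d l l' ω := by
  rw [rca_no_iff S c d l l' hl, rca_no_iff T c d l l' hl]
  exact rca_no_congr fun y hy => rca_on_sys (h y hy).1 (h y hy).2 ω

theorem rca_tau_le_one (S : ClSys TV TV) (ω : ClCfg TV TV) (y : TV) : clTau S ω y ≤ 1 := by
  unfold clTau; split_ifs <;> norm_num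

/-- the event is increasing -/
theorem rca_mono (S : ClSys TV TV) (c d l l' : ℤ) (hl : l ≤ l') : ClMonoP S (GlbNo S c d l l') := by
  intro ω ω' _ hτ h
  rw [rca_no_iff S c d l l' hl] at h ⊢
  refine rca_no_mono (fun y _ hy => ⟨hy.1, ?_⟩) h
  have h1 := hτ y hy.1
  have h2 := rca_tau_le_one S ω' y
  have h3 : clTau S ω y = 1 := hy.2
  omega

/-- the event of the strip system is increasing in the ambient -/
theorem rca_monoT {S T : ClSys TV TV} {c d l l' : ℤ} (hl : l ≤ l')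
    (h : ∀ y ∈ tscBox l l' c (d - 1), (y ∈ S.C ↔ y ∈ T.C) ∧ S.sv y = T.sv y) : ClMonoP T (GlbNo S c d l l') := by
  intro ω ω' h1 h2 h3
  rw [rca_no_sys hl h] at h3 ⊢
  exact rca_mono T c d l l' hl ω ω' h1 h2 h3

/-- the event reads the sites and the cells of the rhombus only -/
theorem rca_loc (S : ClSys TV TV) (c d l l' : ℤ) (hl : l ≤ l') (Q YR : Finset TV)
    (hY : ∀ y ∈ tscBox l l' c (d - 1), y ∈ S.C → y ∈ YR ∧ S.sv y ⊆ Q) : PrcLoc Q YR (glInd (GlbNo S c d l l')) := by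
  intro ω ω' hB hO
  have key : GlbNo S c d l l' ω ↔ GlbNo S c d l l' ω' := by
    rw [rca_no_iff S c d l l' hl, rca_no_iff S c d l l' hl]
    refine rca_no_congr fun y hy => ?_
    unfold glOn
    simp only [Set.mem_ofPred_eq]
    refine and_congr_right fun hyC => ?_
    obtain ⟨h1, h2⟩ := hY y hy hyC
    have eO : y ∈ ω.O ↔ y ∈ ω'.O := by
      have : y ∈ ω.O ∩ YR ↔ y ∈ ω'.O ∩ YR := by rw [hO]
      simpa [Finset.mem_inter, h1] using this
    have eB : S.sv y ⊆ ω.B ↔ S.sv y ⊆ ω'.B := by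
      have hh : ∀ v ∈ S.sv y, (v ∈ ω.B ↔ v ∈ ω'.B) := by
        intro v hv
        have : v ∈ ω.B ∩ Q ↔ v ∈ ω'.B ∩ Q := by rw [hB]
        simpa [Finset.mem_inter, h2 hv] using this
      exact ⟨fun h v hv => (hh v hv).1 (h hv), fun h v hv => (hh v hv).2 (h hv)⟩
    unfold clTau
    by_cases a1 : y ∈ ω.O
    · by_cases a2 : S.sv y ⊆ ω.B
      · simp [a1, a2, eO.1 a1, eB.1 a2]
      · have a2' : ¬ S.sv y ⊆ ω'.B := fun h => a2 (eB.2 h)
        simp [a1, a2, eO.1 a1, a2']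
    · have a1' : y ∉ ω'.O := fun h => a1 (eO.2 h)
      simp [a1, a1']
  by_cases hL : GlbNo S c d l l' ω
  · rw [gl_ind_pos hL, gl_ind_pos (key.1 hL)]
  · rw [gl_ind_neg hL, gl_ind_neg (fun h => hL (key.2 h))]

/-- **(C)**: the blocking event separates, in the inner system of ANY domain inside the rows -/
theorem rca_sep (x : ℝ) (S : ClSys TV TV) (c d l l' : ℤ) (hl : l ≤ l') (D O A : Finset TV) (ω : ClCfg TV TV)
    (hD : ∀ p ∈ D, c ≤ p.2 ∧ p.2 ≤ d)
    (hS : ∀ y ∈ tscBox l l' c (d - 1), y ∈ latCellsIn D → y ∈ glOn S 1 ω → clTau (clInn x D) ω y = 1)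
    (hO : ∀ p ∈ O, l' + 1 ≤ p.1) (hA : ∀ p ∈ A, p.1 ≤ l) (h : GlbNo S c d l l' ω) :
    ClSep (clInn x D) true ∅ ω O A := by
  rw [rca_no_iff S c d l l' hl] at h
  -- the favourable cells of the inner system
  have h' : RcaNo {y | y ∉ pcpOff x D (latCellsIn D) ω true} c d l l' := by
    refine rca_no_mono (fun y hy hyP => ?_) h
    intro hoff
    exact hoff.2 (hS y hy hoff.1 hyP)
  rw [← rca_band_iff _ c d l l' hl] at h'
  unfold clInn
  rw [pcp_sep_iff x D (latCellsIn D) (pcp_inn_sub D)]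
  refine ⟨?_, ?_⟩
  · rw [Finset.disjoint_left]
    intro p hp hp'
    have := hO p hp
    have := hA p hp'
    omega
  · intro y hy y' hy' hyoff hw
    have hsub : pcpOff x D (latCellsIn D) ω true ⊆ plsBand c (d - 1) \ {y | y ∉ pcpOff x D (latCellsIn D) ω true} := by
      intro z hz
      have hzD := pcp_inn_sub D z hz.1
      have z1 := hD z (hzD (by simp [cellV]))
      have z2 := hD (z + (0, 1)) (hzD (by simp [cellV]))
      simp only [Prod.snd_add] at z2
      exact ⟨⟨z1.1, by omega⟩, fun hn => hn hz⟩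
    obtain ⟨p, hp, hpO⟩ := hy
    obtain ⟨p', hp', hpA⟩ := hy'
    have e1 := hO p hpO
    have e2 := hA p' hpA
    rw [pcp_mem_cell'] at hp hp'
    refine h' y' y (hsub (tsc_R_mem hw hyoff)) ?_ ?_ (tsc_R_mono hsub (tsc_R_symm hw))
    · omega
    · omega

/-! ### the instances -/

/-- a cell of the rhombus is inside every set which contains the box -/
theorem rca_cell_box {a b c d l l' : ℤ} (h1 : a ≤ l) (h2 : l' + 1 ≤ b) {V : Finset TV} (hV : amBox a b c d ⊆ V) {y : TV}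
    (hy : y ∈ tscBox l l' c (d - 1)) : cellV y ⊆ V := by
  intro u hu
  rw [pcp_mem_cell'] at hu
  obtain ⟨y1, y2, y3, y4⟩ := hy
  exact hV ((glb_mem_box _ _ _ _ _).2 ⟨by omega, by omega, by omega, by omega⟩)

theorem rca_amb_sv (x : ℝ) {V : Finset TV} {y : TV} (h : cellV y ⊆ V) : (clAmb x V).sv y = cellV y :=
  Finset.inter_eq_left.2 h

theorem rca_amb_C (x : ℝ) {V : Finset TV} {y : TV} (h : cellV y ⊆ V) : y ∈ (clAmb x V).C :=
  lat_mem_cells.2 ⟨y, by simp [cellV], h (by simp [cellV])⟩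

/-- two ambients which contain the box have the same cells over the rhombus -/
theorem rca_amb_agree (x : ℝ) {a b c d l l' : ℤ} (h1 : a ≤ l) (h2 : l' + 1 ≤ b) {V V' : Finset TV} (hV : amBox a b c d ⊆ V)
    (hV' : amBox a b c d ⊆ V') :
    ∀ y ∈ tscBox l l' c (d - 1), (y ∈ (clAmb x V).C ↔ y ∈ (clAmb x V').C) ∧ (clAmb x V).sv y = (clAmb x V').sv y := by
  intro y hy
  have e1 := rca_cell_box h1 h2 hV hy
  have e2 := rca_cell_box h1 h2 hV' hy
  exact ⟨⟨fun _ => rca_amb_C x e2, fun _ => rca_amb_C x e1⟩, by rw [rca_amb_sv x e1, rca_amb_sv x e2]⟩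

/-- the event in the strip system and in an ambient -/
theorem rca_no_amb (x : ℝ) {a b c d l l' : ℤ} (hl : l ≤ l') (h1 : a ≤ l) (h2 : l' + 1 ≤ b) {V V' : Finset TV} (hV : amBox a b c d ⊆ V)
    (hV' : amBox a b c d ⊆ V') (ω : ClCfg TV TV) : GlbNo (clAmb x V) c d l l' ω ↔ GlbNo (clAmb x V') c d l l' ω :=
  rca_no_sys hl (rca_amb_agree x h1 h2 hV hV') ω

/-- **(C), ambient form**: `S = clAmb x V`, `V` contains the box -/
theorem rca_sep_amb (x : ℝ) {a b c d l l' : ℤ} (hl : l ≤ l') (h1 : a ≤ l) (h2 : l' + 1 ≤ b) {V : Finset TV} (hV : amBox a b c d ⊆ V)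
    (D O A : Finset TV) (ω : ClCfg TV TV) (hD : ∀ p ∈ D, c ≤ p.2 ∧ p.2 ≤ d)
    (hO : ∀ p ∈ O, l' + 1 ≤ p.1) (hA : ∀ p ∈ A, p.1 ≤ l) (h : GlbNo (clAmb x V) c d l l' ω) :
    ClSep (clInn x D) true ∅ ω O A := by
  refine rca_sep x (clAmb x V) c d l l' hl D O A ω hD (fun y hy hyD hon => ?_) hO hA h
  have e1 := rca_cell_box h1 h2 hV hy
  have h3 : clTau (clAmb x V) ω y = 1 := hon.2
  have e3 : (clInn x D).sv y = cellV y := Finset.inter_eq_left.2 (lat_mem_cellsIn.1 hyD)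
  unfold clTau at h3 ⊢
  rw [rca_amb_sv x e1] at h3
  rw [e3]
  exact h3

/-- the paths of cells read the sites of the cells of `Z` only -/
theorem rca_joinC_congr {S T : ClSys TV TV} {Z : Set TV} (h : ∀ y ∈ Z, S.sv y = T.sv y) {A C : Finset TV} (hj : GlJoinC S Z A C) :
    GlJoinC T Z A C := by
  obtain ⟨y, y', hy, hy', ha, hc, hw⟩ := hj
  refine ⟨y, y', hy, hy', by rw [← h y hy]; exact ha, by rw [← h y' hy']; exact hc, ?_⟩
  refine ReflTransGen.mono (fun p q hpq => ?_) y y' hw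
  obtain ⟨⟨hne, v, hv1, hv2⟩, hp, hq⟩ := hpq
  exact ⟨⟨hne, v, by rw [← h p hp]; exact hv1, by rw [← h q hq]; exact hv2⟩, hp, hq⟩

/-- the join of the glue machine, read in an ambient, gives the blocking event of the ambient -/
theorem rca_join_no (x : ℝ) (a b c d k : ℤ) (hr : c + 2 ≤ d) (hk1 : a ≤ k) (hk2 : k + (d - c) ≤ b) {V : Finset TV} (hV : amBox a b c d ⊆ V)
    (ω : ClCfg TV TV)
    (hj : GlJoinC (clAmb x V) (↑(amBox k (k + (d - c) - 1) c (d - 1)) ∩ glOn (clAmb x V) 1 ω) (amBox a b c c) (amBox a b d d)) :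
    GlbNo (clAmb x V) c d k (k + (d - c) - 1) ω := by
  have hj' : GlJoinC (clAmb x (amBox a b c d)) (↑(amBox k (k + (d - c) - 1) c (d - 1)) ∩ glOn (clAmb x V) 1 ω) (amBox a b c c) (amBox a b d d) := by
    refine rca_joinC_congr (fun y hy => ?_) hj
    have hy1 : y ∈ tscBox k (k + (d - c) - 1) c (d - 1) := by rw [← glb_coe_box]; exact hy.1
    exact ((rca_amb_agree x hk1 (by omega) hV (Finset.Subset.refl _)) y hy1).2
  intro u v hu hu1 hv1 huv
  obtain ⟨z, hz, hzP, -⟩ := glb_block x a b c d k hr hk1 hk2 _ hj' (fun z hz => hz.1) hu huv hu1 hv1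
  exact hz.2 hzP

/-- **(C), join form** (what `ent_join` of 164 delivers in the ambient `T = clAmb x V`) -/
theorem rca_join_sep (x : ℝ) (a b c d k : ℤ) (hr : c + 2 ≤ d) (hk1 : a ≤ k) (hk2 : k + (d - c) ≤ b) {V : Finset TV} (hV : amBox a b c d ⊆ V)
    (D O A : Finset TV) (ω : ClCfg TV TV) (hD : ∀ p ∈ D, c ≤ p.2 ∧ p.2 ≤ d)
    (hO : ∀ p ∈ O, k + (d - c) ≤ p.1) (hA : ∀ p ∈ A, p.1 ≤ k)
    (hj : GlJoinC (clAmb x V) (↑(amBox k (k + (d - c) - 1) c (d - 1)) ∩ glOn (clAmb x V) 1 ω) (amBox a b c c) (amBox a b d d)) :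
    ClSep (clInn x D) true ∅ ω O A :=
  rca_sep_amb x (by omega) hk1 (by omega) hV D O A ω hD (fun p hp => by have := hO p hp; omega) hA
    (rca_join_no x a b c d k hr hk1 hk2 hV ω hj)

/-- **(C), the shape of `rc_core`** (133): window `[a₀, a₀ + 3 r + 4]`, rows `b₀ .. b₀ + r`, the middle rhombus of `glb_three` -/
theorem rca_sep_cor (x : ℝ) (r : ℕ) (hr : 2 ≤ r) (a₀ b₀ : ℤ) {V : Finset TV} (hV : amBox a₀ (a₀ + 3 * r + 4) b₀ (b₀ + r) ⊆ V)
    (D : Finset TV) (hD : ∀ p ∈ D, b₀ ≤ p.2 ∧ p.2 ≤ b₀ + r) (ω : ClCfg TV TV)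
    (hj : GlJoinC (clAmb x V)
      (↑(amBox (a₀ + (b₀ + r - b₀) + 2) (a₀ + (b₀ + r - b₀) + 2 + (b₀ + r - b₀) - 1) b₀ (b₀ + r - 1)) ∩ glOn (clAmb x V) 1 ω)
      (amBox a₀ (a₀ + 3 * r + 4) b₀ b₀) (amBox a₀ (a₀ + 3 * r + 4) (b₀ + r) (b₀ + r))) :
    ClSep (clInn x D) true ∅ ω (D.filter (fun p => a₀ + 3 * r + 4 ≤ p.1)) (D.filter (fun p => p.1 ≤ a₀)) :=
  rca_join_sep x a₀ (a₀ + 3 * r + 4) b₀ (b₀ + r) (a₀ + (b₀ + r - b₀) + 2) (by omega) (by omega) (by omega) hV D _ _ ω hD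
    (fun p hp => by have := (Finset.mem_filter.1 hp).2; omega) (fun p hp => by have := (Finset.mem_filter.1 hp).2; omega) hj

/-- separation is monotone in the two sets -/
theorem rca_sep_anti {V Y : Type} [DecidableEq V] [DecidableEq Y] (S : ClSys V Y) (s : Bool) (E : Finset (V × V)) (ω : ClCfg V Y)
    {O O' A A' : Finset V} (hO : O' ⊆ O) (hA : A' ⊆ A) (h : ClSep S s E ω O A) : ClSep S s E ω O' A' :=
  fun u hu v hv => h u (hO hu) v (hA hv)

/-- the steps are symmetric -/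
theorem rca_step_symm {V Y : Type} [DecidableEq V] [DecidableEq Y] (S : ClSys V Y) (s : Bool) (E : Finset (V × V)) (ω : ClCfg V Y)
    {u v : V} (h : clStep S s E ω u v) : clStep S s E ω v u := by
  rcases h with ⟨y, hy, hu, hv, ht⟩ | h | h
  · exact Or.inl ⟨y, hy, hv, hu, ht⟩
  · exact Or.inr (Or.inr h)
  · exact Or.inr (Or.inl h)

/-- separation is symmetric -/
theorem rca_sep_symm {V Y : Type} [DecidableEq V] [DecidableEq Y] (S : ClSys V Y) (s : Bool) (E : Finset (V × V)) (ω : ClCfg V Y)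
    {O A : Finset V} (h : ClSep S s E ω O A) : ClSep S s E ω A O :=
  fun u hu v hv hw => h v hv u hu (pnk_rtg_symm (fun _ _ => rca_step_symm S s E ω) hw)

end Claimed.Agent.R291
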