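import Claimed.Agent.R291.Exit.AnnCyl
import Claimed.Agent.R291.Ann.ModelS
import Claimed.Agent.R291.Defs.Ren
import Claimed.Agent.R291.Pl.Neck

/-!
# Row 291 (S0539), Ann/RenHP : A5, BLOCK B5 = (CYL) ⟹ (HP), THE HALF-PLANE PUSH      (owner helper278; prefix `rh_` / `Rh` / `rh`)

Design: 12's (HP) (06:18Z), interface `RnHP x` of 92 (`Defs/Ren`).      CONSUMES: `exit_ann_cyl` (A4), `cy_S_disk` (capped cylinder), `ams_hist`, `ams_hist_feas`, `ams_legal` (22, `Ann/ModelS`), `amo_*` (46), `dis_order`, `am_iso` (43).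
PRODUCES: **`rh_main : RnHP x`**.

THE PROOF = ONE `dis_order` in the capped cylinder `rhS x L a b` = `cyS` with ALL up-triangles selected.
* the planar domain `D` is embedded by an affine map `e` which preserves the up-cells (`RhEmb`: translation, or translation after the swap `(a,b) ↦ (b,a)`), into the columns `0..L-2` (no wrapping):
  `rh_iso` (the systems), `rh_lay` (the layers).   So `P^s_D(K)` = `cuP (rhS ..) s (e D) (e K)` = the law of the LEGAL history "`e K` + every cell not inside `e D` is open of sign `s`" (`amo_cut`).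
* the mixed cylinder `P_Y` on the rows `0..H` = `cuPS (rhS ..) (rhSg H) (rows 0..H)` (`rh_mix`) = the law of the legal history "every cell not inside the rows `0..H` is open, minus below, plus above" (`ams_hist`).
* `s = false` (push UPWARDS): `e D ⊆ {0 ≤ row}`, `K` in the rows `≥ H`: first history ≤ second history.      `s = true` (push DOWNWARDS): `e D ⊆ {row ≤ H}`, `K` in the rows `≤ 0`: second ≤ first.      ABSTRACT: `rh_cmp`.
* the test: "the cells of sign `s` block the band of index rows `c..d`" (`SdBlk`), read on the cells inside the rows `0..H` (`F`), resp. on the cells inside `e D`, the others counting as favourable (`G`);  `F ⟹ G`;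
  `G ⟹ ClSep` in the plane: `rh_chain` (a chain of sites through bad cells is a path of bad cell indices).
* the other sign of each direction: flip of the first spin, `rh_flip`.
-/

set_option autoImplicit false
set_option linter.unusedSectionVars false
set_option linter.unusedVariables false

namespace Claimed.Agent.R291

open Claims Claims.C0467 Relation

/-! ## A. abstract part -/

section abstract

variable {V Y : Type} [DecidableEq V] [DecidableEq Y]

open Classical in
/-- indicator of an event -/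
noncomputable def rhInd {α : Type} (L : α → Prop) : α → ℝ := fun ω => if L ω then 1 else 0

/-- an event of the statuses which is favourable to the sign `s`: increasing for `s = true`, decreasing for `s = false` -/
def RhFav (S : ClSys V Y) (s : Bool) (L : ClCfg V Y → Prop) : Prop :=
  ∀ ω ω' : ClCfg V Y, (∀ y ∈ S.C, if s = true then clTau S ω y ≤ clTau S ω' y else clTau S ω' y ≤ clTau S ω y) → L ω → L ω'

/-- the hypotheses of the abstract comparison: `(σ, I)` the mixed law, `(s, D, K)` the cut law with a history -/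
structure RhCmp (S : ClSys V Y) (σ : V → Bool) (I : Finset V) (s : Bool) (D : Finset V) (K : ClCon V Y) : Prop where
  /-- on the side of the sign `s` the mixed boundary lies outside `D` -/
  side : ∀ y ∈ S.cno I, (∃ v ∈ S.sv y, σ v = s) → ¬ S.sv y ⊆ D
  /-- the pins of the history lie beyond the other boundary -/
  pin : ∀ v ∈ K.Bp ∪ K.Bm, σ v = (!s) ∧ ∃ y ∈ S.cno I, v ∈ S.sv y
  /-- the observed cells of the history lie beyond the other boundary -/
  obs : ∀ y ∈ K.Op ∪ K.Om ∪ K.Cl, y ∈ S.cno I ∧ ∀ v ∈ S.sv y, σ v = (!s)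

theorem rh_P_ind (S : ClSys V Y) (K L : ClCfg V Y → Prop) : S.P K L = S.E K (rhInd L) := rfl

theorem rh_le_false (S : ClSys V Y) (hS : ClOk S) (σ : V → Bool) (I D : Finset V) (K : ClCon V Y) (hKe : K.Eq = ∅) (hc : RhCmp S σ I false D K) :
    ClLe (K.opn S false (S.cx D ∪ S.cout D)) ((clFree : ClCon V Y).opnS S σ (S.cx I ∪ S.cout I)) := by
  rw [← amo_cno_eq, ← amo_cno_eq]
  simp only [ClCon.opn, ClCon.opnS, clFree, Bool.false_eq_true, if_false]
  refine ⟨?_, ?_, ?_, ?_, ?_, ?_, hKe⟩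
  · intro v hv
    obtain ⟨h1, y, hy, hvy⟩ := hc.pin v (Finset.mem_union_left _ hv)
    simp only [Finset.mem_union, Finset.mem_filter, Finset.mem_biUnion]
    exact Or.inr ⟨⟨y, hy, hvy⟩, by simpa using h1⟩
  · intro v hv
    simp only [Finset.mem_union, Finset.mem_filter, Finset.mem_biUnion, Finset.notMem_empty, false_or] at hv ⊢
    obtain ⟨⟨y, hy, hvy⟩, h1⟩ := hv
    exact Or.inr ⟨y, Finset.mem_filter.2 ⟨(Finset.mem_filter.1 hy).1, hc.side y hy ⟨v, hvy, h1⟩⟩, hvy⟩
  · intro y hy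
    obtain ⟨h1, h2⟩ := hc.obs y (by simp only [Finset.mem_union]; tauto)
    simp only [Finset.mem_union, Finset.mem_filter]
    exact Or.inr ⟨h1, fun v hv => by simpa using h2 v hv⟩
  · intro y hy
    simp only [Finset.mem_union, Finset.mem_filter, Finset.notMem_empty, false_or] at hy ⊢
    obtain ⟨h1, h2⟩ := hy
    obtain ⟨v, hv⟩ := hS.ne y (Finset.mem_filter.1 h1).1
    exact Or.inr (Finset.mem_filter.2 ⟨(Finset.mem_filter.1 h1).1, hc.side y h1 ⟨v, hv, h2 v hv⟩⟩)
  · intro y hy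
    obtain ⟨h1, h2⟩ := hc.obs y (by simp only [Finset.mem_union]; tauto)
    simp only [Finset.mem_union, Finset.mem_filter]
    exact Or.inr (Or.inr ⟨h1, fun v hv => by simpa using h2 v hv⟩)
  · exact Finset.empty_subset _

theorem rh_le_true (S : ClSys V Y) (hS : ClOk S) (σ : V → Bool) (I D : Finset V) (K : ClCon V Y) (hKe : K.Eq = ∅) (hc : RhCmp S σ I true D K) :
    ClLe ((clFree : ClCon V Y).opnS S σ (S.cx I ∪ S.cout I)) (K.opn S true (S.cx D ∪ S.cout D)) := by
  rw [← amo_cno_eq, ← amo_cno_eq]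
  simp only [ClCon.opn, ClCon.opnS, clFree, if_true]
  refine ⟨?_, ?_, ?_, ?_, ?_, ?_, hKe.symm⟩
  · intro v hv
    simp only [Finset.mem_union, Finset.mem_filter, Finset.mem_biUnion, Finset.notMem_empty, false_or] at hv ⊢
    obtain ⟨⟨y, hy, hvy⟩, h1⟩ := hv
    exact Or.inr ⟨y, Finset.mem_filter.2 ⟨(Finset.mem_filter.1 hy).1, hc.side y hy ⟨v, hvy, h1⟩⟩, hvy⟩
  · intro v hv
    obtain ⟨h1, y, hy, hvy⟩ := hc.pin v (Finset.mem_union_right _ hv)
    simp only [Finset.mem_union, Finset.mem_filter, Finset.mem_biUnion]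
    exact Or.inr ⟨⟨y, hy, hvy⟩, by simpa using h1⟩
  · intro y hy
    simp only [Finset.mem_union, Finset.mem_filter, Finset.notMem_empty, false_or] at hy ⊢
    obtain ⟨h1, h2⟩ := hy
    obtain ⟨v, hv⟩ := hS.ne y (Finset.mem_filter.1 h1).1
    exact Or.inr (Finset.mem_filter.2 ⟨(Finset.mem_filter.1 h1).1, hc.side y h1 ⟨v, hv, h2 v hv⟩⟩)
  · intro y hy
    obtain ⟨h1, h2⟩ := hc.obs y (by simp only [Finset.mem_union]; tauto)
    simp only [Finset.mem_union, Finset.mem_filter]
    exact Or.inr ⟨h1, fun v hv => by simpa using h2 v hv⟩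
  · exact Finset.empty_subset _
  · intro y hy
    obtain ⟨h1, h2⟩ := hc.obs y (by simp only [Finset.mem_union]; tauto)
    simp only [Finset.mem_union, Finset.mem_filter]
    exact Or.inr (Or.inr ⟨h1, fun v hv => by simpa using h2 v hv⟩)


theorem rh_free_legal (S : ClSys V Y) : ClLegal S (clFree : ClCon V Y) :=
  ⟨rfl, rfl, fun y _ hy => by simp [clFree] at hy, fun e he => by simp [clFree] at he⟩

theorem rh_free_in (S : ClSys V Y) (I : Finset V) : (clFree : ClCon V Y).In S I :=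
  ⟨Finset.empty_subset _, Finset.empty_subset _, fun e he => by simp [clFree] at he, Finset.empty_subset _, Finset.empty_subset _,
    Finset.empty_subset _, Finset.empty_subset _, Finset.empty_subset _⟩

theorem rh_ind_nonneg {α : Type} (L : α → Prop) (ω : α) : 0 ≤ rhInd L ω := by
  unfold rhInd; split_ifs <;> norm_num

theorem rh_ind_le {α : Type} {L L' : α → Prop} {ω ω' : α} (h : L ω → L' ω') : rhInd L ω ≤ rhInd L' ω' := by
  unfold rhInd
  by_cases h1 : L ω
  · rw [if_pos h1, if_pos (h h1)]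
  · rw [if_neg h1]; split_ifs <;> norm_num

theorem rh_N_one_sub (S : ClSys V Y) (K : ClCfg V Y → Prop) (f : ClCfg V Y → ℝ) : S.N K (fun ω => 1 - f ω) = S.Z K - S.N K f := by
  classical
  rw [dis_Z_eq]
  unfold ClSys.N
  rw [← Finset.sum_sub_distrib]
  refine Finset.sum_congr rfl fun ω _ => ?_
  split_ifs <;> ring

theorem rh_N_mono (S : ClSys V Y) (hS : ClOk S) (K : ClCfg V Y → Prop) (f g : ClCfg V Y → ℝ) (h : ∀ ω, f ω ≤ g ω) : S.N K f ≤ S.N K g := by
  classical
  unfold ClSys.N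
  refine Finset.sum_le_sum fun ω _ => ?_
  split_ifs
  · exact mul_le_mul_of_nonneg_left (h ω) (dis_wt_nonneg S hS ω)
  · exact le_rfl

theorem rh_cross (S : ClSys V Y) (hS : ClDisk S) (σ : V → Bool) (I : Finset V) (s : Bool) (D : Finset V) (K : ClCon V Y) (hK : ClLegal S K) (hKe : K.Eq = ∅)
    (hc : RhCmp S σ I s D K) (F : ClCfg V Y → Prop) (hF : RhFav S s F) :
    S.Z ((K.opn S s (S.cx D ∪ S.cout D)).Holds S) * S.N (((clFree : ClCon V Y).opnS S σ (S.cx I ∪ S.cout I)).Holds S) (rhInd F) ≤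
      S.N ((K.opn S s (S.cx D ∪ S.cout D)).Holds S) (rhInd F) * S.Z (((clFree : ClCon V Y).opnS S σ (S.cx I ∪ S.cout I)).Holds S) := by
  have l1 := amo_legal_opn S K hK s (S.cx D ∪ S.cout D)
  have l2 := ams_legal S (clFree : ClCon V Y) (rh_free_legal S) σ (S.cx I ∪ S.cout I)
  cases s
  · have h := dis_order S hS _ _ l1 l2 (rh_le_false S hS.toClOk σ I D K hKe hc) (fun ω => 1 - rhInd F ω) (by
      intro ω ω' _ hτ
      have : rhInd F ω' ≤ rhInd F ω := rh_ind_le (hF ω' ω (fun y hy => by simpa using hτ y hy))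
      linarith)
    rw [rh_N_one_sub, rh_N_one_sub] at h
    nlinarith
  · have h := dis_order S hS _ _ l2 l1 (rh_le_true S hS.toClOk σ I D K hKe hc) (rhInd F) (by
      intro ω ω' _ hτ
      exact rh_ind_le (hF ω ω' (fun y hy => by simpa using hτ y hy)))
    linarith

theorem rh_ind_loc {T : Finset V} {T' : Finset Y} {L : ClCfg V Y → Prop} (h : ClLocP T T' L) : ClLoc T T' (rhInd L) := by
  intro ω ω' h1 h2 h3
  have := h ω ω' h1 h2 h3
  unfold rhInd
  by_cases hL : L ω
  · rw [if_pos hL, if_pos (this.1 hL)]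
  · rw [if_neg hL, if_neg (fun h' => hL (this.2 h'))]

theorem rh_cmp (S : ClSys V Y) (hS : ClDisk S) (σ : V → Bool) (I : Finset V) (hI : I ⊆ S.A) (hσ : ∀ y ∈ S.cno I, ∀ u ∈ S.sv y, ∀ v ∈ S.sv y, σ u = σ v)
    (s : Bool) (D : Finset V) (hD : D ⊆ S.A) (K : ClCon V Y) (hK : ClLegal S K) (hKe : K.Eq = ∅) (hKD : K.In S D) (hc : RhCmp S σ I s D K)
    (hf : 0 < (S.inn D).Z (fun ω => CuPin s (cuLay S D) ω ∧ K.Holds S ω))
    (F G : ClCfg V Y → Prop) (hF : RhFav S s F) (hFl : ClLocP I (S.cin I) F) (hGl : ClLocP D (S.cin D) G) (hFG : ∀ ω, F ω → G ω) :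
    cuPS S σ I ((clFree : ClCon V Y).Holds S) F ≤ cuP S s D (K.Holds S) G := by
  have hO : ClOk S := hS.toClOk
  have hadm : AmsAdm S σ I := fun y hy hcr => hσ y (amo_cx_cno S (Finset.Subset.refl I) (Finset.mem_filter.2 ⟨hy, hcr⟩))
  have hout : ∀ y ∈ S.cout I, ∀ u ∈ S.sv y, ∀ v ∈ S.sv y, σ u = σ v := fun y hy =>
    hσ y (by rw [amo_cno_eq]; exact Finset.mem_union_right _ hy)
  by_cases hz : (S.inn I).Z (fun ω => CuPinS σ (cuLay S I) ω ∧ (clFree : ClCon V Y).Holds S ω) = 0
  · have : cuPS S σ I ((clFree : ClCon V Y).Holds S) F = 0 := by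
      unfold cuPS
      rw [rh_P_ind, dis_E_eq, hz, div_zero]
    rw [this]
    exact ann_clP_nonneg _ (amo_inn_ok S hO D) _ _
  have hf2 : 0 < (S.inn I).Z (fun ω => CuPinS σ (cuLay S I) ω ∧ (clFree : ClCon V Y).Holds S ω) :=
    lt_of_le_of_ne (amo_Z_nonneg _ (amo_inn_ok S hO I) _) (Ne.symm hz)
  have Z2 := ams_hist_feas S hO σ I hI hadm clFree (rh_free_in S I) (S.cout I) (Finset.Subset.refl _) hout hf2
  have Z1 := amo_feas_opn S hO s D hD K hKD hf (amo_cno_eq S D).symm.subset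
  have e2 := ams_hist S hO σ I hI hadm clFree (rh_free_in S I) (S.cout I) (Finset.Subset.refl _) hout (rhInd F) (rh_ind_loc hFl)
  have e1 := amo_cut S hO s D hD K hKD (S.cout D) (Finset.Subset.refl _) (rhInd G) (rh_ind_loc hGl)
  have hx := rh_cross S hS σ I s D K hK hKe hc F hF
  have hm := rh_N_mono S hO ((K.opn S s (S.cx D ∪ S.cout D)).Holds S) (rhInd F) (rhInd G) (fun ω => rh_ind_le (hFG ω))
  have g1 : cuPS S σ I ((clFree : ClCon V Y).Holds S) F = cuES S σ I ((clFree : ClCon V Y).Holds S) (rhInd F) := rfl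
  have g2 : cuP S s D (K.Holds S) G = cuE S s D (K.Holds S) (rhInd G) := rfl
  rw [g1, g2]
  rw [e2] at hx
  rw [e1] at hm
  refine le_of_mul_le_mul_left ?_ (mul_pos Z1 Z2)
  nlinarith

/-! ### transport along an isomorphism -/

variable {V' Y' : Type} [DecidableEq V'] [DecidableEq Y']

/-- transport of a history without equalities and labels -/
def ClCon.rhMap (K : ClCon V Y) (φ : V → V') (ψ : Y → Y') : ClCon V' Y' :=
  ⟨K.Bp.image φ, K.Bm.image φ, ∅, K.Op.image ψ, K.Om.image ψ, K.Cl.image ψ, ∅, ∅⟩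

theorem rh_pin_map (S : ClSys V Y) (S' : ClSys V' Y') (φ : V → V') (ψ : Y → Y') (h : CuIso S S' φ ψ) (s : Bool) (T : Finset V) (hT : T ⊆ S.A)
    (ω : ClCfg V Y) (hω : ω ∈ S.cfgs) : CuPin s (T.image φ) (ω.map φ ψ) ↔ CuPin s T ω := by
  obtain ⟨hB, _, _⟩ := (cl_mem_cfgs S ω).1 hω
  unfold CuPin
  constructor
  · intro H v hv
    rw [← H (φ v) (Finset.mem_image_of_mem φ hv)]
    exact (am_t5_mem h.injV hB (hT hv)).symm
  · intro H w hw
    obtain ⟨v, hv, rfl⟩ := Finset.mem_image.1 hw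
    rw [← H v hv]
    exact am_t5_mem h.injV hB (hT hv)

theorem rh_holds_map (S : ClSys V Y) (S' : ClSys V' Y') (φ : V → V') (ψ : Y → Y') (h : CuIso S S' φ ψ) (hS : ∀ y ∈ S.C, S.sv y ⊆ S.A) (K : ClCon V Y)
    (hbp : K.Bp ⊆ S.A) (hbm : K.Bm ⊆ S.A) (hop : K.Op ⊆ S.C) (hom : K.Om ⊆ S.C) (hcl : K.Cl ⊆ S.C) (he : K.Eq = ∅) (hwp : K.Wp = ∅) (hwm : K.Wm = ∅)
    (ω : ClCfg V Y) (hω : ω ∈ S.cfgs) : (K.rhMap φ ψ).Holds S' (ω.map φ ψ) ↔ K.Holds S ω := by
  obtain ⟨hB, hW, hO⟩ := (cl_mem_cfgs S ω).1 hω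
  have a1 : (K.Bp.image φ ⊆ (ω.map φ ψ).B) ↔ K.Bp ⊆ ω.B := am_t5_sub h.injV hB hbp
  have a2 : (∀ v ∈ K.Bm.image φ, v ∉ (ω.map φ ψ).B) ↔ ∀ v ∈ K.Bm, v ∉ ω.B := by
    constructor
    · intro H v hv hvB
      exact H (φ v) (Finset.mem_image_of_mem φ hv) (Finset.mem_image_of_mem φ hvB)
    · intro H w hw
      obtain ⟨v, hv, rfl⟩ := Finset.mem_image.1 hw
      intro hc
      exact H v hv ((am_t5_mem h.injV hB (hbm hv)).1 hc)
  have a3 : ∀ (X : Finset Y) (t : ℤ), X ⊆ S.C → ((∀ y ∈ X.image ψ, clTau S' (ω.map φ ψ) y = t) ↔ ∀ y ∈ X, clTau S ω y = t) := by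
    intro X t hX
    constructor
    · intro H y hy
      rw [← am_iso_tau S S' φ ψ h hS ω hω y (hX hy)]
      exact H _ (Finset.mem_image_of_mem ψ hy)
    · intro H w hw
      obtain ⟨y, hy, rfl⟩ := Finset.mem_image.1 hw
      rw [am_iso_tau S S' φ ψ h hS ω hω y (hX hy)]
      exact H y hy
  have a4 : (∀ y ∈ K.Cl.image ψ, y ∉ (ω.map φ ψ).O) ↔ ∀ y ∈ K.Cl, y ∉ ω.O := by
    constructor
    · intro H y hy hyO
      exact H (ψ y) (Finset.mem_image_of_mem ψ hy) (Finset.mem_image_of_mem ψ hyO)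
    · intro H w hw
      obtain ⟨y, hy, rfl⟩ := Finset.mem_image.1 hw
      intro hc
      exact H y hy ((am_t5_mem h.injY hO (hcl hy)).1 hc)
  unfold ClCon.Holds
  simp only [ClCon.rhMap, he, hwp, hwm, Finset.notMem_empty, false_imp_iff, implies_true, Finset.empty_subset, true_and, and_true]
  rw [a1, a2, a3 _ _ hop, a3 _ _ hom, a4]

/-- the transported history is full -/
theorem rh_full_map (S : ClSys V Y) (S' : ClSys V' Y') (φ : V → V') (ψ : Y → Y') (h : CuIso S S' φ ψ) (K : ClCon V Y) (hK : ClLegal S K)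
    (hop : K.Op ⊆ S.C) (hom : K.Om ⊆ S.C) (hcl : K.Cl ⊆ S.C) :
    ∀ c, c ∈ (K.rhMap φ ψ).Op ∪ (K.rhMap φ ψ).Om ∪ (K.rhMap φ ψ).Cl → S'.sv c ⊆ (K.rhMap φ ψ).Bp ∪ (K.rhMap φ ψ).Bm := by
  intro c hc
  have key : ∀ y, y ∈ S.C → y ∈ K.Op ∪ K.Om ∪ K.Cl → S'.sv (ψ y) ⊆ (K.rhMap φ ψ).Bp ∪ (K.rhMap φ ψ).Bm := by
    intro y hy hy'
    rw [h.sv y hy]
    have := Finset.image_subset_image (f := φ) (hK.full y hy hy')
    rw [Finset.image_union] at this
    exact this
  simp only [ClCon.rhMap, Finset.mem_union, Finset.mem_image] at hc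
  rcases hc with (⟨y, hy, rfl⟩ | ⟨y, hy, rfl⟩) | ⟨y, hy, rfl⟩
  · exact key y (hop hy) (by simp [hy])
  · exact key y (hom hy) (by simp [hy])
  · exact key y (hcl hy) (by simp [hy])

/-- transport of probabilities -/
theorem rh_iso_P (S : ClSys V Y) (S' : ClSys V' Y') (φ : V → V') (ψ : Y → Y') (h : CuIso S S' φ ψ) (hS : ∀ y ∈ S.C, S.sv y ⊆ S.A)
    (K' L' : ClCfg V' Y' → Prop) : S'.P K' L' = S.P (fun ω => K' (ω.map φ ψ)) (fun ω => L' (ω.map φ ψ)) := by
  unfold ClSys.P
  rw [dis_E_eq, dis_E_eq, dis_Z_eq, dis_Z_eq, am_iso S S' φ ψ h hS, am_iso S S' φ ψ h hS]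

/-- the constraint may be replaced by an equivalent one, the event by a weaker one -/
theorem rh_P_le (S : ClSys V Y) (hS : ClOk S) (K K' L L' : ClCfg V Y → Prop) (hK : ∀ ω ∈ S.cfgs, (K ω ↔ K' ω))
    (hL : ∀ ω ∈ S.cfgs, K ω → L ω → L' ω) : S.P K L ≤ S.P K' L' := by
  classical
  unfold ClSys.P
  rw [dis_E_eq, dis_E_eq]
  have hZ : S.Z K = S.Z K' := by
    rw [dis_Z_eq, dis_Z_eq]
    exact dcu_N_congr' S _ fun ω hω _ => hK ω hω
  rw [← hZ]
  refine div_le_div_of_nonneg_right ?_ (amo_Z_nonneg S hS K)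
  rw [← dcu_N_congr' S _ fun ω hω _ => hK ω hω]
  unfold ClSys.N
  refine Finset.sum_le_sum fun ω hω => ?_
  have hw := dis_wt_nonneg S hS ω
  by_cases hk : K ω
  · rw [if_pos hk, if_pos hk]
    refine mul_le_mul_of_nonneg_left ?_ hw
    beta_reduce
    by_cases hl : L ω
    · rw [if_pos hl, if_pos (hL ω hω hk hl)]
    · rw [if_neg hl]
      split_ifs <;> norm_num
  · rw [if_neg hk, if_neg hk]

end abstract

/-! ## B. the ambient: the capped cylinder with all the up-triangles -/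

/-- all the up-triangles of the rows `a..b` -/
noncomputable def rhQ (L : ℕ) (a b : ℤ) : Finset CyY := (sdCells L a b).image (cyT true)

/-- the ambient -/
noncomputable def rhS (x : ℝ) (L : ℕ) (a b : ℤ) : ClSys TV CyY := cyS x L a b (rhQ L a b) ∅

/-- the sign function of the mixed cylinder of height `H` -/
def rhSg (H : ℕ) : TV → Bool := fun v => decide ((H : ℤ) ≤ v.2)

theorem rh_val (L : ℕ) (a b : ℤ) : CyVal L a b (rhQ L a b) := by
  refine cys_val_of ?_ ?_
  · intro c hc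
    obtain ⟨y, hy, rfl⟩ := Finset.mem_image.1 hc
    exact cy_mem_tris.2 ⟨Or.inl rfl, hy⟩
  · intro y z _ hz
    obtain ⟨w, _, e⟩ := Finset.mem_image.1 hz
    have : CyK.up = CyK.dn := congrArg Prod.fst e
    exact absurd this (by decide)

theorem rh_disk {x : ℝ} (hx0 : 0 < x) (hx1 : x ≤ 1) {L : ℕ} (hL : 3 ≤ L) {a b : ℤ} (hab : a ≤ b) : ClDisk (rhS x L a b) :=
  cy_S_disk hx0 hx1 hL hab (rh_val L a b) ∅ (cy_S_card x L a b _ ∅)

theorem rh_tri_sv (L : ℕ) (y : TV) : cySv L (cyT true y) = (cellV y).image (sdRed L) := rfl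

theorem rh_tri_mem (x : ℝ) {L : ℕ} {a b : ℤ} {y : TV} (hy : y ∈ sdCells L a b) : cyT true y ∈ (rhS x L a b).C :=
  cy_mem_C.2 (Or.inl (Finset.mem_image_of_mem _ hy))

theorem rhq_hi_lo (c : CyY) : cysLo c ≤ cysHi c ∧ cysHi c ≤ cysLo c + 1 := by
  obtain ⟨k, y⟩ := c
  cases k <;> simp [cysLo, cysHi]

theorem rhq_mem_Q {L : ℕ} {a b : ℤ} {y : TV} : (CyK.up, y) ∈ rhQ L a b ↔ y ∈ sdCells L a b := by
  unfold rhQ
  rw [Finset.mem_image]
  constructor
  · rintro ⟨z, hz, e⟩
    have : z = y := congrArg Prod.snd e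
    exact this ▸ hz
  · intro h
    exact ⟨y, h, rfl⟩

/-- **classification of the cells**: an up-triangle, or a cell of the north cap (rows `≥ b`), or a cell of the south cap (rows `≤ a`) -/
theorem rh_cell {x : ℝ} {L : ℕ} {a b : ℤ} {c : CyY} (hc : c ∈ (rhS x L a b).C) :
    (∃ y ∈ sdCells L a b, c = cyT true y) ∨ (∀ v ∈ cySv L c, b ≤ v.2) ∨ (∀ v ∈ cySv L c, v.2 ≤ a) := by
  rcases cy_mem_C.1 hc with hQ | ⟨he, hTa, -⟩ | hs
  · obtain ⟨y, hy, rfl⟩ := Finset.mem_image.1 hQ
    exact Or.inl ⟨y, hy, rfl⟩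
  · obtain ⟨k, y⟩ := c
    rcases cy_mem_edges.1 he with ⟨hk, hy⟩ | ⟨hk, hy⟩ | ⟨hk, hy⟩
    · simp only at hk hy
      subst hk
      have hy' := cy_mem_sites.1 hy
      have hL : 0 < L := by omega
      have h1 : y ∉ sdCells L a b := fun h => hTa (rhq_mem_Q.2 h)
      rw [cy_mem_cells] at h1
      refine Or.inr (Or.inl fun v hv => ?_)
      have := ((cys_sv_rows hL (CyK.eh, y)).1 v hv).2.1
      simp only [cysLo] at this
      omega
    · simp only at hk hy
      subst hk
      exact absurd (rhq_mem_Q.2 hy) hTa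
    · simp only at hk hy
      subst hk
      have hy' := cy_mem_cells.1 hy
      have hL : 0 < L := by omega
      refine absurd (rhq_mem_Q.2 (cy_mem_cells.2 ?_)) hTa
      have h1 := cys_red_fst hL (y - (1, 0))
      refine ⟨h1.1, h1.2, ?_, ?_⟩
      · show a ≤ (y - (1, 0)).2
        simp only [Prod.snd_sub]; omega
      · show (y - (1, 0)).2 < b
        simp only [Prod.snd_sub]; omega
  · obtain ⟨k, y⟩ := c
    rcases cy_mem_spokes.1 hs with ⟨hk, hy⟩ | ⟨hk, hy⟩
    · simp only at hk hy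
      subst hk
      have hy' := cy_mem_row.1 hy
      have hL : 0 < L := by omega
      refine Or.inr (Or.inl fun v hv => ?_)
      have := ((cys_sv_rows hL (CyK.sn, y)).1 v hv).2.1
      simp only [cysLo] at this
      omega
    · simp only at hk hy
      subst hk
      have hy' := cy_mem_row.1 hy
      have hL : 0 < L := by omega
      refine Or.inr (Or.inr fun v hv => ?_)
      have := ((cys_sv_rows hL (CyK.ss, y)).1 v hv).2.2
      simp only [cysHi] at this
      omega

/-- a cell which is not inside the rows `0..H` and has a site under the row `H` has a site under the row `0` -/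
theorem rh_low {x : ℝ} {L H : ℕ} (hL : 3 ≤ L) {a b : ℤ} (ha : a ≤ -2) (hb : (H : ℤ) + 2 ≤ b) {c : CyY} (hc : c ∈ (rhS x L a b).cno (sdSites L 0 H))
    (h : ∃ v ∈ cySv L c, v.2 < H) : (∃ w ∈ cySv L c, w.2 < 0) ∧ ∀ v ∈ cySv L c, v.2 ≤ 0 := by
  have hL0 : 0 < L := by omega
  have hn : ¬ cySv L c ⊆ sdSites L 0 H := (Finset.mem_filter.1 hc).2
  rw [cys_sv_sub hL0] at hn
  obtain ⟨r1, ⟨w, hw, hw2⟩, -⟩ := cys_sv_rows hL0 c
  obtain ⟨v, hv, hv2⟩ := h
  have h1 := (r1 v hv).2.1
  have h2 := rhq_hi_lo c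
  have h3 : cysLo c < 0 := by
    by_contra hcon
    exact hn ⟨by omega, by omega⟩
  exact ⟨⟨w, hw, by omega⟩, fun u hu => by have := (r1 u hu).2.2; omega⟩

/-- a cell which is not inside the rows `0..H` and has a site on or over the row `H` has a site over the row `H` -/
theorem rh_high {x : ℝ} {L H : ℕ} (hL : 3 ≤ L) (hH : 1 ≤ H) {a b : ℤ} (ha : a ≤ -2) (hb : (H : ℤ) + 2 ≤ b) {c : CyY} (hc : c ∈ (rhS x L a b).cno (sdSites L 0 H))
    (h : ∃ v ∈ cySv L c, (H : ℤ) ≤ v.2) : (∃ w ∈ cySv L c, (H : ℤ) < w.2) ∧ ∀ v ∈ cySv L c, (H : ℤ) ≤ v.2 := by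
  have hL0 : 0 < L := by omega
  have hn : ¬ cySv L c ⊆ sdSites L 0 H := (Finset.mem_filter.1 hc).2
  rw [cys_sv_sub hL0] at hn
  obtain ⟨r1, -, ⟨w, hw, hw2⟩⟩ := cys_sv_rows hL0 c
  obtain ⟨v, hv, hv2⟩ := h
  have h1 := (r1 v hv).2.2
  have h2 := rhq_hi_lo c
  have h3 : (H : ℤ) < cysHi c := by
    by_contra hcon
    exact hn ⟨by omega, by omega⟩
  exact ⟨⟨w, hw, by omega⟩, fun u hu => by have := (r1 u hu).2.1; omega⟩

/-- the sign function is constant on the cells which are not inside the rows `0..H` -/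
theorem rh_sg_const {x : ℝ} {L H : ℕ} (hL : 3 ≤ L) (hH : 1 ≤ H) {a b : ℤ} (ha : a ≤ -2) (hb : (H : ℤ) + 2 ≤ b) :
    ∀ c ∈ (rhS x L a b).cno (sdSites L 0 H), ∀ u ∈ (rhS x L a b).sv c, ∀ v ∈ (rhS x L a b).sv c, rhSg H u = rhSg H v := by
  intro c hc u hu v hv
  by_cases h : (H : ℤ) ≤ u.2
  · have := (rh_high hL hH ha hb hc ⟨u, hu, h⟩).2 v hv
    simp [rhSg, h, this]
  · have h1 := (rh_low hL ha hb hc ⟨u, hu, not_le.1 h⟩).2 v hv
    have h2 : ¬ (H : ℤ) ≤ v.2 := by
      intro h3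
      have := (rh_high hL hH ha hb hc ⟨v, hv, h3⟩).2 u hu
      exact h this
    simp [rhSg, h, h2]

/-! ## C. the mixed cylinder inside the ambient -/

/-- the (periodic) set of the indices of the up-triangles of `S` of sign `s` -/
def rhX (S : ClSys TV CyY) (L : ℕ) (s : Bool) (ω : ClCfg TV CyY) : Set TV :=
  {y | cyT true (sdRed L y) ∈ S.C ∧ clTau S ω (cyT true (sdRed L y)) = clSg s}

/-- the set of the indices of the up-triangles which are of sign `s` OR not in `S` -/
def rhXo (S : ClSys TV CyY) (L : ℕ) (s : Bool) (ω : ClCfg TV CyY) : Set TV :=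
  {y | cyT true (sdRed L y) ∈ S.C → clTau S ω (cyT true (sdRed L y)) = clSg s}

/-- the cells of the ambient inside the rows `0..H` -/
theorem rh_mix_C (x : ℝ) {L H : ℕ} (hL : 3 ≤ L) {a b : ℤ} (ha : a ≤ -2) (hb : (H : ℤ) + 2 ≤ b) :
    (rhS x L a b).cin (sdSites L 0 H) = (sdCells L 0 H).image (cyT true) := by
  have hL0 : 0 < L := by omega
  ext c
  rw [am_mem_cin, Finset.mem_image]
  show (c ∈ (rhS x L a b).C ∧ cySv L c ⊆ sdSites L 0 H) ↔ _
  constructor
  · rintro ⟨hc, hsub⟩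
    obtain ⟨v, hv⟩ := cy_sv_nonempty L c
    have hv' := cy_mem_sites.1 (hsub hv)
    rcases rh_cell hc with ⟨y, hy, rfl⟩ | h | h
    · rw [cys_sv_sub hL0] at hsub
      have hy' := cy_mem_cells.1 hy
      have h1 : cysLo (cyT true y) = y.2 := rfl
      have h2 : cysHi (cyT true y) = y.2 + 1 := rfl
      exact ⟨y, cy_mem_cells.2 (by omega), rfl⟩
    · have := h v hv; omega
    · have := h v hv; omega
  · rintro ⟨y, hy, rfl⟩
    have hy' := cy_mem_cells.1 hy
    refine ⟨rh_tri_mem x (cy_mem_cells.2 (by omega)), (cys_sv_sub hL0 _ _ _).2 ?_⟩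
    have h1 : cysLo (cyT true y) = y.2 := rfl
    have h2 : cysHi (cyT true y) = y.2 + 1 := rfl
    omega

/-- the layer of the rows `0..H` -/
theorem rh_mix_lay (x : ℝ) {L H : ℕ} (hL : 3 ≤ L) {a b : ℤ} (ha : a ≤ -2) (hb : (H : ℤ) + 2 ≤ b) :
    cuLay (rhS x L a b) (sdSites L 0 H) = sdRow L 0 ∪ sdRow L H := by
  have hL0 : 0 < L := by omega
  ext u
  rw [am_mem_lay, Finset.mem_union, cy_mem_row, cy_mem_row, cy_mem_sites]
  constructor
  · rintro ⟨hu, c, hc, huc, hn⟩
    have hcno : c ∈ (rhS x L a b).cno (sdSites L 0 H) := Finset.mem_filter.2 ⟨hc, hn⟩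
    by_cases h : u.2 < H
    · have := (rh_low hL ha hb hcno ⟨u, huc, h⟩).2 u huc
      left; omega
    · right; omega
  · rintro (h | h)
    · refine ⟨by omega, cyT true (u.1, -1), rh_tri_mem x (cy_mem_cells.2 (by simp only; omega)), ?_, ?_⟩
      · show u ∈ cySv L (cyT true (u.1, -1))
        rw [rh_tri_sv, Finset.mem_image]
        refine ⟨(u.1, -1) + (0, 1), by simp [cellV], ?_⟩
        rw [cy_red_self (by simp only [Prod.fst_add]; omega) (by simp only [Prod.fst_add]; omega)]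
        exact Prod.ext (by simp) (by simp [h.2.2])
      · show ¬ cySv L (cyT true (u.1, -1)) ⊆ sdSites L 0 H
        rw [cys_sv_sub hL0]
        have h1 : cysLo (cyT true (u.1, -1)) = -1 := rfl
        omega
    · refine ⟨by omega, cyT true u, rh_tri_mem x (cy_mem_cells.2 (by omega)), ?_, ?_⟩
      · show u ∈ cySv L (cyT true u)
        rw [rh_tri_sv, Finset.mem_image]
        exact ⟨u, by simp [cellV], cy_red_self h.1 h.2.1⟩
      · show ¬ cySv L (cyT true u) ⊆ sdSites L 0 H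
        rw [cys_sv_sub hL0]
        have h1 : cysHi (cyT true u) = u.2 + 1 := rfl
        omega

theorem rh_mix_iso (x : ℝ) {L H : ℕ} (hL : 3 ≤ L) {a b : ℤ} (ha : a ≤ -2) (hb : (H : ℤ) + 2 ≤ b) :
    CuIso (sdSys x L true 0 H) ((rhS x L a b).inn (sdSites L 0 H)) id (cyT true) := by
  refine
    { injV := Function.injective_id.injOn
      injY := fun _ _ _ _ e => congrArg Prod.snd e
      A := ?_
      C := (rh_mix_C x hL ha hb).symm
      sv := fun y _ => ?_
      q := fun y _ => ?_ }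
  · rw [Finset.image_id]
    rfl
  · rw [Finset.image_id]
    rfl
  · show (if cyT true y ∈ (∅ : Finset CyY) then (1 : ℝ) else if (cyT true y).1 = CyK.up ∨ (cyT true y).1 = CyK.dn then x ^ 2 else x) = x ^ 2
    rw [if_neg (by simp), if_pos (show (cyT true y).1 = CyK.up ∨ (cyT true y).1 = CyK.dn from Or.inl rfl)]

theorem rhq_N_congr {V Y : Type} [DecidableEq V] [DecidableEq Y] (S : ClSys V Y) {K K' : ClCfg V Y → Prop} {F F' : ClCfg V Y → ℝ}
    (hK : ∀ ω ∈ S.cfgs, (K ω ↔ K' ω)) (hF : ∀ ω ∈ S.cfgs, F ω = F' ω) : S.N K F = S.N K' F' := by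
  classical
  unfold ClSys.N
  refine Finset.sum_congr rfl fun ω hω => ?_
  rw [hF ω hω]
  by_cases h : K ω
  · rw [if_pos h, if_pos ((hK ω hω).1 h)]
  · rw [if_neg h, if_neg (fun h' => h ((hK ω hω).2 h'))]

/-- **the mixed cylinder law is a cut law of the ambient** -/
theorem rh_mix (x : ℝ) {L H : ℕ} (hL : 3 ≤ L) (hH : 1 ≤ H) {a b : ℤ} (ha : a ≤ -2) (hb : (H : ℤ) + 2 ≤ b) (s : Bool) (E : Set TV → Prop) :
    sdP x L H true s E ≤ cuPS (rhS x L a b) (rhSg H) (sdSites L 0 H) ((clFree : ClCon TV CyY).Holds (rhS x L a b))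
      (fun ω => E (rhX ((rhS x L a b).inn (sdSites L 0 H)) L s ω)) := by
  classical
  have hL0 : 0 < L := by omega
  have hiso := rh_mix_iso x (H := H) hL ha hb
  have hsub : ∀ y ∈ (sdSys x L true 0 H).C, (sdSys x L true 0 H).sv y ⊆ (sdSys x L true 0 H).A := by
    intro y hy
    exact cy_tri_sub hL0 (c := cyT true y) (cy_mem_tris.2 ⟨Or.inl rfl, hy⟩)
  refine le_of_eq ?_
  unfold sdP cuPS ClSys.P
  rw [dis_E_eq, dis_E_eq, dis_Z_eq, dis_Z_eq, am_iso _ _ _ _ hiso hsub, am_iso _ _ _ _ hiso hsub, rh_mix_lay x hL ha hb]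
  have hK : ∀ ω ∈ (sdSys x L true 0 H).cfgs, (SdMix L 0 H ω ↔
      (CuPinS (rhSg H) (sdRow L 0 ∪ sdRow L H) (ω.map id (cyT true)) ∧ (clFree : ClCon TV CyY).Holds (rhS x L a b) (ω.map id (cyT true)))) := by
    intro ω _
    have hB : (ω.map id (cyT true)).B = ω.B := Finset.image_id
    have hfree : (clFree : ClCon TV CyY).Holds (rhS x L a b) (ω.map id (cyT true)) := by simp [ClCon.Holds, clFree]
    unfold SdMix CuPin CuPinS
    rw [hB]
    constructor
    · rintro ⟨h0, h1⟩
      refine ⟨fun v hv => ?_, hfree⟩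
      rcases Finset.mem_union.1 hv with hv | hv
      · have h2 := (cy_mem_row.1 hv).2.2
        rw [h0 v hv]
        have : ¬ (H : ℤ) ≤ v.2 := by omega
        simp [rhSg, this]
      · have h2 := (cy_mem_row.1 hv).2.2
        rw [h1 v hv]
        have : (H : ℤ) ≤ v.2 := by omega
        simp [rhSg, this]
    · rintro ⟨h, -⟩
      refine ⟨fun v hv => ?_, fun v hv => ?_⟩
      · have h2 := (cy_mem_row.1 hv).2.2
        rw [h v (Finset.mem_union_left _ hv)]
        have : ¬ (H : ℤ) ≤ v.2 := by omega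
        simp [rhSg, this]
      · have h2 := (cy_mem_row.1 hv).2.2
        rw [h v (Finset.mem_union_right _ hv)]
        have : (H : ℤ) ≤ v.2 := by omega
        simp [rhSg, this]
  have hX : ∀ ω ∈ (sdSys x L true 0 H).cfgs,
      sdSet (sdSys x L true 0 H) L (clSg s) ω = rhX ((rhS x L a b).inn (sdSites L 0 H)) L s (ω.map id (cyT true)) := by
    intro ω hω
    ext p
    have hC : cyT true (sdRed L p) ∈ ((rhS x L a b).inn (sdSites L 0 H)).C ↔ sdRed L p ∈ (sdSys x L true 0 H).C := by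
      rw [← hiso.C, Finset.mem_image]
      constructor
      · rintro ⟨z, hz, e⟩
        have : z = sdRed L p := congrArg Prod.snd e
        exact this ▸ hz
      · intro h
        exact ⟨_, h, rfl⟩
    simp only [sdSet, rhX, Set.mem_ofPred_eq]
    rw [hC]
    refine and_congr_right fun hp => ?_
    rw [am_iso_tau _ _ _ _ hiso hsub ω hω _ hp]
  congr 1
  · refine rhq_N_congr _ hK fun ω hω => ?_
    beta_reduce
    rw [hX ω hω]
  · exact rhq_N_congr _ hK fun _ _ => rfl

/-! ## D. the embedding of a planar domain -/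

/-- admissible embeddings of the plane: bijections which preserve the up-cells -/
structure RhEmb (e e' : TV → TV) : Prop where
  left : ∀ u, e' (e u) = u
  right : ∀ u, e (e' u) = u
  cell : ∀ y, (cellV y).image e = cellV (e y)

/-- the image of `D` fits into the ambient, without wrapping -/
structure RhFit (e : TV → TV) (D : Finset TV) (L : ℕ) (a b : ℤ) : Prop where
  col : ∀ u ∈ D, 0 ≤ (e u).1 ∧ (e u).1 + 2 ≤ L
  row : ∀ u ∈ D, a + 1 ≤ (e u).2 ∧ (e u).2 + 1 ≤ b

theorem rh_emb_tr (t : TV) : RhEmb (fun u => u + t) (fun u => u - t) := by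
  refine ⟨fun u => by simp, fun u => by simp, fun y => ?_⟩
  simp only [cellV, Finset.image_insert, Finset.image_singleton, add_right_comm]

theorem rh_emb_sw (t : TV) : RhEmb (fun u => (u.2, u.1) + t) (fun u => ((u - t).2, (u - t).1)) := by
  refine ⟨fun u => by simp, fun u => by ext <;> simp, fun y => ?_⟩
  simp only [cellV, Finset.image_insert, Finset.image_singleton, Prod.fst_add, Prod.snd_add, add_zero]
  have e1 : ((y.2, y.1 + 1) : TV) + t = (y.2, y.1) + t + (0, 1) := by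
    ext <;> simp <;> ring
  have e2 : ((y.2 + 1, y.1) : TV) + t = (y.2, y.1) + t + (1, 0) := by
    ext <;> simp <;> ring
  rw [e1, e2, Finset.pair_comm]

/-- the embedded sites are reduced -/
theorem rh_fit_red {e : TV → TV} {D : Finset TV} {L : ℕ} {a b : ℤ} (hfit : RhFit e D L a b) {u : TV} (hu : u ∈ D) : sdRed L (e u) = e u :=
  cy_red_self (hfit.col u hu).1 (by have := (hfit.col u hu).2; omega)

/-- the sites of an embedded cell -/
theorem rh_fit_sv {e e' : TV → TV} (he : RhEmb e e') {D : Finset TV} {L : ℕ} {a b : ℤ} (hfit : RhFit e D L a b) {y : TV} (hy : cellV y ⊆ D) :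
    cySv L (cyT true (e y)) = (cellV y).image e := by
  rw [rh_tri_sv, ← he.cell y, Finset.image_image]
  refine Finset.image_congr fun u hu => ?_
  exact rh_fit_red hfit (hy hu)

/-- the cells of the ambient inside `e D` -/
theorem rh_emb_C (x : ℝ) {e e' : TV → TV} (he : RhEmb e e') {D : Finset TV} {L : ℕ} {a b : ℤ} (hfit : RhFit e D L a b) :
    (rhS x L a b).cin (D.image e) = (latCellsIn D).image (fun y => cyT true (e y)) := by
  ext c
  rw [am_mem_cin, Finset.mem_image]
  constructor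
  · rintro ⟨hc, hsub⟩
    have hsub' : cySv L c ⊆ D.image e := hsub
    rcases rh_cell hc with ⟨y, hy, rfl⟩ | h | h
    · have hy' := cy_mem_cells.1 hy
      have hmem : ∀ p ∈ cellV y, sdRed L p ∈ D.image e := fun p hp => hsub' (by rw [rh_tri_sv]; exact Finset.mem_image_of_mem _ hp)
      have h0 : y ∈ D.image e := by
        have := hmem y (by simp [cellV])
        rwa [cy_red_self hy'.1 hy'.2.1] at this
      obtain ⟨u0, hu0, hu0e⟩ := Finset.mem_image.1 h0
      have hcol := hfit.col u0 hu0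
      rw [hu0e] at hcol
      have hall : ∀ p ∈ cellV y, p ∈ D.image e := by
        intro p hp
        have h1 := hmem p hp
        have h2 : sdRed L p = p := by
          simp only [cellV, Finset.mem_insert, Finset.mem_singleton] at hp
          rcases hp with rfl | rfl | rfl
          · exact cy_red_self hy'.1 hy'.2.1
          · refine cy_red_self ?_ ?_
            · show 0 ≤ y.1 + 1
              omega
            · show y.1 + 1 < L
              omega
          · refine cy_red_self ?_ ?_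
            · show 0 ≤ y.1 + 0
              omega
            · show y.1 + 0 < L
              omega
        rwa [h2] at h1
      refine ⟨e' y, lat_mem_cellsIn.2 fun q hq => ?_, by rw [he.right]⟩
      have h1 : e q ∈ cellV y := by
        have : e q ∈ (cellV (e' y)).image e := Finset.mem_image_of_mem _ hq
        rwa [he.cell, he.right] at this
      obtain ⟨u, hu, hue⟩ := Finset.mem_image.1 (hall _ h1)
      have : u = q := by rw [← he.left u, hue, he.left]
      rwa [← this]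
    · exfalso
      obtain ⟨v, hv⟩ := cy_sv_nonempty L c
      obtain ⟨u, hu, rfl⟩ := Finset.mem_image.1 (hsub' hv)
      have := h _ hv
      have := (hfit.row u hu).2
      omega
    · exfalso
      obtain ⟨v, hv⟩ := cy_sv_nonempty L c
      obtain ⟨u, hu, rfl⟩ := Finset.mem_image.1 (hsub' hv)
      have := h _ hv
      have := (hfit.row u hu).1
      omega
  · rintro ⟨y, hy, rfl⟩
    have hyD := lat_mem_cellsIn.1 hy
    have hy0 : y ∈ D := hyD (by simp [cellV])
    have hc := hfit.col y hy0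
    have hr := hfit.row y hy0
    refine ⟨rh_tri_mem x (cy_mem_cells.2 ⟨hc.1, by omega, by omega, by omega⟩), ?_⟩
    show cySv L (cyT true (e y)) ⊆ D.image e
    rw [rh_fit_sv he hfit hyD]
    exact Finset.image_subset_image hyD

/-- **the planar system on `D` is the part of the ambient inside `e D`** -/
theorem rh_iso (x : ℝ) {e e' : TV → TV} (he : RhEmb e e') {D : Finset TV} {L : ℕ} {a b : ℤ} (hfit : RhFit e D L a b) :
    CuIso (clInn x D) ((rhS x L a b).inn (D.image e)) e (fun y => cyT true (e y)) := by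
  have hinj : Function.Injective e := fun u v h => by rw [← he.left u, h, he.left]
  refine ⟨hinj.injOn, ?_, rfl, ?_, ?_, ?_⟩
  · intro u _ v _ h
    exact hinj (congrArg Prod.snd h)
  · exact (rh_emb_C x he hfit).symm
  · intro y hy
    have hyD : cellV y ⊆ D := lat_mem_cellsIn.1 hy
    show cySv L (cyT true (e y)) = (cellV y ∩ D).image e
    rw [rh_fit_sv he hfit hyD, Finset.inter_eq_left.2 hyD]
  · intro y hy
    have hyD : cellV y ⊆ D := lat_mem_cellsIn.1 hy
    have hcard : (cellV y).card = 3 := by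
      unfold cellV
      rw [Finset.card_insert_of_notMem, Finset.card_insert_of_notMem, Finset.card_singleton]
      · simp [Prod.ext_iff]
      · simp [Prod.ext_iff]
    show (if cyT true (e y) ∈ (∅ : Finset CyY) then (1 : ℝ) else if (cyT true (e y)).1 = CyK.up ∨ (cyT true (e y)).1 = CyK.dn then x ^ 2 else x)
      = (if (cellV y ∩ D).card = 3 then x ^ 2 else x)
    rw [Finset.inter_eq_left.2 hyD, if_pos hcard, if_neg (by simp),
      if_pos (show (cyT true (e y)).1 = CyK.up ∨ (cyT true (e y)).1 = CyK.dn from Or.inl rfl)]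

/-- the three up-cells through a site -/
theorem rh_mem_cellV {u y : TV} : u ∈ cellV y ↔ y = u ∨ y = u - (1, 0) ∨ y = u - (0, 1) := by
  simp only [cellV, Finset.mem_insert, Finset.mem_singleton, Prod.ext_iff, Prod.fst_add, Prod.snd_add, Prod.fst_sub, Prod.snd_sub]
  omega

/-- **the layers correspond** -/
theorem rh_lay (x : ℝ) {e e' : TV → TV} (he : RhEmb e e') {D : Finset TV} {L : ℕ} {a b : ℤ} (hfit : RhFit e D L a b) :
    cuLay (rhS x L a b) (D.image e) = (amLay D).image e := by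
  have hinj : Function.Injective e := fun u v h => by rw [← he.left u, h, he.left]
  have hsubD : ∀ y, cellV (e y) ⊆ D.image e → cellV y ⊆ D := by
    intro y h q hq
    have h1 : e q ∈ cellV (e y) := by rw [← he.cell]; exact Finset.mem_image_of_mem _ hq
    obtain ⟨u, hu, hue⟩ := Finset.mem_image.1 (h h1)
    rwa [← hinj hue]
  have hcolI : ∀ p ∈ D.image e, 0 ≤ p.1 ∧ p.1 + 2 ≤ L := by
    intro p hp
    obtain ⟨u, hu, rfl⟩ := Finset.mem_image.1 hp
    exact hfit.col u hu
  ext v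
  rw [am_mem_lay]
  constructor
  · rintro ⟨hv, c, hc, hvc, hns⟩
    obtain ⟨u, hu, rfl⟩ := Finset.mem_image.1 hv
    refine Finset.mem_image_of_mem _ ?_
    unfold amLay
    rw [Finset.mem_filter]
    refine ⟨hu, fun hall => hns ?_⟩
    have hvc' : e u ∈ cySv L c := hvc
    show cySv L c ⊆ D.image e
    rcases rh_cell hc with ⟨y', hy', rfl⟩ | h | h
    · rw [rh_tri_sv] at hvc' ⊢
      obtain ⟨p, hp, hpe⟩ := Finset.mem_image.1 hvc'
      have hy'' := cy_mem_cells.1 hy'
      -- the planar cell through `e u` in the same position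
      have hz : e u ∈ cellV (e u - (p - y')) := by
        rw [rh_mem_cellV] at hp ⊢
        rcases hp with h | h | h
        · left; rw [h]; simp
        · right; left; rw [h]; simp
        · right; right; rw [h]; simp
      set z : TV := e u - (p - y') with hzdef
      have hzy : e (e' z) = z := he.right z
      have hu' : u ∈ cellV (e' z) := by
        rw [← hzy, ← he.cell] at hz
        obtain ⟨q, hq, hqe⟩ := Finset.mem_image.1 hz
        rwa [← hinj hqe]
      have hyD : cellV (e' z) ⊆ D := by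
        rcases rh_mem_cellV.1 hu' with h | h | h
        · rw [h]; exact hall.1
        · rw [h]; exact hall.2.1
        · rw [h]; exact hall.2.2
      have hzD : cellV z ⊆ D.image e := by
        rw [← hzy, ← he.cell]
        exact Finset.image_subset_image hyD
      have hz0 := hcolI z (hzD (by simp [cellV]))
      have hyz : y' = z := by
        have h1 : sdRed L p = sdRed L (e u) := by rw [hpe, rh_fit_red hfit hu]
        have h2 : p.1 % (L : ℤ) = (e u).1 % (L : ℤ) := congrArg Prod.fst h1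
        have h3 : (sdRed L p).2 = (sdRed L (e u)).2 := congrArg Prod.snd h1
        change p.2 = (e u).2 at h3
        have h4 : (y'.1 + (p.1 - y'.1)) % (L : ℤ) = (z.1 + (p.1 - y'.1)) % (L : ℤ) := by
          have e1 : y'.1 + (p.1 - y'.1) = p.1 := by ring
          have e2 : z.1 + (p.1 - y'.1) = (e u).1 := by
            rw [hzdef]
            simp only [Prod.fst_sub]
            ring
          rw [e1, e2, h2]
        have h5 : y'.1 % (L : ℤ) = z.1 % (L : ℤ) := Int.ModEq.add_right_cancel' _ h4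
        rw [Int.emod_eq_of_lt hy''.1 hy''.2.1, Int.emod_eq_of_lt hz0.1 (by omega)] at h5
        refine Prod.ext h5 ?_
        rw [hzdef]
        simp only [Prod.snd_sub]
        omega
      rw [hyz]
      intro w hw
      obtain ⟨p', hp', rfl⟩ := Finset.mem_image.1 hw
      have h1 := hzD hp'
      have h2 := hcolI p' h1
      rwa [cy_red_self h2.1 (by omega)]
    · exfalso
      have := h _ hvc'
      have := (hfit.row u hu).2
      omega
    · exfalso
      have := h _ hvc'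
      have := (hfit.row u hu).1
      omega
  · intro hv
    obtain ⟨u, hu, rfl⟩ := Finset.mem_image.1 hv
    unfold amLay at hu
    rw [Finset.mem_filter] at hu
    obtain ⟨huD, hnot⟩ := hu
    refine ⟨Finset.mem_image_of_mem _ huD, ?_⟩
    obtain ⟨y, hyu, hyD⟩ : ∃ y, u ∈ cellV y ∧ ¬ cellV y ⊆ D := by
      by_contra hcon
      have hcon' : ∀ y, u ∈ cellV y → cellV y ⊆ D := fun y hy => by
        by_contra hn
        exact hcon ⟨y, hy, hn⟩
      exact hnot ⟨hcon' u (rh_mem_cellV.2 (Or.inl rfl)), hcon' _ (rh_mem_cellV.2 (Or.inr (Or.inl rfl))), hcon' _ (rh_mem_cellV.2 (Or.inr (Or.inr rfl)))⟩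
    have heu : e u ∈ cellV (e y) := by rw [← he.cell]; exact Finset.mem_image_of_mem _ hyu
    have hcol := hfit.col u huD
    have hrow := hfit.row u huD
    have hL : (0 : ℤ) < L := by omega
    have hpos : (e y).1 = (e u).1 ∧ (e y).2 = (e u).2 ∨ (e y).1 = (e u).1 - 1 ∧ (e y).2 = (e u).2 ∨ (e y).1 = (e u).1 ∧ (e y).2 = (e u).2 - 1 := by
      rcases rh_mem_cellV.1 heu with h | h | h
      · left; rw [h]; exact ⟨rfl, rfl⟩
      · right; left; rw [h]; simp
      · right; right; rw [h]; simp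
    have hsv : cySv L (cyT true (sdRed L (e y))) = (cellV (e y)).image (sdRed L) := by
      rw [rh_tri_sv]
      simp only [cellV, Finset.image_insert, Finset.image_singleton, cy_red_red, cy_red_idem]
    refine ⟨cyT true (sdRed L (e y)), rh_tri_mem x (cy_mem_cells.2 ⟨Int.emod_nonneg _ hL.ne', Int.emod_lt_of_pos _ hL, ?_, ?_⟩), ?_, ?_⟩
    · show a ≤ (e y).2
      omega
    · show (e y).2 < b
      omega
    · show e u ∈ cySv L (cyT true (sdRed L (e y)))
      rw [hsv, ← rh_fit_red hfit huD]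
      exact Finset.mem_image_of_mem _ heu
    · intro hsub
      have hsub' : (cellV (e y)).image (sdRed L) ⊆ D.image e := by rw [← hsv]; exact hsub
      have h0 : 0 ≤ (e y).1 := by
        by_contra hneg
        have h1 : (e y).1 = -1 := by omega
        have h2 := hcolI _ (hsub' (Finset.mem_image_of_mem _ (rh_mem_cellV.2 (Or.inl rfl))))
        have h3 : (sdRed L (e y)).1 = (L : ℤ) - 1 := by
          show (e y).1 % (L : ℤ) = (L : ℤ) - 1
          rw [h1, ← Int.add_emod_right, Int.emod_eq_of_lt (by omega) (by omega)]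
          ring
        omega
      refine hyD (hsubD y fun p hp => ?_)
      have h1 := hsub' (Finset.mem_image_of_mem _ hp)
      have h2 : sdRed L p = p := by
        refine cy_red_self ?_ ?_
        · simp only [cellV, Finset.mem_insert, Finset.mem_singleton] at hp
          rcases hp with rfl | rfl | rfl
          · exact h0
          · show 0 ≤ (e y).1 + 1
            omega
          · show 0 ≤ (e y).1 + 0
            omega
        · simp only [cellV, Finset.mem_insert, Finset.mem_singleton] at hp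
          rcases hp with rfl | rfl | rfl
          · omega
          · show (e y).1 + 1 < L
            omega
          · show (e y).1 + 0 < L
            omega
      rwa [h2] at h1

/-! ## E. the deterministic lemma -/

/-- two up-cells which share a site have equal or adjacent indices -/
theorem rh_cell_adj {p y z : TV} (hy : p ∈ cellV y) (hz : p ∈ cellV z) : y = z ∨ triAdj y z := by
  rw [am_mem_cellV] at hy hz
  rw [tsc_adj_iff]
  obtain ⟨p1, p2⟩ := p
  obtain ⟨y1, y2⟩ := y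
  obtain ⟨z1, z2⟩ := z
  simp only [Prod.ext_iff, Prod.fst_sub, Prod.snd_sub] at hy hz ⊢
  omega

/-- a chain of sites through bad cells is a path of bad cell indices -/
theorem rh_chain_aux (x : ℝ) {e e' : TV → TV} (he : RhEmb e e') (D : Finset TV) (ω : ClCfg TV TV) (s : Bool) (X : Set TV)
    (hX : ∀ y ∈ latCellsIn D, e y ∈ X → clTau (clInn x D) ω y = clSg s) {u v : TV}
    (h : ReflTransGen (clStep (clInn x D) s ∅ ω) u v) :
    u = v ∨ ∃ y0 y1 : TV, e u ∈ cellV y0 ∧ e v ∈ cellV y1 ∧ y0 ∈ Xᶜ ∧ TscR tscG Xᶜ y0 y1 := by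
  induction h with
  | refl => exact Or.inl rfl
  | @tail b c hub hbc ih =>
    right
    rcases hbc with ⟨y, hy, hb, hc, ht⟩ | hE | hE
    · have hyX : e y ∈ Xᶜ := fun hh => ht (hX y hy hh)
      have hb' : b ∈ cellV y := (Finset.mem_inter.1 hb).1
      have hc' : c ∈ cellV y := (Finset.mem_inter.1 hc).1
      have eb : e b ∈ cellV (e y) := by rw [← he.cell]; exact Finset.mem_image_of_mem e hb'
      have ec : e c ∈ cellV (e y) := by rw [← he.cell]; exact Finset.mem_image_of_mem e hc'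
      rcases ih with rfl | ⟨y0, y1, h0, h1, h2, h3⟩
      · exact ⟨e y, e y, eb, ec, hyX, tsc_R_refl _⟩
      · refine ⟨y0, e y, h0, ec, h2, ?_⟩
        rcases rh_cell_adj h1 eb with hh | hh
        · rw [← hh]; exact h3
        · exact h3.tail ⟨hh, tsc_R_mem h3 h2, hyX⟩
    · simp at hE
    · simp at hE

/-- **a blocked band separates**: `X` = set of (embedded) cell indices; every cell of `D` whose index lies in `X` is of sign `s`; `X` blocks the band of the index rows `c..d` -/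
theorem rh_chain (x : ℝ) {e e' : TV → TV} (he : RhEmb e e') (D : Finset TV) (ω : ClCfg TV TV) (s : Bool) (X : Set TV)
    (hX : ∀ y ∈ latCellsIn D, e y ∈ X → clTau (clInn x D) ω y = clSg s) (c d : ℤ) (hcd : c ≤ d) (hB : SdBlk c d X) (O Z : Finset TV)
    (hO : ∀ u ∈ O, (e u).2 ≤ c) (hZ : ∀ v ∈ Z, d + 1 ≤ (e v).2) :
    ClSep (clInn x D) s ∅ ω O Z ∧ ClSep (clInn x D) s ∅ ω Z O := by
  have key : ∀ y0 y1 p q : TV, p ∈ cellV y0 → q ∈ cellV y1 → y0 ∈ Xᶜ → TscR tscG Xᶜ y0 y1 → p.2 ≤ c → d + 1 ≤ q.2 → False := by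
    intro y0 y1 p q hp hq h0 hR hpc hqd
    rw [am_mem_cellV] at hp hq
    have r0 : y0.2 ≤ c := by
      rcases hp with rfl | rfl | rfl
      · exact hpc
      · simpa using hpc
      · simp only [Prod.snd_sub]; omega
    have r1 : d ≤ y1.2 := by
      rcases hq with rfl | rfl | rfl
      · omega
      · simp only [Prod.snd_sub]; omega
      · simp only [Prod.snd_sub]; omega
    obtain ⟨u', v', a1, a2, a3, a4, _⟩ := pnk_R_cross (G := tscG) (S := Xᶜ) (g := fun w : TV => w.2)
      (fun a b hab => (tsc_adj_snd hab).1) hR hcd r0 r1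
    refine hB ⟨u', v', ⟨⟨a1.ge, by rw [show u'.2 = c from a1]; exact hcd⟩, tsc_R_mem a3 h0⟩, a1, a2, ?_⟩
    refine tsc_R_mono ?_ a4
    intro w hw
    exact ⟨hw.2, hw.1⟩
  constructor
  · intro u hu v hv hR
    rcases rh_chain_aux x he D ω s X hX hR with rfl | ⟨y0, y1, h0, h1, h2, h3⟩
    · have := hO u hu
      have := hZ u hv
      omega
    · exact key y0 y1 _ _ h0 h1 h2 h3 (hO u hu) (hZ v hv)
  · intro v hv u hu hR
    rcases rh_chain_aux x he D ω s X hX hR with rfl | ⟨y0, y1, h0, h1, h2, h3⟩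
    · have := hO v hu
      have := hZ v hv
      omega
    · exact key y1 y0 _ _ h1 h0 (tsc_R_mem h3 h2) (tsc_R_symm h3) (hO u hu) (hZ v hv)

/-! ## F. the core -/

theorem rh_red_id {L : ℕ} {v : TV} (h0 : 0 ≤ v.1) (h1 : v.1 < L) : sdRed L v = v := by
  unfold sdRed
  rw [Int.emod_eq_of_lt h0 h1]

theorem rh_mem_cells {L : ℕ} {a b : ℤ} {y : TV} : y ∈ sdCells L a b ↔ (0 ≤ y.1 ∧ y.1 < L) ∧ (a ≤ y.2 ∧ y.2 < b) := by
  unfold sdCells
  rw [Finset.mem_product, Finset.mem_Ico, Finset.mem_Ico]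

theorem rh_mem_sites {L : ℕ} {a b : ℤ} {y : TV} : y ∈ sdSites L a b ↔ (0 ≤ y.1 ∧ y.1 < L) ∧ (a ≤ y.2 ∧ y.2 ≤ b) := by
  unfold sdSites
  rw [Finset.mem_product, Finset.mem_Ico, Finset.mem_Icc]

/-- the sites of the embedded cell `cyT true (e y)`, `y` a cell inside `D` -/
theorem rh_emb_sv {e e' : TV → TV} (he : RhEmb e e') {D : Finset TV} {L : ℕ} (hcol : ∀ u ∈ D, 0 ≤ (e u).1 ∧ (e u).1 + 2 ≤ L) {y : TV}
    (hy : cellV y ⊆ D) : cySv L (cyT true (e y)) = (cellV y).image e := by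
  rw [rh_tri_sv, ← he.cell, Finset.image_image]
  refine Finset.image_congr fun u hu => ?_
  have := hcol u (hy hu)
  exact rh_red_id this.1 (by omega)

/-- the index and the top site of an embedded cell are images of sites of the cell -/
theorem rh_emb_pts {e e' : TV → TV} (he : RhEmb e e') (y : TV) : (∃ u ∈ cellV y, e u = e y) ∧ ∃ u ∈ cellV y, e u = e y + (0, 1) := by
  have h := he.cell y
  have h1 : e y ∈ (cellV y).image e := by rw [h]; simp [cellV]
  have h2 : e y + (0, 1) ∈ (cellV y).image e := by rw [h]; simp [cellV]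
  exact ⟨by simpa using h1, by simpa using h2⟩

/-- the hypotheses of the abstract comparison hold -/
theorem rh_core_cmp (x : ℝ) {e e' : TV → TV} (he : RhEmb e e') {D : Finset TV} {L H : ℕ} (hL : 3 ≤ L) (hH : 1 ≤ H) {a b : ℤ} (ha : a ≤ -2) (hb : (H : ℤ) + 2 ≤ b)
    (hfit : RhFit e D L a b) (s : Bool) (hD : ∀ u ∈ D, if s = true then (e u).2 ≤ H else 0 ≤ (e u).2) (K : ClCon TV TV)
    (hKD : K.In (clInn x D) (D.filter (fun u => if s = true then (e u).2 ≤ 0 else (H : ℤ) ≤ (e u).2))) :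
    RhCmp (rhS x L a b) (rhSg H) (sdSites L 0 H) s (D.image e) (K.rhMap e (fun y => cyT true (e y))) := by
  refine ⟨?_, ?_, ?_⟩
  · -- side
    rintro c hc ⟨v, hv, hσ⟩ hsub
    cases s
    · have hvH : v.2 < H := by
        simp only [rhSg, decide_eq_false_iff_not, not_le] at hσ
        exact hσ
      obtain ⟨⟨w, hw, hw0⟩, _⟩ := rh_low hL ha hb hc ⟨v, hv, hvH⟩
      obtain ⟨u, hu, rfl⟩ := Finset.mem_image.1 (hsub hw)
      have := hD u hu
      simp only [Bool.false_eq_true, if_false] at this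
      omega
    · have hvH : (H : ℤ) ≤ v.2 := by
        simp only [rhSg, decide_eq_true_eq] at hσ
        exact hσ
      obtain ⟨⟨w, hw, hw0⟩, _⟩ := rh_high hL hH ha hb hc ⟨v, hv, hvH⟩
      obtain ⟨u, hu, rfl⟩ := Finset.mem_image.1 (hsub hw)
      have := hD u hu
      simp only [if_true] at this
      omega
  · -- pin
    intro v hv
    have hv' : ∃ u ∈ D.filter (fun u => if s = true then (e u).2 ≤ 0 else (H : ℤ) ≤ (e u).2), e u = v := by
      simp only [ClCon.rhMap, Finset.mem_union, Finset.mem_image] at hv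
      rcases hv with ⟨u, hu, rfl⟩ | ⟨u, hu, rfl⟩
      · exact ⟨u, hKD.bp hu, rfl⟩
      · exact ⟨u, hKD.bm hu, rfl⟩
    obtain ⟨u, hu, rfl⟩ := hv'
    obtain ⟨huD, hur⟩ := Finset.mem_filter.1 hu
    obtain ⟨hc0, hc1⟩ := hfit.col u huD
    obtain ⟨hr0, hr1⟩ := hfit.row u huD
    cases s
    · simp only [Bool.false_eq_true, if_false] at hur
      refine ⟨by simp [rhSg, hur], cyT true (e u), Finset.mem_filter.2 ⟨rh_tri_mem x (rh_mem_cells.2 ⟨⟨hc0, by omega⟩, by omega, by omega⟩), fun hsub => ?_⟩, ?_⟩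
      · have h1 : sdRed L (e u + (0, 1)) ∈ cySv L (cyT true (e u)) := by
          rw [rh_tri_sv]
          exact Finset.mem_image_of_mem _ (by simp [cellV])
        have h2 := (rh_mem_sites.1 (hsub h1)).2.2
        simp only [sdRed, Prod.snd_add] at h2
        omega
      · show e u ∈ cySv L (cyT true (e u))
        rw [rh_tri_sv]
        exact Finset.mem_image.2 ⟨e u, by simp [cellV], rh_red_id hc0 (by omega)⟩
    · simp only [if_true] at hur
      have hnot : ¬ (H : ℤ) ≤ (e u).2 := by omega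
      refine ⟨by simp [rhSg, hnot], cyT true (e u - (0, 1)),
        Finset.mem_filter.2 ⟨rh_tri_mem x (rh_mem_cells.2 ⟨⟨by simpa using hc0, by simp; omega⟩, by simp; omega, by simp; omega⟩), fun hsub => ?_⟩, ?_⟩
      · have h1 : sdRed L (e u - (0, 1)) ∈ cySv L (cyT true (e u - (0, 1))) := by
          rw [rh_tri_sv]
          exact Finset.mem_image_of_mem _ (by simp [cellV])
        have h2 := (rh_mem_sites.1 (hsub h1)).2.1
        simp only [sdRed, Prod.snd_sub] at h2
        omega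
      · show e u ∈ cySv L (cyT true (e u - (0, 1)))
        rw [rh_tri_sv]
        exact Finset.mem_image.2 ⟨e u, by simp [cellV], rh_red_id hc0 (by omega)⟩
  · -- obs
    intro c hc
    have hc' : ∃ y ∈ (clInn x D).cin (D.filter (fun u => if s = true then (e u).2 ≤ 0 else (H : ℤ) ≤ (e u).2)), cyT true (e y) = c := by
      simp only [ClCon.rhMap, Finset.mem_union, Finset.mem_image] at hc
      rcases hc with (⟨y, hy, rfl⟩ | ⟨y, hy, rfl⟩) | ⟨y, hy, rfl⟩
      · exact ⟨y, hKD.op hy, rfl⟩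
      · exact ⟨y, hKD.om hy, rfl⟩
      · exact ⟨y, hKD.cl hy, rfl⟩
    obtain ⟨y, hy, rfl⟩ := hc'
    obtain ⟨hyC, hysub⟩ := Finset.mem_filter.1 hy
    have hyD : cellV y ⊆ D := lat_mem_cellsIn.1 hyC
    have hall : ∀ u ∈ cellV y, u ∈ D.filter (fun u => if s = true then (e u).2 ≤ 0 else (H : ℤ) ≤ (e u).2) := fun u hu =>
      hysub (Finset.mem_inter.2 ⟨hu, hyD hu⟩)
    have hsv : cySv L (cyT true (e y)) = (cellV y).image e := rh_emb_sv he hfit.col hyD
    obtain ⟨⟨u0, hu0, e0⟩, u1, hu1, e1⟩ := rh_emb_pts he y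
    have hc0 := hfit.col u0 (hyD hu0)
    have hr0 := hfit.row u0 (hyD hu0)
    have hr1 := hfit.row u1 (hyD hu1)
    rw [e0] at hc0 hr0
    have e1' : (e u1).2 = (e y).2 + 1 := by rw [e1]; simp
    have hmemC : cyT true (e y) ∈ (rhS x L a b).C := rh_tri_mem x (rh_mem_cells.2 ⟨⟨hc0.1, by omega⟩, by omega, by omega⟩)
    have p0 := (Finset.mem_filter.1 (hall u0 hu0)).2
    have p1 := (Finset.mem_filter.1 (hall u1 hu1)).2
    rw [e0] at p0
    cases s
    · simp only [Bool.false_eq_true, if_false] at p0 p1 hall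
      refine ⟨Finset.mem_filter.2 ⟨hmemC, fun hsub => ?_⟩, fun v hv => ?_⟩
      · have h1 : e u1 ∈ cySv L (cyT true (e y)) := by rw [hsv]; exact Finset.mem_image_of_mem _ hu1
        have h2 := (rh_mem_sites.1 (hsub h1)).2.2
        omega
      · have hv' : v ∈ (cellV y).image e := by rw [← hsv]; exact hv
        obtain ⟨u, hu, rfl⟩ := Finset.mem_image.1 hv'
        have := (Finset.mem_filter.1 (hall u hu)).2
        simp [rhSg, this]
    · simp only [if_true] at p0 p1 hall
      refine ⟨Finset.mem_filter.2 ⟨hmemC, fun hsub => ?_⟩, fun v hv => ?_⟩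
      · have h1 : e u0 ∈ cySv L (cyT true (e y)) := by rw [hsv]; exact Finset.mem_image_of_mem _ hu0
        have h2 := (rh_mem_sites.1 (hsub h1)).2.1
        rw [e0] at h2
        omega
      · have hv' : v ∈ (cellV y).image e := by rw [← hsv]; exact hv
        obtain ⟨u, hu, rfl⟩ := Finset.mem_image.1 hv'
        have := (Finset.mem_filter.1 (hall u hu)).2
        have hnot : ¬ (H : ℤ) ≤ (e u).2 := by omega
        simp [rhSg, hnot]

theorem rh_tau_eq_of_le {V Y : Type} [DecidableEq V] [DecidableEq Y] (S : ClSys V Y) (s : Bool) (ω ω' : ClCfg V Y) (y : Y)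
    (h : if s = true then clTau S ω y ≤ clTau S ω' y else clTau S ω' y ≤ clTau S ω y) (h1 : clTau S ω y = clSg s) : clTau S ω' y = clSg s := by
  rcases dis_tau_cases S ω' y with h2 | h2 | h2 <;> cases s <;> simp_all [clSg]

theorem rh_X_fav (S : ClSys TV CyY) (I : Finset TV) (L : ℕ) (s : Bool) (E : Set TV → Prop) (hE : SdInc E) :
    RhFav S s (fun ω => E (rhX (S.inn I) L s ω)) := by
  intro ω ω' hτ h
  refine hE _ _ ?_ h
  rintro y ⟨h1, h2⟩
  exact ⟨h1, rh_tau_eq_of_le S s ω ω' _ (hτ _ (Finset.mem_filter.1 h1).1) h2⟩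

theorem rh_X_loc (S : ClSys TV CyY) (I : Finset TV) (L : ℕ) (s : Bool) (E : Set TV → Prop) :
    ClLocP I (S.cin I) (fun ω => E (rhX (S.inn I) L s ω)) := by
  intro ω ω' hB _ hO
  have : rhX (S.inn I) L s ω = rhX (S.inn I) L s ω' := by
    ext y
    refine and_congr_right fun h1 => ?_
    have : clTau S ω (cyT true (sdRed L y)) = clTau S ω' (cyT true (sdRed L y)) := amo_tau_loc S hB hO h1 (Finset.mem_filter.1 h1).2
    exact ⟨fun h => this ▸ h, fun h => this.symm ▸ h⟩
  show E _ ↔ E _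
  rw [this]

theorem rh_Xo_loc (S : ClSys TV CyY) (I : Finset TV) (L : ℕ) (s : Bool) (E : Set TV → Prop) :
    ClLocP I (S.cin I) (fun ω => E (rhXo (S.inn I) L s ω)) := by
  intro ω ω' hB _ hO
  have : rhXo (S.inn I) L s ω = rhXo (S.inn I) L s ω' := by
    ext y
    refine forall_congr' fun h1 => ?_
    have : clTau S ω (cyT true (sdRed L y)) = clTau S ω' (cyT true (sdRed L y)) := amo_tau_loc S hB hO h1 (Finset.mem_filter.1 h1).2
    exact ⟨fun h => this ▸ h, fun h => this.symm ▸ h⟩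
  show E _ ↔ E _
  rw [this]

theorem rh_core_le (x : ℝ) (hx0 : 0 < x) (hx1 : x ≤ 1) {e e' : TV → TV} (he : RhEmb e e') {D : Finset TV} {L H : ℕ} (hL : 3 ≤ L) (hH : 1 ≤ H)
    (hcol : ∀ u ∈ D, 0 ≤ (e u).1 ∧ (e u).1 + 2 ≤ L) (s : Bool) (hD : ∀ u ∈ D, if s = true then (e u).2 ≤ H else 0 ≤ (e u).2) (K : ClCon TV TV)
    (hK : ClLegal (clInn x D) K) (hKe : K.Eq = ∅) (hKD : K.In (clInn x D) (D.filter (fun u => if s = true then (e u).2 ≤ 0 else (H : ℤ) ≤ (e u).2)))
    (hf : 0 < (clInn x D).Z (fun ω => CuPin s (amLay D) ω ∧ K.Holds (clInn x D) ω)) (c d : ℤ) (hcd : c ≤ d) (O Z : Finset TV)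
    (hO : ∀ u ∈ O, (e u).2 ≤ c) (hZ : ∀ v ∈ Z, d + 1 ≤ (e v).2) :
    sdP x L H true s (SdBlk c d) ≤ amP x s D (K.Holds (clInn x D)) (fun ω => ClSep (clInn x D) s ∅ ω O Z ∧ ClSep (clInn x D) s ∅ ω Z O) := by
  classical
  obtain ⟨M, hM0, hM⟩ : ∃ M : ℤ, 0 ≤ M ∧ ∀ u ∈ D, |(e u).2| ≤ M :=
    ⟨∑ u ∈ D, |(e u).2|, Finset.sum_nonneg fun u _ => abs_nonneg _, fun u hu =>
      Finset.single_le_sum (f := fun u => |(e u).2|) (fun u _ => abs_nonneg _) hu⟩
  obtain ⟨a, ha'⟩ : ∃ a : ℤ, a = -M - 3 := ⟨_, rfl⟩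
  obtain ⟨b, hb'⟩ : ∃ b : ℤ, b = M + H + 3 := ⟨_, rfl⟩
  have ha : a ≤ -2 := by omega
  have hb : (H : ℤ) + 2 ≤ b := by omega
  have hab : a ≤ b := by omega
  have hfit : RhFit e D L a b := ⟨hcol, fun u hu => by
    have := abs_le.1 (hM u hu)
    constructor <;> omega⟩
  have hiso := rh_iso x he hfit
  have hS := rh_disk hx0 hx1 hL hab
  have hOk0 : ClOk (clInn x D) := pcp_inn_ok x hx0 hx1 D
  have hflt : D.filter (fun u => if s = true then (e u).2 ≤ 0 else (H : ℤ) ≤ (e u).2) ⊆ D := Finset.filter_subset _ _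
  have kbp : K.Bp ⊆ (clInn x D).A := hKD.bp.trans hflt
  have kbm : K.Bm ⊆ (clInn x D).A := hKD.bm.trans hflt
  have kop : K.Op ⊆ (clInn x D).C := hKD.op.trans (Finset.filter_subset _ _)
  have kom : K.Om ⊆ (clInn x D).C := hKD.om.trans (Finset.filter_subset _ _)
  have kcl : K.Cl ⊆ (clInn x D).C := hKD.cl.trans (Finset.filter_subset _ _)
  have hD' : D.image e ⊆ (rhS x L a b).A := by
    intro v hv
    obtain ⟨u, hu, rfl⟩ := Finset.mem_image.1 hv
    refine cy_mem_A.2 (Or.inl (cy_mem_sites.2 ?_))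
    have h1 := hfit.col u hu
    have h2 := hfit.row u hu
    omega
  have hI2 : sdSites L 0 H ⊆ (rhS x L a b).A := by
    intro v hv
    refine cy_mem_A.2 (Or.inl (cy_mem_sites.2 ?_))
    have := cy_mem_sites.1 hv
    omega
  have hK' : ClLegal (rhS x L a b) (K.rhMap e (fun y => cyT true (e y))) :=
    ⟨rfl, rfl, fun c _ hc => rh_full_map _ _ e _ hiso K hK kop kom kcl c hc, fun e he => by simp [ClCon.rhMap] at he⟩
  have hCimg : (rhS x L a b).cin (D.image e) = (clInn x D).C.image (fun y => cyT true (e y)) := hiso.C.symm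
  have hKD' : (K.rhMap e (fun y => cyT true (e y))).In (rhS x L a b) (D.image e) :=
    ⟨Finset.image_subset_image kbp, Finset.image_subset_image kbm, fun e he => by simp [ClCon.rhMap] at he,
      by rw [hCimg]; exact Finset.image_subset_image kop, by rw [hCimg]; exact Finset.image_subset_image kom,
      by rw [hCimg]; exact Finset.image_subset_image kcl, Finset.empty_subset _, Finset.empty_subset _⟩
  have hKeq : ∀ ω ∈ (clInn x D).cfgs,
      ((CuPin s (cuLay (rhS x L a b) (D.image e)) (ω.map e (fun y => cyT true (e y))) ∧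
        (K.rhMap e (fun y => cyT true (e y))).Holds (rhS x L a b) (ω.map e (fun y => cyT true (e y)))) ↔
      (CuPin s (amLay D) ω ∧ K.Holds (clInn x D) ω)) := by
    intro ω hω
    rw [rh_lay x he hfit]
    exact and_congr (rh_pin_map _ _ e _ hiso s (amLay D) (Finset.filter_subset _ _) ω hω)
      (rh_holds_map _ _ e _ hiso hOk0.sub K kbp kbm kop kom kcl hKe hK.wp hK.wm ω hω)
  have hf' : 0 < ((rhS x L a b).inn (D.image e)).Z (fun ω => CuPin s (cuLay (rhS x L a b) (D.image e)) ω ∧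
      (K.rhMap e (fun y => cyT true (e y))).Holds (rhS x L a b) ω) := by
    rw [dis_Z_eq, am_iso _ _ e _ hiso hOk0.sub, dcu_N_congr' _ _ (fun ω hω _ => hKeq ω hω), ← dis_Z_eq]
    exact hf
  calc sdP x L H true s (SdBlk c d)
      ≤ cuPS (rhS x L a b) (rhSg H) (sdSites L 0 H) ((clFree : ClCon TV CyY).Holds (rhS x L a b))
          (fun ω => SdBlk c d (rhX ((rhS x L a b).inn (sdSites L 0 H)) L s ω)) := rh_mix x hL hH ha hb s (SdBlk c d)
    _ ≤ cuP (rhS x L a b) s (D.image e) ((K.rhMap e (fun y => cyT true (e y))).Holds (rhS x L a b))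
          (fun ω => SdBlk c d (rhXo ((rhS x L a b).inn (D.image e)) L s ω)) :=
        rh_cmp _ hS _ _ hI2 (rh_sg_const hL hH ha hb) s _ hD' _ hK' rfl hKD' (rh_core_cmp x he hL hH ha hb hfit s hD K hKD) hf' _ _
          (rh_X_fav _ _ L s _ (sd_blk_inc c d)) (rh_X_loc _ _ L s _) (rh_Xo_loc _ _ L s _)
          (fun ω h => sd_blk_inc c d _ _ (fun y hy _ => hy.2) h)
    _ = (clInn x D).P (fun ω => CuPin s (cuLay (rhS x L a b) (D.image e)) (ω.map e (fun y => cyT true (e y))) ∧
          (K.rhMap e (fun y => cyT true (e y))).Holds (rhS x L a b) (ω.map e (fun y => cyT true (e y))))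
          (fun ω => SdBlk c d (rhXo ((rhS x L a b).inn (D.image e)) L s (ω.map e (fun y => cyT true (e y))))) :=
        rh_iso_P _ _ e _ hiso hOk0.sub _ _
    _ ≤ amP x s D (K.Holds (clInn x D)) (fun ω => ClSep (clInn x D) s ∅ ω O Z ∧ ClSep (clInn x D) s ∅ ω Z O) := by
        refine rh_P_le _ hOk0 _ _ _ _ hKeq (fun ω hω _ hG => rh_chain x he D ω s _ ?_ c d hcd hG O Z hO hZ)
        intro y hy hyX
        have hy0 : y ∈ D := lat_mem_cellsIn.1 hy (by simp [cellV])
        have hc1 := hfit.col y hy0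
        have hred : sdRed L (e y) = e y := cy_red_self hc1.1 (by omega)
        have h1 : cyT true (e y) ∈ ((rhS x L a b).inn (D.image e)).C := by
          rw [← hiso.C]; exact Finset.mem_image_of_mem _ hy
        have h2 := hyX (by rw [hred]; exact h1)
        rw [hred] at h2
        rw [← h2]
        exact (am_iso_tau _ _ e _ hiso hOk0.sub ω hω y hy).symm

/-! ## G. the flip of the first spin -/

/-- (HP) for the sign `s` gives (HP) for the other sign.   PLAN: `am_flipB_N` on `clInn x D`; `K ↦ ⟨K.Bm, K.Bp, ∅, K.Om, K.Op, K.Cl, ∅, ∅⟩`; `am_flipB_tau` on the support. -/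
theorem rh_flip (x : ℝ) (hx0 : 0 < x) (hx1 : x ≤ 1) (s : Bool) (l t : TV → ℤ) (h : RnHPd x s l t) : RnHPd x (!s) l t := by
  intro C
  obtain ⟨δ, hδ, H₀, hh⟩ := h C
  refine ⟨δ, hδ, H₀, fun H c D K hH h1 h2 hK hKe hKI hf => ?_⟩
  have hS : ClOk (clInn x D) := pcp_inn_ok x hx0 hx1 D
  have hlay : amLay D ⊆ (clInn x D).A := Finset.filter_subset _ _
  have hbp : K.Bp ⊆ (clInn x D).A := hKI.bp.trans (Finset.filter_subset _ _)
  have hpin : ∀ ω : ClCfg TV TV, CuPin s (amLay D) ((clInn x D).flipB ω) ↔ CuPin (!s) (amLay D) ω := by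
    intro ω
    refine forall₂_congr fun v hv => ?_
    have hvA := hlay hv
    show (v ∈ (clInn x D).A \ ω.B ↔ s = true) ↔ (v ∈ ω.B ↔ (!s) = true)
    rw [Finset.mem_sdiff]
    cases s <;> simp [hvA]
  have hL : ∀ ω ∈ (clInn x D).cfgs, (clInn x D).wt ω ≠ 0 →
      ((CuPin s (amLay D) ((clInn x D).flipB ω) ∧ (K.flipB (clInn x D)).Holds (clInn x D) ((clInn x D).flipB ω)) ↔
        (CuPin (!s) (amLay D) ω ∧ K.Holds (clInn x D) ω)) :=
    fun ω hm hw => and_congr (hpin ω) (dfl_holds (clInn x D) hS K hbp hm hw)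
  have hZ : (clInn x D).Z (fun ω => CuPin s (amLay D) ω ∧ (K.flipB (clInn x D)).Holds (clInn x D) ω)
      = (clInn x D).Z (fun ω => CuPin (!s) (amLay D) ω ∧ K.Holds (clInn x D) ω) := by
    rw [dis_Z_eq, dis_Z_eq]
    exact dfl_N (clInn x D) hS _ _ _ _ hL (fun _ _ _ _ => rfl)
  have hN : ∀ O A : Finset TV,
      (clInn x D).N (fun ω => CuPin s (amLay D) ω ∧ (K.flipB (clInn x D)).Holds (clInn x D) ω) (rhInd fun ω => ClSep (clInn x D) s ∅ ω O A)
      = (clInn x D).N (fun ω => CuPin (!s) (amLay D) ω ∧ K.Holds (clInn x D) ω) (rhInd fun ω => ClSep (clInn x D) (!s) ∅ ω O A) := by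
    intro O A
    refine dfl_N (clInn x D) hS _ _ _ _ hL (fun ω hm hw _ => ?_)
    have := dfl_sep (clInn x D) hS (!s) ∅ hm hw O A
    rw [Bool.not_not] at this
    unfold rhInd
    by_cases hc : ClSep (clInn x D) (!s) ∅ ω O A
    · rw [if_pos (this.2 hc), if_pos hc]
    · rw [if_neg (fun h => hc (this.1 h)), if_neg hc]
  have key := hh H c D (K.flipB (clInn x D)) hH h1 h2 (dfl_legal (clInn x D) hS K hK) hKe
    ⟨Finset.inter_subset_left.trans hKI.bm, hKI.bp, hKI.eq, hKI.om, hKI.op, hKI.cl, hKI.wp, hKI.wm⟩ (by rw [hZ]; exact hf)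
  unfold amP at key ⊢
  rw [rh_P_ind, dis_E_eq] at key ⊢
  rw [hN, hZ] at key
  exact key

/-! ## H. the four directions -/

theorem rh_min (D : Finset TV) (t : TV → ℤ) (w : ℤ) (ht : ∀ u ∈ D, ∀ v ∈ D, t u - t v ≤ w) : ∃ m : ℤ, ∀ u ∈ D, 0 ≤ t u - m ∧ t u - m ≤ w := by
  rcases D.eq_empty_or_nonempty with rfl | hne
  · exact ⟨0, by simp⟩
  · obtain ⟨u0, hu0, hmin⟩ := Finset.exists_min_image D t hne
    exact ⟨t u0, fun u hu => ⟨sub_nonneg.2 (hmin u hu), ht u hu u0 hu0⟩⟩

theorem rh_up_gen (x : ℝ) (hx1 : 1 / Real.sqrt 2 ≤ x) (hx2 : x ≤ 1) (l t : TV → ℤ)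
    (hemb : ∀ m c : ℤ, ∃ e e' : TV → TV, RhEmb e e' ∧ ∀ u, (e u).1 = t u - m ∧ (e u).2 = l u - c) : RnHPd x false l t := by
  have hx0 : 0 < x := lt_of_lt_of_le (by positivity) hx1
  intro C
  obtain ⟨δ, hδ, H₀, h⟩ := (exit_ann_cyl x hx1 hx2).2 (C + 1) (1 / 20) (by norm_num)
  refine ⟨δ, hδ, max H₀ 40, fun H c D K hH hl ht hK hKe hKD hf => ?_⟩
  have hH0 : H₀ ≤ H := le_trans (le_max_left _ _) hH
  have hH40 : 40 ≤ H := le_trans (le_max_right _ _) hH
  obtain ⟨m, hm⟩ := rh_min D t _ ht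
  obtain ⟨e, e', he, hee⟩ := hemb m c
  have q1 : 10 * (H / 10) ≤ H := Nat.mul_div_le H 10
  have q1' : H < 10 * (H / 10) + 10 := by omega
  have q2 : 5 * (H / 5) ≤ H := Nat.mul_div_le H 5
  have q2' : H < 5 * (H / 5) + 5 := by omega
  have hflt : D.filter (fun u => c + H ≤ l u) = D.filter (fun u => if false = true then (e u).2 ≤ 0 else (H : ℤ) ≤ (e u).2) := by
    refine Finset.filter_congr fun u _ => ?_
    simp only [Bool.false_eq_true, if_false, (hee u).2]
    constructor <;> intro <;> omega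
  rw [hflt] at hKD
  have key := rh_core_le x hx0 hx2 he (D := D) (L := C * H + H) (H := H) (by nlinarith) (by omega)
    (fun u hu => by
      have := hm u hu
      rw [(hee u).1]
      push_cast
      constructor <;> omega) false
    (fun u hu => by
      have := hl u hu
      simp only [Bool.false_eq_true, if_false, (hee u).2]
      omega) K hK hKe hKD hf ((H / 10 : ℕ) : ℤ) (((H / 5 : ℕ) : ℤ) - 1) (by omega)
    (D.filter (fun u => l u ≤ c + (H / 10 : ℕ))) (D.filter (fun u => c + (H / 5 : ℕ) ≤ l u))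
    (fun u hu => by
      have := (Finset.mem_filter.1 hu).2
      rw [(hee u).2]; omega)
    (fun u hu => by
      have := (Finset.mem_filter.1 hu).2
      rw [(hee u).2]; omega)
  have hδ' := h (C * H + H) H true hH0 (by nlinarith) (by nlinarith) ((H / 10 : ℕ) : ℤ) (((H / 5 : ℕ) : ℤ) - 1) (by omega)
    (by
      have : 20 * ((H / 10 : ℕ) : ℤ) + H + 20 ≤ 20 * ((H / 5 : ℕ) : ℤ) := by omega
      have h' : (20 : ℝ) * ((H / 10 : ℕ) : ℝ) + H + 20 ≤ 20 * ((H / 5 : ℕ) : ℝ) := by exact_mod_cast this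
      simp only [Int.cast_sub, Int.cast_natCast, Int.cast_one]
      linarith) (by omega)
  refine hδ'.trans (key.trans ?_)
  exact ann_clP_mono _ (pcp_inn_ok x hx0 hx2 D) _ _ _ (fun ω _ _ _ hh => hh.1)

theorem rh_down_gen (x : ℝ) (hx1 : 1 / Real.sqrt 2 ≤ x) (hx2 : x ≤ 1) (l t : TV → ℤ)
    (hemb : ∀ m c : ℤ, ∃ e e' : TV → TV, RhEmb e e' ∧ ∀ u, (e u).1 = t u - m ∧ (e u).2 = c - l u) : RnHPd x true l t := by
  have hx0 : 0 < x := lt_of_lt_of_le (by positivity) hx1
  intro C
  obtain ⟨δ, hδ, H₀, h⟩ := (exit_ann_cyl x hx1 hx2).1 (C + 1) (1 / 20) (by norm_num)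
  refine ⟨δ, hδ, max H₀ 40, fun H c D K hH hl ht hK hKe hKD hf => ?_⟩
  have hH0 : H₀ ≤ H := le_trans (le_max_left _ _) hH
  have hH40 : 40 ≤ H := le_trans (le_max_right _ _) hH
  obtain ⟨m, hm⟩ := rh_min D t _ ht
  obtain ⟨e, e', he, hee⟩ := hemb m (c + H)
  have q1 : 10 * (H / 10) ≤ H := Nat.mul_div_le H 10
  have q1' : H < 10 * (H / 10) + 10 := by omega
  have q2 : 5 * (H / 5) ≤ H := Nat.mul_div_le H 5
  have q2' : H < 5 * (H / 5) + 5 := by omega
  have hflt : D.filter (fun u => c + H ≤ l u) = D.filter (fun u => if true = true then (e u).2 ≤ 0 else (H : ℤ) ≤ (e u).2) := by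
    refine Finset.filter_congr fun u _ => ?_
    simp only [if_true, (hee u).2]
    constructor <;> intro <;> omega
  rw [hflt] at hKD
  have key := rh_core_le x hx0 hx2 he (D := D) (L := C * H + H) (H := H) (by nlinarith) (by omega)
    (fun u hu => by
      have := hm u hu
      rw [(hee u).1]
      push_cast
      constructor <;> omega) true
    (fun u hu => by
      have := hl u hu
      simp only [if_true, (hee u).2]
      omega) K hK hKe hKD hf ((H : ℤ) - (H / 5 : ℕ)) ((H : ℤ) - (H / 10 : ℕ) - 1) (by omega)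
    (D.filter (fun u => c + (H / 5 : ℕ) ≤ l u)) (D.filter (fun u => l u ≤ c + (H / 10 : ℕ)))
    (fun u hu => by
      have := (Finset.mem_filter.1 hu).2
      rw [(hee u).2]; omega)
    (fun u hu => by
      have := (Finset.mem_filter.1 hu).2
      rw [(hee u).2]; omega)
  have hδ' := h (C * H + H) H true hH0 (by nlinarith) (by nlinarith) ((H : ℤ) - (H / 5 : ℕ)) ((H : ℤ) - (H / 10 : ℕ) - 1) (by omega)
    (by
      have : 20 * ((H / 10 : ℕ) : ℤ) + H + 20 ≤ 20 * ((H / 5 : ℕ) : ℤ) := by omega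
      have h' : (20 : ℝ) * ((H / 10 : ℕ) : ℝ) + H + 20 ≤ 20 * ((H / 5 : ℕ) : ℝ) := by exact_mod_cast this
      simp only [Int.cast_sub, Int.cast_natCast, Int.cast_one]
      linarith) (by omega)
  refine hδ'.trans (key.trans ?_)
  exact ann_clP_mono _ (pcp_inn_ok x hx0 hx2 D) _ _ _ (fun ω _ _ _ hh => hh.2)

theorem rh_up (x : ℝ) (hx1 : 1 / Real.sqrt 2 ≤ x) (hx2 : x ≤ 1) (w : Bool) :
    RnHPd x false (fun u => if w then u.1 else u.2) (fun u => if w then u.2 else u.1) := by
  refine rh_up_gen x hx1 hx2 _ _ fun m c => ?_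
  cases w
  · exact ⟨_, _, rh_emb_tr (-m, -c), fun u => by simp [sub_eq_add_neg]⟩
  · exact ⟨_, _, rh_emb_sw (-m, -c), fun u => by simp [sub_eq_add_neg]⟩

theorem rh_down (x : ℝ) (hx1 : 1 / Real.sqrt 2 ≤ x) (hx2 : x ≤ 1) (w : Bool) :
    RnHPd x true (fun u => if w then -u.1 else -u.2) (fun u => if w then u.2 else u.1) := by
  refine rh_down_gen x hx1 hx2 _ _ fun m c => ?_
  cases w
  · exact ⟨_, _, rh_emb_tr (-m, c), fun u => by simp [sub_eq_add_neg, add_comm]⟩
  · exact ⟨_, _, rh_emb_sw (-m, c), fun u => by simp [sub_eq_add_neg, add_comm]⟩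

/-- **(HP)** -/
theorem rh_main (x : ℝ) (hx1 : 1 / Real.sqrt 2 ≤ x) (hx2 : x ≤ 1) : RnHP x := by
  have hx0 : 0 < x := lt_of_lt_of_le (by positivity) hx1
  have u0 := rh_up x hx1 hx2 false
  have u1 := rh_up x hx1 hx2 true
  have d0 := rh_down x hx1 hx2 false
  have d1 := rh_down x hx1 hx2 true
  simp only [Bool.false_eq_true, if_false, if_true] at u0 u1 d0 d1
  intro s
  cases s
  · exact ⟨u0, rh_flip x hx0 hx2 true _ _ d0, u1, rh_flip x hx0 hx2 true _ _ d1⟩
  · exact ⟨rh_flip x hx0 hx2 false _ _ u0, d0, rh_flip x hx0 hx2 false _ _ u1, d1⟩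

/-- the equation lemmas of the definitions of this file are generated HERE -/
theorem rh_defs_eqns_cite : True := by
  have := @rhInd.eq_1
  have := @RhFav.eq_1
  have := @ClCon.rhMap.eq_1
  have := @rhQ.eq_1
  have := @rhS.eq_1
  have := @rhSg.eq_1
  have := @rhX.eq_1
  have := @rhXo.eq_1
  trivial

end Claimed.Agent.R291
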