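import Claimed.Agent.R291.Defs.Ren
import Claimed.Agent.R291.Ann.RenHP

/-!
# Row 291 (S0539), Ann/RenCorS : A5 block B6, TRANSPORT OF THE CORRIDOR BY A SYMMETRY OF THE UP-CELLS      (owner helper181; prefix `rcs_` / `Rcs`)      no sorry

`φ : TV → TV` a bijection which maps up-cells to up-cells with the SAME index map (`RcsSym φ`): translations, the swap `(a, b) ↦ (b, a)`, and their compositions.
* `rcs_hist`      `RnHist K b → RnHist (K.rhMap φ φ) (b.image φ)`
* `rcs_feas`      `RnFeas x s D K → RnFeas x s (D.image φ) (K.rhMap φ φ)`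
* `rcs_sep`       `ClSep` is transported
* `rcs_amP`       `amP x s (D.image φ) (K.rhMap φ φ) (Sep (O.image φ) (A.image φ)) = amP x s D K (Sep O A)`
* `rcs_cord`      **`RnCord x s l' t' → RnCord x s l t`** when `l' ∘ φ = l`, `t' ∘ φ = t`
* `rcs_swap`      **(ii-swap)** `RnCord x s a b → RnCord x s b a` (and back)
* `rcs_sym_shift`, `rcs_sym_swap`      the instances
-/

set_option autoImplicit false
set_option linter.unusedSectionVars false
set_option linter.unusedVariables false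
set_option linter.unusedSimpArgs false

namespace Claimed.Agent.R291

open Relation Claims Claims.C0467

/-- a symmetry of the up-cells -/
structure RcsSym (φ : TV → TV) : Prop where
  bij : Function.Bijective φ
  cell : ∀ y, cellV (φ y) = (cellV y).image φ

theorem rcs_sym_shift (a : TV) : RcsSym (· + a) := by
  refine ⟨⟨add_left_injective a, fun y => ⟨y - a, by simp⟩⟩, fun y => ?_⟩
  simp only [cellV, Finset.image_insert, Finset.image_singleton]
  congr 1
  · congr 1
    · abel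
    · congr 1; abel

theorem rcs_sym_swap : RcsSym (fun u : TV => (u.2, u.1)) := by
  refine ⟨⟨fun u v h => ?_, fun y => ⟨(y.2, y.1), rfl⟩⟩, fun y => ?_⟩
  · simp only [Prod.mk.injEq] at h
    exact Prod.ext h.2 h.1
  · ext u
    simp only [cellV, Finset.image_insert, Finset.image_singleton, Finset.mem_insert, Finset.mem_singleton, Prod.ext_iff, Prod.fst_add,
      Prod.snd_add, add_zero]
    tauto

variable {φ : TV → TV}

theorem rcs_iso (x : ℝ) (h : RcsSym φ) (D : Finset TV) : CuIso (clInn x D) (clInn x (D.image φ)) φ φ :=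
  am_pl_cuiso x D φ φ h.bij.1 h.bij h.cell

theorem rcs_lay (h : RcsSym φ) (D : Finset TV) : amLay (D.image φ) = (amLay D).image φ :=
  am_pl_lay_image D φ φ h.bij.1 h.bij h.cell

theorem rcs_cellsIn (h : RcsSym φ) {b : Finset TV} {y : TV} (hy : y ∈ latCellsIn b) : φ y ∈ latCellsIn (b.image φ) := by
  rw [lat_mem_cellsIn] at hy ⊢
  rw [h.cell]
  exact Finset.image_subset_image hy

/-- the history is transported -/
theorem rcs_hist (h : RcsSym φ) {K : ClCon TV TV} {b : Finset TV} (hK : RnHist K b) : RnHist (K.rhMap φ φ) (b.image φ) := by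
  have himg : ∀ X : Finset TV, X ⊆ latCellsIn b → X.image φ ⊆ latCellsIn (b.image φ) := by
    intro X hX y' hy'
    obtain ⟨y, hy, rfl⟩ := Finset.mem_image.1 hy'
    exact rcs_cellsIn h (hX hy)
  refine ⟨rfl, rfl, rfl, Finset.image_subset_image hK.bp, Finset.image_subset_image hK.bm, himg _ hK.op, himg _ hK.om, himg _ hK.cl, ?_⟩
  intro y' hy'
  have key : ∀ y, y ∈ K.Op ∪ K.Om ∪ K.Cl → cellV (φ y) ⊆ (K.rhMap φ φ).Bp ∪ (K.rhMap φ φ).Bm := by
    intro y hy
    rw [h.cell]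
    have := Finset.image_subset_image (f := φ) (hK.full y hy)
    rw [Finset.image_union] at this
    exact this
  simp only [ClCon.rhMap, Finset.mem_union, Finset.mem_image] at hy'
  rcases hy' with (⟨y, hy, rfl⟩ | ⟨y, hy, rfl⟩) | ⟨y, hy, rfl⟩
  · exact key y (by simp [hy])
  · exact key y (by simp [hy])
  · exact key y (by simp [hy])

theorem rcs_inn_sub (x : ℝ) (D : Finset TV) : ∀ y ∈ (clInn x D).C, (clInn x D).sv y ⊆ (clInn x D).A :=
  fun _ _ => Finset.inter_subset_right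

theorem rcs_cellsIn_mono {b D : Finset TV} (h : b ⊆ D) : latCellsIn b ⊆ latCellsIn D := by
  intro y hy
  rw [lat_mem_cellsIn] at hy ⊢
  exact hy.trans h

/-- the constraint is transported -/
theorem rcs_con (x : ℝ) (h : RcsSym φ) (s : Bool) {D b : Finset TV} (hb : b ⊆ D) {K : ClCon TV TV} (hK : RnHist K b) (ω : ClCfg TV TV)
    (hω : ω ∈ (clInn x D).cfgs) :
    (CuPin s (amLay (D.image φ)) (ω.map φ φ) ∧ (K.rhMap φ φ).Holds (clInn x (D.image φ)) (ω.map φ φ)) ↔
      (CuPin s (amLay D) ω ∧ K.Holds (clInn x D) ω) := by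
  have hC : latCellsIn b ⊆ (clInn x D).C := rcs_cellsIn_mono hb
  rw [rcs_lay h D]
  exact and_congr (rh_pin_map _ _ φ φ (rcs_iso x h D) s (amLay D) (Finset.filter_subset _ _) ω hω)
    (rh_holds_map _ _ φ φ (rcs_iso x h D) (rcs_inn_sub x D) K (hK.bp.trans hb) (hK.bm.trans hb) (hK.op.trans hC) (hK.om.trans hC)
      (hK.cl.trans hC) hK.eq hK.wp hK.wm ω hω)

/-- feasibility is transported -/
theorem rcs_feas (x : ℝ) (h : RcsSym φ) (s : Bool) {D b : Finset TV} (hb : b ⊆ D) {K : ClCon TV TV} (hK : RnHist K b) (hf : RnFeas x s D K) :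
    RnFeas x s (D.image φ) (K.rhMap φ φ) := by
  unfold RnFeas at hf ⊢
  rw [dis_Z_eq, am_iso _ _ φ φ (rcs_iso x h D) (rcs_inn_sub x D), dcu_N_congr' _ _ (fun ω hω _ => rcs_con x h s hb hK ω hω), ← dis_Z_eq]
  exact hf

/-- one step is transported -/
theorem rcs_step (x : ℝ) (h : RcsSym φ) (s : Bool) (D : Finset TV) (ω : ClCfg TV TV) (hω : ω ∈ (clInn x D).cfgs) (u v : TV) :
    clStep (clInn x (D.image φ)) s ∅ (ω.map φ φ) (φ u) (φ v) ↔ clStep (clInn x D) s ∅ ω u v := by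
  have hiso := rcs_iso x h D
  unfold clStep
  simp only [Finset.notMem_empty, or_false]
  constructor
  · rintro ⟨y', hy', hu, hv, ht⟩
    rw [← hiso.C] at hy'
    obtain ⟨y, hy, rfl⟩ := Finset.mem_image.1 hy'
    rw [hiso.sv y hy, h.bij.1.mem_finset_image] at hu hv
    rw [am_iso_tau _ _ φ φ hiso (rcs_inn_sub x D) ω hω y hy] at ht
    exact ⟨y, hy, hu, hv, ht⟩
  · rintro ⟨y, hy, hu, hv, ht⟩
    refine ⟨φ y, by rw [← hiso.C]; exact Finset.mem_image_of_mem φ hy, ?_, ?_, ?_⟩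
    · rw [hiso.sv y hy, h.bij.1.mem_finset_image]; exact hu
    · rw [hiso.sv y hy, h.bij.1.mem_finset_image]; exact hv
    · rw [am_iso_tau _ _ φ φ hiso (rcs_inn_sub x D) ω hω y hy]; exact ht

/-- chains are transported -/
theorem rcs_chain (x : ℝ) (h : RcsSym φ) (s : Bool) (D : Finset TV) (ω : ClCfg TV TV) (hω : ω ∈ (clInn x D).cfgs) (u v : TV) :
    ReflTransGen (clStep (clInn x (D.image φ)) s ∅ (ω.map φ φ)) (φ u) (φ v) ↔ ReflTransGen (clStep (clInn x D) s ∅ ω) u v := by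
  constructor
  · intro hw
    obtain ⟨g, hg⟩ := h.bij.1.hasLeftInverse
    have hg' : ∀ a, φ (g a) = a := by
      intro a
      obtain ⟨a0, rfl⟩ := h.bij.2 a
      rw [hg a0]
    have this : ReflTransGen (clStep (clInn x D) s ∅ ω) (g (φ u)) (g (φ v)) := hw.lift g (fun a b hab => by
      rw [← hg' a, ← hg' b] at hab
      exact (rcs_step x h s D ω hω (g a) (g b)).1 hab)
    rwa [hg u, hg v] at this
  · intro hw
    exact hw.lift φ (fun a b hab => (rcs_step x h s D ω hω a b).2 hab)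

/-- separation is transported -/
theorem rcs_sep (x : ℝ) (h : RcsSym φ) (s : Bool) (D O A : Finset TV) (ω : ClCfg TV TV) (hω : ω ∈ (clInn x D).cfgs) :
    ClSep (clInn x (D.image φ)) s ∅ (ω.map φ φ) (O.image φ) (A.image φ) ↔ ClSep (clInn x D) s ∅ ω O A := by
  unfold ClSep
  constructor
  · intro H u hu v hv hw
    exact H (φ u) (Finset.mem_image_of_mem φ hu) (φ v) (Finset.mem_image_of_mem φ hv) ((rcs_chain x h s D ω hω u v).2 hw)
  · intro H u' hu' v' hv' hw
    obtain ⟨u, hu, rfl⟩ := Finset.mem_image.1 hu'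
    obtain ⟨v, hv, rfl⟩ := Finset.mem_image.1 hv'
    exact H u hu v hv ((rcs_chain x h s D ω hω u v).1 hw)

/-- **the probability of the corridor is transported** -/
theorem rcs_amP (x : ℝ) (hx0 : 0 < x) (hx1 : x ≤ 1) (h : RcsSym φ) (s : Bool) {D b : Finset TV} (hb : b ⊆ D) {K : ClCon TV TV} (hK : RnHist K b)
    (O A : Finset TV) :
    amP x s (D.image φ) ((K.rhMap φ φ).Holds (clInn x (D.image φ))) (fun ω => ClSep (clInn x (D.image φ)) s ∅ ω (O.image φ) (A.image φ)) ≤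
      amP x s D (K.Holds (clInn x D)) (fun ω => ClSep (clInn x D) s ∅ ω O A) := by
  unfold amP
  rw [rh_iso_P _ _ φ φ (rcs_iso x h D) (rcs_inn_sub x D)]
  exact rh_P_le _ (pcp_inn_ok x hx0 hx1 D) _ _ _ _ (fun ω hω => rcs_con x h s hb hK ω hω) (fun ω hω _ hL => (rcs_sep x h s D O A ω hω).1 hL)

/-- **TRANSPORT OF (COR)** -/
theorem rcs_cord (x : ℝ) (hx0 : 0 < x) (hx1 : x ≤ 1) (h : RcsSym φ) (s : Bool) (l t l' t' : TV → ℤ) (hl : ∀ u, l' (φ u) = l u)
    (ht : ∀ u, t' (φ u) = t u) (H : RnCord x s l' t') : RnCord x s l t := by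
  obtain ⟨δ, hδ, r₀, H⟩ := H
  refine ⟨δ, hδ, r₀, fun r p c D K hr hD hK hf => ?_⟩
  have e1 : (D.image φ).filter (fun u => l' u ≤ p ∨ p + 6 * r ≤ l' u) = (D.filter (fun u => l u ≤ p ∨ p + 6 * r ≤ l u)).image φ := by
    rw [Finset.filter_image]
    simp only [hl]
  have e2 : (D.image φ).filter (fun u => l' u ≤ p) = (D.filter (fun u => l u ≤ p)).image φ := by
    rw [Finset.filter_image]
    simp only [hl]
  have e3 : (D.image φ).filter (fun u => p + 6 * r ≤ l' u) = (D.filter (fun u => p + 6 * r ≤ l u)).image φ := by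
    rw [Finset.filter_image]
    simp only [hl]
  have key := H r p c (D.image φ) (K.rhMap φ φ) hr
    (fun u' hu' => by
      obtain ⟨u, hu, rfl⟩ := Finset.mem_image.1 hu'
      rw [ht]; exact hD u hu)
    (by rw [e1]; exact rcs_hist h hK)
    (rcs_feas x h s (Finset.filter_subset _ _) hK hf)
  rw [e2, e3] at key
  exact key.trans (rcs_amP x hx0 hx1 h s (Finset.filter_subset _ _) hK _ _)

/-- **(ii-swap)** -/
theorem rcs_swap (x : ℝ) (hx0 : 0 < x) (hx1 : x ≤ 1) (s : Bool) (H : RnCord x s (fun u => u.1) (fun u => u.2)) :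
    RnCord x s (fun u => u.2) (fun u => u.1) :=
  rcs_cord x hx0 hx1 rcs_sym_swap s _ _ _ _ (fun _ => rfl) (fun _ => rfl) H

theorem rcs_swap' (x : ℝ) (hx0 : 0 < x) (hx1 : x ≤ 1) (s : Bool) (H : RnCord x s (fun u => u.2) (fun u => u.1)) :
    RnCord x s (fun u => u.1) (fun u => u.2) :=
  rcs_cord x hx0 hx1 rcs_sym_swap s _ _ _ _ (fun _ => rfl) (fun _ => rfl) H

/-! ## THE FLIP OF THE FIRST SPIN FOR THE CORRIDOR      (helper133, order of 144; prefix `rcf_`; kit `dfl_` of 182 in `Dis/Base`; twin of `rh_flip` of 110)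
`rcf_flip : RnCord x s l t → RnCord x (!s) l t`, `rnc_flip`;   `rcf_hist`, `rcf_Z`, `rcf_N`, `rcf_P` : the change of variables in the planar cut law for ANY history with plus pins in `D`. -/

/-- the flipped history is a planar history inside the same set -/
theorem rcf_hist (x : ℝ) {K : ClCon TV TV} {b D : Finset TV} (hb : b ⊆ D) (h : RnHist K b) : RnHist (K.flipB (clInn x D)) b where
  wp := h.wp
  wm := h.wm
  eq := h.eq
  bp := Finset.inter_subset_left.trans h.bm
  bm := h.bp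
  op := h.om
  om := h.op
  cl := h.cl
  full := by
    intro y hy v hv
    have hy' : y ∈ K.Op ∪ K.Om ∪ K.Cl := by
      have : y ∈ K.Om ∪ K.Op ∪ K.Cl := hy
      simp only [Finset.mem_union] at this ⊢
      tauto
    have h1 := h.full y hy' hv
    show v ∈ K.Bm ∩ (clInn x D).A ∪ K.Bp
    rcases Finset.mem_union.1 h1 with h2 | h2
    · exact Finset.mem_union_right _ h2
    · exact Finset.mem_union_left _ (Finset.mem_inter.2 ⟨h2, hb (h.bm h2)⟩)

/-- the boundary condition under the flip -/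
theorem rcf_pin (x : ℝ) (s : Bool) (D : Finset TV) (ω : ClCfg TV TV) :
    CuPin s (amLay D) ((clInn x D).flipB ω) ↔ CuPin (!s) (amLay D) ω := by
  have hlay : amLay D ⊆ (clInn x D).A := Finset.filter_subset _ _
  refine forall₂_congr fun v hv => ?_
  have hvA := hlay hv
  show (v ∈ (clInn x D).A \ ω.B ↔ s = true) ↔ (v ∈ ω.B ↔ (!s) = true)
  rw [Finset.mem_sdiff]
  cases s <;> simp [hvA]

/-- the constraint under the flip -/
theorem rcf_con (x : ℝ) (hx0 : 0 < x) (hx1 : x ≤ 1) (s : Bool) (D : Finset TV) (K : ClCon TV TV) (hbp : K.Bp ⊆ D) :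
    ∀ ω ∈ (clInn x D).cfgs, (clInn x D).wt ω ≠ 0 →
      ((CuPin s (amLay D) ((clInn x D).flipB ω) ∧ (K.flipB (clInn x D)).Holds (clInn x D) ((clInn x D).flipB ω)) ↔
        (CuPin (!s) (amLay D) ω ∧ K.Holds (clInn x D) ω)) :=
  fun ω hm hw => and_congr (rcf_pin x s D ω) (dfl_holds (clInn x D) (pcp_inn_ok x hx0 hx1 D) K hbp hm hw)

/-- the partition function under the flip -/
theorem rcf_Z (x : ℝ) (hx0 : 0 < x) (hx1 : x ≤ 1) (s : Bool) (D : Finset TV) (K : ClCon TV TV) (hbp : K.Bp ⊆ D) :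
    (clInn x D).Z (fun ω => CuPin s (amLay D) ω ∧ (K.flipB (clInn x D)).Holds (clInn x D) ω)
      = (clInn x D).Z (fun ω => CuPin (!s) (amLay D) ω ∧ K.Holds (clInn x D) ω) := by
  rw [dis_Z_eq, dis_Z_eq]
  exact dfl_N (clInn x D) (pcp_inn_ok x hx0 hx1 D) _ _ _ _ (rcf_con x hx0 hx1 s D K hbp) (fun _ _ _ _ => rfl)

/-- the separation event under the flip -/
theorem rcf_N (x : ℝ) (hx0 : 0 < x) (hx1 : x ≤ 1) (s : Bool) (D : Finset TV) (K : ClCon TV TV) (hbp : K.Bp ⊆ D) (O A : Finset TV) :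
    (clInn x D).N (fun ω => CuPin s (amLay D) ω ∧ (K.flipB (clInn x D)).Holds (clInn x D) ω) (clInd fun ω => ClSep (clInn x D) s ∅ ω O A)
      = (clInn x D).N (fun ω => CuPin (!s) (amLay D) ω ∧ K.Holds (clInn x D) ω) (clInd fun ω => ClSep (clInn x D) (!s) ∅ ω O A) := by
  refine dfl_N (clInn x D) (pcp_inn_ok x hx0 hx1 D) _ _ _ _ (rcf_con x hx0 hx1 s D K hbp) (fun ω hm hw _ => ?_)
  have := dfl_sep (clInn x D) (pcp_inn_ok x hx0 hx1 D) (!s) ∅ hm hw O A
  rw [Bool.not_not] at this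
  by_cases hc : ClSep (clInn x D) (!s) ∅ ω O A
  · rw [dis_ind_pos (L := fun ω => ClSep (clInn x D) s ∅ ω O A) (this.2 hc), dis_ind_pos (L := fun ω => ClSep (clInn x D) (!s) ∅ ω O A) hc]
  · rw [dis_ind_neg (L := fun ω => ClSep (clInn x D) s ∅ ω O A) (fun h => hc (this.1 h)),
      dis_ind_neg (L := fun ω => ClSep (clInn x D) (!s) ∅ ω O A) hc]

/-- the probability of a separation event under the flip -/
theorem rcf_P (x : ℝ) (hx0 : 0 < x) (hx1 : x ≤ 1) (s : Bool) (D : Finset TV) (K : ClCon TV TV) (hbp : K.Bp ⊆ D) (O A : Finset TV) :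
    amP x s D ((K.flipB (clInn x D)).Holds (clInn x D)) (fun ω => ClSep (clInn x D) s ∅ ω O A)
      = amP x (!s) D (K.Holds (clInn x D)) (fun ω => ClSep (clInn x D) (!s) ∅ ω O A) := by
  unfold amP
  rw [dis_P_eq, dis_P_eq, rcf_N x hx0 hx1 s D K hbp, rcf_Z x hx0 hx1 s D K hbp]

/-- **(COR) for the sign `s` gives (COR) for the other sign** -/
theorem rcf_flip (x : ℝ) (hx0 : 0 < x) (hx1 : x ≤ 1) (s : Bool) (l t : TV → ℤ) (h : RnCord x s l t) : RnCord x (!s) l t := by
  obtain ⟨δ, hδ, r₀, hh⟩ := h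
  refine ⟨δ, hδ, r₀, fun r p c D K hr hD hK hf => ?_⟩
  have hbp : K.Bp ⊆ D := hK.bp.trans (Finset.filter_subset _ _)
  have key := hh r p c D (K.flipB (clInn x D)) hr hD (rcf_hist x (Finset.filter_subset _ _) hK)
    (by unfold RnFeas at hf ⊢; rw [rcf_Z x hx0 hx1 s D K hbp]; exact hf)
  rwa [rcf_P x hx0 hx1 s D K hbp] at key

/-- the form asked by 144 -/
theorem rnc_flip (x : ℝ) (hx0 : 0 < x) (hx1 : x ≤ 1) (l t : TV → ℤ) (h : RnCord x true l t) : RnCord x false l t :=
  rcf_flip x hx0 hx1 true l t h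

end Claimed.Agent.R291
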