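import Claimed.Agent.R291.Defs.Ren
import Claimed.Agent.R291.Ann.Basic

/-!
# Row 291 (S0539), Ann/RenPush : A5 BLOCK B2 = THE PUSHING ENGINE      (owner helper92; design helper12, note `origin/helper144:notes/R291/ann_A5_144.md` Sec. 3-4; prefix `rnp_`)

TEX 09-annulus l.905-916 ("Pushing gives the renormalization inequality (23)").      INPUT: `RnHP x` (B5, 278).      OUTPUT: `rnp_push1 : RnHP x → RnPush1 x`, `rnp_box` (TUBE), `rnp_step`, `rnp_search` (for B3 = 264, B4 = 115).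
* sec. 1  calculus of `S.E` (monotone, finite sums, normalisation), pins as a history (`rnpPin`)
* sec. 2  **`rnp_search` = (T3\*)**: SAME SIGN search inside `P^s_D(K)` from ANY start set `O`, ANY history `K` without equality edges: off the invaded set `J` the law is `P^s_{D \ J}(K restricted)`      (from `am_search` of 22)
* sec. 3  deterministic: `rnp_step_mono`, `rnp_sep_sub` (DET0), `rnp_glue` (DET2), `rnp_sep_loc`
* sec. 4  **`rnp_step`** = the chain lemma
* sec. 5  histories `RnHist`; the value of a REGION `RnVal` (uniform over all subdomains: NO domain monotonicity is used); `rnp_val_end`, `rnp_push`, `rnp_dir` (`H 9^k ≤ m 10^k`), `rnp_box` (four sides), `rnp_push1`, `rnp_tube` (box-shaped history region, any aspect), `rnp_hist_of_legal`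
-/

set_option autoImplicit false
set_option linter.unusedSectionVars false
set_option linter.unusedVariables false

namespace Claimed.Agent.R291

open Relation Claims Claims.C0467

section abstract

variable {V Y : Type} [DecidableEq V] [DecidableEq Y]

theorem rnp_N_mono (S : ClSys V Y) (hS : ClOk S) (K : ClCfg V Y → Prop) {F G : ClCfg V Y → ℝ} (h : ∀ ω, F ω ≤ G ω) :
    S.N K F ≤ S.N K G := by
  classical
  unfold ClSys.N
  refine Finset.sum_le_sum fun ω _ => ?_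
  split_ifs
  · exact mul_le_mul_of_nonneg_left (h ω) (dis_wt_nonneg S hS ω)
  · exact le_rfl

theorem rnp_N_sum {ι : Type*} (S : ClSys V Y) (K : ClCfg V Y → Prop) (T : Finset ι) (F : ι → ClCfg V Y → ℝ) :
    S.N K (fun ω => ∑ j ∈ T, F j ω) = ∑ j ∈ T, S.N K (F j) := by
  classical
  unfold ClSys.N
  rw [Finset.sum_comm]
  refine Finset.sum_congr rfl fun ω _ => ?_
  split_ifs
  · rw [Finset.mul_sum]
  · simp

theorem rnp_E_mono (S : ClSys V Y) (hS : ClOk S) (K : ClCfg V Y → Prop) {F G : ClCfg V Y → ℝ} (h : ∀ ω, F ω ≤ G ω) :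
    S.E K F ≤ S.E K G := by
  rw [dis_E_eq, dis_E_eq]
  exact div_le_div_of_nonneg_right (rnp_N_mono S hS K h) (anq_Z_nonneg S hS K)

theorem rnp_E_sum {ι : Type*} (S : ClSys V Y) (K : ClCfg V Y → Prop) (T : Finset ι) (F : ι → ClCfg V Y → ℝ) :
    S.E K (fun ω => ∑ j ∈ T, F j ω) = ∑ j ∈ T, S.E K (F j) := by
  simp only [dis_E_eq]
  rw [rnp_N_sum, Finset.sum_div]

theorem rnp_E_nonneg (S : ClSys V Y) (hS : ClOk S) (K : ClCfg V Y → Prop) {F : ClCfg V Y → ℝ} (h : ∀ ω, 0 ≤ F ω) : 0 ≤ S.E K F := by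
  have := rnp_E_mono S hS K (F := fun _ => 0) (G := F) h
  refine le_trans (le_of_eq ?_) this
  rw [dis_E_eq]
  unfold ClSys.N
  simp

theorem rnp_E_one (S : ClSys V Y) (K : ClCfg V Y → Prop) (hZ : 0 < S.Z K) : S.E K (fun _ => 1) = 1 := by
  rw [dis_E_eq, ← dis_Z_eq]
  exact div_self hZ.ne'

theorem rnp_Z_pos (S : ClSys V Y) (hS : ClOk S) (K : ClCfg V Y → Prop) {F : ClCfg V Y → ℝ} (h : S.E K F ≠ 0) : 0 < S.Z K := by
  rcases (anq_Z_nonneg S hS K).eq_or_lt with h0 | h0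
  · exfalso; apply h; rw [dis_E_eq, ← h0, div_zero]
  · exact h0

/-- a constraint which lives inside `I` is its own restriction -/
theorem rnp_res_eq (S : ClSys V Y) (K : ClCon V Y) (I : Finset V) (h : K.In S I) : K.res S I = K := by
  obtain ⟨h1, h2, h3, h4, h5, h6, h7, h8⟩ := h
  unfold ClCon.res
  rw [Finset.inter_eq_left.2 h1, Finset.inter_eq_left.2 h2, Finset.inter_eq_left.2 h4, Finset.inter_eq_left.2 h5,
    Finset.inter_eq_left.2 h6, Finset.inter_eq_left.2 h7, Finset.inter_eq_left.2 h8, Finset.filter_true_of_mem h3]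


/-- the history `K` together with the pins `B = s` on `T` -/
def rnpPin (K : ClCon V Y) (s : Bool) (T : Finset V) : ClCon V Y :=
  { K with Bp := K.Bp ∪ (if s then T else ∅), Bm := K.Bm ∪ (if s then ∅ else T) }

theorem rnp_pin_holds (S : ClSys V Y) (K : ClCon V Y) (s : Bool) (T : Finset V) (ω : ClCfg V Y) :
    (rnpPin K s T).Holds S ω ↔ CuPin s T ω ∧ K.Holds S ω := by
  cases s
  · simp only [rnpPin, ClCon.Holds, CuPin, Bool.false_eq_true, if_false, Finset.union_empty, Finset.mem_union, iff_false]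
    constructor
    · rintro ⟨h1, h2, h3⟩
      exact ⟨fun v hv => h2 v (Or.inr hv), h1, fun v hv => h2 v (Or.inl hv), h3⟩
    · rintro ⟨h0, h1, h2, h3⟩
      exact ⟨h1, fun v hv => hv.elim (h2 v) (h0 v), h3⟩
  · simp only [rnpPin, ClCon.Holds, CuPin, if_true, Finset.union_empty, iff_true, Finset.union_subset_iff]
    constructor
    · rintro ⟨⟨h1, h0⟩, h3⟩
      exact ⟨fun v hv => h0 hv, h1, h3⟩
    · rintro ⟨h0, h1, h3⟩
      exact ⟨⟨h1, fun v hv => h0 v hv⟩, h3⟩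

theorem rnp_pin_res (S : ClSys V Y) (K : ClCon V Y) (s : Bool) (T I : Finset V) :
    (rnpPin K s T).res S I = rnpPin (K.res S I) s (T ∩ I) := by
  cases s <;> simp [rnpPin, ClCon.res, Finset.union_inter_distrib_right]

theorem rnp_pin_union (s : Bool) (T T' : Finset V) (ω : ClCfg V Y) : CuPin s (T ∪ T') ω ↔ CuPin s T ω ∧ CuPin s T' ω := by
  simp only [CuPin, Finset.mem_union]
  constructor
  · intro h; exact ⟨fun v hv => h v (Or.inl hv), fun v hv => h v (Or.inr hv)⟩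
  · rintro ⟨h1, h2⟩ v (hv | hv)
    · exact h1 v hv
    · exact h2 v hv

theorem rnp_holds_congr (S S' : ClSys V Y) (K : ClCon V Y) (ω : ClCfg V Y) (h : ∀ y ∈ K.Op ∪ K.Om, clTau S ω y = clTau S' ω y) :
    K.Holds S ω ↔ K.Holds S' ω := by
  unfold ClCon.Holds
  have h1 : (∀ y ∈ K.Op, clTau S ω y = 1) ↔ (∀ y ∈ K.Op, clTau S' ω y = 1) :=
    forall₂_congr fun y hy => by rw [h y (Finset.mem_union_left _ hy)]
  have h2 : (∀ y ∈ K.Om, clTau S ω y = -1) ↔ (∀ y ∈ K.Om, clTau S' ω y = -1) :=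
    forall₂_congr fun y hy => by rw [h y (Finset.mem_union_right _ hy)]
  rw [h1, h2]

end abstract

/-- the status of a cell inside `I` does not depend on the domain -/
theorem rnp_tau_eq (x : ℝ) {I D : Finset TV} (ω : ClCfg TV TV) {y : TV} (hy : y ∈ latCellsIn I) (hy' : y ∈ latCellsIn D) :
    clTau (clInn x D) ω y = clTau (clInn x I) ω y := by
  unfold clTau
  rw [(pcp_inn_sv x D hy').1, (pcp_inn_sv x I hy).1]

/-- the layer of a subset of `D` -/
theorem rnp_lay_sub (x : ℝ) {I D : Finset TV} (h : I ⊆ D) : amLay I = cuLay (clInn x D) I ∪ (amLay D ∩ I) := by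
  ext u
  rw [Finset.mem_union, Finset.mem_inter, am_mem_lay, am_mem_amLay, am_mem_amLay]
  constructor
  · rintro ⟨hu, y, h1, h2⟩
    by_cases hD : cellV y ⊆ D
    · left
      have hy : y ∈ latCellsIn D := lat_mem_cellsIn.2 hD
      refine ⟨hu, y, hy, ?_, ?_⟩
      · rw [(pcp_inn_sv x D hy).1]; exact h1
      · rw [(pcp_inn_sv x D hy).1]; exact h2
    · right
      exact ⟨⟨h hu, y, h1, hD⟩, hu⟩
  · rintro (⟨hu, y, hy, h1, h2⟩ | ⟨⟨_, y, h1, h2⟩, hu⟩)
    · have hy' : y ∈ latCellsIn D := hy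
      rw [(pcp_inn_sv x D hy').1] at h1 h2
      exact ⟨hu, y, h1, h2⟩
    · exact ⟨hu, y, h1, fun hc => h2 (hc.trans h)⟩

/-- the cut law of `clInn x D` on a subset `I`, with the pins of the layer of `D`, is the intrinsic planar law of `I` -/
theorem rnp_cut_eq (x : ℝ) (s : Bool) {I D : Finset TV} (h : I ⊆ D) (K : ClCon TV TV) (F : ClCfg TV TV → ℝ) :
    cuE (clInn x D) s I (((rnpPin K s (amLay D)).res (clInn x D) I).Holds (clInn x D)) F =
      amE x s I ((K.res (clInn x D) I).Holds (clInn x I)) F := by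
  unfold cuE amE
  have hA : ((clInn x D).inn I).A = (clInn x I).A := rfl
  have hC : ((clInn x D).inn I).C = (clInn x I).C := am_pl_cin_inn x h
  have e : ∀ y ∈ ((clInn x D).inn I).C, cellV y ∩ D = cellV y ∩ I := by
    intro y hy
    rw [hC] at hy
    have hy' : cellV y ⊆ I := lat_mem_cellsIn.1 hy
    rw [Finset.inter_eq_left.2 hy', Finset.inter_eq_left.2 (hy'.trans h)]
  rw [am_sys_E_congr ((clInn x D).inn I) (clInn x I) hA hC (fun y hy => e y hy) (fun y hy => by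
    show (if (cellV y ∩ D).card = 3 then x ^ 2 else x) = (if (cellV y ∩ I).card = 3 then x ^ 2 else x)
    rw [e y hy])]
  congr 1
  funext ω
  apply propext
  rw [rnp_pin_res, rnp_pin_holds, rnp_lay_sub x h, rnp_pin_union, and_assoc]
  refine and_congr_right fun _ => and_congr_right fun _ => ?_
  refine rnp_holds_congr _ _ _ _ fun y hy => ?_
  have hy' : y ∈ (clInn x D).cin I := by
    rcases Finset.mem_union.1 hy with hy | hy
    · exact (Finset.mem_inter.1 hy).2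
    · exact (Finset.mem_inter.1 hy).2
  rw [am_pl_cin_inn x h] at hy'
  exact rnp_tau_eq x ω hy' (amp_cellsIn_mono h hy')

open Classical in
/-- **(T3\*)**: SAME SIGN search inside `P^s_D(K)`, from ANY start set `O`: the law off the invaded set `J` is `P^s_{D \ J}` with the part of the history off `J`. -/
theorem rnp_search (x : ℝ) (hx0 : 0 < x) (hx1 : x ≤ 1) (s : Bool) (D O J : Finset TV) (hO : O ⊆ J) (hJ : J ⊆ D) (K : ClCon TV TV) (hKe : K.Eq = ∅)
    (G F : ClCfg TV TV → ℝ) (hG : ClLoc J (latCellsIn J) G) (hF : ClLoc (D \ J) (latCellsIn (D \ J)) F) :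
    amE x s D (K.Holds (clInn x D)) (fun ω => if clInv (clInn x D) s ∅ ω O = J then G ω * F ω else 0) =
      amE x s D (K.Holds (clInn x D)) (fun ω => if clInv (clInn x D) s ∅ ω O = J then G ω else 0) *
        amE x s (D \ J) ((K.res (clInn x D) (D \ J)).Holds (clInn x (D \ J))) F := by
  have hS : ClOk (clInn x D) := pcp_inn_ok x hx0 hx1 D
  have hsub : D \ J ⊆ D := Finset.sdiff_subset
  have hKe' : (rnpPin K s (amLay D)).Eq = ∅ := hKe
  have h := am_search (clInn x D) hS s (rnpPin K s (amLay D)) (by rw [hKe']; simp) O J hO hJ G F (by rw [am_pl_cin_inn x hJ]; exact hG)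
    (by
      show ClLoc (D \ J) ((clInn x D).cin (D \ J)) F
      rw [am_pl_cin_inn x hsub]; exact hF)
  rw [hKe'] at h
  have hA : (clInn x D).A \ J = D \ J := rfl
  rw [hA, rnp_cut_eq x s hsub] at h
  have hc : (fun ω => CuPin s (amLay D) ω ∧ K.Holds (clInn x D) ω) = (rnpPin K s (amLay D)).Holds (clInn x D) := by
    funext ω
    exact propext (rnp_pin_holds _ _ _ _ _).symm
  unfold amE at h ⊢
  rw [hc, dis_E_eq, dis_E_eq, h]
  ring


/-! ### deterministic lemmas -/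

theorem rnp_step_symm {V Y : Type} [DecidableEq V] [DecidableEq Y] (S : ClSys V Y) (s : Bool) (ω : ClCfg V Y) {u v : V}
    (h : clStep S s ∅ ω u v) : clStep S s ∅ ω v u := by
  rcases h with ⟨y, hy, h1, h2, h3⟩ | h | h
  · exact Or.inl ⟨y, hy, h2, h1, h3⟩
  · simp at h
  · simp at h

theorem rnp_inv_closed {V Y : Type} [DecidableEq V] [DecidableEq Y] (S : ClSys V Y) (hS : ClOk S) (s : Bool) (ω : ClCfg V Y) (O : Finset V) {u v : V}
    (hu : u ∈ clInv S s ∅ ω O) (h : clStep S s ∅ ω u v) : v ∈ clInv S s ∅ ω O := by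
  rw [dde_mem_inv] at hu ⊢
  obtain ⟨_, o, ho, hr⟩ := hu
  refine ⟨?_, o, ho, hr.tail h⟩
  rcases h with ⟨y, hy, h1, h2, h3⟩ | h | h
  · exact hS.sub y hy h2
  · simp at h
  · simp at h

/-- a step of a subdomain is a step of the domain -/
theorem rnp_step_mono (x : ℝ) (s : Bool) {I D : Finset TV} (h : I ⊆ D) (ω : ClCfg TV TV) {u v : TV}
    (hs : clStep (clInn x I) s ∅ ω u v) : clStep (clInn x D) s ∅ ω u v := by
  rcases hs with ⟨y, hy, h1, h2, h3⟩ | hs | hs
  · have hy1 : y ∈ latCellsIn I := hy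
    have hy2 : y ∈ latCellsIn D := amp_cellsIn_mono h hy1
    rw [(pcp_inn_sv x I hy1).1] at h1 h2
    refine Or.inl ⟨y, hy2, ?_, ?_, ?_⟩
    · rw [(pcp_inn_sv x D hy2).1]; exact h1
    · rw [(pcp_inn_sv x D hy2).1]; exact h2
    · rw [rnp_tau_eq x ω hy1 hy2]; exact h3
  · simp at hs
  · simp at hs

/-- (DET0) separation in the domain implies separation in a subdomain -/
theorem rnp_sep_sub (x : ℝ) (s : Bool) {I D : Finset TV} (h : I ⊆ D) (ω : ClCfg TV TV) {O O' A A' : Finset TV} (hO : O' ⊆ O) (hA : A' ⊆ A)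
    (hs : ClSep (clInn x D) s ∅ ω O A) : ClSep (clInn x I) s ∅ ω O' A' := by
  intro u hu v hv hr
  exact hs u (hO hu) v (hA hv) (ReflTransGen.mono (fun a b hab => rnp_step_mono x s h ω hab) _ _ hr)

/-- (DET2) GLUE: `J` = invaded set, `J` misses `A`, separation in `D \ J`  ⟹  separation in `D` -/
theorem rnp_glue (x : ℝ) (hx0 : 0 < x) (hx1 : x ≤ 1) (s : Bool) (D O G A : Finset TV) (ω : ClCfg TV TV)
    (hJA : Disjoint (clInv (clInn x D) s ∅ ω O) A)
    (h : ClSep (clInn x (D \ clInv (clInn x D) s ∅ ω O)) s ∅ ω ((D \ clInv (clInn x D) s ∅ ω O) \ G) A) :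
    ClSep (clInn x D) s ∅ ω (D \ G) A := by
  have hS := pcp_inn_ok x hx0 hx1 D
  set J := clInv (clInn x D) s ∅ ω O with hJ
  intro u hu v hv hr
  by_cases huJ : u ∈ J
  · have : ∀ w, ReflTransGen (clStep (clInn x D) s ∅ ω) u w → w ∈ J := by
      intro w hw
      induction hw with
      | refl => exact huJ
      | tail _ hst ih => exact rnp_inv_closed _ hS s ω O ih hst
    exact Finset.disjoint_left.1 hJA (this v hr) hv
  · have key : ∀ w, ReflTransGen (clStep (clInn x D) s ∅ ω) u w → w ∉ J ∧ ReflTransGen (clStep (clInn x (D \ J)) s ∅ ω) u w := by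
      intro w hw
      induction hw with
      | refl => exact ⟨huJ, ReflTransGen.refl⟩
      | @tail w w' _ hst ih =>
        have hw' : w' ∉ J := fun hc => ih.1 (rnp_inv_closed _ hS s ω O hc (rnp_step_symm _ s ω hst))
        refine ⟨hw', ih.2.tail ?_⟩
        rcases hst with ⟨y, hy, h1, h2, h3⟩ | hst | hst
        · have hy1 : y ∈ latCellsIn D := hy
          have hsv := (pcp_inn_sv x D hy1).1
          have hy2 : y ∈ latCellsIn (D \ J) := by
            rw [lat_mem_cellsIn]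
            intro z hz
            refine Finset.mem_sdiff.2 ⟨lat_mem_cellsIn.1 hy1 hz, fun hzJ => ih.1 ?_⟩
            exact rnp_inv_closed _ hS s ω O hzJ (Or.inl ⟨y, hy, by rw [hsv]; exact hz, h1, h3⟩)
          rw [hsv] at h1 h2
          refine Or.inl ⟨y, hy2, ?_, ?_, ?_⟩
          · rw [(pcp_inn_sv x _ hy2).1]; exact h1
          · rw [(pcp_inn_sv x _ hy2).1]; exact h2
          · rw [← rnp_tau_eq x ω hy2 hy1]; exact h3
        · simp at hst
        · simp at hst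
    have hu' : u ∈ (D \ J) \ G := by
      rw [Finset.mem_sdiff] at hu ⊢
      exact ⟨Finset.mem_sdiff.2 ⟨hu.1, huJ⟩, hu.2⟩
    exact h u hu' v hv (key v hr).2

/-- locality of a separation event -/
theorem rnp_sep_loc (x : ℝ) (I O A : Finset TV) (s : Bool) : ClLocP I (latCellsIn I) (fun ω => ClSep (clInn x I) s ∅ ω O A) := by
  have key : ∀ ω ω' : ClCfg TV TV, ω.B ∩ I = ω'.B ∩ I → ω.O ∩ latCellsIn I = ω'.O ∩ latCellsIn I →
      ∀ u v, clStep (clInn x I) s ∅ ω u v → clStep (clInn x I) s ∅ ω' u v := by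
    intro ω ω' hB hO u v hst
    rcases hst with ⟨y, hy, h1, h2, h3⟩ | hst | hst
    · refine Or.inl ⟨y, hy, h1, h2, ?_⟩
      rw [← amo_tau_loc (clInn x I) hB hO (show y ∈ latCellsIn I from hy) Finset.inter_subset_right]
      exact h3
    · simp at hst
    · simp at hst
  intro ω ω' hB _ hO
  constructor
  · intro h u hu v hv hr
    exact h u hu v hv (ReflTransGen.mono (key ω' ω hB.symm hO.symm) _ _ hr)
  · intro h u hu v hv hr
    exact h u hu v hv (ReflTransGen.mono (key ω ω' hB hO) _ _ hr)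



/-! ### the chain lemma -/

open Classical in
theorem rnp_P_eq (x : ℝ) (s : Bool) (D : Finset TV) (K L : ClCfg TV TV → Prop) :
    amP x s D K L = amE x s D K (fun ω => if L ω then 1 else 0) := rfl

open Classical in
/-- **(STEP)** the chain lemma: a separation `Sep(O, Z)` of probability `≥ δ`, then the target event in every possible remaining domain with probability `≥ p`. -/
theorem rnp_step (x : ℝ) (hx0 : 0 < x) (hx1 : x ≤ 1) (s : Bool) (D O Z G A : Finset TV) (K : ClCon TV TV) (hKe : K.Eq = ∅) (hO : O ⊆ D) (hA : A ⊆ Z)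
    (δ p : ℝ) (hp : 0 ≤ p)
    (hδ : δ ≤ amP x s D (K.Holds (clInn x D)) (fun ω => ClSep (clInn x D) s ∅ ω O Z))
    (hstep : ∀ J, O ⊆ J → J ⊆ D → Disjoint J Z → RnFeas x s (D \ J) (K.res (clInn x D) (D \ J)) →
      p ≤ amP x s (D \ J) ((K.res (clInn x D) (D \ J)).Holds (clInn x (D \ J))) (fun ω => ClSep (clInn x (D \ J)) s ∅ ω ((D \ J) \ G) A)) :
    δ * p ≤ amP x s D (K.Holds (clInn x D)) (fun ω => ClSep (clInn x D) s ∅ ω (D \ G) A) := by
  have hS := pcp_inn_ok x hx0 hx1 D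
  set T : Finset (Finset TV) := D.powerset.filter (fun J => O ⊆ J ∧ Disjoint J Z) with hT
  set FJ : Finset TV → ClCfg TV TV → ℝ := fun J ω => if ClSep (clInn x (D \ J)) s ∅ ω ((D \ J) \ G) A then 1 else 0 with hFJ
  set a : Finset TV → ℝ := fun J => amE x s D (K.Holds (clInn x D)) (fun ω => if clInv (clInn x D) s ∅ ω O = J then 1 else 0) with ha
  have hloc1 : ∀ J : Finset TV, ClLoc J (latCellsIn J) (fun _ => (1 : ℝ)) := fun J ω ω' _ _ _ => rfl
  have hmemT : ∀ J, J ∈ T ↔ J ⊆ D ∧ O ⊆ J ∧ Disjoint J Z := by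
    intro J; rw [hT, Finset.mem_filter, Finset.mem_powerset]
  -- the target dominates the sum
  have h1 : amE x s D (K.Holds (clInn x D)) (fun ω => ∑ J ∈ T, if clInv (clInn x D) s ∅ ω O = J then 1 * FJ J ω else 0) ≤
      amP x s D (K.Holds (clInn x D)) (fun ω => ClSep (clInn x D) s ∅ ω (D \ G) A) := by
    rw [rnp_P_eq]
    refine rnp_E_mono _ hS _ fun ω => ?_
    rw [Finset.sum_ite_eq]
    split_ifs with h2 h3
    · simp only [hFJ, one_mul]; split_ifs <;> norm_num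
    · simp only [hFJ, one_mul]
      rw [if_neg]
      intro h4
      exact h3 (rnp_glue x hx0 hx1 s D O G A ω (Finset.disjoint_of_subset_right hA ((hmemT _).1 h2).2.2) h4)
    · norm_num
    · exact le_rfl
  -- product formula
  have h3 : ∀ J ∈ T, amE x s D (K.Holds (clInn x D)) (fun ω => if clInv (clInn x D) s ∅ ω O = J then 1 * FJ J ω else 0) =
      a J * amE x s (D \ J) ((K.res (clInn x D) (D \ J)).Holds (clInn x (D \ J))) (FJ J) := by
    intro J hJ
    obtain ⟨hJD, hOJ, _⟩ := (hmemT J).1 hJ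
    refine rnp_search x hx0 hx1 s D O J hOJ hJD K hKe (fun _ => 1) (FJ J) (hloc1 J) ?_
    intro ω ω' hB hW hO'
    simp only [hFJ]
    have h9 : ClSep (clInn x (D \ J)) s ∅ ω ((D \ J) \ G) A ↔ ClSep (clInn x (D \ J)) s ∅ ω' ((D \ J) \ G) A :=
      rnp_sep_loc x (D \ J) ((D \ J) \ G) A s ω ω' hB hW hO'
    simp only [h9]
  have ha0 : ∀ J, 0 ≤ a J := fun J => rnp_E_nonneg _ hS _ fun ω => by split_ifs <;> norm_num
  have h4 : ∀ J ∈ T, a J * p ≤ a J * amE x s (D \ J) ((K.res (clInn x D) (D \ J)).Holds (clInn x (D \ J))) (FJ J) := by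
    intro J hJ
    obtain ⟨hJD, hOJ, hJZ⟩ := (hmemT J).1 hJ
    rcases (ha0 J).eq_or_lt with h0 | h0
    · rw [← h0]; simp
    · refine mul_le_mul_of_nonneg_left ?_ h0.le
      refine hstep J hOJ hJD hJZ ?_
      have h5 := rnp_search x hx0 hx1 s D O J hOJ hJD K hKe (fun _ => 1) (fun _ => 1) (hloc1 J) (fun ω ω' _ _ _ => rfl)
      simp only [mul_one] at h5
      have h6 : amE x s (D \ J) ((K.res (clInn x D) (D \ J)).Holds (clInn x (D \ J))) (fun _ => 1) = 1 := by
        have : a J = a J * amE x s (D \ J) ((K.res (clInn x D) (D \ J)).Holds (clInn x (D \ J))) (fun _ => 1) := h5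
        have h7 : a J * (amE x s (D \ J) ((K.res (clInn x D) (D \ J)).Holds (clInn x (D \ J))) (fun _ => 1) - 1) = 0 := by linarith
        rcases mul_eq_zero.1 h7 with h8 | h8
        · exact absurd h8 h0.ne'
        · linarith
      exact rnp_Z_pos _ (pcp_inn_ok x hx0 hx1 _) _ (F := fun _ => 1) (by unfold amE at h6; rw [h6]; norm_num)
  -- the mass of the good sets
  have h5 : δ ≤ ∑ J ∈ T, a J := by
    refine hδ.trans ?_
    have h8 : ∑ J ∈ T, a J = amE x s D (K.Holds (clInn x D)) (fun ω => ∑ J ∈ T, if clInv (clInn x D) s ∅ ω O = J then 1 else 0) :=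
      (rnp_E_sum _ _ _ _).symm
    rw [rnp_P_eq, h8]
    refine rnp_E_mono _ hS _ fun ω => ?_
    rw [Finset.sum_ite_eq]
    split_ifs with h6 h7
    · exact le_rfl
    · exfalso
      apply h7
      rw [hmemT]
      refine ⟨Finset.filter_subset _ _, fun u hu => ?_, ?_⟩
      · rw [dde_mem_inv]; exact ⟨hO hu, u, hu, ReflTransGen.refl⟩
      · rw [Finset.disjoint_left]
        intro v hv hvZ
        rw [dde_mem_inv] at hv
        obtain ⟨_, u, hu, hr⟩ := hv
        exact h6 u hu v hvZ hr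
    · norm_num
    · exact le_rfl
  calc δ * p ≤ (∑ J ∈ T, a J) * p := mul_le_mul_of_nonneg_right h5 hp
    _ = ∑ J ∈ T, a J * p := Finset.sum_mul _ _ _
    _ ≤ ∑ J ∈ T, a J * amE x s (D \ J) ((K.res (clInn x D) (D \ J)).Holds (clInn x (D \ J))) (FJ J) := Finset.sum_le_sum h4
    _ = ∑ J ∈ T, amE x s D (K.Holds (clInn x D)) (fun ω => if clInv (clInn x D) s ∅ ω O = J then 1 * FJ J ω else 0) :=
        Finset.sum_congr rfl fun J hJ => (h3 J hJ).symm
    _ = amE x s D (K.Holds (clInn x D)) (fun ω => ∑ J ∈ T, if clInv (clInn x D) s ∅ ω O = J then 1 * FJ J ω else 0) := (rnp_E_sum _ _ _ _).symm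
    _ ≤ _ := h1



/-! ### planar histories -/

theorem rnp_hist_legal (x : ℝ) {K : ClCon TV TV} {b : Finset TV} (D : Finset TV) (h : RnHist K b) : ClLegal (clInn x D) K where
  wp := h.wp
  wm := h.wm
  full := fun y hy hy' => by
    rw [(pcp_inn_sv x D (show y ∈ latCellsIn D from hy)).1]; exact h.full y hy'
  eq := by rw [h.eq]; simp

theorem rnp_hist_in (x : ℝ) {K : ClCon TV TV} {b I D : Finset TV} (h : RnHist K b) (hbI : b ⊆ I) (hID : I ⊆ D) : K.In (clInn x D) I where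
  bp := h.bp.trans hbI
  bm := h.bm.trans hbI
  eq := by rw [h.eq]; simp
  op := by rw [am_pl_cin_inn x hID]; exact h.op.trans (amp_cellsIn_mono hbI)
  om := by rw [am_pl_cin_inn x hID]; exact h.om.trans (amp_cellsIn_mono hbI)
  cl := by rw [am_pl_cin_inn x hID]; exact h.cl.trans (amp_cellsIn_mono hbI)
  wp := by rw [h.wp]; simp
  wm := by rw [h.wm]; simp

theorem rnp_hist_mono {K : ClCon TV TV} {b b' : Finset TV} (h : RnHist K b) (hb : b ⊆ b') : RnHist K b' :=
  ⟨h.wp, h.wm, h.eq, h.bp.trans hb, h.bm.trans hb, h.op.trans (amp_cellsIn_mono hb), h.om.trans (amp_cellsIn_mono hb),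
    h.cl.trans (amp_cellsIn_mono hb), h.full⟩

/-- the event of a history does not depend on the domain -/
theorem rnp_hist_holds (x : ℝ) {K : ClCon TV TV} {b D D' : Finset TV} (h : RnHist K b) (hD : b ⊆ D) (hD' : b ⊆ D') :
    K.Holds (clInn x D) = K.Holds (clInn x D') := by
  funext ω
  refine propext (rnp_holds_congr _ _ _ _ fun y hy => ?_)
  have hy' : y ∈ latCellsIn b := by
    rcases Finset.mem_union.1 hy with hy | hy
    · exact h.op hy
    · exact h.om hy
  rw [rnp_tau_eq x ω hy' (amp_cellsIn_mono hD hy'), rnp_tau_eq x ω hy' (amp_cellsIn_mono hD' hy')]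

theorem rnp_hist_free (b : Finset TV) : RnHist (clFree : ClCon TV TV) b :=
  ⟨rfl, rfl, rfl, Finset.empty_subset _, Finset.empty_subset _, Finset.empty_subset _, Finset.empty_subset _, Finset.empty_subset _,
    fun y hy => by simp [clFree] at hy⟩

/-! ### the value of a region -/

theorem rnp_val_anti {x : ℝ} {s : Bool} {K : ClCon TV TV} {b G A Dm Dm' : Finset TV} {p p' : ℝ} (hD : Dm' ⊆ Dm) (hp : p' ≤ p)
    (h : RnVal x s K b G A Dm p) : RnVal x s K b G A Dm' p' :=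
  fun D hb hDm hf => hp.trans (h D hb (hDm.trans hD) hf)

/-- (END) a region inside the goal has the value one -/
theorem rnp_val_end (x : ℝ) (s : Bool) (K : ClCon TV TV) (b G A Dm : Finset TV) (h : Dm ⊆ G) : RnVal x s K b G A Dm 1 := by
  classical
  intro D _ hDm hf
  have h0 : D \ G = ∅ := Finset.sdiff_eq_empty_iff_subset.2 (hDm.trans h)
  have h1 : (fun ω : ClCfg TV TV => if ClSep (clInn x D) s ∅ ω (D \ G) A then (1 : ℝ) else 0) = fun _ => 1 := by
    funext ω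
    rw [if_pos]
    rw [h0]
    intro u hu
    simp at hu
  rw [rnp_P_eq, h1]
  unfold amE
  rw [rnp_E_one _ _ hf]

/-- **(PUSH)** one push in the direction `l` -/
theorem rnp_push (x : ℝ) (hx0 : 0 < x) (hx1 : x ≤ 1) (s : Bool) (l t : TV → ℤ) (C : ℕ) (δ : ℝ) (H₀ : ℕ)
    (hHP : ∀ (H : ℕ) (c : ℤ) (D : Finset TV) (K : ClCon TV TV), H₀ ≤ H →
      (∀ u ∈ D, c ≤ l u) → (∀ u ∈ D, ∀ v ∈ D, t u - t v ≤ C * H) →
      ClLegal (clInn x D) K → K.Eq = ∅ → K.In (clInn x D) (D.filter (fun u => c + H ≤ l u)) →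
      0 < (clInn x D).Z (fun ω => CuPin s (amLay D) ω ∧ K.Holds (clInn x D) ω) →
      δ ≤ amP x s D (K.Holds (clInn x D)) (fun ω => ClSep (clInn x D) s ∅ ω
        (D.filter (fun u => l u ≤ c + (H / 10 : ℕ))) (D.filter (fun u => c + (H / 5 : ℕ) ≤ l u))))
    (H : ℕ) (c : ℤ) (K : ClCon TV TV) (b G A Dm : Finset TV) (p : ℝ) (hH : H₀ ≤ H) (hc : ∀ u ∈ Dm, c ≤ l u)
    (hext : ∀ u ∈ Dm, ∀ v ∈ Dm, t u - t v ≤ C * H) (hK : RnHist K b) (hb : ∀ u ∈ b, c + H ≤ l u) (hA : A ⊆ b) (hp : 0 ≤ p)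
    (hv : RnVal x s K b G A (Dm.filter (fun u => c + (H / 10 : ℕ) + 1 ≤ l u)) p) : RnVal x s K b G A Dm (δ * p) := by
  intro D hbD hDm hf
  have h5 : ((H / 5 : ℕ) : ℤ) ≤ H := by exact_mod_cast Nat.div_le_self H 5
  have hbZ : b ⊆ D.filter (fun u => c + (H / 5 : ℕ) ≤ l u) := fun u hu =>
    Finset.mem_filter.2 ⟨hbD hu, by have := hb u hu; linarith⟩
  refine rnp_step x hx0 hx1 s D (D.filter (fun u => l u ≤ c + (H / 10 : ℕ))) (D.filter (fun u => c + (H / 5 : ℕ) ≤ l u)) G A K hK.eq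
    (Finset.filter_subset _ _) (hA.trans hbZ) δ p hp ?_ ?_
  · refine hHP H c D K hH (fun u hu => hc u (hDm hu)) (fun u hu v hv => hext u (hDm hu) v (hDm hv)) (rnp_hist_legal x D hK) hK.eq ?_ hf
    exact rnp_hist_in x hK (fun u hu => Finset.mem_filter.2 ⟨hbD hu, hb u hu⟩) (Finset.filter_subset _ _)
  · intro J hOJ hJD hJZ hfJ
    have hbJ : b ⊆ D \ J := fun u hu =>
      Finset.mem_sdiff.2 ⟨hbD hu, fun huJ => Finset.disjoint_left.1 hJZ huJ (hbZ hu)⟩
    rw [rnp_res_eq _ _ _ (rnp_hist_in x hK hbJ Finset.sdiff_subset)] at hfJ ⊢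
    refine hv (D \ J) hbJ (fun u hu => ?_) hfJ
    obtain ⟨huD, huJ⟩ := Finset.mem_sdiff.1 hu
    refine Finset.mem_filter.2 ⟨hDm huD, ?_⟩
    by_contra hlt
    exact huJ (hOJ (Finset.mem_filter.2 ⟨huD, by omega⟩))



/-- **(DIR)** `k` pushes in the direction `l`: from the distance `H ≤ (10/9)^k m` to the distance `m` -/
theorem rnp_dir (x : ℝ) (hx0 : 0 < x) (hx1 : x ≤ 1) (s : Bool) (l t : TV → ℤ) (hd : RnHPd x s l t) (C : ℕ) :
    ∃ δ : ℝ, 0 < δ ∧ δ ≤ 1 ∧ ∃ m0 : ℕ, ∀ (k m : ℕ) (h : ℤ) (K : ClCon TV TV) (b G A D₁ D₂ : Finset TV) (p : ℝ) (H : ℕ), m0 ≤ m → RnHist K b →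
      (∀ u ∈ b, h ≤ l u) → A ⊆ b → (∀ u ∈ D₂, ∀ v ∈ D₂, t u - t v ≤ C * m) → 0 ≤ p → H * 9 ^ k ≤ m * 10 ^ k →
      (∀ u ∈ D₂, h - H ≤ l u) → (∀ u ∈ D₂, h - m ≤ l u → u ∈ D₁) → RnVal x s K b G A D₁ p → RnVal x s K b G A D₂ (δ ^ k * p) := by
  obtain ⟨δ', hδ', H₀, hHP⟩ := hd C
  refine ⟨min δ' 1, lt_min hδ' one_pos, min_le_right _ _, H₀, ?_⟩
  set δ := min δ' 1 with hδ
  have hδ0 : 0 < δ := lt_min hδ' one_pos
  have hδ1 : δ ≤ 1 := min_le_right _ _
  intro k
  induction k with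
  | zero =>
    intro m h K b G A D₁ D₂ p H hm hK hb hA hext hp hH hD₂ hD₁ hv
    simp only [pow_zero, mul_one, one_mul] at hH ⊢
    refine rnp_val_anti (fun u hu => hD₁ u hu ?_) le_rfl hv
    have := hD₂ u hu
    have hH' : (H : ℤ) ≤ m := by exact_mod_cast hH
    linarith
  | succ k ih =>
    intro m h K b G A D₁ D₂ p H hm hK hb hA hext hp hH hD₂ hD₁ hv
    by_cases hHm : H ≤ m
    · refine rnp_val_anti (fun u hu => hD₁ u hu ?_) ?_ hv
      · have := hD₂ u hu
        have hH' : (H : ℤ) ≤ m := by exact_mod_cast hHm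
        linarith
      · have : δ ^ (k + 1) ≤ 1 := pow_le_one₀ hδ0.le hδ1
        nlinarith
    · replace hHm := Nat.lt_of_not_le hHm
      -- one push, then the induction hypothesis
      have hH1 : 1 ≤ H := by omega
      set H' : ℕ := H - H / 10 - 1 with hH'
      have e1 : (H' : ℤ) = (H : ℤ) - ((H / 10 : ℕ) : ℤ) - 1 := by
        have : H / 10 + 1 ≤ H := by omega
        rw [hH']; push_cast [Nat.sub_sub, Nat.cast_sub this]; ring
      have e2 : 10 * H' ≤ 9 * H := by omega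
      have hH'k : H' * 9 ^ k ≤ m * 10 ^ k := by
        have h1 : 10 * (H' * 9 ^ k) ≤ 10 * (m * 10 ^ k) := by
          calc 10 * (H' * 9 ^ k) = (10 * H') * 9 ^ k := by ring
            _ ≤ (9 * H) * 9 ^ k := Nat.mul_le_mul_right _ e2
            _ = H * 9 ^ (k + 1) := by ring
            _ ≤ m * 10 ^ (k + 1) := hH
            _ = 10 * (m * 10 ^ k) := by ring
        omega
      have hmid : RnVal x s K b G A (D₂.filter (fun u => (h - H) + (H / 10 : ℕ) + 1 ≤ l u)) (δ ^ k * p) := by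
        refine ih m h K b G A D₁ _ p H' hm hK hb hA (fun u hu v hv' => hext u (Finset.mem_filter.1 hu).1 v (Finset.mem_filter.1 hv').1) hp hH'k
          (fun u hu => ?_) (fun u hu hu' => hD₁ u (Finset.mem_filter.1 hu).1 hu') hv
        have := (Finset.mem_filter.1 hu).2
        rw [e1]; linarith
      have hpush := rnp_push x hx0 hx1 s l t C δ H₀
        (fun H c D K a1 a2 a3 a4 a5 a6 a7 => (min_le_left _ _).trans (hHP H c D K a1 a2 a3 a4 a5 a6 a7))
        H (h - H) K b G A D₂ (δ ^ k * p) (hm.trans hHm.le) hD₂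
        (fun u hu v hv' => (hext u hu v hv').trans (by
          have : (m : ℤ) ≤ H := by exact_mod_cast hHm.le
          have hC : (0 : ℤ) ≤ C := by positivity
          nlinarith)) hK (fun u hu => by have := hb u hu; linarith) hA (by positivity) hmid
      rw [pow_succ, mul_comm (δ ^ k) δ, mul_assoc]
      exact hpush



theorem rnp_mem_box {a b c d : ℤ} {u : TV} : u ∈ amBox a b c d ↔ (a ≤ u.1 ∧ u.1 ≤ b) ∧ (c ≤ u.2 ∧ u.2 ≤ d) := by
  simp only [amBox, Finset.mem_product, Finset.mem_Icc]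

/-- **(BOX)** = (TUBE): pushes from the four sides.   Obstacles inside the box `[α1,α2] x [β1,β2]`, region inside its `M`-neighbourhood: the value of the region is at least `c` times the value of its part in the `m`-neighbourhood. -/
theorem rnp_box (x : ℝ) (hx0 : 0 < x) (hx1 : x ≤ 1) (hHP : RnHP x) (C k : ℕ) :
    ∃ c : ℝ, 0 < c ∧ c ≤ 1 ∧ ∃ m0 : ℕ, ∀ (s : Bool) (m M : ℕ) (α1 α2 β1 β2 : ℤ) (K : ClCon TV TV) (b G A Dm : Finset TV) (p : ℝ),
      m0 ≤ m → M * 9 ^ k ≤ m * 10 ^ k → α2 - α1 + 2 * M ≤ C * m → β2 - β1 + 2 * M ≤ C * m →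
      RnHist K b → b ⊆ amBox α1 α2 β1 β2 → A ⊆ b → Dm ⊆ amBox (α1 - M) (α2 + M) (β1 - M) (β2 + M) → 0 ≤ p →
      RnVal x s K b G A (Dm ∩ amBox (α1 - m) (α2 + m) (β1 - m) (β2 + m)) p → RnVal x s K b G A Dm (c * p) := by
  -- the eight constants
  have hall : ∀ s : Bool, ∃ c : ℝ, 0 < c ∧ c ≤ 1 ∧ ∃ m0 : ℕ, ∀ (m M : ℕ) (α1 α2 β1 β2 : ℤ) (K : ClCon TV TV) (b G A Dm : Finset TV) (p : ℝ),
      m0 ≤ m → M * 9 ^ k ≤ m * 10 ^ k → α2 - α1 + 2 * M ≤ C * m → β2 - β1 + 2 * M ≤ C * m →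
      RnHist K b → b ⊆ amBox α1 α2 β1 β2 → A ⊆ b → Dm ⊆ amBox (α1 - M) (α2 + M) (β1 - M) (β2 + M) → 0 ≤ p →
      RnVal x s K b G A (Dm ∩ amBox (α1 - m) (α2 + m) (β1 - m) (β2 + m)) p → RnVal x s K b G A Dm (c * p) := by
    intro s
    obtain ⟨hU, hD, hR, hL⟩ := hHP s
    obtain ⟨δ1, p1, q1, m1, f1⟩ := rnp_dir x hx0 hx1 s _ _ hU C
    obtain ⟨δ2, p2, q2, m2, f2⟩ := rnp_dir x hx0 hx1 s _ _ hD C
    obtain ⟨δ3, p3, q3, m3, f3⟩ := rnp_dir x hx0 hx1 s _ _ hR C
    obtain ⟨δ4, p4, q4, m4, f4⟩ := rnp_dir x hx0 hx1 s _ _ hL C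
    refine ⟨δ4 ^ k * (δ3 ^ k * (δ2 ^ k * (δ1 ^ k))), by positivity, ?_, max (max m1 m2) (max m3 m4), ?_⟩
    · have a1 := pow_le_one₀ p1.le q1 (n := k)
      have a2 := pow_le_one₀ p2.le q2 (n := k)
      have a3 := pow_le_one₀ p3.le q3 (n := k)
      have a4 := pow_le_one₀ p4.le q4 (n := k)
      have b1 : 0 ≤ δ1 ^ k := by positivity
      have b2 : 0 ≤ δ2 ^ k := by positivity
      have b3 : 0 ≤ δ3 ^ k := by positivity
      have b4 : 0 ≤ δ4 ^ k := by positivity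
      exact mul_le_one₀ a4 (by positivity) (mul_le_one₀ a3 (by positivity) (mul_le_one₀ a2 b1 a1))
    intro m M α1 α2 β1 β2 K b G A Dm p hm hM hw1 hw2 hK hb hA hDm hp hv
    have hm1 : m1 ≤ m := le_trans (le_trans (le_max_left _ _) (le_max_left _ _)) hm
    have hm2 : m2 ≤ m := le_trans (le_trans (le_max_right _ _) (le_max_left _ _)) hm
    have hm3 : m3 ≤ m := le_trans (le_trans (le_max_left _ _) (le_max_right _ _)) hm
    have hm4 : m4 ≤ m := le_trans (le_trans (le_max_right _ _) (le_max_right _ _)) hm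
    have hbx : ∀ u ∈ b, (α1 ≤ u.1 ∧ u.1 ≤ α2) ∧ (β1 ≤ u.2 ∧ u.2 ≤ β2) := fun u hu => rnp_mem_box.1 (hb hu)
    have hDx : ∀ u ∈ Dm, (α1 - M ≤ u.1 ∧ u.1 ≤ α2 + M) ∧ (β1 - M ≤ u.2 ∧ u.2 ≤ β2 + M) := fun u hu => rnp_mem_box.1 (hDm hu)
    -- the intermediate regions
    set D3 := Dm.filter (fun u => -α2 - m ≤ -u.1) with hD3
    set D2 := D3.filter (fun u => α1 - m ≤ u.1) with hD2
    set D1 := D2.filter (fun u => -β2 - m ≤ -u.2) with hD1
    have s3 : D3 ⊆ Dm := Finset.filter_subset _ _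
    have s2 : D2 ⊆ Dm := (Finset.filter_subset _ _).trans s3
    have s1 : D1 ⊆ Dm := (Finset.filter_subset _ _).trans s2
    have extA : ∀ u ∈ Dm, ∀ v ∈ Dm, u.1 - v.1 ≤ C * m := fun u hu v hv' => by
      have := hDx u hu; have := hDx v hv'; linarith
    have extB : ∀ u ∈ Dm, ∀ v ∈ Dm, u.2 - v.2 ≤ C * m := fun u hu v hv' => by
      have := hDx u hu; have := hDx v hv'; linarith
    -- up
    have v1 : RnVal x s K b G A D1 (δ1 ^ k * p) := by
      refine f1 k m β1 K b G A _ D1 p M hm1 hK (fun u hu => (hbx u hu).2.1) hA (fun u hu v hv' => extA u (s1 hu) v (s1 hv')) hp hM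
        (fun u hu => (hDx u (s1 hu)).2.1) (fun u hu hu' => ?_) hv
      have h1 := (Finset.mem_filter.1 hu).2
      have h2 := (Finset.mem_filter.1 (Finset.mem_filter.1 hu).1).2
      have h3 := (Finset.mem_filter.1 (Finset.mem_filter.1 (Finset.mem_filter.1 hu).1).1).2
      refine Finset.mem_inter.2 ⟨s1 hu, rnp_mem_box.2 ⟨⟨h2, by linarith⟩, hu', by linarith⟩⟩
    -- down
    have v2 : RnVal x s K b G A D2 (δ2 ^ k * (δ1 ^ k * p)) := by
      refine f2 k m (-β2) K b G A D1 D2 _ M hm2 hK (fun u hu => by have := (hbx u hu).2.2; linarith) hA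
        (fun u hu v hv' => extA u (s2 hu) v (s2 hv')) (by positivity) hM
        (fun u hu => by have := (hDx u (s2 hu)).2.2; linarith) (fun u hu hu' => Finset.mem_filter.2 ⟨hu, hu'⟩) v1
    -- right
    have v3 : RnVal x s K b G A D3 (δ3 ^ k * (δ2 ^ k * (δ1 ^ k * p))) := by
      refine f3 k m α1 K b G A D2 D3 _ M hm3 hK (fun u hu => (hbx u hu).1.1) hA
        (fun u hu v hv' => extB u (s3 hu) v (s3 hv')) (by positivity) hM
        (fun u hu => (hDx u (s3 hu)).1.1) (fun u hu hu' => Finset.mem_filter.2 ⟨hu, hu'⟩) v2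
    -- left
    have v4 : RnVal x s K b G A Dm (δ4 ^ k * (δ3 ^ k * (δ2 ^ k * (δ1 ^ k * p)))) := by
      refine f4 k m (-α2) K b G A D3 Dm _ M hm4 hK (fun u hu => by have := (hbx u hu).1.2; linarith) hA
        extB (by positivity) hM
        (fun u hu => by have := (hDx u hu).1.2; linarith) (fun u hu hu' => Finset.mem_filter.2 ⟨hu, hu'⟩) v3
    have e : δ4 ^ k * (δ3 ^ k * (δ2 ^ k * δ1 ^ k)) * p = δ4 ^ k * (δ3 ^ k * (δ2 ^ k * (δ1 ^ k * p))) := by ring
    rw [e]; exact v4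
  obtain ⟨c1, a1, b1, n1, g1⟩ := hall true
  obtain ⟨c2, a2, b2, n2, g2⟩ := hall false
  refine ⟨min c1 c2, lt_min a1 a2, (min_le_left _ _).trans b1, max n1 n2, ?_⟩
  intro s m M α1 α2 β1 β2 K b G A Dm p hm hM hw1 hw2 hK hb hA hDm hp hv
  cases s
  · exact rnp_val_anti (Finset.Subset.refl _) (mul_le_mul_of_nonneg_right (min_le_right _ _) hp)
      (g2 m M α1 α2 β1 β2 K b G A Dm p ((le_max_right _ _).trans hm) hM hw1 hw2 hK hb hA hDm hp hv)
  · exact rnp_val_anti (Finset.Subset.refl _) (mul_le_mul_of_nonneg_right (min_le_left _ _) hp)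
      (g1 m M α1 α2 β1 β2 K b G A Dm p ((le_max_left _ _).trans hm) hM hw1 hw2 hK hb hA hDm hp hv)

/-- the number of pushes -/
theorem rnp_pow (C0 : ℕ) : ∃ k : ℕ, C0 * 9 ^ k ≤ 10 ^ k := by
  obtain ⟨k, hk⟩ := pow_unbounded_of_one_lt (C0 : ℝ) (by norm_num : (1 : ℝ) < 10 / 9)
  refine ⟨k, ?_⟩
  rw [div_pow, lt_div_iff₀ (by positivity)] at hk
  exact_mod_cast hk.le

/-- **(PUSH1)** -/
theorem rnp_push1 (x : ℝ) (hx0 : 0 < x) (hx1 : x ≤ 1) (hHP : RnHP x) : RnPush1 x := by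
  intro C0
  obtain ⟨k, hk⟩ := rnp_pow C0
  obtain ⟨c, hc0, _, m0, h⟩ := rnp_box x hx0 hx1 hHP (2 + 2 * C0) k
  refine ⟨c, hc0, m0, fun s R u K hR hK => ?_⟩
  have h1 := h s R (C0 * R) (u.1 - R) (u.1 + R) (u.2 - R) (u.2 + R) K (rnBx u R) (rnBx u (2 * R)) (rnBx u R) (rnBx u (C0 * R)) 1 hR
    (by calc C0 * R * 9 ^ k = (C0 * 9 ^ k) * R := by ring
          _ ≤ 10 ^ k * R := Nat.mul_le_mul_right _ hk
          _ = R * 10 ^ k := by ring)
    (by push_cast; ring_nf; exact le_rfl) (by push_cast; ring_nf; exact le_rfl) hK (Finset.Subset.refl _) (Finset.Subset.refl _)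
    (fun v hv => by
      unfold rnBx at hv
      rw [rnp_mem_box] at hv ⊢
      have hR0 : (0 : ℤ) ≤ R := by positivity
      push_cast
      refine ⟨⟨by linarith [hv.1.1], by linarith [hv.1.2]⟩, by linarith [hv.2.1], by linarith [hv.2.2]⟩)
    zero_le_one
    (rnp_val_end x s K _ _ _ _ (fun v hv => by
      have hv' := (Finset.mem_inter.1 hv).2
      unfold rnBx
      rw [rnp_mem_box] at hv' ⊢
      refine ⟨⟨by linarith [hv'.1.1], by linarith [hv'.1.2]⟩, by linarith [hv'.2.1], by linarith [hv'.2.2]⟩))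
  rwa [mul_one] at h1

/-- a legal history of the abstract layer which lives inside `b ⊆ D` is a planar history -/
theorem rnp_hist_of_legal (x : ℝ) {K : ClCon TV TV} {b D : Finset TV} (hbD : b ⊆ D) (hL : ClLegal (clInn x D) K) (hE : K.Eq = ∅)
    (hI : K.In (clInn x D) b) : RnHist K b := by
  have hc := am_pl_cin_inn x hbD
  have hop : K.Op ⊆ latCellsIn b := by rw [← hc]; exact hI.op
  have hom : K.Om ⊆ latCellsIn b := by rw [← hc]; exact hI.om
  have hcl : K.Cl ⊆ latCellsIn b := by rw [← hc]; exact hI.cl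
  refine ⟨hL.wp, hL.wm, hE, hI.bp, hI.bm, hop, hom, hcl, fun y hy => ?_⟩
  have hyb : y ∈ latCellsIn b := by
    rcases Finset.mem_union.1 hy with hy' | hy'
    · rcases Finset.mem_union.1 hy' with hy'' | hy''
      · exact hop hy''
      · exact hom hy''
    · exact hcl hy'
  have hyD : y ∈ latCellsIn D := amp_cellsIn_mono hbD hyb
  have := hL.full y hyD hy
  rwa [(pcp_inn_sv x D hyD).1] at this

/-- **(TUBE)**: a box `T' = [α1,α2] x [β1,β2]` of sides `≤ C0 n` which contains the history, ANY domain `T' ⊆ D ⊆ T' + C0 n`:   `P^s_D(K)[ Sep^s_D(D \ (T' + n), T') ] ≥ c(C0)`. -/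
theorem rnp_tube (x : ℝ) (hx0 : 0 < x) (hx1 : x ≤ 1) (hHP : RnHP x) (C0 : ℕ) :
    ∃ c : ℝ, 0 < c ∧ ∃ n0 : ℕ, ∀ (s : Bool) (n : ℕ) (α1 α2 β1 β2 : ℤ) (K : ClCon TV TV), n0 ≤ n → α2 - α1 ≤ C0 * n → β2 - β1 ≤ C0 * n →
      RnHist K (amBox α1 α2 β1 β2) →
      RnVal x s K (amBox α1 α2 β1 β2) (amBox (α1 - n) (α2 + n) (β1 - n) (β2 + n)) (amBox α1 α2 β1 β2)
        (amBox (α1 - C0 * n) (α2 + C0 * n) (β1 - C0 * n) (β2 + C0 * n)) c := by
  obtain ⟨k, hk⟩ := rnp_pow C0
  obtain ⟨c, hc0, _, m0, h⟩ := rnp_box x hx0 hx1 hHP (3 * C0) k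
  refine ⟨c, hc0, m0, fun s n α1 α2 β1 β2 K hn hw1 hw2 hK => ?_⟩
  have h1 := h s n (C0 * n) α1 α2 β1 β2 K (amBox α1 α2 β1 β2) (amBox (α1 - n) (α2 + n) (β1 - n) (β2 + n)) (amBox α1 α2 β1 β2)
    (amBox (α1 - C0 * n) (α2 + C0 * n) (β1 - C0 * n) (β2 + C0 * n)) 1 hn
    (by calc C0 * n * 9 ^ k = (C0 * 9 ^ k) * n := by ring
          _ ≤ 10 ^ k * n := Nat.mul_le_mul_right _ hk
          _ = n * 10 ^ k := by ring)
    (by push_cast; linarith) (by push_cast; linarith) hK (Finset.Subset.refl _) (Finset.Subset.refl _)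
    (by push_cast; exact Finset.Subset.refl _) zero_le_one
    (rnp_val_end x s K _ _ _ _ Finset.inter_subset_right)
  rwa [mul_one] at h1

/-- the equation lemmas of the definitions of this file are generated HERE -/
theorem rnp_eqns_cite : True := by
  have := @rnpPin.eq_1
  trivial

end Claimed.Agent.R291
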