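import Claimed.Agent.R291.Ann.RenAbs
import Claimed.Agent.R291.Ann.RenPush

/-!
# Row 291 (S0539), Ann/RenSep : A5 RENORMALISATION, BLOCK B3 = (SEP2) FOR TWO ALIGNED BOXES      (owner helper264; prefix `rns_` / `rns`; exit `rns_sep2`)

EXIT `rns_sep2 : RnHP x → RnCor x → RnSep2 x`   (`RnHP`, `RnCor`, `RnSep2` = the definitions of record of `Defs/Ren.lean`; `κ = 25`, the distance `g` is free).
GEOMETRY.   Boxes `b∓ = Bx((∓g, 0), r)`, `Z = b₋ ∪ b₊` (`rnsZ`), tube `= [-g - 2r, g + 2r] x [-2r, 2r]` (`rnsTube`), goal region `G =` tube minus the column `{a = 0}` (`rnsG`).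
* (i)   `rns_base_val` : every domain `Z ⊆ D ⊆` tube, every history in `Z`: two corridors (`RnCor`, height `4 r`, windows `[-g + r, -g + 25 r]` and `[g - 25 r, g - r]`) + planar FKG (`rns_pl_fkg` from `am_pl_fkg`):
        `P^-_D(K)[Sep^-(D \ G, Z)] ≥ δ²`
* (ii)  `rns_val`      : `rnp_box` of 92 (four sides): the same for every `Z ⊆ D ⊆ Bx(0, C₀ r)` with a constant `c(C₀)`;   `rns_all` = bridge to `RnAll` of `Ann/RenAbs` (`rn_pl_all`, `rn_pl_sep`)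
* (iii) `rns_final`    : `rn_finalB` of 12 with `Z = T`, `N = D \ G`; every `J`: `D \ J = I₁ ∪ I₂` (`a < 0`, `a > 0`, no common cell `rns_no_cell`), `rn_split`, `rn_dom_minus` (`rns_half`)
* events: `rns_up`, `rns_read` (`ClMonoP` + `ClLocP` in the small box ⟹ increasing in the ambient, read on `(B, τ)` of the box);   laws: `rn_pl_cuP`, `ann_P_am`.
-/

set_option autoImplicit false
set_option linter.unusedSectionVars false
set_option linter.unusedVariables false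
set_option linter.unusedSimpArgs false

namespace Claimed.Agent.R291

open Claims Claims.C0467 Relation

/-! ### 0. small tools -/

theorem rns_mem_box {a b c d : ℤ} {p : TV} : p ∈ amBox a b c d ↔ (a ≤ p.1 ∧ p.1 ≤ b) ∧ c ≤ p.2 ∧ p.2 ≤ d := by
  simp only [amBox, Finset.mem_product, Finset.mem_Icc]

theorem rns_mem_bx {u p : TV} {r : ℤ} : p ∈ rnBx u r ↔ (u.1 - r ≤ p.1 ∧ p.1 ≤ u.1 + r) ∧ u.2 - r ≤ p.2 ∧ p.2 ≤ u.2 + r := by
  unfold rnBx
  exact rns_mem_box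

/-! ### 1. the planar law: normalisation, FKG for two separation events -/

theorem rns_amP_eq (x : ℝ) (s : Bool) (D : Finset TV) (K L : ClCfg TV TV → Prop) :
    amP x s D K L = (clInn x D).N (fun ω => CuPin s (amLay D) ω ∧ K ω) (clInd L) / (clInn x D).Z (fun ω => CuPin s (amLay D) ω ∧ K ω) :=
  dis_P_eq _ _ _

theorem rns_amE_ind (x : ℝ) (s : Bool) (D : Finset TV) (K L : ClCfg TV TV → Prop) : amE x s D K (clInd L) = amP x s D K L := by
  rw [rns_amP_eq]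
  rfl

theorem rns_amE_smul (x : ℝ) (s : Bool) (D : Finset TV) (K : ClCfg TV TV → Prop) (c : ℝ) (F : ClCfg TV TV → ℝ) :
    amE x s D K (fun ω => c * F ω) = c * amE x s D K F := by
  unfold amE
  rw [dis_E_eq, dis_E_eq, dis_N_smul, mul_div_assoc]

/-- planar FKG for two separation events of the same sign -/
theorem rns_pl_fkg (x : ℝ) (hx0 : 0 < x) (hx1 : x ≤ 1) (s t : Bool) (D b : Finset TV) (K : ClCon TV TV) (hK : RnHist K b) (hb : b ⊆ D)
    (O₁ A₁ O₂ A₂ : Finset TV) (p₁ p₂ : ℝ) (h0₁ : 0 ≤ p₁) (h0₂ : 0 ≤ p₂)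
    (h₁ : p₁ ≤ amP x s D (K.Holds (clInn x D)) (fun ω => ClSep (clInn x D) t ∅ ω O₁ A₁))
    (h₂ : p₂ ≤ amP x s D (K.Holds (clInn x D)) (fun ω => ClSep (clInn x D) t ∅ ω O₂ A₂)) :
    p₁ * p₂ ≤ amP x s D (K.Holds (clInn x D)) (fun ω => ClSep (clInn x D) t ∅ ω O₁ A₁ ∧ ClSep (clInn x D) t ∅ ω O₂ A₂) := by
  have hloc : ∀ O A : Finset TV, ClLoc D (latCellsIn D) (fun ω => (clSg t : ℝ) * clInd (fun ω => ClSep (clInn x D) t ∅ ω O A) ω) := by
    intro O A ω ω' hB hW hO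
    have := rn_ind_loc (rnp_sep_loc x D O A t) ω ω' hB hW hO
    simp only [this]
  have key := am_pl_fkg x hx0 hx1 s D K (rnp_hist_legal x D hK) (rnp_hist_in x hK hb (Finset.Subset.refl _)) _ _
    (dis_up_mono (dis_sep_up (clInn x D) t ∅ O₁ A₁)) (dis_up_mono (dis_sep_up (clInn x D) t ∅ O₂ A₂)) (hloc O₁ A₁) (hloc O₂ A₂)
  rw [rns_amE_smul, rns_amE_smul, rns_amE_ind, rns_amE_ind] at key
  have e : (fun ω => (clSg t : ℝ) * clInd (fun ω => ClSep (clInn x D) t ∅ ω O₁ A₁) ω * ((clSg t : ℝ) * clInd (fun ω => ClSep (clInn x D) t ∅ ω O₂ A₂) ω))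
      = clInd (fun ω => ClSep (clInn x D) t ∅ ω O₁ A₁ ∧ ClSep (clInn x D) t ∅ ω O₂ A₂) := by
    funext ω
    rw [dis_ind_and]
    calc _ = ((clSg t : ℝ) * (clSg t : ℝ)) * (clInd (fun ω => ClSep (clInn x D) t ∅ ω O₁ A₁) ω * clInd (fun ω => ClSep (clInn x D) t ∅ ω O₂ A₂) ω) := by ring
      _ = _ := by rw [dis_sg_sq, one_mul]
  rw [e, rns_amE_ind] at key
  have key2 : amP x s D (K.Holds (clInn x D)) (fun ω => ClSep (clInn x D) t ∅ ω O₁ A₁) * amP x s D (K.Holds (clInn x D)) (fun ω => ClSep (clInn x D) t ∅ ω O₂ A₂)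
      ≤ amP x s D (K.Holds (clInn x D)) (fun ω => ClSep (clInn x D) t ∅ ω O₁ A₁ ∧ ClSep (clInn x D) t ∅ ω O₂ A₂) := by
    calc _ = ((clSg t : ℝ) * (clSg t : ℝ)) * (amP x s D (K.Holds (clInn x D)) (fun ω => ClSep (clInn x D) t ∅ ω O₁ A₁) * amP x s D (K.Holds (clInn x D)) (fun ω => ClSep (clInn x D) t ∅ ω O₂ A₂)) := by
          rw [dis_sg_sq, one_mul]
      _ = (clSg t : ℝ) * amP x s D (K.Holds (clInn x D)) (fun ω => ClSep (clInn x D) t ∅ ω O₁ A₁) * ((clSg t : ℝ) * amP x s D (K.Holds (clInn x D)) (fun ω => ClSep (clInn x D) t ∅ ω O₂ A₂)) := by ring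
      _ ≤ _ := key
  exact (mul_le_mul h₁ h₂ h0₂ (h0₁.trans h₁)).trans key2

/-- monotonicity of the planar probability in the event -/
theorem rns_amP_mono (x : ℝ) (hx0 : 0 < x) (hx1 : x ≤ 1) (s : Bool) (D : Finset TV) (K : ClCfg TV TV → Prop) {L L' : ClCfg TV TV → Prop}
    (h : ∀ ω, L ω → L' ω) : amP x s D K L ≤ amP x s D K L' := by
  rw [← rns_amE_ind, ← rns_amE_ind]
  exact rnp_E_mono _ (pcp_inn_ok x hx0 hx1 D) _ (fun ω => dis_ind_mono (h ω))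

/-! ### 2. the base: two corridors in the tube -/

/-- the two boxes -/
noncomputable def rnsZ (g r : ℕ) : Finset TV := rnBx (-(g : ℤ), 0) r ∪ rnBx ((g : ℤ), 0) r

/-- the tube -/
noncomputable def rnsTube (g r : ℕ) : Finset TV := amBox (-(g : ℤ) - r - r) ((g : ℤ) + r + r) (-(r : ℤ) - r) ((r : ℤ) + r)

/-- the goal region: the tube minus the middle column -/
noncomputable def rnsG (g r : ℕ) : Finset TV := (rnsTube g r).filter (fun p => p.1 ≠ 0)

theorem rns_mem_Z {g r : ℕ} {p : TV} : p ∈ rnsZ g r ↔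
    ((-(g : ℤ) - r ≤ p.1 ∧ p.1 ≤ -(g : ℤ) + r) ∨ ((g : ℤ) - r ≤ p.1 ∧ p.1 ≤ (g : ℤ) + r)) ∧ -(r : ℤ) ≤ p.2 ∧ p.2 ≤ r := by
  unfold rnsZ
  rw [Finset.mem_union, rns_mem_bx, rns_mem_bx]
  simp only [zero_sub, zero_add]
  tauto

/-- **(i) BASE**: in every domain inside the tube the two corridors separate the middle column from the two boxes -/
theorem rns_base_val (x : ℝ) (hx0 : 0 < x) (hx1 : x ≤ 1) (hC : RnCor x) : ∃ δ : ℝ, 0 < δ ∧ ∃ r₀ : ℕ, ∀ (r g : ℕ) (K : ClCon TV TV) (D : Finset TV),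
    r₀ ≤ r → 25 * r ≤ g → RnHist K (rnsZ g r) → rnsZ g r ⊆ D → D ⊆ rnsTube g r → RnFeas x false D K →
    δ * δ ≤ amP x false D (K.Holds (clInn x D)) (fun ω => ClSep (clInn x D) false ∅ ω (D \ rnsG g r) (rnsZ g r)) := by
  obtain ⟨δ, h0, r₀, h⟩ := (hC false).1
  beta_reduce at h
  refine ⟨δ, h0, r₀, fun r g K D hr hg hK hZ hD hf => ?_⟩
  have hg' : 25 * (r : ℤ) ≤ g := by exact_mod_cast hg
  have hrow : ∀ u ∈ D, -(r : ℤ) - r ≤ u.2 ∧ u.2 ≤ -(r : ℤ) - r + ((4 * r : ℕ) : ℤ) := by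
    intro u hu
    have := rns_mem_box.1 (hD hu)
    push_cast
    omega
  have c1 := h (4 * r) (-(g : ℤ) + r) (-(r : ℤ) - r) D K (by omega) hrow (rnp_hist_mono hK (fun p hp => by
    have := rns_mem_Z.1 hp
    refine Finset.mem_filter.2 ⟨hZ hp, ?_⟩
    push_cast
    omega)) hf
  have c2 := h (4 * r) ((g : ℤ) - 25 * r) (-(r : ℤ) - r) D K (by omega) hrow (rnp_hist_mono hK (fun p hp => by
    have := rns_mem_Z.1 hp
    refine Finset.mem_filter.2 ⟨hZ hp, ?_⟩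
    push_cast
    omega)) hf
  have c3 := rns_pl_fkg x hx0 hx1 false false D _ K hK hZ _ _ _ _ δ δ h0.le h0.le c1 c2
  refine c3.trans (rns_amP_mono x hx0 hx1 false D _ ?_)
  rintro ω ⟨e1, e2⟩ u hu v hv
  obtain ⟨huD, huG⟩ := Finset.mem_sdiff.1 hu
  have hu0 : u.1 = 0 := by
    by_contra hne
    exact huG (Finset.mem_filter.2 ⟨hD huD, hne⟩)
  have hv' := rns_mem_Z.1 hv
  rcases hv'.1 with hl | hl
  · refine rn_sep_symm (clInn x D) false _ _ ω e1 u (Finset.mem_filter.2 ⟨huD, ?_⟩) v (Finset.mem_filter.2 ⟨hZ hv, ?_⟩)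
    · push_cast
      omega
    · omega
  · refine e2 u (Finset.mem_filter.2 ⟨huD, ?_⟩) v (Finset.mem_filter.2 ⟨hZ hv, ?_⟩)
    · omega
    · push_cast
      omega

/-! ### 3. the pushes (`rnp_box` of 92) and the bridge to the abstract language -/

/-- **(ii) PUSH**: the value of the box of side `C₀ r` -/
theorem rns_val (x : ℝ) (hx0 : 0 < x) (hx1 : x ≤ 1) (hHP : RnHP x) (hC : RnCor x) (C₀ : ℕ) : ∃ c : ℝ, 0 < c ∧ ∃ r₀ : ℕ, ∀ (r g : ℕ) (K : ClCon TV TV),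
    r₀ ≤ r → 25 * r ≤ g → g ≤ C₀ * r → RnHist K (rnsZ g r) → RnVal x false K (rnsZ g r) (rnsG g r) (rnsZ g r) (rnBx 0 (C₀ * r)) c := by
  obtain ⟨k, hk⟩ := rnp_pow C₀
  obtain ⟨δ, d0, r₁, hb⟩ := rns_base_val x hx0 hx1 hC
  obtain ⟨c, c0, _, m0, hp⟩ := rnp_box x hx0 hx1 hHP (4 * C₀ + 2) k
  refine ⟨c * (δ * δ), by positivity, max r₁ m0, fun r g K hr hg hgC hK => ?_⟩
  have hgC' : (g : ℤ) ≤ C₀ * r := by exact_mod_cast hgC
  refine hp false r (C₀ * r) (-(g : ℤ) - r) ((g : ℤ) + r) (-(r : ℤ)) r K (rnsZ g r) (rnsG g r) (rnsZ g r) (rnBx 0 (C₀ * r)) (δ * δ)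
    ((le_max_right _ _).trans hr) ?_ ?_ ?_ hK ?_ (Finset.Subset.refl _) ?_ (by positivity) ?_
  · calc C₀ * r * 9 ^ k = (C₀ * 9 ^ k) * r := by ring
      _ ≤ 10 ^ k * r := Nat.mul_le_mul_right _ hk
      _ = r * 10 ^ k := by ring
  · push_cast
    nlinarith
  · push_cast
    have : (0 : ℤ) ≤ (C₀ : ℤ) * r := by positivity
    nlinarith
  · intro p hp'
    have := rns_mem_Z.1 hp'
    exact rns_mem_box.2 (by omega)
  · intro p hp'
    have := rns_mem_bx.1 hp'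
    simp only [Prod.fst_zero, Prod.snd_zero, zero_sub, zero_add] at this
    refine rns_mem_box.2 ?_
    push_cast
    have h1 : (0 : ℤ) ≤ g := by positivity
    have h2 : (0 : ℤ) ≤ r := by positivity
    refine ⟨⟨by linarith [this.1.1], by linarith [this.1.2]⟩, by linarith [this.2.1], by linarith [this.2.2]⟩
  · intro D hZD hD hf
    exact hb r g K D ((le_max_left _ _).trans hr) hg hK hZD (fun p hp' => (Finset.mem_inter.1 (hD hp')).2) hf

/-- the planar predicate from the feasible form -/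
theorem rns_plge (x : ℝ) (hx0 : 0 < x) (hx1 : x ≤ 1) (s : Bool) (D : Finset TV) (K : ClCon TV TV) (L : ClCfg TV TV → Prop) (p : ℝ)
    (h : RnFeas x s D K → p ≤ amP x s D (K.Holds (clInn x D)) L) : RnPlGe x s D K L p := by
  unfold RnPlGe
  have hS := pcp_inn_ok x hx0 hx1 D
  rcases (dis_Z_nonneg (clInn x D) hS (fun ω => CuPin s (amLay D) ω ∧ K.Holds (clInn x D) ω)).eq_or_lt with hZ | hZ
  · rw [← hZ, mul_zero, dis_N_zero _ hS _ hZ.symm]
  · have := h hZ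
    rw [rns_amP_eq, le_div_iff₀ hZ] at this
    exact this

/-- **BRIDGE**: a value in the planar language gives the hypothesis of the last search -/
theorem rns_all (x : ℝ) (hx0 : 0 < x) (hx1 : x ≤ 1) (s : Bool) (V D Z G : Finset TV) (p : ℝ) (hS : ClOk (clAmb x V)) (hV : latCl D ⊆ V) (hZ : Z ⊆ D)
    (h : ∀ K : ClCon TV TV, RnHist K Z → RnFeas x s D K →
      p ≤ amP x s D (K.Holds (clInn x D)) (fun ω => ClSep (clInn x D) s ∅ ω (D \ G) Z)) :
    RnAll (clAmb x V) s Z D (fun ω => ClSep ((clAmb x V).inn D) s ∅ ω (D \ G) Z) p := by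
  have h1 : RnPlAll x s Z D (fun ω => ClSep (clInn x D) s ∅ ω (D \ G) Z) p := fun K hL hI hE =>
    rns_plge x hx0 hx1 s D K _ p (h K (rnp_hist_of_legal x hZ hL hE hI))
  refine rn_all_mono (clAmb x V) hS s D (Finset.Subset.refl _) ?_ le_rfl (rn_pl_all x hV hZ s _ p h1)
  intro ω hω
  exact (rn_pl_sep x hV s ω _ _).2 hω

/-! ### 4. the events -/

/-- increasing in the planar system of the small box ⟹ increasing in the ambient -/
theorem rns_up (x : ℝ) {V b : Finset TV} (h : latCl b ⊆ V) {X : ClCfg TV TV → Prop} (hX : ClMonoP (clInn x b) X) : ClUp (clAmb x V) true X := by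
  rw [dis_up_true]
  intro ω ω' hB hτ
  refine hX ω ω' hB fun y hy => ?_
  have hyD : y ∈ latCellsIn b := hy
  rw [← amp_tau x h ω hyD, ← amp_tau x h ω' hyD]
  exact hτ y (amp_cells_sub h hyD)

/-- increasing and local in the small box ⟹ read on the first spins of the box and on the statuses of its cells -/
theorem rns_read (x : ℝ) {V b : Finset TV} (h : latCl b ⊆ V) {X : ClCfg TV TV → Prop} (hX : ClMonoP (clInn x b) X) (hl : ClLocP b (latCellsIn b) X) :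
    ∀ ω ω' : ClCfg TV TV, ω.B ∩ b = ω'.B ∩ b → (∀ y ∈ (clAmb x V).cin b, clTau (clAmb x V) ω y = clTau (clAmb x V) ω' y) → (X ω ↔ X ω') := by
  intro ω ω' hB hτ
  have e1 : ∀ η : ClCfg TV TV, X η ↔ X ⟨η.B ∩ b, η.W, η.O⟩ := fun η =>
    hl η ⟨η.B ∩ b, η.W, η.O⟩ (by simp) rfl rfl
  have t1 : ∀ η : ClCfg TV TV, ∀ y ∈ latCellsIn b, clTau (clInn x b) ⟨η.B ∩ b, η.W, η.O⟩ y = clTau (clAmb x V) η y := by
    intro η y hy
    rw [amp_tau x h η hy]
    unfold clTau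
    have hs : (clInn x b).sv y ⊆ b := by
      rw [amp_sv_inn x hy]
      exact lat_mem_cellsIn.1 hy
    have : (clInn x b).sv y ⊆ η.B ∩ b ↔ (clInn x b).sv y ⊆ η.B :=
      ⟨fun h' => h'.trans Finset.inter_subset_left, fun h' => Finset.subset_inter h' hs⟩
    simp only [this]
  have ht : ∀ y ∈ (clInn x b).C, clTau (clInn x b) ⟨ω.B ∩ b, ω.W, ω.O⟩ y = clTau (clInn x b) ⟨ω'.B ∩ b, ω'.W, ω'.O⟩ y := by
    intro y hy
    have hy' : y ∈ latCellsIn b := hy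
    rw [t1 ω y hy', t1 ω' y hy']
    exact hτ y (by rw [amp_cin_amb x h]; exact hy')
  rw [e1 ω, e1 ω']
  exact ⟨hX _ _ (le_of_eq hB) (fun y hy => (ht y hy).le), hX _ _ (le_of_eq hB.symm) (fun y hy => (ht y hy).ge)⟩

/-! ### 5. (iii) the last search and the product -/

/-- no up-cell meets both open half planes -/
theorem rns_no_cell (x : ℝ) (V : Finset TV) (y : TV) (u v : TV) (hu : u ∈ (clAmb x V).sv y) (hv : v ∈ (clAmb x V).sv y) (h1 : u.1 < 0) (h2 : 0 < v.1) :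
    False := by
  have hu' : u ∈ cellV y := (Finset.mem_inter.1 hu).1
  have hv' : v ∈ cellV y := (Finset.mem_inter.1 hv).1
  simp only [cellV, Finset.mem_insert, Finset.mem_singleton] at hu' hv'
  have e1 : u.1 = y.1 ∨ u.1 = y.1 + 1 := by
    rcases hu' with rfl | rfl | rfl <;> simp
  have e2 : v.1 = y.1 ∨ v.1 = y.1 + 1 := by
    rcases hv' with rfl | rfl | rfl <;> simp
  omega

/-- the law off the invaded set: product of the two halves, each dominated by the law of the big domain -/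
theorem rns_half (x : ℝ) (V R Zm Zp Im Ip : Finset TV) (hS : ClDisk (clAmb x V)) (Am Ap : ClCfg TV TV → Prop)
    (hR0 : ∀ p ∈ R, p.1 ≠ 0) (hRm : ∀ p ∈ R, p.1 < 0 → p ∈ Im) (hRp : ∀ p ∈ R, 0 < p.1 → p ∈ Ip) (hIm : Im ⊆ V) (hIp : Ip ⊆ V)
    (hZm : Zm ⊆ R) (hZp : Zp ⊆ R) (hm : ∀ p ∈ Zm, p.1 < 0) (hp : ∀ p ∈ Zp, 0 < p.1)
    (um : ClUp (clAmb x V) true Am) (up : ClUp (clAmb x V) true Ap)
    (tm : ∀ ω ω' : ClCfg TV TV, ω.B ∩ Zm = ω'.B ∩ Zm → (∀ y ∈ (clAmb x V).cin Zm, clTau (clAmb x V) ω y = clTau (clAmb x V) ω' y) → (Am ω ↔ Am ω'))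
    (tp : ∀ ω ω' : ClCfg TV TV, ω.B ∩ Zp = ω'.B ∩ Zp → (∀ y ∈ (clAmb x V).cin Zp, clTau (clAmb x V) ω y = clTau (clAmb x V) ω' y) → (Ap ω ↔ Ap ω')) :
    cuP (clAmb x V) false R (clFree.Holds (clAmb x V)) (fun ω => Am ω ∧ Ap ω) ≤
      cuP (clAmb x V) false Im (clFree.Holds (clAmb x V)) Am * cuP (clAmb x V) false Ip (clFree.Holds (clAmb x V)) Ap := by
  classical
  have hR : R = R.filter (fun p => p.1 < 0) ∪ R.filter (fun p => 0 < p.1) := by
    ext p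
    simp only [Finset.mem_union, Finset.mem_filter]
    constructor
    · intro h
      rcases lt_or_gt_of_ne (hR0 p h) with h1 | h1
      · exact Or.inl ⟨h, h1⟩
      · exact Or.inr ⟨h, h1⟩
    · rintro (h | h) <;> exact h.1
  have hd : Disjoint (R.filter (fun p => p.1 < 0)) (R.filter (fun p => 0 < p.1)) :=
    Finset.disjoint_left.2 fun p h1 h2 => by
      have a := (Finset.mem_filter.1 h1).2
      have b := (Finset.mem_filter.1 h2).2
      omega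
  have hx : ∀ y ∈ (clAmb x V).C, (∃ u ∈ (clAmb x V).sv y, u ∈ R.filter (fun p => p.1 < 0)) →
      (∃ v ∈ (clAmb x V).sv y, v ∈ R.filter (fun p => 0 < p.1)) → False := by
    rintro y _ ⟨u, hu, hu'⟩ ⟨v, hv, hv'⟩
    exact rns_no_cell x V y u v hu hv (Finset.mem_filter.1 hu').2 (Finset.mem_filter.1 hv').2
  have l₁ : ClLocP (R.filter (fun p => p.1 < 0)) ((clAmb x V).cin (R.filter (fun p => p.1 < 0))) Am :=
    rn_tauB_loc (clAmb x V) (Z := Zm) (fun p h => Finset.mem_filter.2 ⟨hZm h, hm p h⟩) tm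
  have l₂ : ClLocP (R.filter (fun p => 0 < p.1)) ((clAmb x V).cin (R.filter (fun p => 0 < p.1))) Ap :=
    rn_tauB_loc (clAmb x V) (Z := Zp) (fun p h => Finset.mem_filter.2 ⟨hZp h, hp p h⟩) tp
  have e := rn_split (clAmb x V) hS.toClOk false _ _ hd hx Am Ap l₁ l₂
  rw [← hR] at e
  rw [e]
  have d₁ := rn_dom_minus (clAmb x V) hS (R.filter (fun p => p.1 < 0)) Im
    (fun p h => hRm p (Finset.mem_filter.1 h).1 (Finset.mem_filter.1 h).2) hIm Am um l₁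
  have d₂ := rn_dom_minus (clAmb x V) hS (R.filter (fun p => 0 < p.1)) Ip
    (fun p h => hRp p (Finset.mem_filter.1 h).1 (Finset.mem_filter.1 h).2) hIp Ap up l₂
  exact mul_le_mul d₁ d₂ (rn_cuP_nonneg _ hS.toClOk _ _ _ _) ((rn_cuP_nonneg _ hS.toClOk _ _ _ _).trans d₁)

/-- **(iii) FINAL** -/
theorem rns_final (x : ℝ) (V D N Zm Zp Im Ip : Finset TV) (hS : ClDisk (clAmb x V)) (Am Ap : ClCfg TV TV → Prop) (c : ℝ) (hN : N ⊆ D)
    (h : RnAll (clAmb x V) false (Zm ∪ Zp) D (fun ω => ClSep ((clAmb x V).inn D) false ∅ ω N (Zm ∪ Zp)) c)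
    (hX0 : ∀ p ∈ D, p ∉ N → p.1 ≠ 0) (hXm : ∀ p ∈ D, p ∉ N → p.1 < 0 → p ∈ Im) (hXp : ∀ p ∈ D, p ∉ N → 0 < p.1 → p ∈ Ip) (hIm : Im ⊆ V) (hIp : Ip ⊆ V)
    (hZm : Zm ⊆ D) (hZp : Zp ⊆ D) (hm : ∀ p ∈ Zm, p.1 < 0) (hp : ∀ p ∈ Zp, 0 < p.1)
    (um : ClUp (clAmb x V) true Am) (up : ClUp (clAmb x V) true Ap)
    (tm : ∀ ω ω' : ClCfg TV TV, ω.B ∩ Zm = ω'.B ∩ Zm → (∀ y ∈ (clAmb x V).cin Zm, clTau (clAmb x V) ω y = clTau (clAmb x V) ω' y) → (Am ω ↔ Am ω'))
    (tp : ∀ ω ω' : ClCfg TV TV, ω.B ∩ Zp = ω'.B ∩ Zp → (∀ y ∈ (clAmb x V).cin Zp, clTau (clAmb x V) ω y = clTau (clAmb x V) ω' y) → (Ap ω ↔ Ap ω')) :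
    c * cuP (clAmb x V) false D (clFree.Holds (clAmb x V)) (fun ω => Am ω ∧ Ap ω) ≤
      cuP (clAmb x V) false Im (clFree.Holds (clAmb x V)) Am * cuP (clAmb x V) false Ip (clFree.Holds (clAmb x V)) Ap := by
  classical
  refine rn_finalB (clAmb x V) hS.toClOk false (Zm ∪ Zp) D N (Zm ∪ Zp) (Finset.Subset.refl _) hN
    (Finset.union_subset hZm hZp) (fun ω => Am ω ∧ Ap ω) ?_ c _ ?_ h ?_
  · intro ω ω' hB hω
    rw [tm ω ω' (dde_inter_mono Finset.subset_union_left hB) fun y hy => hω y (dde_cin_mono _ Finset.subset_union_left hy),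
      tp ω ω' (dde_inter_mono Finset.subset_union_right hB) fun y hy => hω y (dde_cin_mono _ Finset.subset_union_right hy)]
  · exact mul_nonneg (rn_cuP_nonneg _ hS.toClOk _ _ _ _) (rn_cuP_nonneg _ hS.toClOk _ _ _ _)
  · intro J hNJ hJD hJT
    have hnX : ∀ p ∈ D \ J, p ∈ D ∧ p ∉ N := by
      intro p hp'
      obtain ⟨h1, h2⟩ := Finset.mem_sdiff.1 hp'
      exact ⟨h1, fun h3 => h2 (hNJ h3)⟩
    have hZs : ∀ p ∈ Zm ∪ Zp, p ∈ D \ J := by
      intro p hp'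
      exact Finset.mem_sdiff.2 ⟨Finset.union_subset hZm hZp hp', fun h3 => Finset.disjoint_left.1 hJT h3 hp'⟩
    exact rns_half x V (D \ J) Zm Zp Im Ip hS Am Ap (fun p h1 => hX0 p (hnX p h1).1 (hnX p h1).2)
      (fun p h1 => hXm p (hnX p h1).1 (hnX p h1).2) (fun p h1 => hXp p (hnX p h1).1 (hnX p h1).2) hIm hIp
      (fun p h1 => hZs p (Finset.mem_union_left _ h1)) (fun p h1 => hZs p (Finset.mem_union_right _ h1)) hm hp um up tm tp

/-! ### 6. the exit of B3 -/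

/-- **(SEP2)** = exit of B3 -/
theorem rns_sep2 (x : ℝ) (hx0 : 0 < x) (hx1 : x ≤ 1) (hHP : RnHP x) (hC : RnCor x) : RnSep2 x := by
  refine ⟨25, by norm_num, fun C₀ => ?_⟩
  obtain ⟨c, c0, r₀, hv⟩ := rns_val x hx0 hx1 hHP hC C₀
  refine ⟨c, c0, max r₀ 1, fun r g D X₁ X₂ hr hg hD1 hD2 m₁ l₁ m₂ l₂ => ?_⟩
  have hr1 : (1 : ℤ) ≤ r := by exact_mod_cast (le_max_right _ _).trans hr
  have hg' : 25 * (r : ℤ) ≤ g := by exact_mod_cast hg
  obtain ⟨a, b, c', d, hab, hcd, hV⟩ := am_box_exists (D ∪ (rnBx (-(g : ℤ), 0) (2 * g) ∪ rnBx ((g : ℤ), 0) (2 * g)))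
  have hS := am_box_disk x hx0 hx1 a b c' d hab hcd
  have hVD : latCl D ⊆ amBox a b c' d := (amp_cl_mono Finset.subset_union_left).trans hV
  have hV1 : latCl (rnBx (-(g : ℤ), 0) (2 * g)) ⊆ amBox a b c' d :=
    (amp_cl_mono (Finset.subset_union_left.trans Finset.subset_union_right)).trans hV
  have hV2 : latCl (rnBx ((g : ℤ), 0) (2 * g)) ⊆ amBox a b c' d :=
    (amp_cl_mono (Finset.subset_union_right.trans Finset.subset_union_right)).trans hV
  have hb1 : rnBx (-(g : ℤ), 0) r ⊆ rnBx (-(g : ℤ), 0) (2 * g) := fun p hp => by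
    have := rns_mem_bx.1 hp
    exact rns_mem_bx.2 (by omega)
  have hb2 : rnBx ((g : ℤ), 0) r ⊆ rnBx ((g : ℤ), 0) (2 * g) := fun p hp => by
    have := rns_mem_bx.1 hp
    exact rns_mem_bx.2 (by omega)
  have hgC : g ≤ C₀ * r := by
    have h1 : ((4 * (g : ℤ), 0) : TV) ∈ rnBx 0 (4 * g) := rns_mem_bx.2 (by
      simp only [Prod.fst_zero, Prod.snd_zero, zero_sub, zero_add]
      omega)
    have h2 := rns_mem_bx.1 (hD2 (hD1 h1))
    simp only [Prod.fst_zero, Prod.snd_zero, zero_sub, zero_add] at h2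
    have h3 : (g : ℤ) ≤ C₀ * r := by linarith [h2.1.2]
    exact_mod_cast h3
  have hZD : rnsZ g r ⊆ D := fun p hp => hD1 (rns_mem_bx.2 (by
    have := rns_mem_Z.1 hp
    simp only [Prod.fst_zero, Prod.snd_zero, zero_sub, zero_add]
    omega))
  have hall := rns_all x hx0 hx1 false (amBox a b c' d) D (rnsZ g r) (rnsG g r) c hS.toClOk hVD hZD
    (fun K hK hf => hv r g K ((le_max_left _ _).trans hr) hg hgC hK D hZD hD2 hf)
  have hG : ∀ p ∈ D, p ∉ D \ rnsG g r → p ∈ rnsTube g r ∧ p.1 ≠ 0 := by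
    intro p hpD hp
    have : p ∈ rnsG g r := by
      by_contra hn
      exact hp (Finset.mem_sdiff.2 ⟨hpD, hn⟩)
    exact Finset.mem_filter.1 this
  have hfin := rns_final x (amBox a b c' d) D (D \ rnsG g r) (rnBx (-(g : ℤ), 0) r) (rnBx ((g : ℤ), 0) r) (rnBx (-(g : ℤ), 0) (2 * g))
    (rnBx ((g : ℤ), 0) (2 * g)) hS X₁ X₂ c Finset.sdiff_subset hall (fun p h1 h2 => (hG p h1 h2).2)
    (fun p h1 h2 h3 => rns_mem_bx.2 (by
      have := rns_mem_box.1 (hG p h1 h2).1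
      simp only [zero_sub, zero_add]
      omega))
    (fun p h1 h2 h3 => rns_mem_bx.2 (by
      have := rns_mem_box.1 (hG p h1 h2).1
      simp only [zero_sub, zero_add]
      omega))
    ((amp_sub_cl _).trans hV1) ((amp_sub_cl _).trans hV2)
    (fun p hp => hZD (Finset.mem_union_left _ hp)) (fun p hp => hZD (Finset.mem_union_right _ hp))
    (fun p hp => by
      have := rns_mem_bx.1 hp
      simp only at this
      omega)
    (fun p hp => by
      have := rns_mem_bx.1 hp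
      simp only at this
      omega)
    (rns_up x ((amp_cl_mono hb1).trans hV1) m₁) (rns_up x ((amp_cl_mono hb2).trans hV2) m₂)
    (rns_read x ((amp_cl_mono hb1).trans hV1) m₁ l₁) (rns_read x ((amp_cl_mono hb2).trans hV2) m₂ l₂)
  rw [rn_pl_cuP x hVD, rn_pl_cuP x hV1, rn_pl_cuP x hV2, ann_P_am, ann_P_am, ann_P_am] at hfin
  exact hfin

/-- the equation lemmas of the definitions of this file are generated HERE -/
theorem rns_defs_eqns_cite : True := by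
  have := @rnsZ.eq_1
  have := @rnsTube.eq_1
  have := @rnsG.eq_1
  trivial

end Claimed.Agent.R291
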