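import Claimed.Agent.R291.Defs.Ren
import Claimed.Agent.R291.Ann.Chain
import Claimed.Agent.R291.Dis.BufferPl

/-!
# Row 291 (S0539), Ann/RenTop : A5 RENORMALISATION, BLOCK B4 = STEP 1 + ASSEMBLY OF (REC)      (owner helper115; prefix `rnt_`)

TEX 09-annulus l.905-916.   Design helper12 (blocks B1-B6), proof note `origin/helper144:notes/R291/ann_A5_144.md` Sec. 6.
`rnt_rec` : `RnPush1 x` (B2, 92) and `RnSep2 x` (B3, 264)  ⟹  **(REC)**:
  `∃ K0, ∀ K ≥ K0, ∃ ρ C n0, 2 ≤ ρ, 0 < C, ∀ n N, n0 ≤ n → ρ n ≤ N → N ≤ ρ² n → U(N, 2KN) ≤ C U(n, 2Kn)²`.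
Constants: `κ` = aspect constant of (SEP2); `K0 = 6κ`, `ρ = 6κ + 6`; boxes `z∓ = (∓g, 0)`, `g = 3κ n`, events `X_i = RnX x z_i n` (local in `Bx(z_i, 3n)`), `D = Λ_{2KN}`.
* Step 1 (`rnt_search`, `rnt_fav`, `rnt_fkg`): search of sign plus from the layer of `D`; on `Sep^+(layer, Λ_N)` the law off the invaded set is `P^+_I`, `Λ_N ⊆ I ⊆ D`; (FAV) twice + FKG:   `c_F² U_N ≤ P^-_D[X₁ ∩ X₂]`.
* Step 2 = (SEP2):   `c₂ P^-_D[X₁ ∩ X₂] ≤ P^-_{Bx(z₁,2g)}[X₁] P^-_{Bx(z₂,2g)}[X₂]`.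
* Step 3 (`rnt_to_U`): `Bx(z,2g) ⊆ Λ_{2Kn}(z)`, `am_pl_dom_minus`, `ann_sub_sep`, translation `dis_t23_at`:   `P^-_{Bx(z,2g)}[X] ≤ U(n, 2Kn)`.
-/

set_option autoImplicit false

namespace Claimed.Agent.R291

open Claims Claims.C0467

/-! ### 0. calculus of `amE` -/

theorem rnt_N_sum {V Y : Type} [DecidableEq V] [DecidableEq Y] {ι : Type*} (S : ClSys V Y) (K : ClCfg V Y → Prop) (T : Finset ι)
    (G : ι → ClCfg V Y → ℝ) : S.N K (fun ω => ∑ i ∈ T, G i ω) = ∑ i ∈ T, S.N K (G i) := by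
  classical
  unfold ClSys.N
  rw [Finset.sum_comm]
  refine Finset.sum_congr rfl fun ω _ => ?_
  by_cases hK : K ω
  · simp only [if_pos hK, Finset.mul_sum]
  · simp only [if_neg hK, Finset.sum_const_zero]

theorem rnt_E_sum {ι : Type*} (x : ℝ) (s : Bool) (D : Finset TV) (K : ClCfg TV TV → Prop) (T : Finset ι) (G : ι → ClCfg TV TV → ℝ) :
    amE x s D K (fun ω => ∑ i ∈ T, G i ω) = ∑ i ∈ T, amE x s D K (G i) := by
  unfold amE
  simp only [dis_E_eq]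
  rw [rnt_N_sum, Finset.sum_div]

theorem rnt_E_mono (x : ℝ) (hx0 : 0 < x) (hx1 : x ≤ 1) (s : Bool) (D : Finset TV) (K : ClCfg TV TV → Prop) {G G' : ClCfg TV TV → ℝ}
    (h : ∀ ω, G ω ≤ G' ω) : amE x s D K G ≤ amE x s D K G' := by
  have hS := pcp_inn_ok x hx0 hx1 D
  unfold amE
  rw [dis_E_eq, dis_E_eq]
  exact div_le_div_of_nonneg_right (dis_N_mono _ hS _ fun ω _ _ => h ω) (dis_Z_nonneg _ hS _)

theorem rnt_E_nonneg (x : ℝ) (hx0 : 0 < x) (hx1 : x ≤ 1) (s : Bool) (D : Finset TV) (K : ClCfg TV TV → Prop) {G : ClCfg TV TV → ℝ}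
    (h : ∀ ω, 0 ≤ G ω) : 0 ≤ amE x s D K G := by
  have hS := pcp_inn_ok x hx0 hx1 D
  unfold amE
  rw [dis_E_eq]
  exact div_nonneg (dis_N_nonneg _ hS _ h) (dis_Z_nonneg _ hS _)

theorem rnt_P_eq (x : ℝ) (s : Bool) (D : Finset TV) (K L : ClCfg TV TV → Prop) : amP x s D K L = amE x s D K (clInd L) := rfl

theorem rnt_P_mono (x : ℝ) (hx0 : 0 < x) (hx1 : x ≤ 1) (s : Bool) (D : Finset TV) (K : ClCfg TV TV → Prop) {L L' : ClCfg TV TV → Prop}
    (h : ∀ ω, L ω → L' ω) : amP x s D K L ≤ amP x s D K L' :=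
  rnt_E_mono x hx0 hx1 s D K fun ω => dis_ind_mono (h ω)

theorem rnt_free {V Y : Type} [DecidableEq V] [DecidableEq Y] (S : ClSys V Y) : (clFree : ClCon V Y).Holds S = fun _ => True := by
  funext ω
  simp [ClCon.Holds, clFree]

theorem rnt_free_legal {V Y : Type} [DecidableEq V] [DecidableEq Y] (S : ClSys V Y) : ClLegal S (clFree : ClCon V Y) :=
  ⟨rfl, rfl, fun y _ hy => by simp [clFree] at hy, fun e he => by simp [clFree] at he⟩

theorem rnt_free_in {V Y : Type} [DecidableEq V] [DecidableEq Y] (S : ClSys V Y) (I : Finset V) : (clFree : ClCon V Y).In S I :=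
  ⟨by simp [clFree], by simp [clFree], fun e he => by simp [clFree] at he, by simp [clFree], by simp [clFree], by simp [clFree],
    by simp [clFree], by simp [clFree]⟩

theorem rnt_feas (x : ℝ) (hx0 : 0 < x) (hx1 : x ≤ 1) (s : Bool) (D : Finset TV) :
    0 < (clInn x D).Z (fun ω => CuPin s (amLay D) ω ∧ (clFree : ClCon TV TV).Holds (clInn x D) ω) := by
  have h := ann_Z_pos x hx0 hx1 s D
  have e : (fun ω : ClCfg TV TV => CuPin s (amLay D) ω ∧ (clFree : ClCon TV TV).Holds (clInn x D) ω) = DamPin (latBd D) s := by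
    funext ω
    rw [rnt_free]
    exact propext (ann_pin_iff s D ω)
  rw [e]; exact h

theorem rnt_ind_mono {V Y : Type} [DecidableEq V] [DecidableEq Y] (S : ClSys V Y) {L : ClCfg V Y → Prop} (h : ClMonoP S L) :
    ClMono S (clInd L) := by
  intro ω ω' hB ht
  by_cases hl : L ω
  · rw [dis_ind_pos hl, dis_ind_pos (h ω ω' hB ht hl)]
  · rw [dis_ind_neg hl]; exact dis_ind_nonneg L ω'

theorem rnt_ind_loc {V Y : Type} [DecidableEq V] [DecidableEq Y] {T : Finset V} {T' : Finset Y} {L : ClCfg V Y → Prop}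
    (h : ClLocP T T' L) : ClLoc T T' (clInd L) := by
  intro ω ω' h1 h2 h3
  have hi := h ω ω' h1 h2 h3
  by_cases hl : L ω
  · rw [dis_ind_pos hl, dis_ind_pos (hi.1 hl)]
  · rw [dis_ind_neg hl, dis_ind_neg (fun h' => hl (hi.2 h'))]

theorem rnt_inter_sub {α : Type} [DecidableEq α] {P P' T T₀ : Finset α} (hT : T₀ ⊆ T) (h : P ∩ T = P' ∩ T) : P ∩ T₀ = P' ∩ T₀ := by
  ext v
  have := Finset.ext_iff.1 h v
  simp only [Finset.mem_inter] at this ⊢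
  constructor
  · rintro ⟨h1, h2⟩; exact ⟨(this.1 ⟨h1, hT h2⟩).1, h2⟩
  · rintro ⟨h1, h2⟩; exact ⟨(this.2 ⟨h1, hT h2⟩).1, h2⟩

/-- locality in a smaller set is locality in a larger set -/
theorem rnt_loc_up {b D : Finset TV} (h : b ⊆ D) {L : ClCfg TV TV → Prop} (hL : ClLocP b (latCellsIn b) L) :
    ClLocP D (latCellsIn D) L := fun ω ω' h1 h2 h3 =>
  hL ω ω' (rnt_inter_sub h h1) (rnt_inter_sub h h2) (rnt_inter_sub (amp_cellsIn_mono h) h3)

theorem rnt_tau_eq (x : ℝ) {b D : Finset TV} (h : b ⊆ D) (ω : ClCfg TV TV) {y : TV} (hy : y ∈ latCellsIn b) :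
    clTau (clInn x b) ω y = clTau (clInn x D) ω y := by
  unfold clTau
  rw [amp_sv_inn x hy, amp_sv_inn x (amp_cellsIn_mono h hy)]

/-- an event increasing in the statuses of a smaller domain is increasing in a larger one -/
theorem rnt_mono_up (x : ℝ) {b D : Finset TV} (h : b ⊆ D) {L : ClCfg TV TV → Prop} (hL : ClMonoP (clInn x b) L) :
    ClMonoP (clInn x D) L := by
  intro ω ω' hB ht hl
  refine hL ω ω' hB (fun y hy => ?_) hl
  have hy' : y ∈ latCellsIn b := hy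
  rw [rnt_tau_eq x h ω hy', rnt_tau_eq x h ω' hy']
  exact ht y (amp_cellsIn_mono h hy')

/-- a smaller domain has fewer steps -/
theorem rnt_sep_dom (x : ℝ) {I D : Finset TV} (h : I ⊆ D) (s : Bool) (ω : ClCfg TV TV) (O A : Finset TV)
    (hs : ClSep (clInn x D) s ∅ ω O A) : ClSep (clInn x I) s ∅ ω O A := by
  intro u hu v hv hr
  refine hs u hu v hv (Relation.ReflTransGen.mono ?_ _ _ hr)
  rintro a b (⟨y, hy, ha, hb, hne⟩ | h2)
  · have hy' : y ∈ latCellsIn I := hy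
    have hyD : y ∈ latCellsIn D := amp_cellsIn_mono h hy'
    refine Or.inl ⟨y, hyD, ?_, ?_, ?_⟩
    · rw [amp_sv_inn x hyD]; rwa [amp_sv_inn x hy'] at ha
    · rw [amp_sv_inn x hyD]; rwa [amp_sv_inn x hy'] at hb
    · rwa [← rnt_tau_eq x h ω hy']
  · exact Or.inr h2

/-! ### 1. FKG and the search from the layer -/

/-- FKG for two increasing events under `P^s_D` -/
theorem rnt_fkg (x : ℝ) (hx0 : 0 < x) (hx1 : x ≤ 1) (s : Bool) (D : Finset TV) (L₁ L₂ : ClCfg TV TV → Prop)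
    (m₁ : ClMonoP (clInn x D) L₁) (m₂ : ClMonoP (clInn x D) L₂) (l₁ : ClLocP D (latCellsIn D) L₁) (l₂ : ClLocP D (latCellsIn D) L₂) :
    amP x s D (fun _ => True) L₁ * amP x s D (fun _ => True) L₂ ≤ amP x s D (fun _ => True) (fun ω => L₁ ω ∧ L₂ ω) := by
  have h := am_pl_fkg x hx0 hx1 s D clFree (rnt_free_legal _) (rnt_free_in _ _) (clInd L₁) (clInd L₂) (rnt_ind_mono _ m₁)
    (rnt_ind_mono _ m₂) (rnt_ind_loc l₁) (rnt_ind_loc l₂)
  rw [rnt_free] at h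
  have e : (fun ω => clInd L₁ ω * clInd L₂ ω) = clInd (fun ω => L₁ ω ∧ L₂ ω) := by
    funext ω; exact (dis_ind_and L₁ L₂ ω).symm
  rw [e] at h
  exact h

open Classical in
/-- **STEP 1, abstract**: search of sign plus from the layer under `P^-_D` -/
theorem rnt_search (x : ℝ) (hx0 : 0 < x) (hx1 : x ≤ 1) (D A : Finset TV) (hA : A ⊆ D) (c : ℝ) (L : ClCfg TV TV → Prop)
    (hloc : ClLocP A (latCellsIn A) L) (hc : ∀ I, A ⊆ I → I ⊆ D → c ≤ amP x true I (fun _ => True) L) :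
    c * amP x false D (fun _ => True) (fun ω => ClSep (clInn x D) true ∅ ω (amLay D) A) ≤ amP x false D (fun _ => True) L := by
  have hlayD : amLay D ⊆ D := Finset.filter_subset _ _
  set T : Finset (Finset TV) := D.powerset.filter (fun J => amLay D ⊆ J ∧ Disjoint J A) with hT
  have hJ : ∀ J ∈ T, c * amE x false D (fun _ => True) (fun ω => if clInv (clInn x D) true ∅ ω (amLay D) = J then (1 : ℝ) else 0) ≤
      amE x false D (fun _ => True) (fun ω => if clInv (clInn x D) true ∅ ω (amLay D) = J then (1 : ℝ) * clInd L ω else 0) := by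
    intro J hJ
    obtain ⟨h1, h2, h3⟩ := Finset.mem_filter.1 hJ
    have h1' : J ⊆ D := Finset.mem_powerset.1 h1
    have hAJ : A ⊆ D \ J := fun v hv => Finset.mem_sdiff.2 ⟨hA hv, fun hvJ => Finset.disjoint_left.1 h3 hvJ hv⟩
    rw [am_pl_search x hx0 hx1 false true D (amLay D) J subset_rfl h2 h1' (fun _ => 1) (clInd L) (fun _ _ _ _ _ => rfl)
      (rnt_ind_loc (rnt_loc_up hAJ hloc))]
    rw [mul_comm]
    exact mul_le_mul_of_nonneg_left (hc (D \ J) hAJ Finset.sdiff_subset)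
      (rnt_E_nonneg x hx0 hx1 _ _ _ fun ω => by split_ifs <;> norm_num)
  have hsum := Finset.sum_le_sum hJ
  rw [← Finset.mul_sum, ← rnt_E_sum, ← rnt_E_sum] at hsum
  have e1 : ∀ ω : ClCfg TV TV, clInd (fun ω => ClSep (clInn x D) true ∅ ω (amLay D) A) ω =
      ∑ J ∈ T, (if clInv (clInn x D) true ∅ ω (amLay D) = J then (1 : ℝ) else 0) := by
    intro ω
    rw [Finset.sum_ite_eq]
    have hiff : clInv (clInn x D) true ∅ ω (amLay D) ∈ T ↔ ClSep (clInn x D) true ∅ ω (amLay D) A := by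
      rw [as2_sep_iff (clInn x D) true ∅ ω (amLay D) (A := A) hA, hT, Finset.mem_filter, Finset.mem_powerset]
      exact ⟨fun h => h.2.2, fun h => ⟨as2_inv_sub _ _ _ _ _, as2_sub_inv _ _ _ _ hlayD, h⟩⟩
    by_cases hs : ClSep (clInn x D) true ∅ ω (amLay D) A
    · rw [dis_ind_pos hs, if_pos (hiff.2 hs)]
    · rw [dis_ind_neg hs, if_neg (fun h => hs (hiff.1 h))]
  have e2 : ∀ ω : ClCfg TV TV,
      ∑ J ∈ T, (if clInv (clInn x D) true ∅ ω (amLay D) = J then (1 : ℝ) * clInd L ω else 0) ≤ clInd L ω := by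
    intro ω
    rw [Finset.sum_ite_eq]
    split_ifs
    · rw [one_mul]
    · exact dis_ind_nonneg L ω
  rw [rnt_P_eq, rnt_P_eq]
  have e1' : clInd (fun ω => ClSep (clInn x D) true ∅ ω (amLay D) A) =
      fun ω => ∑ J ∈ T, (if clInv (clInn x D) true ∅ ω (amLay D) = J then (1 : ℝ) else 0) := funext e1
  rw [e1']
  exact hsum.trans (rnt_E_mono x hx0 hx1 _ _ _ e2)

/-! ### 2. geometry of boxes and balls -/

theorem rnt_mem_bx {u v : TV} {r : ℤ} : v ∈ rnBx u r ↔ u.1 - r ≤ v.1 ∧ v.1 ≤ u.1 + r ∧ u.2 - r ≤ v.2 ∧ v.2 ≤ u.2 + r := by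
  unfold rnBx amBox
  rw [Finset.mem_product, Finset.mem_Icc, Finset.mem_Icc]
  tauto

theorem rnt_bx_sub {u v : TV} {r r' : ℤ} (h1 : |u.1 - v.1| + r ≤ r') (h2 : |u.2 - v.2| + r ≤ r') : rnBx u r ⊆ rnBx v r' := by
  intro w hw
  rw [rnt_mem_bx] at hw ⊢
  have a1 := abs_le.1 (le_refl |u.1 - v.1|)
  have a2 := abs_le.1 (le_refl |u.2 - v.2|)
  omega

theorem rnt_bx_mono (u : TV) {r r' : ℤ} (h : r ≤ r') : rnBx u r ⊆ rnBx u r' :=
  rnt_bx_sub (by simpa using h) (by simpa using h)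

theorem rnt_ball_bx (u : TV) (n : ℕ) : latBall u n ⊆ rnBx u n := by
  intro w hw
  rw [lat_mem_ball] at hw
  rw [rnt_mem_bx]
  unfold latN at hw
  simp only [Prod.fst_sub, Prod.snd_sub] at hw
  omega

theorem rnt_bx_ball (u : TV) {r : ℤ} {m : ℕ} (h : 2 * r ≤ m) : rnBx u r ⊆ latBall u m := by
  intro w hw
  rw [rnt_mem_bx] at hw
  rw [lat_mem_ball]
  unfold latN
  simp only [Prod.fst_sub, Prod.snd_sub]
  omega

/-- the layer of a box is far from the centre -/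
theorem rnt_lay_bx {u v : TV} {r : ℤ} (hv : v ∈ amLay (rnBx u r)) : v ∉ rnBx u (r - 2) := by
  obtain ⟨_, y, hy, hn⟩ := (am_mem_amLay _ v).1 hv
  obtain ⟨w, hw, hwn⟩ := Finset.not_subset.1 hn
  rw [rnt_mem_bx] at hwn ⊢
  simp only [cellV, Finset.mem_insert, Finset.mem_singleton] at hy hw
  rcases hy with rfl | rfl | rfl <;> rcases hw with rfl | rfl | rfl <;>
    (try simp only [Prod.fst_add, Prod.snd_add] at hwn ⊢) <;> omega

/-! ### 3. the local event, (FAV) -/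

theorem rnt_X_mono (x : ℝ) (u : TV) (r : ℕ) : ClMonoP (clInn x (rnBx u (3 * r))) (RnX x u r) := dis_sep_mono _ _ _ _

theorem rnt_X_loc (x : ℝ) (u : TV) (r : ℕ) : ClLocP (rnBx u (3 * r)) (latCellsIn (rnBx u (3 * r))) (RnX x u r) :=
  ann_sep_loc x _ _ _ true

theorem rnt_free_hist (b : Finset TV) : RnHist (clFree : ClCon TV TV) b :=
  ⟨rfl, rfl, rfl, by simp [clFree], by simp [clFree], by simp [clFree], by simp [clFree], by simp [clFree],
    fun y hy => by simp [clFree] at hy⟩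

/-- **(FAV)** from (PUSH1) -/
theorem rnt_fav (x : ℝ) (hx0 : 0 < x) (hx1 : x ≤ 1) (hP : RnPush1 x) (C₀ : ℕ) :
    ∃ c : ℝ, 0 < c ∧ ∃ r₀ : ℕ, ∀ (r : ℕ) (u : TV) (D : Finset TV), r₀ ≤ r → rnBx u (3 * r) ⊆ D → D ⊆ rnBx u (C₀ * r) →
      c ≤ amP x true D (fun _ => True) (RnX x u r) := by
  obtain ⟨c, hc, R₀, h⟩ := hP C₀
  refine ⟨c, hc, max R₀ 2, fun r u D hr h1 h2 => ?_⟩
  have hr1 : R₀ ≤ r := le_trans (le_max_left _ _) hr
  have hr2 : 2 ≤ r := le_trans (le_max_right _ _) hr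
  have h3 := h true r u clFree hr1 (rnt_free_hist _) D ((rnt_bx_mono u (by omega)).trans h1) h2 (rnt_feas x hx0 hx1 true D)
  rw [rnt_free] at h3
  refine h3.trans (rnt_P_mono x hx0 hx1 _ _ _ fun ω hω => ?_)
  refine rnt_sep_dom x h1 true ω _ _ (dis_sep_sub (fun v hv => ?_) subset_rfl hω)
  refine Finset.mem_sdiff.2 ⟨h1 (Finset.filter_subset _ _ hv), fun hv2 => rnt_lay_bx hv (rnt_bx_mono u (by omega) hv2)⟩

/-! ### 4. Step 3: back to `U` -/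

theorem rnt_to_U (x : ℝ) (hx0 : 0 < x) (hx1 : x ≤ 1) (z : TV) (n g M : ℕ) (h1 : 3 * n ≤ 2 * g) (h2 : 4 * g ≤ M) :
    amP x false (rnBx z (2 * g)) (fun _ => True) (RnX x z n) ≤ anU x n M := by
  have hb : rnBx z (3 * n) ⊆ rnBx z (2 * g) := rnt_bx_mono z (by omega)
  have hB : rnBx z (2 * g) ⊆ latBall z M := rnt_bx_ball z (by omega)
  have hd := am_pl_dom_minus x hx0 hx1 (rnBx z (2 * g)) (latBall z M) hB clFree (rnt_free_legal _) (rnt_free_in _ _)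
    (rnt_feas x hx0 hx1 false _) (clInd (RnX x z n)) (rnt_ind_mono _ (rnt_mono_up x hb (rnt_X_mono x z n)))
    (rnt_ind_loc (rnt_loc_up hb (rnt_X_loc x z n)))
  rw [rnt_free, rnt_free] at hd
  have hm : amP x false (latBall z M) (fun _ => True) (RnX x z n) ≤ amP x false (latBall z M) (fun _ => True)
      (fun ω => ClSep (clInn x (latBall z M)) true ∅ ω (latBd (latBall z M)) (latBall z n)) := by
    refine rnt_P_mono x hx0 hx1 _ _ _ fun ω hω => ?_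
    unfold RnX at hω
    rw [ann_lay] at hω
    exact dis_sep_sub subset_rfl (rnt_ball_bx z n)
      (ann_sub_sep x _ (latBall z M) _ (hb.trans hB) (rnt_bx_mono z (by omega)) ω hω)
  have he : amP x false (latBall z M) (fun _ => True)
      (fun ω => ClSep (clInn x (latBall z M)) true ∅ ω (latBd (latBall z M)) (latBall z n)) = anU x n M := by
    rw [← ann_P_am]
    exact dis_t23_at x true z M n
  exact (hd.trans hm).trans he.le

/-! ### 5. (REC) -/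

theorem rnt_loc_and {T : Finset TV} {T' : Finset TV} {L₁ L₂ : ClCfg TV TV → Prop} (h₁ : ClLocP T T' L₁) (h₂ : ClLocP T T' L₂) :
    ClLocP T T' (fun ω => L₁ ω ∧ L₂ ω) := fun ω ω' a b c => and_congr (h₁ ω ω' a b c) (h₂ ω ω' a b c)

/-- **STEP 1**: `c_F² U(N, M) ≤ P^-_{Λ_M}[X₁ ∩ X₂]` for two boxes inside `Λ_N` -/
theorem rnt_step1 (x : ℝ) (hx0 : 0 < x) (hx1 : x ≤ 1) (n N M : ℕ) (hNM : N ≤ M) (z₁ z₂ : TV) (cF : ℝ) (hcF : 0 ≤ cF)
    (h₁ : rnBx z₁ (3 * n) ⊆ latBall 0 N) (h₂ : rnBx z₂ (3 * n) ⊆ latBall 0 N)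
    (f₁ : ∀ I, rnBx z₁ (3 * n) ⊆ I → I ⊆ latBall 0 M → cF ≤ amP x true I (fun _ => True) (RnX x z₁ n))
    (f₂ : ∀ I, rnBx z₂ (3 * n) ⊆ I → I ⊆ latBall 0 M → cF ≤ amP x true I (fun _ => True) (RnX x z₂ n)) :
    cF ^ 2 * anU x N M ≤ amP x false (latBall 0 M) (fun _ => True) (fun ω => RnX x z₁ n ω ∧ RnX x z₂ n ω) := by
  have eU : anU x N M = amP x false (latBall 0 M) (fun _ => True)
      (fun ω => ClSep (clInn x (latBall 0 M)) true ∅ ω (amLay (latBall 0 M)) (latBall 0 N)) := by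
    unfold anU; rw [ann_P_am, ann_lay]
  rw [eU]
  refine rnt_search x hx0 hx1 (latBall 0 M) (latBall 0 N) (plh_ball_mono 0 hNM) (cF ^ 2) _
    (rnt_loc_and (rnt_loc_up h₁ (rnt_X_loc x z₁ n)) (rnt_loc_up h₂ (rnt_X_loc x z₂ n))) fun I hAI hID => ?_
  have g₁ := f₁ I (h₁.trans hAI) hID
  have g₂ := f₂ I (h₂.trans hAI) hID
  have hf := rnt_fkg x hx0 hx1 true I (RnX x z₁ n) (RnX x z₂ n) (rnt_mono_up x (h₁.trans hAI) (rnt_X_mono x z₁ n))
    (rnt_mono_up x (h₂.trans hAI) (rnt_X_mono x z₂ n)) (rnt_loc_up (h₁.trans hAI) (rnt_X_loc x z₁ n))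
    (rnt_loc_up (h₂.trans hAI) (rnt_X_loc x z₂ n))
  refine le_trans ?_ hf
  rw [pow_two]
  exact mul_le_mul g₁ g₂ hcF (hcF.trans g₁)

/-- **(REC)** from (PUSH1) and (SEP2) -/
theorem rnt_rec (x : ℝ) (hx1 : 1 / Real.sqrt 2 ≤ x) (hx2 : x ≤ 1) (hP : RnPush1 x) (hS : RnSep2 x) :
    ∃ K0 : ℕ, ∀ K : ℕ, K0 ≤ K → ∃ (ρ : ℕ) (C : ℝ) (n0 : ℕ), 2 ≤ ρ ∧ 0 < C ∧
      ∀ n N : ℕ, n0 ≤ n → ρ * n ≤ N → N ≤ ρ ^ 2 * n → anU x N (2 * K * N) ≤ C * anU x n (2 * K * n) ^ 2 := by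
  have hx0 : 0 < x := lt_of_lt_of_le (by positivity) hx1
  obtain ⟨κ, hκ, hS⟩ := hS
  refine ⟨6 * κ, fun K hK => ?_⟩
  obtain ⟨ρ, hρ⟩ : ∃ ρ : ℕ, ρ = 6 * κ + 6 := ⟨_, rfl⟩
  obtain ⟨c₂, hc₂, r₂, hS⟩ := hS (K * ρ ^ 2)
  obtain ⟨cF, hcF, rF, hF⟩ := rnt_fav x hx0 hx2 hP (2 * K * ρ ^ 2 + 3 * κ)
  refine ⟨ρ, 1 / (cF ^ 2 * c₂), max rF r₂, by omega, by positivity, fun n N hn h1 h2 => ?_⟩
  have hnF : rF ≤ n := le_trans (le_max_left _ _) hn
  have hn2 : r₂ ≤ n := le_trans (le_max_right _ _) hn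
  obtain ⟨g, hg⟩ : ∃ g : ℕ, g = 3 * κ * n := ⟨_, rfl⟩
  -- arithmetic
  have hA1 : 2 * (g + 3 * n) ≤ N := by
    calc 2 * (g + 3 * n) = ρ * n := by rw [hg, hρ]; ring
      _ ≤ N := h1
  have h2n : 2 * n ≤ N := le_trans (Nat.mul_le_mul_right n (by omega)) h1
  have hA2 : 8 * g ≤ 2 * K * N := by
    calc 8 * g = 2 * ((6 * κ) * (2 * n)) := by rw [hg]; ring
      _ ≤ 2 * (K * N) := Nat.mul_le_mul_left 2 (Nat.mul_le_mul hK h2n)
      _ = 2 * K * N := by ring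
  have hKN : K * N ≤ K * (ρ ^ 2 * n) := Nat.mul_le_mul_left K h2
  have hA3 : 2 * K * N ≤ K * ρ ^ 2 * (3 * n) := by
    calc 2 * K * N = 2 * (K * N) := by ring
      _ ≤ 2 * (K * (ρ ^ 2 * n)) := Nat.mul_le_mul_left 2 hKN
      _ ≤ 3 * (K * (ρ ^ 2 * n)) := Nat.mul_le_mul_right _ (by norm_num)
      _ = K * ρ ^ 2 * (3 * n) := by ring
  have hκn : n ≤ κ * n := Nat.le_mul_of_pos_left n hκ
  have hA4 : 3 * n ≤ 2 * g := by
    rw [hg]
    calc 3 * n ≤ 6 * (κ * n) := by omega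
      _ = 2 * (3 * κ * n) := by ring
  have hA5 : 4 * g ≤ 2 * K * n := by
    calc 4 * g = 2 * (6 * κ) * n := by rw [hg]; ring
      _ ≤ 2 * K * n := Nat.mul_le_mul_right n (Nat.mul_le_mul_left 2 hK)
  have hA6 : 2 * K * N + g ≤ (2 * K * ρ ^ 2 + 3 * κ) * n := by
    calc 2 * K * N + g = 2 * (K * N) + 3 * κ * n := by rw [hg]; ring
      _ ≤ 2 * (K * (ρ ^ 2 * n)) + 3 * κ * n := Nat.add_le_add_right (Nat.mul_le_mul_left 2 hKN) _
      _ = (2 * K * ρ ^ 2 + 3 * κ) * n := by ring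
  have hA7 : κ * (3 * n) ≤ g := by rw [hg]; exact le_of_eq (by ring)
  have hNM : N ≤ 2 * K * N := by
    have : 1 ≤ 2 * K := by omega
    calc N = 1 * N := (one_mul N).symm
      _ ≤ 2 * K * N := Nat.mul_le_mul_right N this
  -- geometry
  have hin : ∀ z : TV, |z.1| = g → z.2 = 0 → rnBx z (3 * n) ⊆ latBall 0 N := by
    intro z hz1 hz2
    refine (rnt_bx_sub (v := 0) (r' := ((g + 3 * n : ℕ) : ℤ)) ?_ ?_).trans (rnt_bx_ball 0 (by exact_mod_cast hA1))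
    · simp only [Prod.fst_zero, sub_zero, hz1]; push_cast; omega
    · simp only [Prod.snd_zero, sub_zero, hz2, abs_zero]; push_cast; omega
  have hout : ∀ z : TV, |z.1| = g → z.2 = 0 → latBall 0 (2 * K * N) ⊆ rnBx z (((2 * K * ρ ^ 2 + 3 * κ : ℕ) : ℤ) * n) := by
    intro z hz1 hz2
    refine (rnt_ball_bx 0 _).trans (rnt_bx_sub ?_ ?_)
    · have : ((2 * K * N + g : ℕ) : ℤ) ≤ ((2 * K * ρ ^ 2 + 3 * κ : ℕ) : ℤ) * n := by exact_mod_cast hA6
      simp only [Prod.fst_zero, zero_sub, abs_neg, hz1]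
      push_cast at this ⊢; omega
    · have : ((2 * K * N + g : ℕ) : ℤ) ≤ ((2 * K * ρ ^ 2 + 3 * κ : ℕ) : ℤ) * n := by exact_mod_cast hA6
      simp only [Prod.snd_zero, zero_sub, abs_neg, hz2, abs_zero]
      push_cast at this ⊢; omega
  have hz₁ : |((-(g : ℤ), 0) : TV).1| = g := by simp
  have hz₂ : |(((g : ℤ), 0) : TV).1| = g := by simp
  -- Step 1
  have s1 := rnt_step1 x hx0 hx2 n N (2 * K * N) hNM (-(g : ℤ), 0) ((g : ℤ), 0) cF hcF.le (hin _ hz₁ rfl) (hin _ hz₂ rfl)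
    (fun I a b => hF n _ I hnF a (b.trans (hout _ hz₁ rfl))) (fun I a b => hF n _ I hnF a (b.trans (hout _ hz₂ rfl)))
  -- Step 2
  have e3 : ((3 * n : ℕ) : ℤ) = 3 * (n : ℤ) := by push_cast; ring
  have s2 := hS (3 * n) g (latBall 0 (2 * K * N)) (RnX x (-(g : ℤ), 0) n) (RnX x ((g : ℤ), 0) n) (by omega) hA7
    (rnt_bx_ball 0 (by exact_mod_cast (by omega : 2 * (4 * g) ≤ 2 * K * N)))
    ((rnt_ball_bx 0 _).trans (rnt_bx_mono 0 (by exact_mod_cast hA3)))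
    (by rw [e3]; exact rnt_X_mono x _ n) (by rw [e3]; exact rnt_X_loc x _ n)
    (by rw [e3]; exact rnt_X_mono x _ n) (by rw [e3]; exact rnt_X_loc x _ n)
  -- Step 3
  have s3 := rnt_to_U x hx0 hx2 (-(g : ℤ), 0) n g (2 * K * n) hA4 hA5
  have s4 := rnt_to_U x hx0 hx2 ((g : ℤ), 0) n g (2 * K * n) hA4 hA5
  have p3 : 0 ≤ amP x false (rnBx (-(g : ℤ), 0) (2 * g)) (fun _ => True) (RnX x (-(g : ℤ), 0) n) :=
    rnt_E_nonneg x hx0 hx2 _ _ _ (dis_ind_nonneg _)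
  have p4 : 0 ≤ amP x false (rnBx ((g : ℤ), 0) (2 * g)) (fun _ => True) (RnX x ((g : ℤ), 0) n) :=
    rnt_E_nonneg x hx0 hx2 _ _ _ (dis_ind_nonneg _)
  have s5 := mul_le_mul s3 s4 p4 (p3.trans s3)
  have s6 : c₂ * (cF ^ 2 * anU x N (2 * K * N)) ≤ anU x n (2 * K * n) * anU x n (2 * K * n) :=
    (mul_le_mul_of_nonneg_left s1 hc₂.le).trans (s2.trans s5)
  rw [div_mul_eq_mul_div, one_mul, le_div_iff₀ (by positivity)]
  nlinarith [s6]

end Claimed.Agent.R291
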