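import Claimed.Agent.R291.Glue.AdaptTip
import Claimed.Agent.R291.Glue.AdaptT
import Claimed.Agent.R291.Pl.StripBar
import Claimed.Agent.R291.Ann.RswPl

/-!
# Row 291 (S0539), unit ANN, block A3 PART II (L-TIP), Ann/RswAsm : THE LAST GLUE OF THE TIP, CLASS OF THE UP-CELLS      (owner helper143; prefix `rsa_`)      complete (0 sorry)      CAPOK (link (T1) of the order of 24, 08:24Z: own file, must not import RswGlue)

TEX[annulus:RSW] TEX[annulus:gluing]
* `rsa_tip_geo`, **`rsa_tip_true`** (= `rsg_est_tip` at `T = true`), **`rsa_tube_true`** (= `rsg_est_tube` at `T = true`) LIVE IN `Glue/AdaptTip.lean` §6, §7 (copied there by helper187): this file imports it, so `import Ann.RswAsm` sees them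
* `rsa_strip_geo`, **`rsa_strip_rec`**   `GatStrip` (helper1, `Glue/AdaptT`) from `RdiGeo` + `HxrPair`; at the record
-/

set_option autoImplicit false
set_option linter.unusedSectionVars false
set_option linter.unusedVariables false

namespace Claimed.Agent.R291

open Relation Claims Claims.C0467

/-! ## the strip facts `GatStrip` (helper1) at the geometry of 182, and (L-TUBE), class true -/

/-- **`GatStrip` from the geometry of the index lattice** (class true) -/
theorem rsa_strip_geo {x : ℝ} (hx0 : 0 < x) (hx1 : x ≤ 1) (hh : 1 / 2 ≤ x ^ 2) {y0 y1 xm xM : ℤ} {a c : Set TV} {i w i' w' : ℤ} {I J : Set TV} {pa qa pc qc : TV}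
    (G : RdiGeo xm xM y0 y1 (hxrQ y0 y1 xm xM a c) (rsrSgL xm y0 y1 i w) I a (rsrSgR xM y0 y1 i' w') J c)
    (hI : I ⊆ rswRect xm xM y0 y1) (hJ : J ⊆ rswRect xm xM y0 y1) (H : HxrPair y0 y1 xm xM a c pa qa pc qc) :
    GatStrip x y0 y1 xm xM a c (rsgM ⟨true, y0, y1, xm, xM, a, c⟩) (rsgQ ⟨true, y0, y1, xm, xM, a, c⟩) (rsgLa ⟨true, y0, y1, xm, xM, a, c⟩)
      (rsgLc ⟨true, y0, y1, xm, xM, a, c⟩) (rsgLd ⟨true, y0, y1, xm, xM, a, c⟩) (rsgLb ⟨true, y0, y1, xm, xM, a, c⟩) (rsgCb ⟨true, y0, y1, xm, xM, a, c⟩) := by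
  set D : RsgDat := ⟨true, y0, y1, xm, xM, a, c⟩ with hD
  have G' : RdiGeo D.xm D.xM D.y0 D.y1 (hxrQ D.y0 D.y1 D.xm D.xM D.a D.c) (rsrSgL D.xm D.y0 D.y1 i w) I D.a (rsrSgR D.xM D.y0 D.y1 i' w') J D.c := G
  have H' : HxrPair D.y0 D.y1 D.xm D.xM D.a D.c pa qa pc qc := H
  exact
    { strip := rdi_rsg_strip hx0 hx1 hh D G'
      sc := rdi_rsg_sc G'
      lay := rdi_rsg_lay G'
      cb := rdi_rsg_glCb rfl
      pcl := psb_rsg_strip D G' hI hJ H'
      memM := fun y => rdi_rsg_M (D := D) G.sub y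
      memQ := fun s => by
        unfold rsgQ
        rw [Finset.mem_biUnion]
        rfl
      memLa := fun s => rdi_rsg_side true (rsgQ D) a s
      memLc := fun s => rdi_rsg_side true (rsgQ D) c s
      memLd := fun s => Finset.mem_filter
      memLb := fun s => Finset.mem_filter }

/-- **`GatStrip` at the record** (class true) -/
theorem rsa_strip_rec {x : ℝ} (hx0 : 0 < x) (hx1 : x ≤ 1) (hh : 1 / 2 ≤ x ^ 2) {c d w σ m e : ℤ} {P : Set TV} (hcd : c < d) (hw : 1 ≤ w) (hσ : 2 * w < σ)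
    (he : w + 4 ≤ e) (h0 : RplG0 c d w σ m e P) (h1 : ¬ RsgT1 (rplA c d w σ m e P) (rplC c d w σ m e P))
    (h2 : ¬ RsgT2 c d (rplA c d w σ m e P) (rplC c d w σ m e P)) :
    GatStrip x c d (m - e) (m + σ + e) (rplA c d w σ m e P) (rplC c d w σ m e P) (rsgM (rplD true c d w σ m e P)) (rsgQ (rplD true c d w σ m e P))
      (rsgLa (rplD true c d w σ m e P)) (rsgLc (rplD true c d w σ m e P)) (rsgLd (rplD true c d w σ m e P)) (rsgLb (rplD true c d w σ m e P))
      (rsgCb (rplD true c d w σ m e P)) := by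
  obtain ⟨pa, qa, pc, qc, H, -⟩ := rpl_pair hcd hw hσ he h0 h1
  have G := rdi_geo_rec (P := P) H (fun z hz => rpl_look hcd hw (by omega) he h0 hz) (fun y hy h => h2 ⟨y, hy, h.1, h.2⟩)
  exact rsa_strip_geo hx0 hx1 hh G (fun z hz => (rpl_I_sub hz).1) (fun z hz => (rpl_J_sub hz).1) H

end Claimed.Agent.R291
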