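import Claimed.Agent.R291.Ann.RswRec
import Claimed.Agent.R291.Pl.Place
import Claimed.Agent.R291.Glue.Double
import Claimed.Agent.R291.Pl.StripQ
import Claimed.Agent.R291.Pl.Record
import Claimed.Agent.R291.Defs.RswStrip

/-!
# Row 291 (S0539), Ann/RswDict : BLOCK A3 = RSW (56), PART II (D) = THE DICTIONARY  record -> strip      (owner helper182; prefix `rdi_`, `Rdi`, `rdi`)

Design: 36, 07:00Z (items 1-3).   Cells = indices `z : TV` (adjacent iff they share a site), `rdiCs T z` = the sites of the cell (`cellV` / `cellD`).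
`R` = box of indices, `AA`, `CC` = the two solid sides, `Fr = R \ (AA ∪ CC)` = the free cells, `M` = the free cells joined inside `Fr` to a neighbour of `AA` and to a neighbour of `CC`, `Q` = sites of `M`.
-/

set_option autoImplicit false
set_option linter.unusedSectionVars false
set_option linter.unusedVariables false

namespace Claimed.Agent.R291

open Claims Claims.C0467 Relation

/-! ## §1 cells and sites, both classes -/

/-- the sites of the cell of index `z` and class `T` -/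
def rdiCs (T : Bool) (z : TV) : Finset TV := if T then cellV z else cellD z

theorem rdi_mem_V (z u : TV) : u ∈ rdiCs true z ↔
    (u.1 = z.1 ∧ u.2 = z.2) ∨ (u.1 = z.1 + 1 ∧ u.2 = z.2) ∨ (u.1 = z.1 ∧ u.2 = z.2 + 1) := by
  simp [rdiCs, cellV, Prod.ext_iff]

theorem rdi_mem_D (z u : TV) : u ∈ rdiCs false z ↔
    (u.1 = z.1 + 1 ∧ u.2 = z.2) ∨ (u.1 = z.1 ∧ u.2 = z.2 + 1) ∨ (u.1 = z.1 + 1 ∧ u.2 = z.2 + 1) := by
  simp [rdiCs, cellD, Prod.ext_iff]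

/-- two sites of one cell are equal or adjacent -/
theorem rdi_cs_adj {T : Bool} {z u v : TV} (hu : u ∈ rdiCs T z) (hv : v ∈ rdiCs T z) : u = v ∨ triAdj u v := by
  rw [tsc_adj_iff, Prod.ext_iff]
  cases T
  · rw [rdi_mem_D] at hu hv; omega
  · rw [rdi_mem_V] at hu hv; omega

/-- two cells with a common site are equal or adjacent -/
theorem rdi_cs_share {T : Bool} {z z' u : TV} (hu : u ∈ rdiCs T z) (hu' : u ∈ rdiCs T z') : z = z' ∨ triAdj z z' := by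
  rw [tsc_adj_iff, Prod.ext_iff]
  cases T
  · rw [rdi_mem_D] at hu hu'; omega
  · rw [rdi_mem_V] at hu hu'; omega

/-- two adjacent cells have a common site -/
theorem rdi_adj_share (T : Bool) {z z' : TV} (h : triAdj z z') : ∃ u, u ∈ rdiCs T z ∧ u ∈ rdiCs T z' := by
  rw [tsc_adj_iff] at h
  cases T
  · simp only [rdi_mem_D]
    rcases h with h | h | h | h | h | h
    · exact ⟨(z.1 + 1, z.2 + 1), by simp, by simp; omega⟩
    · exact ⟨(z.1 + 1, z.2 + 1), by simp, by simp; omega⟩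
    · exact ⟨(z.1, z.2 + 1), by simp, by simp; omega⟩
    · exact ⟨(z.1, z.2 + 1), by simp, by simp; omega⟩
    · exact ⟨(z.1 + 1, z.2), by simp, by simp; omega⟩
    · exact ⟨(z.1 + 1, z.2), by simp, by simp; omega⟩
  · simp only [rdi_mem_V]
    rcases h with h | h | h | h | h | h
    · exact ⟨(z.1 + 1, z.2), by simp, by simp; omega⟩
    · exact ⟨(z.1, z.2 + 1), by simp, by simp; omega⟩
    · exact ⟨(z.1, z.2 + 1), by simp, by simp; omega⟩
    · exact ⟨(z.1, z.2), by simp, by simp; omega⟩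
    · exact ⟨(z.1, z.2), by simp, by simp; omega⟩
    · exact ⟨(z.1 + 1, z.2), by simp, by simp; omega⟩

/-- every edge of the lattice lies in a cell of the class -/
theorem rdi_edge_cell (T : Bool) {u v : TV} (h : triAdj u v) : ∃ z, u ∈ rdiCs T z ∧ v ∈ rdiCs T z := by
  rw [tsc_adj_iff] at h
  cases T
  · simp only [rdi_mem_D]
    rcases h with h | h | h | h | h | h
    · exact ⟨(u.1, u.2 - 1), by simp, by simp; omega⟩
    · exact ⟨(u.1 - 1, u.2), by simp, by simp; omega⟩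
    · exact ⟨(u.1 - 1, u.2), by simp, by simp; omega⟩
    · exact ⟨(u.1 - 1, u.2 - 1), by simp, by simp; omega⟩
    · exact ⟨(u.1 - 1, u.2 - 1), by simp, by simp; omega⟩
    · exact ⟨(u.1, u.2 - 1), by simp, by simp; omega⟩
  · simp only [rdi_mem_V]
    rcases h with h | h | h | h | h | h
    · exact ⟨(u.1, u.2), by simp, by simp; omega⟩
    · exact ⟨(u.1, u.2), by simp, by simp; omega⟩
    · exact ⟨(u.1 - 1, u.2), by simp, by simp; omega⟩
    · exact ⟨(u.1 - 1, u.2), by simp, by simp; omega⟩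
    · exact ⟨(u.1, u.2 - 1), by simp, by simp; omega⟩
    · exact ⟨(u.1, u.2 - 1), by simp, by simp; omega⟩

/-- every site lies in a cell of the class -/
theorem rdi_site_cell (T : Bool) (u : TV) : ∃ z, u ∈ rdiCs T z := by
  cases T
  · exact ⟨(u.1 - 1, u.2), by rw [rdi_mem_D]; simp⟩
  · exact ⟨u, by rw [rdi_mem_V]; simp⟩

theorem rdi_cs_nonempty (T : Bool) (z : TV) : ∃ u, u ∈ rdiCs T z := by
  cases T
  · exact ⟨(z.1 + 1, z.2), by rw [rdi_mem_D]; simp⟩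
  · exact ⟨z, by rw [rdi_mem_V]; simp⟩

/-- the sites of a set of cells -/
def rdiSt (T : Bool) (M : Set TV) : Set TV := {u | ∃ z ∈ M, u ∈ rdiCs T z}

theorem rdi_eqns_cite : True := by
  have := @rdiCs.eq_1
  have := @rdiSt.eq_1
  trivial

/-! ## §2 chains of cells off `M`, paths of sites off `Q = rdiSt T M` -/

/-- the cell and its six neighbours are off `M` -/
def RdiIn (M : Set TV) (y : TV) : Prop := y ∉ M ∧ ∀ w, triAdj y w → w ∉ M

/-- a step of a chain: two adjacent cells off `M`, one of them with all its neighbours off `M` -/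
def RdiE (M : Set TV) (y y' : TV) : Prop := triAdj y y' ∧ y ∉ M ∧ y' ∉ M ∧ (RdiIn M y ∨ RdiIn M y')

/-- the cell escapes from `R` along a chain -/
def RdiEsc (M R : Set TV) (y : TV) : Prop := ∃ y', ReflTransGen (RdiE M) y y' ∧ y' ∉ R

theorem rdi_eqns_cite2 : True := by
  have := @RdiIn.eq_1
  have := @RdiE.eq_1
  have := @RdiEsc.eq_1
  trivial

theorem rdi_in_site {T : Bool} {M : Set TV} {y u : TV} (hy : RdiIn M y) (hu : u ∈ rdiCs T y) : u ∉ rdiSt T M := by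
  rintro ⟨z, hz, huz⟩
  rcases rdi_cs_share hu huz with rfl | h
  · exact hy.1 hz
  · exact hy.2 z h hz

theorem rdi_E_site (T : Bool) {M : Set TV} {y y' : TV} (h : RdiE M y y') : ∃ s, s ∈ rdiCs T y ∧ s ∈ rdiCs T y' ∧ s ∉ rdiSt T M := by
  obtain ⟨s, h1, h2⟩ := rdi_adj_share T h.1
  refine ⟨s, h1, h2, ?_⟩
  rcases h.2.2.2 with hi | hi
  · exact rdi_in_site hi h1
  · exact rdi_in_site hi h2

/-- a chain of cells gives a path of sites off `Q` -/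
theorem rdi_chain (T : Bool) {M : Set TV} {y y' : TV} (h : ReflTransGen (RdiE M) y y') {s0 : TV} (hs0 : s0 ∈ rdiCs T y) (hs0' : s0 ∉ rdiSt T M) :
    ∃ s, s ∈ rdiCs T y' ∧ s ∉ rdiSt T M ∧ ReflTransGen (fun a b => triAdj a b ∧ b ∉ rdiSt T M) s0 s := by
  induction h with
  | refl => exact ⟨s0, hs0, hs0', ReflTransGen.refl⟩
  | tail _ hbc ih =>
    obtain ⟨s, h1, h2, h3⟩ := ih
    obtain ⟨s', g1, g2, g3⟩ := rdi_E_site T hbc
    refine ⟨s', g2, g3, ?_⟩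
    rcases rdi_cs_adj h1 g1 with rfl | h
    · exact h3
    · exact h3.tail ⟨h, g3⟩

theorem rdi_esc_out {M R : Set TV} {y : TV} (hy : y ∉ R) : RdiEsc M R y := ⟨y, ReflTransGen.refl, hy⟩

theorem rdi_esc_step {M R : Set TV} {y y' : TV} (h : RdiE M y y') (h' : RdiEsc M R y') : RdiEsc M R y := by
  obtain ⟨z, hz, hzR⟩ := h'
  exact ⟨z, ReflTransGen.head h hz, hzR⟩

theorem rdi_esc_path {M R : Set TV} {y y' : TV} (h : ReflTransGen (RdiE M) y y') (h' : RdiEsc M R y') : RdiEsc M R y := by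
  obtain ⟨z, hz, hzR⟩ := h'
  exact ⟨z, h.trans hz, hzR⟩

/-- a path inside a set of cells which are far from `M` is a chain -/
theorem rdi_path_E {M S : Set TV} (hS : ∀ b ∈ S, RdiIn M b) {y w : TV} (h : TscR tscG S y w) : ReflTransGen (RdiE M) y w := by
  induction h with
  | refl => exact ReflTransGen.refl
  | tail _ hbc ih => exact ih.tail ⟨hbc.1, (hS _ hbc.2.1).1, (hS _ hbc.2.2).1, Or.inl (hS _ hbc.2.1)⟩

/-- **NO HOLE, abstract form**: if every cell off `M` escapes from `R` along a chain, the set of the sites of `M` is simply connected -/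
theorem rdi_nohole (T : Bool) {M R RS : Set TV} (hRS : TriSCOn (ZMod 2) tscG RS) (hfin : RS.Finite) (hQ : rdiSt T M ⊆ RS)
    (hout : ∀ y, y ∉ R → ∃ t ∈ rdiCs T y, t ∉ RS) (hesc : ∀ y, y ∉ M → RdiEsc M R y) : TriSCOn (ZMod 2) tscG (rdiSt T M) := by
  have e : rdiSt T M = RS \ (RS \ rdiSt T M) := by
    ext u
    constructor
    · intro hu; exact ⟨hQ hu, fun h => h.2 hu⟩
    · rintro ⟨h1, h2⟩
      by_contra h3
      exact h2 ⟨h1, h3⟩
  rw [e]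
  refine hxp_sc_diff hRS (hfin.subset Set.sdiff_subset) Set.sdiff_subset ?_
  rintro d ⟨hd, hdQ⟩
  obtain ⟨y, hy⟩ := rdi_site_cell T d
  have hyM : y ∉ M := fun h => hdQ ⟨y, h, hy⟩
  obtain ⟨y', hp, hy'⟩ := hesc y hyM
  obtain ⟨s, h1, h2, h3⟩ := rdi_chain T hp hy hdQ
  obtain ⟨t, ht, htRS⟩ := hout y' hy'
  have hmono : ∀ a b, (triAdj a b ∧ b ∉ rdiSt T M) → (triAdj a b ∧ b ∉ RS \ (RS \ rdiSt T M)) := by
    rintro a b ⟨h, hb⟩
    exact ⟨h, by rw [← e]; exact hb⟩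
  refine ⟨t, htRS, ?_⟩
  have h4 := ReflTransGen.mono hmono _ _ h3
  rcases rdi_cs_adj h1 ht with rfl | h
  · exact h4
  · exact h4.tail ⟨h, fun h' => htRS h'.1⟩

/-! ## §3 escapes -/

/-- a path which starts off `I` stays off `I` or hits `I` -/
theorem rdi_hit {V : Type*} {G : SimpleGraph V} {S I : Set V} {y z : V} (h : TscR G S y z) (hyS : y ∈ S) (hy : y ∉ I) :
    TscR G (S \ I) y z ∨ ∃ w v, TscR G (S \ I) y w ∧ G.Adj w v ∧ v ∈ S ∧ v ∈ I := by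
  induction h with
  | refl => exact Or.inl ReflTransGen.refl
  | @tail b c _ hbc ih =>
    rcases ih with ih | ih
    · by_cases hc : c ∈ I
      · exact Or.inr ⟨b, c, ih, hbc.1, hbc.2.2, hc⟩
      · exact Or.inl (ih.tail ⟨hbc.1, tsc_R_mem ih ⟨hyS, hy⟩, ⟨hbc.2.2, hc⟩⟩)
    · exact Or.inr ih

/-- **one explored side**: `I` = explored cluster (far from `M`, joined inside itself to the arc `σ`), `a` = its layer -/
structure RdiSide (M R σ I a : Set TV) : Prop where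
  inI : ∀ i ∈ I, RdiIn M i
  toσ : ∀ i ∈ I, ∃ t ∈ I, t ∈ R ∩ σ ∧ TscR tscG I i t
  σM : ∀ z ∈ R ∩ σ, z ∉ M
  out : ∀ z ∈ R ∩ σ, ∃ o, o ∉ R ∧ triAdj z o ∧ ∀ w ∈ R, triAdj o w → w ∈ σ
  lay : ∀ z ∈ a, z ∈ R ∧ z ∉ M ∧ (z ∈ σ ∨ ∃ i ∈ I, triAdj i z)

theorem rdi_side_σ {M R σ I a : Set TV} (hM : M ⊆ R) (h : RdiSide M R σ I a) {z : TV} (hz : z ∈ R ∩ σ) : RdiEsc M R z := by
  obtain ⟨o, ho, hzo, hw⟩ := h.out z hz
  have hoM : o ∉ M := fun h' => ho (hM h')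
  refine rdi_esc_step ⟨hzo, h.σM z hz, hoM, Or.inr ⟨hoM, fun w how hwM => ?_⟩⟩ (rdi_esc_out ho)
  exact h.σM w ⟨hM hwM, hw w (hM hwM) how⟩ hwM

theorem rdi_side_I {M R σ I a : Set TV} (hM : M ⊆ R) (h : RdiSide M R σ I a) {i : TV} (hi : i ∈ I) : RdiEsc M R i := by
  obtain ⟨t, _, htσ, hp⟩ := h.toσ i hi
  exact rdi_esc_path (rdi_path_E h.inI hp) (rdi_side_σ hM h htσ)

theorem rdi_side_a {M R σ I a : Set TV} (hM : M ⊆ R) (h : RdiSide M R σ I a) {z : TV} (hz : z ∈ a) : RdiEsc M R z := by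
  obtain ⟨hzR, hzM, hσ | ⟨i, hi, hiz⟩⟩ := h.lay z hz
  · exact rdi_side_σ hM h ⟨hzR, hσ⟩
  · exact rdi_esc_step ⟨tscG.symm.symm _ _ hiz, hzM, (h.inI i hi).1, Or.inr (h.inI i hi)⟩ (rdi_side_I hM h hi)

/-- **every cell off `M` escapes**: two explored sides, and only the cells of the two layers touch `M` -/
theorem rdi_esc {M R σ I a σ' J c : Set TV} (hM : M ⊆ R) (h1 : RdiSide M R σ I a) (h2 : RdiSide M R σ' J c)
    (hbd : ∀ y ∈ R, y ∉ M → y ∉ a → y ∉ c → ∀ w, triAdj y w → w ∉ M) (hlow : ∃ k : ℤ, ∀ z ∈ R, k ≤ z.2) :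
    ∀ y, y ∉ M → RdiEsc M R y := by
  intro y hyM
  by_cases hyR : y ∈ R
  swap
  · exact rdi_esc_out hyR
  by_cases hya : y ∈ a
  · exact rdi_side_a hM h1 hya
  by_cases hyc : y ∈ c
  · exact rdi_side_a hM h2 hyc
  obtain ⟨k, hk⟩ := hlow
  -- walk down
  have hp : TscR tscG (Set.univ : Set TV) (y.1, y.2) (y.1, k - 1) := tsc_R_vseg fun _ _ _ => Set.mem_univ _
  set B : Set TV := {v | v ∉ R ∨ v ∈ M ∨ v ∈ a ∨ v ∈ c} with hB
  have hyB : (y.1, y.2) ∉ B := by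
    rintro (h | h | h | h)
    exacts [h hyR, hyM h, hya h, hyc h]
  have hin : ∀ b ∈ (Set.univ : Set TV) \ B, RdiIn M b := by
    rintro b ⟨_, hb⟩
    have hbR : b ∈ R := by by_contra h; exact hb (Or.inl h)
    have hbM : b ∉ M := fun h => hb (Or.inr (Or.inl h))
    exact ⟨hbM, hbd b hbR hbM (fun h => hb (Or.inr (Or.inr (Or.inl h)))) (fun h => hb (Or.inr (Or.inr (Or.inr h))))⟩
  rcases rdi_hit hp (Set.mem_univ _) hyB with h | ⟨w, v, hw, hwv, _, hv⟩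
  · exfalso
    have := (tsc_R_mem h ⟨Set.mem_univ _, hyB⟩).2
    refine this (Or.inl fun h' => ?_)
    have := hk _ h'
    simp only at this
    omega
  · have hwin : RdiIn M w := hin w (tsc_R_mem hw ⟨Set.mem_univ _, hyB⟩)
    have hvM : v ∉ M := hwin.2 v hwv
    refine rdi_esc_path (rdi_path_E hin hw) (rdi_esc_step ⟨hwv, hwin.1, hvM, Or.inl hwin⟩ ?_)
    rcases hv with h | h | h | h
    · exact rdi_esc_out h
    · exact (hvM h).elim
    · exact rdi_side_a hM h1 h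
    · exact rdi_side_a hM h2 h

/-! ## §4 rectangles -/

theorem rdi_rect_sc (A B c d : ℤ) : TriSCOn (ZMod 2) tscG (rswRect A B c d) := by
  have h := pla_reg_sc (l := plaXl A) (r := plaXr B) (c := c) (d := d) (ZMod 2) (pla_stair_Xl A)
  rw [pla_reg_rect] at h
  exact h

theorem rdi_rect_finite (A B c d : ℤ) : (rswRect A B c d).Finite := by
  refine (tsc_box_finite ((A - d) / 2) ((B - c) / 2) c d).subset ?_
  rintro ⟨i, j⟩ ⟨h1, h2, h3, h4⟩
  simp only [rswX] at h1 h2 h3 h4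
  refine ⟨?_, ?_, h3, h4⟩ <;> simp only <;> omega

/-- the rectangle of the sites of the cells of the rectangle `rswRect A B c d` -/
def rdiRS (T : Bool) (A B c d : ℤ) : Set TV := if T then rswRect A (B + 2) c (d + 1) else rswRect (A + 1) (B + 3) c (d + 1)

theorem rdi_eqns_cite3 : True := by
  have := @rdiRS.eq_1
  trivial

theorem rdi_RS_sc (T : Bool) (A B c d : ℤ) : TriSCOn (ZMod 2) tscG (rdiRS T A B c d) := by
  cases T
  · exact rdi_rect_sc _ _ _ _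
  · exact rdi_rect_sc _ _ _ _

theorem rdi_RS_finite (T : Bool) (A B c d : ℤ) : (rdiRS T A B c d).Finite := by
  cases T
  · exact rdi_rect_finite _ _ _ _
  · exact rdi_rect_finite _ _ _ _

theorem rdi_RS_sub (T : Bool) {A B c d : ℤ} {M : Set TV} (hM : M ⊆ rswRect A B c d) : rdiSt T M ⊆ rdiRS T A B c d := by
  rintro u ⟨z, hz, hu⟩
  obtain ⟨h1, h2, h3, h4⟩ := hM hz
  simp only [rswX] at h1 h2
  cases T
  · rw [rdi_mem_D] at hu
    refine ⟨?_, ?_, ?_, ?_⟩ <;> first | omega | (simp only [rswX]; omega)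
  · rw [rdi_mem_V] at hu
    refine ⟨?_, ?_, ?_, ?_⟩ <;> first | omega | (simp only [rswX]; omega)

theorem rdi_RS_out (T : Bool) {A B c d : ℤ} {y : TV} (hy : y ∉ rswRect A B c d) : ∃ t ∈ rdiCs T y, t ∉ rdiRS T A B c d := by
  have hy' : rswX y < A ∨ B < rswX y ∨ y.2 < c ∨ d < y.2 := by
    by_contra h
    push Not at h
    exact hy ⟨h.1, h.2.1, h.2.2.1, h.2.2.2⟩
  simp only [rswX] at hy'
  cases T
  · rcases hy' with h | h | h | h
    · exact ⟨(y.1, y.2 + 1), by rw [rdi_mem_D]; simp, fun h' => by have := h'.1; simp only [rswX] at this; omega⟩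
    · exact ⟨(y.1 + 1, y.2 + 1), by rw [rdi_mem_D]; simp, fun h' => by have := h'.2.1; simp only [rswX] at this; omega⟩
    · exact ⟨(y.1 + 1, y.2), by rw [rdi_mem_D]; simp, fun h' => by have := h'.2.2.1; simp only at this; omega⟩
    · exact ⟨(y.1, y.2 + 1), by rw [rdi_mem_D]; simp, fun h' => by have := h'.2.2.2; simp only at this; omega⟩
  · rcases hy' with h | h | h | h
    · exact ⟨(y.1, y.2), by rw [rdi_mem_V]; simp, fun h' => by have := h'.1; simp only [rswX] at this; omega⟩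
    · exact ⟨(y.1 + 1, y.2), by rw [rdi_mem_V]; simp, fun h' => by have := h'.2.1; simp only [rswX] at this; omega⟩
    · exact ⟨(y.1, y.2), by rw [rdi_mem_V]; simp, fun h' => by have := h'.2.2.1; simp only at this; omega⟩
    · exact ⟨(y.1, y.2 + 1), by rw [rdi_mem_V]; simp, fun h' => by have := h'.2.2.2; simp only at this; omega⟩

/-- **NO HOLE**: the sites of `M` form a simply connected set -/
theorem rdi_sc (T : Bool) {A B c d : ℤ} {M σ I a σ' J c' : Set TV} (hM : M ⊆ rswRect A B c d) (h1 : RdiSide M (rswRect A B c d) σ I a)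
    (h2 : RdiSide M (rswRect A B c d) σ' J c')
    (hbd : ∀ y ∈ rswRect A B c d, y ∉ M → y ∉ a → y ∉ c' → ∀ w, triAdj y w → w ∉ M) : TriSCOn (ZMod 2) tscG (rdiSt T M) :=
  rdi_nohole T (rdi_RS_sc T A B c d) (rdi_RS_finite T A B c d) (rdi_RS_sub T hM) (fun y hy => rdi_RS_out T hy)
    (rdi_esc hM h1 h2 hbd ⟨c, fun z hz => hz.2.2.1⟩)

/-! ## §5 connectivity -/

theorem rdi_st_conn (T : Bool) {M : Set TV} (h : TscConn tscG M) : TscConn tscG (rdiSt T M) := by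
  rintro u ⟨z, hz, hu⟩ v ⟨z', hz', hv⟩
  have key : ∀ b, TscR tscG M z b → ∀ s ∈ rdiCs T b, TscR tscG (rdiSt T M) u s := by
    intro b hb
    induction hb with
    | refl =>
      intro s hs
      rcases rdi_cs_adj hu hs with rfl | h'
      · exact ReflTransGen.refl
      · exact tsc_R_step h' ⟨z, hz, hu⟩ ⟨z, hz, hs⟩
    | @tail b c _ hbc ih =>
      intro s hs
      obtain ⟨t, ht1, ht2⟩ := rdi_adj_share T hbc.1
      have h1 := ih t ht1
      rcases rdi_cs_adj ht2 hs with rfl | h'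
      · exact h1
      · exact h1.tail ⟨h', ⟨c, hbc.2.2, ht2⟩, ⟨c, hbc.2.2, hs⟩⟩
  exact key z' (h z hz z' hz') v hv

/-! ## §6 the closed system of class `T` on `Q` -/

/-- `S` is the closed system of class `T` on `Q`: all the cells of the class which meet `Q`, clipped -/
structure RdiSys (x : ℝ) (T : Bool) (Q : Finset TV) (S : ClSys TV TV) : Prop where
  A : S.A = Q
  C : ∀ y, y ∈ S.C ↔ ∃ u ∈ rdiCs T y, u ∈ Q
  sv : ∀ y, S.sv y = rdiCs T y ∩ Q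
  q : ∀ y, S.q y = x ^ 2 ∨ S.q y = x

theorem rdi_cs_card (T : Bool) (y : TV) : (rdiCs T y).card ≤ 3 := by
  cases T
  · exact Finset.card_le_three
  · exact Finset.card_le_three

section sys

variable {x : ℝ} {T : Bool} {Q : Finset TV} {S : ClSys TV TV}

theorem rdi_sys_ok (hx0 : 0 < x) (hx1 : x ≤ 1) (hS : RdiSys x T Q S) : ClOk S where
  sub := fun y _ => by rw [hS.sv, hS.A]; exact Finset.inter_subset_right
  ne := fun y hy => by
    obtain ⟨u, hu, huQ⟩ := (hS.C y).1 hy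
    exact ⟨u, by rw [hS.sv]; exact Finset.mem_inter.2 ⟨hu, huQ⟩⟩
  q0 := fun y _ => by rcases hS.q y with h | h <;> rw [h] <;> positivity
  q1 := fun y _ => by
    rcases hS.q y with h | h <;> rw [h]
    · exact pow_le_one₀ hx0.le hx1
    · exact hx1

theorem rdi_sys_card (hS : RdiSys x T Q S) (y : TV) : (S.sv y).card ≤ 3 := by
  rw [hS.sv]
  exact (Finset.card_le_card Finset.inter_subset_left).trans (rdi_cs_card T y)

theorem rdi_sys_half (hx0 : 0 < x) (hx1 : x ≤ 1) (hh : 1 / 2 ≤ x ^ 2) (hS : RdiSys x T Q S) (y : TV) : 1 / 2 ≤ S.q y := by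
  rcases hS.q y with h | h <;> rw [h]
  · exact hh
  · nlinarith

/-- the graph of the closed system is the lattice on `Q` -/
theorem rdi_sys_adj (hS : RdiSys x T Q S) (a b : TV) : S.gr.Adj a b ↔ triAdj a b ∧ a ∈ Q ∧ b ∈ Q := by
  constructor
  · rintro ⟨hne, y, _, ha, hb⟩
    rw [hS.sv] at ha hb
    obtain ⟨ha1, ha2⟩ := Finset.mem_inter.1 ha
    obtain ⟨hb1, hb2⟩ := Finset.mem_inter.1 hb
    exact ⟨(rdi_cs_adj ha1 hb1).resolve_left hne, ha2, hb2⟩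
  · rintro ⟨h, ha, hb⟩
    obtain ⟨z, h1, h2⟩ := rdi_edge_cell T h
    refine ⟨fun e => tscG.irrefl (e ▸ h : tscG.Adj b b), z, (hS.C z).2 ⟨a, h1, ha⟩, ?_, ?_⟩
    · rw [hS.sv]; exact Finset.mem_inter.2 ⟨h1, ha⟩
    · rw [hS.sv]; exact Finset.mem_inter.2 ⟨h2, hb⟩

theorem rdi_sys_R (hS : RdiSys x T Q S) {Z : Set TV} (hZ : Z ⊆ (↑Q : Set TV)) {a b : TV} (h : TscR tscG Z a b) : TscR S.gr Z a b :=
  pcp_R_congr (fun u hu v hv huv => (rdi_sys_adj hS u v).2 ⟨huv, Finset.mem_coe.1 (hZ hu), Finset.mem_coe.1 (hZ hv)⟩) h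

theorem rdi_sys_conn (hS : RdiSys x T Q S) {Z : Set TV} (hZ : Z ⊆ (↑Q : Set TV)) (h : TscConn tscG Z) : TscConn S.gr Z :=
  fun u hu v hv => rdi_sys_R hS hZ (h u hu v hv)

theorem rdi_sys_sc (hS : RdiSys x T Q S) (h : TriSCOn (ZMod 2) tscG (↑Q : Set TV)) : S.SC := by
  unfold ClSys.SC
  rw [hS.A]
  exact tsc_congr (fun a ha b hb => ⟨fun hab => (rdi_sys_adj hS a b).2 ⟨hab, Finset.mem_coe.1 ha, Finset.mem_coe.1 hb⟩,
    fun hab => ((rdi_sys_adj hS a b).1 hab).1⟩) h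

/-- **the closed system on `Q` with four sides is a STRIP** (both classes; `Cb` = any set of cells which live on the four sides) -/
theorem rdi_strip (hx0 : 0 < x) (hx1 : x ≤ 1) (hh : 1 / 2 ≤ x ^ 2) (hS : RdiSys x T Q S) (Cb : Finset TV) (La Lc Ld Lb : Finset TV)
    (sc : TriSCOn (ZMod 2) tscG (↑Q : Set TV)) (cn : TscConn tscG (↑Q : Set TV)) (cb : Cb ⊆ S.C) (la : La ⊆ Q) (lc : Lc ⊆ Q) (ld : Ld ⊆ Q)
    (lb : Lb ⊆ Q) (cbL : ∀ y ∈ Cb, ∀ u ∈ rdiCs T y, u ∈ Q → u ∈ La ∪ Lc ∪ Ld ∪ Lb) (ac : ∀ u ∈ La, ∀ v ∈ Lc, u ≠ v ∧ ¬ triAdj u v)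
    (dconn : TscConn tscG (↑(Ld \ (La ∪ Lc)) : Set TV)) (bconn : TscConn tscG (↑(Lb \ (La ∪ Lc)) : Set TV)) :
    GlStrip S Cb La Lc Ld Lb where
  disk := am_disk S (rdi_sys_ok hx0 hx1 hS) (fun y _ => rdi_sys_card hS y) (rdi_sys_sc hS sc)
    (by rw [hS.A]; exact rdi_sys_conn hS subset_rfl cn)
  sc := rdi_sys_sc hS sc
  conn := by rw [hS.A]; exact rdi_sys_conn hS subset_rfl cn
  half := fun y _ => rdi_sys_half hx0 hx1 hh hS y
  cb := cb
  la := by rw [hS.A]; exact la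
  lc := by rw [hS.A]; exact lc
  ld := by rw [hS.A]; exact ld
  lb := by rw [hS.A]; exact lb
  cbL := fun y hy u hu => by
    rw [hS.sv] at hu
    exact cbL y hy u (Finset.mem_inter.1 hu).1 (Finset.mem_inter.1 hu).2
  ac := fun u hu v hv => ⟨(ac u hu v hv).1, fun h => (ac u hu v hv).2 ((rdi_sys_adj hS u v).1 h).1⟩
  dconn := rdi_sys_conn hS (Finset.coe_subset.2 (Finset.sdiff_subset.trans ld)) dconn
  bconn := rdi_sys_conn hS (Finset.coe_subset.2 (Finset.sdiff_subset.trans lb)) bconn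

end sys

/-! ## §7 the four sides -/

theorem rdi_cs_row {T : Bool} {z u : TV} (hu : u ∈ rdiCs T z) : z.2 ≤ u.2 ∧ u.2 ≤ z.2 + 1 := by
  cases T
  · rw [rdi_mem_D] at hu; omega
  · rw [rdi_mem_V] at hu; omega

/-- **(LAY)** a site of `Q` in a cell off `M`: the cell belongs to a layer, or the site lies on an extreme site row -/
theorem rdi_lay {T : Bool} {A B c d : ℤ} {M a c' : Set TV} (hM : M ⊆ rswRect A B c d) (hlr : ∀ z ∈ M, A + 2 ≤ rswX z ∧ rswX z ≤ B - 2)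
    (hbd : ∀ y ∈ rswRect A B c d, y ∉ M → y ∉ a → y ∉ c' → ∀ w, triAdj y w → w ∉ M) {y u : TV} (hy : y ∉ M) (hu : u ∈ rdiCs T y)
    (huQ : u ∈ rdiSt T M) : y ∈ a ∨ y ∈ c' ∨ u.2 = c ∨ u.2 = d + 1 := by
  obtain ⟨z, hz, huz⟩ := huQ
  have hadj : triAdj y z := (rdi_cs_share hu huz).resolve_left fun e => hy (e ▸ hz)
  by_cases hyR : y ∈ rswRect A B c d
  · by_contra hcon
    push Not at hcon
    exact hbd y hyR hy hcon.1 hcon.2.1 z hadj hz
  · have h1 := rdi_cs_row hu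
    have h2 := rdi_cs_row huz
    obtain ⟨g1, g2, g3, g4⟩ := hM hz
    have g5 := hlr z hz
    have hy' : rswX y < A ∨ B < rswX y ∨ y.2 < c ∨ d < y.2 := by
      by_contra h
      push Not at h
      exact hyR ⟨h.1, h.2.1, h.2.2.1, h.2.2.2⟩
    rw [tsc_adj_iff] at hadj
    simp only [rswX] at hy' g5
    right; right
    omega

/-- **(AC)** the sites of the two layers are disjoint and not adjacent when the layers are at index distance at least 3 -/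
theorem rdi_ac {T : Bool} {c d : ℤ} {a c' : Set TV} (ha : a ⊆ plsBand c d) (hc : c' ⊆ plsBand c d) (sep : ∀ u ∈ a, ∀ v ∈ c', u ≠ v ∧ ¬ triAdj u v)
    (t2 : ∀ y ∈ plsBand c d, ¬ ((∃ u ∈ a, triAdj y u) ∧ ∃ v ∈ c', triAdj y v)) {u v : TV} (hu : u ∈ rdiSt T a) (hv : v ∈ rdiSt T c') :
    u ≠ v ∧ ¬ triAdj u v := by
  obtain ⟨y, hy, huy⟩ := hu
  obtain ⟨y', hy', hvy⟩ := hv
  constructor
  · rintro rfl
    rcases rdi_cs_share huy hvy with e | e
    · exact (sep y hy y' hy').1 e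
    · exact (sep y hy y' hy').2 e
  · intro h
    obtain ⟨z, h1, h2⟩ := rdi_edge_cell T h
    rcases rdi_cs_share h1 huy with rfl | e1
    · rcases rdi_cs_share h2 hvy with e | e
      · exact (sep z hy y' hy').1 e
      · exact (sep z hy y' hy').2 e
    · rcases rdi_cs_share h2 hvy with rfl | e2
      · exact (sep y hy z hy').2 (tscG.symm.symm _ _ e1)
      · by_cases hz : z ∈ plsBand c d
        · exact t2 z hz ⟨⟨y, hy, e1⟩, ⟨y', hy', e2⟩⟩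
        · have g1 := ha hy
          have g2 := hc hy'
          have g3 := sep y hy y' hy'
          have hz' : z.2 < c ∨ d < z.2 := by
            by_contra hcon
            push Not at hcon
            exact hz ⟨hcon.1, hcon.2⟩
          rw [tsc_adj_iff] at e1 e2
          obtain ⟨g11, g12⟩ := g1
          obtain ⟨g21, g22⟩ := g2
          have k1 : (y.2 = z.2 + 1 ∧ (y.1 = z.1 ∨ y.1 = z.1 - 1)) ∨ (y.2 = z.2 - 1 ∧ (y.1 = z.1 ∨ y.1 = z.1 + 1)) := by omega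
          have k2 : (y'.2 = z.2 + 1 ∧ (y'.1 = z.1 ∨ y'.1 = z.1 - 1)) ∨ (y'.2 = z.2 - 1 ∧ (y'.1 = z.1 ∨ y'.1 = z.1 + 1)) := by omega
          clear e1 e2
          have k3 : y.2 = y'.2 ∧ (y.1 = y'.1 ∨ y.1 = y'.1 + 1 ∨ y'.1 = y.1 + 1) := by omega
          clear k1 k2
          rcases k3 with ⟨k4, k5 | k5 | k5⟩
          · exact g3.1 (Prod.ext k5 k4)
          · exact g3.2 (by rw [tsc_adj_iff]; omega)
          · exact g3.2 (by rw [tsc_adj_iff]; omega)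

/-- the extreme rows (173: `psq_dconn_*`, `psq_bconn_*`), both classes at once -/
theorem rdi_rows (T : Bool) {c d : ℤ} {M X : Set TV} (hMb : M ⊆ plsBand c d) (hXb : X ⊆ plsBand c d) (hXM : ∀ z ∈ X, z ∉ M)
    (hc : ∀ z1 ∈ M, ∀ z2 ∈ M, z1.2 = c → z2.2 = c → ∀ i, z1.1 ≤ i → i ≤ z2.1 → (i, c) ∈ M)
    (hd : ∀ z1 ∈ M, ∀ z2 ∈ M, z1.2 = d → z2.2 = d → ∀ i, z1.1 ≤ i → i ≤ z2.1 → (i, d) ∈ M) :
    TscConn tscG (psqRow (rdiCs T) M X c) ∧ TscConn tscG (psqRow (rdiCs T) M X (d + 1)) := by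
  cases T
  · exact ⟨psq_dconn_D hMb hXb hXM hc, psq_bconn_D hMb hXb hXM hd⟩
  · exact ⟨psq_dconn_V hMb hXb hXM hc, psq_bconn_V hMb hXb hXM hd⟩

/-- **what the dictionary needs to know on the index lattice**: `M` = the free cells between the two layers `a`, `c'` of the explored clusters `I`, `J` -/
structure RdiGeo (A B c d : ℤ) (M σ I a σ' J c' : Set TV) : Prop where
  sub : M ⊆ rswRect A B c d
  conn : TscConn tscG M
  sideA : RdiSide M (rswRect A B c d) σ I a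
  sideC : RdiSide M (rswRect A B c d) σ' J c'
  /-- only the cells of the two layers touch `M` -/
  bd : ∀ y ∈ rswRect A B c d, y ∉ M → y ∉ a → y ∉ c' → ∀ w, triAdj y w → w ∉ M
  lr : ∀ z ∈ M, A + 2 ≤ rswX z ∧ rswX z ≤ B - 2
  sep : ∀ u ∈ a, ∀ v ∈ c', u ≠ v ∧ ¬ triAdj u v
  t2 : ∀ y ∈ plsBand c d, ¬ ((∃ u ∈ a, triAdj y u) ∧ ∃ v ∈ c', triAdj y v)
  intc : ∀ z1 ∈ M, ∀ z2 ∈ M, z1.2 = c → z2.2 = c → ∀ i, z1.1 ≤ i → i ≤ z2.1 → (i, c) ∈ M
  intd : ∀ z1 ∈ M, ∀ z2 ∈ M, z1.2 = d → z2.2 = d → ∀ i, z1.1 ≤ i → i ≤ z2.1 → (i, d) ∈ M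

/-- **(D) THE STRIP OF THE DICTIONARY**: `Q` = sites of `M`, `La`, `Lc` = sites of `Q` in a cell of a layer, `Ld`, `Lb` = sites of `Q` on the extreme site rows, `Cb` = the cells of the closed system off `M` -/
theorem rdi_geo_strip {x : ℝ} (hx0 : 0 < x) (hx1 : x ≤ 1) (hh : 1 / 2 ≤ x ^ 2) {T : Bool} {A B c d : ℤ} {M σ I a σ' J c' : Set TV}
    (G : RdiGeo A B c d M σ I a σ' J c') {Q : Finset TV} {S : ClSys TV TV} (hS : RdiSys x T Q S) {Cb La Lc Ld Lb : Finset TV}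
    (hQ : ∀ u, u ∈ Q ↔ u ∈ rdiSt T M) (hLa : ∀ u, u ∈ La ↔ u ∈ Q ∧ u ∈ rdiSt T a) (hLc : ∀ u, u ∈ Lc ↔ u ∈ Q ∧ u ∈ rdiSt T c')
    (hLd : ∀ u, u ∈ Ld ↔ u ∈ Q ∧ u.2 = c) (hLb : ∀ u, u ∈ Lb ↔ u ∈ Q ∧ u.2 = d + 1) (hCb : ∀ y, y ∈ Cb ↔ y ∈ S.C ∧ y ∉ M) :
    GlStrip S Cb La Lc Ld Lb := by
  have eQ : (↑Q : Set TV) = rdiSt T M := by ext u; exact hQ u
  have hab : a ⊆ plsBand c d := fun z hz => (G.sideA.lay z hz).1.2.2
  have hcb : c' ⊆ plsBand c d := fun z hz => (G.sideC.lay z hz).1.2.2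
  have hrows := rdi_rows T (M := M) (X := a ∪ c') (c := c) (d := d) (fun z hz => (G.sub hz).2.2) (Set.union_subset hab hcb)
    (by
      rintro z (hz | hz)
      · exact (G.sideA.lay z hz).2.1
      · exact (G.sideC.lay z hz).2.1) G.intc G.intd
  have erow : ∀ (L : Finset TV) (r : ℤ), (∀ u, u ∈ L ↔ u ∈ Q ∧ u.2 = r) → (↑(L \ (La ∪ Lc)) : Set TV) = psqRow (rdiCs T) M (a ∪ c') r := by
    intro L r hL
    ext u
    simp only [Finset.coe_sdiff, Finset.coe_union, Set.mem_sdiff, Set.mem_union, Finset.mem_coe, hL, hLa, hLc, hQ, psqRow, Set.mem_ofPred_eq]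
    constructor
    · rintro ⟨⟨h1, h2⟩, h3⟩
      refine ⟨h2, h1, ?_⟩
      rintro ⟨z, hz | hz, hu⟩
      · exact h3 (Or.inl ⟨h1, z, hz, hu⟩)
      · exact h3 (Or.inr ⟨h1, z, hz, hu⟩)
    · rintro ⟨h1, h2, h3⟩
      refine ⟨⟨h2, h1⟩, ?_⟩
      rintro (⟨_, z, hz, hu⟩ | ⟨_, z, hz, hu⟩)
      · exact h3 ⟨z, Or.inl hz, hu⟩
      · exact h3 ⟨z, Or.inr hz, hu⟩
  refine rdi_strip hx0 hx1 hh hS Cb La Lc Ld Lb ?_ ?_ (fun y hy => ((hCb y).1 hy).1) (fun u hu => ((hLa u).1 hu).1) (fun u hu => ((hLc u).1 hu).1)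
    (fun u hu => ((hLd u).1 hu).1) (fun u hu => ((hLb u).1 hu).1) ?_ ?_ ?_ ?_
  · rw [eQ]; exact rdi_sc T G.sub G.sideA G.sideC G.bd
  · rw [eQ]; exact rdi_st_conn T G.conn
  · intro y hy u hu huQ
    simp only [Finset.mem_union]
    rcases rdi_lay G.sub G.lr G.bd ((hCb y).1 hy).2 hu ((hQ u).1 huQ) with h | h | h | h
    · exact Or.inl (Or.inl (Or.inl ((hLa u).2 ⟨huQ, y, h, hu⟩)))
    · exact Or.inl (Or.inl (Or.inr ((hLc u).2 ⟨huQ, y, h, hu⟩)))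
    · exact Or.inl (Or.inr ((hLd u).2 ⟨huQ, h⟩))
    · exact Or.inr ((hLb u).2 ⟨huQ, h⟩)
  · intro u hu v hv
    exact rdi_ac hab hcb G.sep G.t2 ((hLa u).1 hu).2 ((hLc v).1 hv).2
  · rw [erow Ld c hLd]; exact hrows.1
  · rw [erow Lb (d + 1) hLb]; exact hrows.2

/-! ## §8 the record: `M = hxrQ` (105), layers `rsrGa`, `rsrGc` (269) -/

/-- an explored side, from "`M` is never looked at" -/
theorem rdi_side_of_look {R σ σ' σt P M : Set TV} (hM : M ⊆ R) (hσ : σ ⊆ σt) (hlook : ∀ z ∈ rsrLook R σt P, z ∉ M)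
    (hout : ∀ z ∈ R ∩ σ, ∃ o, o ∉ R ∧ triAdj z o ∧ ∀ w ∈ R, triAdj o w → w ∈ σ) :
    RdiSide M R σ (pleI tscG (R \ P) σ) (pleGam tscG R σ σ' (pleI tscG (R \ P) σ)) := by
  have mono : pleI tscG (R \ P) σ ⊆ pleI tscG (R \ P) σt := by
    rintro z ⟨t, ht, hts, htz⟩
    exact ⟨t, ht, hσ hts, htz⟩
  refine ⟨?_, ?_, ?_, hout, ?_⟩
  · intro i hi
    refine ⟨hlook i ⟨(ple_I_sub hi).1, Or.inr (Or.inl (mono hi))⟩, fun w hw hwM => ?_⟩
    exact hlook w ⟨hM hwM, Or.inr (Or.inr ⟨i, mono hi, hw⟩)⟩ hwM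
  · rintro i ⟨t, ht, htσ, hti⟩
    exact ⟨t, ple_I_side ht htσ, ⟨ht.1, htσ⟩, tsc_R_symm (ple_I_path (ple_I_side ht htσ) hti)⟩
  · intro z hz
    exact hlook z ⟨hz.1, Or.inl (hσ hz.2)⟩
  · rintro z ⟨hz1, hz2⟩
    have hzR : z ∈ R := (ple_I_sub hz1).1
    refine ⟨hzR, hlook z ⟨hzR, ?_⟩, hz2⟩
    rcases hz2 with h | ⟨i, hi, hiz⟩
    · exact Or.inl (hσ h)
    · exact Or.inr (Or.inr ⟨i, mono hi, hiz⟩)

theorem rdi_SgL_eq (A c d i w : ℤ) : rsrSgL A c d i w = plaXArcL A c d (i - w) (i - w) := by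
  ext z; simp only [plaXArcL, rsrSgL, rswX, Set.mem_ofPred_eq]; tauto

theorem rdi_SgR_eq (B c d i w : ℤ) : rsrSgR B c d i w = plaXArcR B c d (i + w) (i + w) := by
  ext z; simp only [plaXArcR, rsrSgR, rswX, Set.mem_ofPred_eq]; tauto

theorem rdi_out_L (A B c d i w : ℤ) : ∀ z ∈ rswRect A B c d ∩ rsrSgL A c d i w, ∃ o, o ∉ rswRect A B c d ∧ triAdj z o ∧
    ∀ u ∈ rswRect A B c d, triAdj o u → u ∈ rsrSgL A c d i w := by
  rintro z ⟨hz, hzσ⟩
  rw [rdi_SgL_eq] at hzσ ⊢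
  obtain ⟨o, h1, h2, h3⟩ := pla_rect_outL (A := A) (B := B) (c := c) (d := d) hz hzσ
  exact ⟨o, h2, h1, h3⟩

theorem rdi_out_R (A B c d i w : ℤ) : ∀ z ∈ rswRect A B c d ∩ rsrSgR B c d i w, ∃ o, o ∉ rswRect A B c d ∧ triAdj z o ∧
    ∀ u ∈ rswRect A B c d, triAdj o u → u ∈ rsrSgR B c d i w := by
  rintro z ⟨hz, hzσ⟩
  rw [rdi_SgR_eq] at hzσ ⊢
  obtain ⟨o, h1, h2, h3⟩ := pla_rect_outR (A := A) (B := B) (c := c) (d := d) hz hzσ
  exact ⟨o, h2, h1, h3⟩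

theorem rdi_rect_cvx (A B c d : ℤ) : ∀ u1 u2 u v : ℤ, (u1, v) ∈ rswRect A B c d → (u2, v) ∈ rswRect A B c d → u1 ≤ u → u ≤ u2 → (u, v) ∈ rswRect A B c d := by
  intro u1 u2 u v h1 h2 h3 h4
  simp only [rswRect, rswX, Set.mem_ofPred_eq] at *
  omega

/-- the free cells of the extreme rows form intervals (173: `psq_int_rect` in the window `rswRect (A - 2) (B + 2) c d`) -/
theorem rdi_hxr_int {A B c d : ℤ} {a c' : Set TV} {pa qa pc qc : TV} (hP : HxrPair c d A B a c' pa qa pc qc) :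
    (∀ z1 ∈ hxrQ c d A B a c', ∀ z2 ∈ hxrQ c d A B a c', z1.2 = c → z2.2 = c → ∀ i, z1.1 ≤ i → i ≤ z2.1 → (i, c) ∈ hxrQ c d A B a c') ∧
    (∀ z1 ∈ hxrQ c d A B a c', ∀ z2 ∈ hxrQ c d A B a c', z1.2 = d → z2.2 = d → ∀ i, z1.1 ≤ i → i ≤ z2.1 → (i, d) ∈ hxrQ c d A B a c') := by
  have hAB : A ≤ B := (hP.A.box pa hP.A.pa).1.trans (hP.A.box pa hP.A.pa).2
  have hsub : ∀ s : Set TV, s ⊆ plsBand c d → (∀ z ∈ s, A ≤ hxsX z ∧ hxsX z ≤ B) → s ⊆ rswRect (A - 2) (B + 2) c d := by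
    intro s h1 h2 z hz
    have g1 := h2 z hz
    have g2 := h1 hz
    simp only [hxsX] at g1
    exact ⟨by simp only [rswX]; omega, by simp only [rswX]; omega, g2.1, g2.2⟩
  refine psq_int_rect (A := A - 2) (B := B + 2) (hxr_pair_le hP) (by omega) (AA := hxrAA c d B a ∩ rswRect (A - 2) (B + 2) c d)
    (CC := hxrCC c d A c' ∩ rswRect (A - 2) (B + 2) c d) Set.inter_subset_right Set.inter_subset_right
    (hxr_AA_win hP.A (rdi_rect_cvx _ _ _ _) (hsub a hP.A.sub hP.A.box)) (hxr_CC_win hP.C (rdi_rect_cvx _ _ _ _) (hsub c' hP.C.sub hP.C.box))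
    ?_ ?_ ?_ ?_ (hxr_Q_conn hP)
  · intro z hz hx
    refine ⟨hxr_AA_far hP.A hz.2.2 ?_, hz⟩
    simp only [rswX] at hx
    simp only [hxsX]
    omega
  · intro z hz hx
    refine ⟨hxr_CC_far hP.C hz.2.2 ?_, hz⟩
    simp only [rswX] at hx
    simp only [hxsX]
    omega
  · intro z hz
    refine ⟨hsub _ (fun z hz => hz.1) (hxr_Q_box hP) hz, ?_⟩
    rintro (h | h)
    · exact hz.2 (Or.inl h.1)
    · exact hz.2 (Or.inr h.1)
  · rintro z _ w ⟨hw, hw'⟩ _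
    refine ⟨hw.2.2, ?_⟩
    rintro (h | h)
    · exact hw' (Or.inl ⟨h, hw⟩)
    · exact hw' (Or.inr ⟨h, hw⟩)

/-- **the geometry of the record**: two explorations in one box, the layers form an `HxrPair` at index distance at least 3, no free cell is looked at -/
theorem rdi_geo_rec {A B c d w m m' : ℤ} {P : Set TV} {pa qa pc qc : TV}
    (hP : HxrPair c d A B (rsrGa A B c d w m (pleI tscG (rswRect A B c d \ P) (rsrSgL A c d m w)))
      (rsrGc A B c d w m' (pleI tscG (rswRect A B c d \ P) (rsrSgR B c d m' w))) pa qa pc qc)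
    (hlook : ∀ z ∈ rsrLook (rswRect A B c d) (rsrSgL A c d m w ∪ rsrSgR B c d m' w) P,
      z ∈ hxrAA c d B (rsrGa A B c d w m (pleI tscG (rswRect A B c d \ P) (rsrSgL A c d m w))) ∨
      z ∈ hxrCC c d A (rsrGc A B c d w m' (pleI tscG (rswRect A B c d \ P) (rsrSgR B c d m' w))))
    (h2 : ∀ y ∈ plsBand c d, ¬ ((∃ u ∈ rsrGa A B c d w m (pleI tscG (rswRect A B c d \ P) (rsrSgL A c d m w)), triAdj y u) ∧
      ∃ v ∈ rsrGc A B c d w m' (pleI tscG (rswRect A B c d \ P) (rsrSgR B c d m' w)), triAdj y v)) :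
    RdiGeo A B c d (hxrQ c d A B (rsrGa A B c d w m (pleI tscG (rswRect A B c d \ P) (rsrSgL A c d m w)))
        (rsrGc A B c d w m' (pleI tscG (rswRect A B c d \ P) (rsrSgR B c d m' w))))
      (rsrSgL A c d m w) (pleI tscG (rswRect A B c d \ P) (rsrSgL A c d m w)) (rsrGa A B c d w m (pleI tscG (rswRect A B c d \ P) (rsrSgL A c d m w)))
      (rsrSgR B c d m' w) (pleI tscG (rswRect A B c d \ P) (rsrSgR B c d m' w)) (rsrGc A B c d w m' (pleI tscG (rswRect A B c d \ P) (rsrSgR B c d m' w))) := by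
  set I := pleI tscG (rswRect A B c d \ P) (rsrSgL A c d m w) with hI
  set J := pleI tscG (rswRect A B c d \ P) (rsrSgR B c d m' w) with hJ
  set a := rsrGa A B c d w m I with ha
  set c' := rsrGc A B c d w m' J with hc'
  have hsub : hxrQ c d A B a c' ⊆ rswRect A B c d := fun z hz => ⟨(hxr_Q_box hP z hz).1, (hxr_Q_box hP z hz).2, hz.1.1, hz.1.2⟩
  have hl : ∀ z ∈ rsrLook (rswRect A B c d) (rsrSgL A c d m w ∪ rsrSgR B c d m' w) P, z ∉ hxrQ c d A B a c' := fun z hz h => h.2 (hlook z hz)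
  have sA : RdiSide (hxrQ c d A B a c') (rswRect A B c d) (rsrSgL A c d m w) I a :=
    rdi_side_of_look hsub Set.subset_union_left hl (rdi_out_L A B c d m w)
  have sC : RdiSide (hxrQ c d A B a c') (rswRect A B c d) (rsrSgR B c d m' w) J c' :=
    rdi_side_of_look hsub Set.subset_union_right hl (rdi_out_R A B c d m' w)
  refine ⟨hsub, hxr_Q_conn hP, sA, sC, ?_, ?_, hP.sep, h2, (rdi_hxr_int hP).1, (rdi_hxr_int hP).2⟩
  · intro y hyR hyM hya hyc w hyw hwM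
    have hy : y ∈ hxrAA c d B a ∪ hxrCC c d A c' := by
      by_contra h
      exact hyM ⟨hyR.2.2, h⟩
    rcases hy with h | h
    · exact hya (hxr_AA_bd hP.A hwM.1 (fun h' => hwM.2 (Or.inl h')) h (tscG.symm.symm _ _ hyw))
    · exact hyc (hxr_CC_bd hP.C hwM.1 (fun h' => hwM.2 (Or.inr h')) h (tscG.symm.symm _ _ hyw))
  · intro z hz
    constructor
    · by_contra h
      exact sA.σM z ⟨hsub hz, Or.inl (by omega)⟩ hz
    · by_contra h
      exact sC.σM z ⟨hsub hz, Or.inl (by omega)⟩ hz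

/-! ## §9 the dictionary of record `RsgDat` (269, `Defs/RswStrip`) -/

theorem rdi_cs_rsg : rsgCs = rdiCs := rfl

theorem rdi_rsg_cells (T : Bool) (Q : Finset TV) (y : TV) : y ∈ rsgCells T Q ↔ ∃ u ∈ rdiCs T y, u ∈ Q := by
  cases T
  · simp only [rsgCells, Bool.false_eq_true, if_false, Finset.mem_union, Finset.mem_image]
    constructor
    · rintro ((⟨u, hu, rfl⟩ | ⟨u, hu, rfl⟩) | ⟨u, hu, rfl⟩)
      · exact ⟨u, by rw [rdi_mem_D]; simp, hu⟩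
      · exact ⟨u, by rw [rdi_mem_D]; simp, hu⟩
      · exact ⟨u, by rw [rdi_mem_D]; simp, hu⟩
    · rintro ⟨u, hu, huQ⟩
      rw [rdi_mem_D] at hu
      rcases hu with h | h | h
      · exact Or.inl (Or.inl ⟨u, huQ, Prod.ext (by simp; omega) (by simp; omega)⟩)
      · exact Or.inl (Or.inr ⟨u, huQ, Prod.ext (by simp; omega) (by simp; omega)⟩)
      · exact Or.inr ⟨u, huQ, Prod.ext (by simp; omega) (by simp; omega)⟩
  · exact lat_mem_cells

/-- the closed system of 269 is a closed system of class `T` -/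
theorem rdi_rsg_sys (x : ℝ) (T : Bool) (Q : Finset TV) : RdiSys x T Q (rsgSQ x T Q) where
  A := rfl
  C := rdi_rsg_cells T Q
  sv := fun _ => rfl
  q := fun y => by
    show (if (rsgCs T y ∩ Q).card = 3 then x ^ 2 else x) = x ^ 2 ∨ (if (rsgCs T y ∩ Q).card = 3 then x ^ 2 else x) = x
    split_ifs
    · exact Or.inl rfl
    · exact Or.inr rfl

theorem rdi_rsg_M {D : RsgDat} (h : hxrQ D.y0 D.y1 D.xm D.xM D.a D.c ⊆ rswRect D.xm D.xM D.y0 D.y1) (z : TV) :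
    z ∈ rsgM D ↔ z ∈ hxrQ D.y0 D.y1 D.xm D.xM D.a D.c := by
  classical
  unfold rsgM
  rw [Finset.mem_filter]
  exact ⟨fun g => g.2, fun g => ⟨rsg_box_mem (h g), g⟩⟩

theorem rdi_rsg_Q {D : RsgDat} (h : hxrQ D.y0 D.y1 D.xm D.xM D.a D.c ⊆ rswRect D.xm D.xM D.y0 D.y1) (u : TV) :
    u ∈ rsgQ D ↔ u ∈ rdiSt D.T (hxrQ D.y0 D.y1 D.xm D.xM D.a D.c) := by
  unfold rsgQ
  rw [Finset.mem_biUnion]
  constructor
  · rintro ⟨z, hz, hu⟩; exact ⟨z, (rdi_rsg_M h z).1 hz, hu⟩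
  · rintro ⟨z, hz, hu⟩; exact ⟨z, (rdi_rsg_M h z).2 hz, hu⟩

theorem rdi_rsg_side (T : Bool) (Q : Finset TV) (Z : Set TV) (u : TV) : u ∈ rsgSide T Q Z ↔ u ∈ Q ∧ u ∈ rdiSt T Z := by
  classical
  unfold rsgSide
  rw [Finset.mem_filter]
  rfl

/-- **(D) `GlStrip` for the strip data of 269**, from the geometry of the index lattice -/
theorem rdi_rsg_strip {x : ℝ} (hx0 : 0 < x) (hx1 : x ≤ 1) (hh : 1 / 2 ≤ x ^ 2) (D : RsgDat) {σ I σ' J : Set TV}
    (G : RdiGeo D.xm D.xM D.y0 D.y1 (hxrQ D.y0 D.y1 D.xm D.xM D.a D.c) σ I D.a σ' J D.c) :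
    GlStrip (rsgS x D) (rsgCb D) (rsgLa D) (rsgLc D) (rsgLd D) (rsgLb D) := by
  refine rdi_geo_strip hx0 hx1 hh G (rdi_rsg_sys x D.T (rsgQ D)) (rdi_rsg_Q G.sub) (rdi_rsg_side _ _ _) (rdi_rsg_side _ _ _)
    (fun u => Finset.mem_filter) (fun u => Finset.mem_filter) fun y => ?_
  unfold rsgCb
  rw [Finset.mem_sdiff, rdi_rsg_M G.sub]
  rfl

/-- **(D) `GlStrip` at the record**: `a = rsrGa ..`, `c = rsrGc ..` (`= rsgD T A B c d w m m' P` of `Ann/RswGlue`, by `rfl`); `hP = rsg_pair`, `hlook = rsg_look` -/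
theorem rdi_rsg_strip_rec {x : ℝ} (hx0 : 0 < x) (hx1 : x ≤ 1) (hh : 1 / 2 ≤ x ^ 2) (T : Bool) {A B c d w m m' : ℤ} {P : Set TV} {pa qa pc qc : TV}
    (hP : HxrPair c d A B (rsrGa A B c d w m (pleI tscG (rswRect A B c d \ P) (rsrSgL A c d m w)))
      (rsrGc A B c d w m' (pleI tscG (rswRect A B c d \ P) (rsrSgR B c d m' w))) pa qa pc qc)
    (hlook : ∀ z ∈ rsrLook (rswRect A B c d) (rsrSgL A c d m w ∪ rsrSgR B c d m' w) P,
      z ∈ hxrAA c d B (rsrGa A B c d w m (pleI tscG (rswRect A B c d \ P) (rsrSgL A c d m w))) ∨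
      z ∈ hxrCC c d A (rsrGc A B c d w m' (pleI tscG (rswRect A B c d \ P) (rsrSgR B c d m' w))))
    (h2 : ¬ RsgT2 c d (rsrGa A B c d w m (pleI tscG (rswRect A B c d \ P) (rsrSgL A c d m w)))
      (rsrGc A B c d w m' (pleI tscG (rswRect A B c d \ P) (rsrSgR B c d m' w)))) (D : RsgDat)
    (hD : D = ⟨T, c, d, A, B, rsrGa A B c d w m (pleI tscG (rswRect A B c d \ P) (rsrSgL A c d m w)),
      rsrGc A B c d w m' (pleI tscG (rswRect A B c d \ P) (rsrSgR B c d m' w))⟩) :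
    GlStrip (rsgS x D) (rsgCb D) (rsgLa D) (rsgLc D) (rsgLd D) (rsgLb D) := by
  subst hD
  exact rdi_rsg_strip hx0 hx1 hh _ (rdi_geo_rec hP hlook fun y hy h => h2 ⟨y, hy, h.1, h.2⟩)

/-! ## §10 the deep paths (core of the tips) -/

/-- **(DEEP, left side)**: if the layer `a` reaches `X ≥ μ + 1`, the explored cluster `I` contains a connected set from the arc (`X ≤ m - w + 1`) to the thick axis `|X - μ| ≤ 1` -/
theorem rdi_deep_L {A B c d w m μ : ℤ} {M I a : Set TV} (h : RdiSide M (rswRect A B c d) (rsrSgL A c d m w) I a) (hA : A ≤ m - w) (hμ : m - w + 1 ≤ μ)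
    (hz : ∃ z ∈ a, μ + 1 ≤ rswX z) :
    ∃ ι : Set TV, ι ⊆ I ∧ TscConn tscG ι ∧ (∃ t ∈ ι, rswX t ≤ m - w + 1) ∧ ∃ t ∈ ι, μ - 1 ≤ rswX t ∧ rswX t ≤ μ + 1 := by
  obtain ⟨z, hza, hzX⟩ := hz
  obtain ⟨_, _, hσ | ⟨i, hi, hiz⟩⟩ := h.lay z hza
  · exfalso
    rcases hσ with g | ⟨_, g⟩ <;> omega
  obtain ⟨t, htI, ⟨_, htσ⟩, hp⟩ := h.toσ i hi
  have htX : rswX t ≤ m - w + 1 := by
    rcases htσ with g | ⟨_, g⟩ <;> omega
  have hiX : μ - 1 ≤ rswX i := by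
    have := (tsc_adj_iff i z).1 hiz
    simp only [rswX] at hzX ⊢
    omega
  have hp' : TscR tscG (tscComp tscG I i) t i := tsc_R_symm (tsc_comp_R (tsc_comp_self hi) hp)
  have htc : t ∈ tscComp tscG I i := ⟨htI, hp⟩
  obtain ⟨w', hw', h1, h2⟩ := hxr_ivt_X (m := μ) htc hp' (by show rswX t ≤ μ + 1; omega) hiX
  exact ⟨tscComp tscG I i, tsc_comp_sub i, tsc_comp_conn i, ⟨t, htc, htX⟩, ⟨w', hw', h1, h2⟩⟩

/-- **(DEEP, right side)** -/
theorem rdi_deep_R {A B c d w m μ : ℤ} {M J a : Set TV} (h : RdiSide M (rswRect A B c d) (rsrSgR B c d m w) J a) (hB : m + w ≤ B) (hμ : μ ≤ m + w - 1)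
    (hz : ∃ z ∈ a, rswX z ≤ μ - 1) :
    ∃ ι : Set TV, ι ⊆ J ∧ TscConn tscG ι ∧ (∃ t ∈ ι, m + w - 1 ≤ rswX t) ∧ ∃ t ∈ ι, μ - 1 ≤ rswX t ∧ rswX t ≤ μ + 1 := by
  obtain ⟨z, hza, hzX⟩ := hz
  obtain ⟨_, _, hσ | ⟨i, hi, hiz⟩⟩ := h.lay z hza
  · exfalso
    rcases hσ with g | ⟨_, g⟩ <;> omega
  obtain ⟨t, htI, ⟨_, htσ⟩, hp⟩ := h.toσ i hi
  have htX : m + w - 1 ≤ rswX t := by
    rcases htσ with g | ⟨_, g⟩ <;> omega
  have hiX : rswX i ≤ μ + 1 := by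
    have := (tsc_adj_iff i z).1 hiz
    simp only [rswX] at hzX ⊢
    omega
  have hp' : TscR tscG (tscComp tscG J i) i t := tsc_comp_R (tsc_comp_self hi) hp
  obtain ⟨w', hw', h1, h2⟩ := hxr_ivt_X (m := μ) (tsc_comp_self hi) hp' hiX (by show μ - 1 ≤ rswX t; omega)
  exact ⟨tscComp tscG J i, tsc_comp_sub i, tsc_comp_conn i, ⟨t, ⟨htI, hp⟩, htX⟩, ⟨w', hw', h1, h2⟩⟩

/-- a cell of an explored cluster has no site in `Q`, and is not a cell of a layer which touches `M` -/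
theorem rdi_side_I_site {T : Bool} {M R σ I a : Set TV} (h : RdiSide M R σ I a) {i u : TV} (hi : i ∈ I) (hu : u ∈ rdiCs T i) : u ∉ rdiSt T M :=
  rdi_in_site (h.inI i hi) hu

/-! ## §11 customer forms on `RsgDat` (inputs of `gat_three` / `gaq_three`) -/

/-- (LAY) inside the band: a cell of the band off `M` with a site in `Q` belongs to a layer -/
theorem rdi_lay_band {T : Bool} {A B c d : ℤ} {M a c' : Set TV} (hM : M ⊆ rswRect A B c d) (hlr : ∀ z ∈ M, A + 2 ≤ rswX z ∧ rswX z ≤ B - 2)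
    (hbd : ∀ y ∈ rswRect A B c d, y ∉ M → y ∉ a → y ∉ c' → ∀ w, triAdj y w → w ∉ M) {y u : TV} (hyb : y ∈ plsBand c d) (hy : y ∉ M)
    (hu : u ∈ rdiCs T y) (huQ : u ∈ rdiSt T M) : y ∈ a ∨ y ∈ c' := by
  obtain ⟨z, hz, huz⟩ := huQ
  have hadj : triAdj y z := (rdi_cs_share hu huz).resolve_left fun e => hy (e ▸ hz)
  have hyR : y ∈ rswRect A B c d := by
    have g5 := hlr z hz
    rw [tsc_adj_iff] at hadj
    simp only [rswX] at g5
    exact ⟨by simp only [rswX]; omega, by simp only [rswX]; omega, hyb.1, hyb.2⟩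
  by_contra hcon
  push Not at hcon
  exact hbd y hyR hy hcon.1 hcon.2 z hadj hz

section rsg

variable {D : RsgDat} {σ I σ' J : Set TV}

theorem rdi_rsg_sc (G : RdiGeo D.xm D.xM D.y0 D.y1 (hxrQ D.y0 D.y1 D.xm D.xM D.a D.c) σ I D.a σ' J D.c) :
    TriSCOn (ZMod 2) tscG (↑(rsgQ D) : Set TV) := by
  have e : (↑(rsgQ D) : Set TV) = rdiSt D.T (hxrQ D.y0 D.y1 D.xm D.xM D.a D.c) := by ext u; exact rdi_rsg_Q G.sub u
  rw [e]; exact rdi_sc D.T G.sub G.sideA G.sideC G.bd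

theorem rdi_rsg_conn (G : RdiGeo D.xm D.xM D.y0 D.y1 (hxrQ D.y0 D.y1 D.xm D.xM D.a D.c) σ I D.a σ' J D.c) :
    TscConn tscG (↑(rsgQ D) : Set TV) := by
  have e : (↑(rsgQ D) : Set TV) = rdiSt D.T (hxrQ D.y0 D.y1 D.xm D.xM D.a D.c) := by ext u; exact rdi_rsg_Q G.sub u
  rw [e]; exact rdi_st_conn D.T G.conn

/-- the cells of `M` are inside `Q` -/
theorem rdi_rsg_kq {y : TV} (hy : y ∈ rsgM D) : rsgCs D.T y ⊆ rsgQ D := fun u hu => Finset.mem_biUnion.2 ⟨y, hy, hu⟩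

/-- **(LAY)** the layer of `Q` lies on the four sides -/
theorem rdi_rsg_lay (G : RdiGeo D.xm D.xM D.y0 D.y1 (hxrQ D.y0 D.y1 D.xm D.xM D.a D.c) σ I D.a σ' J D.c) :
    latBd (rsgQ D) ⊆ rsgLa D ∪ rsgLc D ∪ rsgLd D ∪ rsgLb D := by
  intro u hu
  obtain ⟨huQ, v, huv, hvQ⟩ := lat_mem_bd.1 hu
  obtain ⟨y, h1, h2⟩ := rdi_edge_cell D.T huv
  have hyM : y ∉ hxrQ D.y0 D.y1 D.xm D.xM D.a D.c := fun h => hvQ ((rdi_rsg_Q G.sub v).2 ⟨y, h, h2⟩)
  simp only [Finset.mem_union]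
  rcases rdi_lay G.sub G.lr G.bd hyM h1 ((rdi_rsg_Q G.sub u).1 huQ) with h | h | h | h
  · exact Or.inl (Or.inl (Or.inl ((rdi_rsg_side _ _ _ u).2 ⟨huQ, y, h, h1⟩)))
  · exact Or.inl (Or.inl (Or.inr ((rdi_rsg_side _ _ _ u).2 ⟨huQ, y, h, h1⟩)))
  · exact Or.inl (Or.inr (Finset.mem_filter.2 ⟨huQ, h⟩))
  · exact Or.inr (Finset.mem_filter.2 ⟨huQ, h⟩)

/-- the clipped cells are boundary cells -/
theorem rdi_rsg_glCb (hT : D.T = true) : glCb (rsgQ D) ⊆ rsgCb D := by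
  intro y hy
  obtain ⟨h1, h2⟩ := gl_mem_cb.1 hy
  unfold rsgCb
  refine Finset.mem_sdiff.2 ⟨?_, fun hM => h2 ?_⟩
  · rw [hT]; exact h1
  · have := rdi_rsg_kq hM
    rw [hT] at this
    exact this

/-- `hA` : a site of `Q` in a cell of the solid left side lies on `La` -/
theorem rdi_rsg_hA (G : RdiGeo D.xm D.xM D.y0 D.y1 (hxrQ D.y0 D.y1 D.xm D.xM D.a D.c) σ I D.a σ' J D.c) {pa qa pc qc : TV}
    (hP : HxrPair D.y0 D.y1 D.xm D.xM D.a D.c pa qa pc qc) : ∀ y ∈ hxrAA D.y0 D.y1 D.xM D.a, ∀ s ∈ rsgCs D.T y, s ∈ rsgQ D → s ∈ rsgLa D := by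
  intro y hy s hs hsQ
  have hyM : y ∉ hxrQ D.y0 D.y1 D.xm D.xM D.a D.c := fun h => h.2 (Or.inl hy)
  rcases rdi_lay_band G.sub G.lr G.bd hy.1 hyM hs ((rdi_rsg_Q G.sub s).1 hsQ) with h | h
  · exact (rdi_rsg_side _ _ _ s).2 ⟨hsQ, y, h, hs⟩
  · exact (hxr_c_off hP y h hy).elim

/-- `hC` : a site of `Q` in a cell of the solid right side lies on `Lc` -/
theorem rdi_rsg_hC (G : RdiGeo D.xm D.xM D.y0 D.y1 (hxrQ D.y0 D.y1 D.xm D.xM D.a D.c) σ I D.a σ' J D.c) {pa qa pc qc : TV}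
    (hP : HxrPair D.y0 D.y1 D.xm D.xM D.a D.c pa qa pc qc) : ∀ y ∈ hxrCC D.y0 D.y1 D.xm D.c, ∀ s ∈ rsgCs D.T y, s ∈ rsgQ D → s ∈ rsgLc D := by
  intro y hy s hs hsQ
  have hyM : y ∉ hxrQ D.y0 D.y1 D.xm D.xM D.a D.c := fun h => h.2 (Or.inr hy)
  rcases rdi_lay_band G.sub G.lr G.bd hy.1 hyM hs ((rdi_rsg_Q G.sub s).1 hsQ) with h | h
  · exact (hxr_a_off hP y h hy).elim
  · exact (rdi_rsg_side _ _ _ s).2 ⟨hsQ, y, h, hs⟩

theorem rdi_rsg_Ld {z : TV} (hz : z ∈ rsgLd D) : z.2 = D.y0 := (Finset.mem_filter.1 hz).2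

theorem rdi_rsg_Lb {z : TV} (hz : z ∈ rsgLb D) : z.2 = D.y1 + 1 := (Finset.mem_filter.1 hz).2

/-- `Q` lies in the site rows `y0 .. y1 + 1`, inside the box `xm + 2 ≤ X ≤ xM + 1` -/
theorem rdi_rsg_Q_box (G : RdiGeo D.xm D.xM D.y0 D.y1 (hxrQ D.y0 D.y1 D.xm D.xM D.a D.c) σ I D.a σ' J D.c) {u : TV} (hu : u ∈ rsgQ D) :
    u ∈ plsBand D.y0 (D.y1 + 1) ∧ D.xm + 2 ≤ rswX u ∧ rswX u ≤ D.xM + 1 := by
  obtain ⟨z, hz, huz⟩ := (rdi_rsg_Q G.sub u).1 hu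
  have h1 := rdi_cs_row huz
  obtain ⟨_, _, g3, g4⟩ := G.sub hz
  have g5 := G.lr z hz
  simp only [rswX] at g5 ⊢
  refine ⟨⟨by omega, by omega⟩, ?_⟩
  generalize D.T = T at huz
  cases T
  · rw [rdi_mem_D] at huz; omega
  · rw [rdi_mem_V] at huz; omega

end rsg

end Claimed.Agent.R291
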