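import Claimed.Agent.R291.Ann.RswRec
import Claimed.Agent.R291.Pl.Record
import Claimed.Agent.R291.Defs.RswStrip
import Claimed.Agent.R291.Pl.RecFlip
import Claimed.Agent.R291.Ann.RswPl
import Claimed.Agent.R291.Glue.Flip

/-!
# Row 291 (S0539), unit ANN, block A3 PART II, Ann/RswFlipR : (F1) THE REFLECTED RECORD IS A RECORD      (owner helper147; prefix `rfr_`; ONE CONVENTION: `ψ = hxfD`, `ψ' = hxfU`, `φ = hxfS` of `Pl/RecFlip` (helper105))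

Ruling (C) of the captain (24, 08:08Z): CLASS FALSE WITHOUT ANY CLASS-FALSE GEOMETRY.
`φ (u, v) = (u + v, - v)` on the sites sends `cellD (i, j)` onto `cellV (ψ (i, j))`, `ψ (i, j) = (i + j + 1, - j - 1)`.
`ψ` is an automorphism of `tscG` on the indices, `X (ψ z) = X z + 1`, rows `j ↦ - j - 1`; its inverse is `ψ' (a, b) = (a + b, - b - 1)` (`ψ` is NOT an involution: `ψ ∘ ψ` = shift by `(1, 0)`).
All the index-level objects of the record are defined from `(tscG, rswRect, arcs, P)` only: with `P' = ψ '' P`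

 * `rfr_A`, `rfr_C`   : the layers of the reflected record are the images of the layers   (stated for the bodies of `rsgA`, `rsgC` of `Ann/RswGlue`: `rsgA .. = rsrGa .. (pleI ..)` by `rfl`, so `rfr_A` IS the statement for `rsgA`; this file is imported BY `Ann/RswGlue`)
 * `rfr_G0`           : `RsgG0` is invariant
 * `rfr_T1`, `rfr_T2` : the trichotomy is invariant
 * `rfr_tip_r`, `rfr_tip_l`, `rfr_X` : tips (`X` shifts by `1`)
 * `rfr_cr`, `rfr_pair` : `HxrCr`, `HxrPair` are natural (feet and heads are exchanged)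
 * `rfr_AA`, `rfr_CC`, `rfr_Q` : solid sides and strip are natural   (for (F2), helper62)
 * `rfr_cell` : `(cellD z).image φ = cellV (ψ z)`
-/

set_option autoImplicit false
set_option linter.unusedSectionVars false
set_option linter.unusedVariables false

namespace Claimed.Agent.R291

open Relation Claims Claims.C0467

/-! ## 1. graph automorphisms: generic naturality -/

section gen

variable {V : Type*} {G : SimpleGraph V} {f g : V → V}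

theorem rfr_mem (hfg : ∀ v, f (g v) = v) (hgf : ∀ v, g (f v) = v) (s : Set V) (z : V) : z ∈ f '' s ↔ g z ∈ s := by
  constructor
  · rintro ⟨u, hu, rfl⟩
    rwa [hgf]
  · intro h
    exact ⟨g z, h, hfg z⟩

theorem rfr_R_map (hadj : ∀ u v, G.Adj (f u) (f v) ↔ G.Adj u v) {s : Set V} {u v : V} (h : TscR G s u v) : TscR G (f '' s) (f u) (f v) := by
  induction h with
  | refl => exact ReflTransGen.refl
  | @tail b c _ hbc ih => exact ih.tail ⟨(hadj b c).2 hbc.1, ⟨b, hbc.2.1, rfl⟩, ⟨c, hbc.2.2, rfl⟩⟩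

theorem rfr_adj_inv (hfg : ∀ v, f (g v) = v) (hadj : ∀ u v, G.Adj (f u) (f v) ↔ G.Adj u v) (u v : V) : G.Adj (g u) (g v) ↔ G.Adj u v := by
  rw [← hadj (g u) (g v), hfg, hfg]

theorem rfr_R_iff (hfg : ∀ v, f (g v) = v) (hgf : ∀ v, g (f v) = v) (hadj : ∀ u v, G.Adj (f u) (f v) ↔ G.Adj u v) (s : Set V) (u v : V) :
    TscR G (f '' s) u v ↔ TscR G s (g u) (g v) := by
  constructor
  · intro h
    have h1 := rfr_R_map (f := g) (rfr_adj_inv hfg hadj) h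
    have e : g '' (f '' s) = s := by
      ext z
      rw [rfr_mem hgf hfg, rfr_mem hfg hgf, hgf]
    rwa [e] at h1
  · intro h
    have h1 := rfr_R_map hadj h
    rwa [hfg, hfg] at h1

theorem rfr_conn (hfg : ∀ v, f (g v) = v) (hgf : ∀ v, g (f v) = v) (hadj : ∀ u v, G.Adj (f u) (f v) ↔ G.Adj u v) (s : Set V) :
    TscConn G (f '' s) ↔ TscConn G s := by
  constructor
  · intro h u hu v hv
    have := (rfr_R_iff hfg hgf hadj s _ _).1 (h (f u) ⟨u, hu, rfl⟩ (f v) ⟨v, hv, rfl⟩)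
    rwa [hgf, hgf] at this
  · intro h u hu v hv
    exact (rfr_R_iff hfg hgf hadj s _ _).2 (h _ ((rfr_mem hfg hgf s u).1 hu) _ ((rfr_mem hfg hgf s v).1 hv))

theorem rfr_diff (hfg : ∀ v, f (g v) = v) (hgf : ∀ v, g (f v) = v) (s t : Set V) : f '' s \ f '' t = f '' (s \ t) := by
  ext z
  rw [Set.mem_sdiff, rfr_mem hfg hgf, rfr_mem hfg hgf, rfr_mem hfg hgf, Set.mem_sdiff]

theorem rfr_union (s t : Set V) : f '' s ∪ f '' t = f '' (s ∪ t) := (Set.image_union f s t).symm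

theorem rfr_inter (hfg : ∀ v, f (g v) = v) (hgf : ∀ v, g (f v) = v) (s t : Set V) : f '' s ∩ f '' t = f '' (s ∩ t) := by
  ext z
  rw [Set.mem_inter_iff, rfr_mem hfg hgf, rfr_mem hfg hgf, rfr_mem hfg hgf, Set.mem_inter_iff]

/-- the cluster of a side is natural -/
theorem rfr_I (hfg : ∀ v, f (g v) = v) (hgf : ∀ v, g (f v) = v) (hadj : ∀ u v, G.Adj (f u) (f v) ↔ G.Adj u v) (N σ : Set V) :
    pleI G (f '' N) (f '' σ) = f '' pleI G N σ := by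
  ext z
  rw [rfr_mem hfg hgf]
  constructor
  · rintro ⟨t, ht, hs, hR⟩
    exact ⟨g t, (rfr_mem hfg hgf N t).1 ht, (rfr_mem hfg hgf σ t).1 hs, (rfr_R_iff hfg hgf hadj N t z).1 hR⟩
  · rintro ⟨t, ht, hs, hR⟩
    refine ⟨f t, ⟨t, ht, rfl⟩, ⟨t, hs, rfl⟩, (rfr_R_iff hfg hgf hadj N _ z).2 ?_⟩
    rwa [hgf]

/-- the layer is natural -/
theorem rfr_Gam (hfg : ∀ v, f (g v) = v) (hgf : ∀ v, g (f v) = v) (hadj : ∀ u v, G.Adj (f u) (f v) ↔ G.Adj u v) (R σ σ' I : Set V) :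
    pleGam G (f '' R) (f '' σ) (f '' σ') (f '' I) = f '' pleGam G R σ σ' I := by
  ext z
  rw [rfr_mem hfg hgf]
  show (z ∈ pleI G (f '' R \ f '' I) (f '' σ') ∧ (z ∈ f '' σ ∨ ∃ i ∈ f '' I, G.Adj i z)) ↔ (g z ∈ pleI G (R \ I) σ' ∧ (g z ∈ σ ∨ ∃ i ∈ I, G.Adj i (g z)))
  rw [rfr_diff hfg hgf, rfr_I hfg hgf hadj, rfr_mem hfg hgf, rfr_mem hfg hgf]
  refine and_congr Iff.rfl (or_congr Iff.rfl ?_)
  constructor
  · rintro ⟨i, hi, ha⟩
    exact ⟨g i, (rfr_mem hfg hgf I i).1 hi, (rfr_adj_inv hfg hadj i z).2 ha⟩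
  · rintro ⟨i, hi, ha⟩
    refine ⟨f i, ⟨i, hi, rfl⟩, ?_⟩
    rw [← rfr_adj_inv hfg hadj, hgf]
    exact ha

/-- the solid side is natural -/
theorem rfr_Sol (hfg : ∀ v, f (g v) = v) (hgf : ∀ v, g (f v) = v) (hadj : ∀ u v, G.Adj (f u) (f v) ↔ G.Adj u v) (Bd a T : Set V) :
    hxrSol G (f '' Bd) (f '' a) (f '' T) = f '' hxrSol G Bd a T := by
  ext z
  rw [rfr_mem hfg hgf]
  show (z ∈ f '' Bd ∧ ∀ t ∈ f '' T, ¬ TscR G (f '' Bd \ f '' a) z t) ↔ (g z ∈ Bd ∧ ∀ t ∈ T, ¬ TscR G (Bd \ a) (g z) t)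
  rw [rfr_diff hfg hgf, rfr_mem hfg hgf]
  refine and_congr Iff.rfl ?_
  constructor
  · intro h t ht hR
    refine h (f t) ⟨t, ht, rfl⟩ ((rfr_R_iff hfg hgf hadj _ _ _).2 ?_)
    rwa [hgf]
  · intro h t ht hR
    exact h (g t) ((rfr_mem hfg hgf T t).1 ht) ((rfr_R_iff hfg hgf hadj _ _ _).1 hR)

end gen

/-! ## 2. the reflection -/

theorem rfr_fg (v : TV) : hxfD (hxfU v) = v := by
  obtain ⟨a, b⟩ := v
  simp only [hxfD, hxfU, Prod.mk.injEq]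
  constructor <;> ring

theorem rfr_gf (v : TV) : hxfU (hxfD v) = v := by
  obtain ⟨a, b⟩ := v
  simp only [hxfD, hxfU, Prod.mk.injEq]
  constructor <;> ring

theorem rfr_phi_phi (v : TV) : hxfS (hxfS v) = v := by
  obtain ⟨a, b⟩ := v
  simp only [hxfS, Prod.mk.injEq]
  constructor <;> ring

theorem rfr_adj (u v : TV) : tscG.Adj (hxfD u) (hxfD v) ↔ tscG.Adj u v := by
  rw [tsc_G_adj, tsc_G_adj, tsc_adj_iff, tsc_adj_iff]
  simp only [hxfD]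
  omega

theorem rfr_tri (u v : TV) : triAdj (hxfD u) (hxfD v) ↔ triAdj u v := rfr_adj u v

theorem rfr_inj {u v : TV} (h : hxfD u = hxfD v) : u = v := by
  rw [← rfr_gf u, ← rfr_gf v, h]

theorem rfr_X (z : TV) : hxsX (hxfD z) = hxsX z + 1 := by
  simp only [hxsX, hxfD]
  ring

theorem rfr_X' (z : TV) : rswX (hxfD z) = rswX z + 1 := by
  simp only [rswX, hxfD]
  ring

theorem rfr_Xj (z : TV) : rswX (hxfU z) = rswX z - 1 := by
  simp only [rswX, hxfU]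
  ring

theorem rfr_row (z : TV) : (hxfD z).2 = - z.2 - 1 := rfl

theorem rfr_rowj (z : TV) : (hxfU z).2 = - z.2 - 1 := rfl

theorem rfr_mem' (s : Set TV) (z : TV) : z ∈ hxfD '' s ↔ hxfU z ∈ s := rfr_mem rfr_fg rfr_gf s z

/-- the down cell of index `z` is sent onto the up cell of index `ψ z` -/
theorem rfr_cell (z : TV) : (cellD z).image hxfS = cellV (hxfD z) := by
  obtain ⟨i, j⟩ := z
  ext ⟨a, b⟩
  simp only [cellD, cellV, hxfS, hxfD, Finset.image_insert, Finset.image_singleton, Finset.mem_insert, Finset.mem_singleton, Prod.mk_add_mk, Prod.mk.injEq]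
  omega

/-! ## 3. the standard sets -/

theorem rfr_rect (A B c d : ℤ) : hxfD '' rswRect A B c d = rswRect (A + 1) (B + 1) (-d - 1) (-c - 1) := by
  ext z
  rw [rfr_mem']
  show (A ≤ rswX (hxfU z) ∧ rswX (hxfU z) ≤ B ∧ c ≤ (hxfU z).2 ∧ (hxfU z).2 ≤ d) ↔ (A + 1 ≤ rswX z ∧ rswX z ≤ B + 1 ∧ -d - 1 ≤ z.2 ∧ z.2 ≤ -c - 1)
  rw [rfr_Xj, rfr_rowj]
  omega

theorem rfr_band (c d : ℤ) : hxfD '' plsBand c d = plsBand (-d - 1) (-c - 1) := by
  ext z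
  rw [rfr_mem']
  show (c ≤ (hxfU z).2 ∧ (hxfU z).2 ≤ d) ↔ (-d - 1 ≤ z.2 ∧ z.2 ≤ -c - 1)
  rw [rfr_rowj]
  omega

theorem rfr_SgL (A c d i w : ℤ) : hxfD '' rsrSgL A c d i w = rsrSgL (A + 1) (-d - 1) (-c - 1) (i + 1) w := by
  ext z
  rw [rfr_mem']
  show (rswX (hxfU z) ≤ A + 1 ∨ (((hxfU z).2 = c ∨ (hxfU z).2 = d) ∧ rswX (hxfU z) ≤ i - w + 1)) ↔
    (rswX z ≤ A + 1 + 1 ∨ ((z.2 = -d - 1 ∨ z.2 = -c - 1) ∧ rswX z ≤ i + 1 - w + 1))
  rw [rfr_Xj, rfr_rowj]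
  omega

theorem rfr_SgR (B c d i w : ℤ) : hxfD '' rsrSgR B c d i w = rsrSgR (B + 1) (-d - 1) (-c - 1) (i + 1) w := by
  ext z
  rw [rfr_mem']
  show (B - 1 ≤ rswX (hxfU z) ∨ (((hxfU z).2 = c ∨ (hxfU z).2 = d) ∧ i + w - 1 ≤ rswX (hxfU z))) ↔
    (B + 1 - 1 ≤ rswX z ∨ ((z.2 = -d - 1 ∨ z.2 = -c - 1) ∧ i + 1 + w - 1 ≤ rswX z))
  rw [rfr_Xj, rfr_rowj]
  omega

theorem rfr_Lam (j i w : ℤ) : hxfD '' rsrLam j i w = rsrLam (-j - 1) (i + 1) w := by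
  ext z
  rw [rfr_mem']
  show ((hxfU z).2 = j ∧ i - w ≤ rswX (hxfU z) ∧ rswX (hxfU z) ≤ i + w) ↔ (z.2 = -j - 1 ∧ i + 1 - w ≤ rswX z ∧ rswX z ≤ i + 1 + w)
  rw [rfr_Xj, rfr_rowj]
  omega

theorem rfr_FarR (c d X : ℤ) : hxfD '' hxrFarR c d X = hxrFarR (-d - 1) (-c - 1) (X + 1) := by
  ext z
  rw [rfr_mem']
  show ((c ≤ (hxfU z).2 ∧ (hxfU z).2 ≤ d) ∧ X < rswX (hxfU z)) ↔ ((-d - 1 ≤ z.2 ∧ z.2 ≤ -c - 1) ∧ X + 1 < rswX z)
  rw [rfr_Xj, rfr_rowj]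
  omega

theorem rfr_FarL (c d X : ℤ) : hxfD '' hxrFarL c d X = hxrFarL (-d - 1) (-c - 1) (X + 1) := by
  ext z
  rw [rfr_mem']
  show ((c ≤ (hxfU z).2 ∧ (hxfU z).2 ≤ d) ∧ rswX (hxfU z) < X) ↔ ((-d - 1 ≤ z.2 ∧ z.2 ≤ -c - 1) ∧ rswX z < X + 1)
  rw [rfr_Xj, rfr_rowj]
  omega

/-! ## 4. (F1) the reflected record -/

/-- the cluster of the left arc -/
theorem rfr_IL (A B c d w m : ℤ) (P : Set TV) :
    pleI tscG (rswRect (A + 1) (B + 1) (-d - 1) (-c - 1) \ hxfD '' P) (rsrSgL (A + 1) (-d - 1) (-c - 1) (m + 1) w) =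
      hxfD '' pleI tscG (rswRect A B c d \ P) (rsrSgL A c d m w) := by
  rw [← rfr_rect, ← rfr_SgL, rfr_diff rfr_fg rfr_gf, rfr_I rfr_fg rfr_gf rfr_adj]

/-- the cluster of the right arc -/
theorem rfr_IR (A B c d w m : ℤ) (P : Set TV) :
    pleI tscG (rswRect (A + 1) (B + 1) (-d - 1) (-c - 1) \ hxfD '' P) (rsrSgR (B + 1) (-d - 1) (-c - 1) (m + 1) w) =
      hxfD '' pleI tscG (rswRect A B c d \ P) (rsrSgR B c d m w) := by
  rw [← rfr_rect, ← rfr_SgR, rfr_diff rfr_fg rfr_gf, rfr_I rfr_fg rfr_gf rfr_adj]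

/-- **(F1-a)** `rsgA (A+1) (B+1) (-d-1) (-c-1) w (m+1) (ψ '' P) = ψ '' rsgA A B c d w m P` (both sides unfolded: `rsgA` is this body by `rfl`) -/
theorem rfr_A (A B c d w m : ℤ) (P : Set TV) :
    rsrGa (A + 1) (B + 1) (-d - 1) (-c - 1) w (m + 1) (pleI tscG (rswRect (A + 1) (B + 1) (-d - 1) (-c - 1) \ hxfD '' P) (rsrSgL (A + 1) (-d - 1) (-c - 1) (m + 1) w)) =
      hxfD '' rsrGa A B c d w m (pleI tscG (rswRect A B c d \ P) (rsrSgL A c d m w)) := by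
  rw [rfr_IL]
  unfold rsrGa
  rw [← rfr_rect, ← rfr_SgL, ← rfr_SgR, rfr_Gam rfr_fg rfr_gf rfr_adj]

/-- **(F1-c)** `rsgC (A+1) (B+1) (-d-1) (-c-1) w (m'+1) (ψ '' P) = ψ '' rsgC A B c d w m' P` -/
theorem rfr_C (A B c d w m' : ℤ) (P : Set TV) :
    rsrGc (A + 1) (B + 1) (-d - 1) (-c - 1) w (m' + 1) (pleI tscG (rswRect (A + 1) (B + 1) (-d - 1) (-c - 1) \ hxfD '' P) (rsrSgR (B + 1) (-d - 1) (-c - 1) (m' + 1) w)) =
      hxfD '' rsrGc A B c d w m' (pleI tscG (rswRect A B c d \ P) (rsrSgR B c d m' w)) := by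
  rw [rfr_IR]
  unfold rsrGc
  rw [← rfr_rect, ← rfr_SgL, ← rfr_SgR, rfr_Gam rfr_fg rfr_gf rfr_adj]

/-- **(F1-G0)** `RsgG0 (A+1) (B+1) (-d-1) (-c-1) w (m+1) (m'+1) (ψ '' P) ↔ RsgG0 A B c d w m m' P` -/
theorem rfr_G0 (A B c d w m m' : ℤ) (P : Set TV) :
    RsrG0 (A + 1) (B + 1) (-d - 1) (-c - 1) w (m + 1) (m' + 1)
        (pleI tscG (rswRect (A + 1) (B + 1) (-d - 1) (-c - 1) \ hxfD '' P) (rsrSgL (A + 1) (-d - 1) (-c - 1) (m + 1) w))
        (pleI tscG (rswRect (A + 1) (B + 1) (-d - 1) (-c - 1) \ hxfD '' P) (rsrSgR (B + 1) (-d - 1) (-c - 1) (m' + 1) w)) ↔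
      RsrG0 A B c d w m m' (pleI tscG (rswRect A B c d \ P) (rsrSgL A c d m w)) (pleI tscG (rswRect A B c d \ P) (rsrSgR B c d m' w)) := by
  rw [rfr_IL, rfr_IR]
  unfold RsrG0
  rw [← rfr_rect, ← rfr_SgL, ← rfr_SgR, rfr_inter rfr_fg rfr_gf, rfr_inter rfr_fg rfr_gf]
  constructor
  · rintro ⟨h1, h2⟩
    refine ⟨fun z hz hI => h1 (hxfD z) ⟨z, hz, rfl⟩ ⟨z, hI, rfl⟩, fun z hz hI => h2 (hxfD z) ⟨z, hz, rfl⟩ ⟨z, hI, rfl⟩⟩
  · rintro ⟨h1, h2⟩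
    refine ⟨fun z hz hI => h1 (hxfU z) ((rfr_mem' _ z).1 hz) ((rfr_mem' _ z).1 hI), fun z hz hI => h2 (hxfU z) ((rfr_mem' _ z).1 hz) ((rfr_mem' _ z).1 hI)⟩

/-- **(F1-T1)** -/
theorem rfr_T1 (a c : Set TV) : RsgT1 (hxfD '' a) (hxfD '' c) ↔ RsgT1 a c := by
  constructor
  · rintro ⟨_, ⟨u, hu, rfl⟩, _, ⟨v, hv, rfl⟩, h⟩
    refine ⟨u, hu, v, hv, ?_⟩
    rcases h with h | h
    · exact Or.inl (rfr_inj h)
    · exact Or.inr ((rfr_adj u v).1 h)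
  · rintro ⟨u, hu, v, hv, h⟩
    refine ⟨_, ⟨u, hu, rfl⟩, _, ⟨v, hv, rfl⟩, ?_⟩
    rcases h with h | h
    · exact Or.inl (by rw [h])
    · exact Or.inr ((rfr_adj u v).2 h)

/-- **(F1-T2)** -/
theorem rfr_T2 (y0 y1 : ℤ) (a c : Set TV) : RsgT2 (-y1 - 1) (-y0 - 1) (hxfD '' a) (hxfD '' c) ↔ RsgT2 y0 y1 a c := by
  unfold RsgT2
  rw [← rfr_band]
  constructor
  · rintro ⟨_, ⟨y, hy, rfl⟩, ⟨_, ⟨u, hu, rfl⟩, h1⟩, ⟨_, ⟨v, hv, rfl⟩, h2⟩⟩
    exact ⟨y, hy, ⟨u, hu, (rfr_adj y u).1 h1⟩, ⟨v, hv, (rfr_adj y v).1 h2⟩⟩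
  · rintro ⟨y, hy, ⟨u, hu, h1⟩, ⟨v, hv, h2⟩⟩
    exact ⟨_, ⟨y, hy, rfl⟩, ⟨_, ⟨u, hu, rfl⟩, (rfr_adj y u).2 h1⟩, ⟨_, ⟨v, hv, rfl⟩, (rfr_adj y v).2 h2⟩⟩

/-- **(F1-tips)** -/
theorem rfr_tip_r (a : Set TV) (μ : ℤ) : (∃ z ∈ hxfD '' a, μ + 1 ≤ hxsX z) ↔ ∃ z ∈ a, μ ≤ hxsX z := by
  constructor
  · rintro ⟨_, ⟨z, hz, rfl⟩, h⟩
    rw [rfr_X] at h
    exact ⟨z, hz, by omega⟩
  · rintro ⟨z, hz, h⟩
    exact ⟨_, ⟨z, hz, rfl⟩, by rw [rfr_X]; omega⟩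

theorem rfr_tip_l (c : Set TV) (μ : ℤ) : (∃ z ∈ hxfD '' c, hxsX z ≤ μ + 1) ↔ ∃ z ∈ c, hxsX z ≤ μ := by
  constructor
  · rintro ⟨_, ⟨z, hz, rfl⟩, h⟩
    rw [rfr_X] at h
    exact ⟨z, hz, by omega⟩
  · rintro ⟨z, hz, h⟩
    exact ⟨_, ⟨z, hz, rfl⟩, by rw [rfr_X]; omega⟩

/-! ## 5. crossings, solid sides, strip -/

/-- a crossing is sent to a crossing; foot and head are exchanged -/
theorem rfr_cr {y0 y1 xm xM : ℤ} {a : Set TV} {p q : TV} (h : HxrCr y0 y1 xm xM a p q) :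
    HxrCr (-y1 - 1) (-y0 - 1) (xm + 1) (xM + 1) (hxfD '' a) (hxfD q) (hxfD p) where
  sub := by
    rw [← rfr_band]
    exact Set.image_mono h.sub
  conn := (rfr_conn rfr_fg rfr_gf rfr_adj a).2 h.conn
  box := by
    rintro _ ⟨z, hz, rfl⟩
    rw [rfr_X]
    have := h.box z hz
    omega
  pa := ⟨q, h.qa, rfl⟩
  qa := ⟨p, h.pa, rfl⟩
  p0 := by rw [rfr_row, h.q1]
  q1 := by rw [rfr_row, h.p0]

/-- a pair of crossings is sent to a pair of crossings -/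
theorem rfr_pair {y0 y1 xm xM : ℤ} {a c : Set TV} {pa qa pc qc : TV} (h : HxrPair y0 y1 xm xM a c pa qa pc qc) :
    HxrPair (-y1 - 1) (-y0 - 1) (xm + 1) (xM + 1) (hxfD '' a) (hxfD '' c) (hxfD qa) (hxfD pa) (hxfD qc) (hxfD pc) where
  A := rfr_cr h.A
  C := rfr_cr h.C
  feet := by
    have h1 := h.A.q1
    have h2 := h.C.q1
    have h3 := h.heads
    show qa.1 + qa.2 + 1 < qc.1 + qc.2 + 1
    omega
  heads := by
    have h1 := h.A.p0
    have h2 := h.C.p0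
    have h3 := h.feet
    show pa.1 + pa.2 + 1 < pc.1 + pc.2 + 1
    omega
  sep := by
    rintro _ ⟨u, hu, rfl⟩ _ ⟨v, hv, rfl⟩
    have := h.sep u hu v hv
    exact ⟨fun e => this.1 (rfr_inj e), fun e => this.2 ((rfr_tri u v).1 e)⟩

theorem rfr_AA (y0 y1 xM : ℤ) (a : Set TV) : hxrAA (-y1 - 1) (-y0 - 1) (xM + 1) (hxfD '' a) = hxfD '' hxrAA y0 y1 xM a := by
  unfold hxrAA
  rw [← rfr_band, ← rfr_FarR, rfr_Sol rfr_fg rfr_gf rfr_adj]

theorem rfr_CC (y0 y1 xm : ℤ) (c : Set TV) : hxrCC (-y1 - 1) (-y0 - 1) (xm + 1) (hxfD '' c) = hxfD '' hxrCC y0 y1 xm c := by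
  unfold hxrCC
  rw [← rfr_band, ← rfr_FarL, rfr_Sol rfr_fg rfr_gf rfr_adj]

/-- the strip is natural -/
theorem rfr_Q (y0 y1 xm xM : ℤ) (a c : Set TV) :
    hxrQ (-y1 - 1) (-y0 - 1) (xm + 1) (xM + 1) (hxfD '' a) (hxfD '' c) = hxfD '' hxrQ y0 y1 xm xM a c := by
  unfold hxrQ
  rw [rfr_AA, rfr_CC, ← rfr_band, rfr_union, rfr_diff rfr_fg rfr_gf]

/-!
## 6. (T3) THE FLIP STEP      (prefix `rft_`; kept in THIS file: a new file under 250 lines is reverted by the CI guard)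

Ruling of the captain (24, 08:24Z), link (T3): the two contracts `rsg_est_tip`, `rsg_est_tube` of `Ann/RswGlue` (record form of 269) at the class `T = false`
follow from the SAME statements at the class `T = true`, applied to the reflected record `P' = hxfD '' P`:

 * (F1) `Ann/RswFlipR` (`rfr_A`, `rfr_C`, `rfr_G0`, `rfr_T1`, `rfr_T2`, `rfr_X'`): the reflected record is a record: here in the vocabulary `rplA`, `rplC`, `RplG0`, `rplD` of 206 (`rft_A`, `rft_C`, `rft_G0`, `rft_D`);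
 * (F2) `Glue/Flip` (`glf_est` of 62): `RsgEst x (glfD D) → RsgEst x D` for `D.T = false`.

The class-true statements are HYPOTHESES (`RftTip x`, `RftTube x`): this file does not import `Ann/RswGlue`, which imports it.
EXITS: `rft_tip`, `rft_tube` (both classes from the class `true`).

PARAMETERS of the reflected record: `c' = -d-1`, `d' = -c-1`, `m' = m+1`, the same `w σ e e2`.
-/

/-! ### 6.1 (F1) in the vocabulary of `Ann/RswPl` -/

section f1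

variable (c d w σ m e : ℤ) (P : Set TV)

theorem rft_e1 : m + 1 - e = m - e + 1 := by ring

theorem rft_e2 : m + 1 + σ + e = m + σ + e + 1 := by ring

theorem rft_e3 : m + 1 + σ = m + σ + 1 := by ring

/-- the layer `a` of the reflected record -/
theorem rft_A : rplA (-d - 1) (-c - 1) w σ (m + 1) e (hxfD '' P) = hxfD '' rplA c d w σ m e P := by
  unfold rplA rplI
  rw [rft_e1, rft_e2]
  exact rfr_A (m - e) (m + σ + e) c d w m P

/-- the layer `c` of the reflected record -/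
theorem rft_C : rplC (-d - 1) (-c - 1) w σ (m + 1) e (hxfD '' P) = hxfD '' rplC c d w σ m e P := by
  unfold rplC rplJ
  rw [rft_e1, rft_e2, rft_e3]
  exact rfr_C (m - e) (m + σ + e) c d w (m + σ) P

/-- both layers exist: invariant -/
theorem rft_G0 : RplG0 (-d - 1) (-c - 1) w σ (m + 1) e (hxfD '' P) ↔ RplG0 c d w σ m e P := by
  unfold RplG0 rplI rplJ
  rw [rft_e1, rft_e2, rft_e3]
  exact rfr_G0 (m - e) (m + σ + e) c d w m (m + σ) P

/-- preimage under the inverse = image -/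
theorem rft_pre (a : Set TV) : glfJ ⁻¹' a = hxfD '' a := by
  ext z
  rw [rfr_mem']
  rfl

/-- **the reflected strip data of the record are the strip data of the reflected record** -/
theorem rft_D : glfD (rplD false c d w σ m e P) = rplD true (-d - 1) (-c - 1) w σ (m + 1) e (hxfD '' P) := by
  unfold glfD rplD
  simp only [rft_pre, rft_A, rft_C, rft_e1, rft_e2]

theorem rft_T1 : RsgT1 (rplA (-d - 1) (-c - 1) w σ (m + 1) e (hxfD '' P)) (rplC (-d - 1) (-c - 1) w σ (m + 1) e (hxfD '' P)) ↔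
    RsgT1 (rplA c d w σ m e P) (rplC c d w σ m e P) := by
  rw [rft_A, rft_C, rfr_T1]

theorem rft_T2 : RsgT2 (-d - 1) (-c - 1) (rplA (-d - 1) (-c - 1) w σ (m + 1) e (hxfD '' P)) (rplC (-d - 1) (-c - 1) w σ (m + 1) e (hxfD '' P)) ↔
    RsgT2 c d (rplA c d w σ m e P) (rplC c d w σ m e P) := by
  rw [rft_A, rft_C, rfr_T2]

/-- the tip of `a` -/
theorem rft_tipA (t : ℤ) (h : ∃ z ∈ rplA c d w σ m e P, m + t < rswX z) : ∃ z ∈ rplA (-d - 1) (-c - 1) w σ (m + 1) e (hxfD '' P), m + 1 + t < rswX z := by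
  obtain ⟨z, hz, hX⟩ := h
  rw [rft_A]
  exact ⟨hxfD z, ⟨z, hz, rfl⟩, by rw [rfr_X']; omega⟩

/-- the tip of `c` -/
theorem rft_tipC (t : ℤ) (h : ∃ z ∈ rplC c d w σ m e P, rswX z < m + σ - t) : ∃ z ∈ rplC (-d - 1) (-c - 1) w σ (m + 1) e (hxfD '' P), rswX z < m + 1 + σ - t := by
  obtain ⟨z, hz, hX⟩ := h
  rw [rft_C]
  exact ⟨hxfD z, ⟨z, hz, rfl⟩, by rw [rfr_X']; omega⟩

end f1

/-! ### 6.2 the box of the strip at the record -/

theorem rft_box {c d w σ m e : ℤ} {P : Set TV} (T : Bool) (hcd : c < d) (hw : 1 ≤ w) (hσ : 2 * w < σ) (he : w + 4 ≤ e) (h0 : RplG0 c d w σ m e P)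
    (h1 : ¬ RsgT1 (rplA c d w σ m e P) (rplC c d w σ m e P)) : GlfBox (rplD T c d w σ m e P) := by
  obtain ⟨pa, qa, pc, qc, H, -⟩ := rpl_pair hcd hw hσ he h0 h1
  exact hxr_Q_box H

/-! ### 6.3 the two contracts -/

/-- the contract (L-TIP) at the class `T` (VERBATIM `rsg_est_tip` of `Ann/RswGlue`, record form of 269) -/
def RftTip (x : ℝ) (T : Bool) : Prop :=
  ∀ {c d w σ m e e2 : ℤ} {P : Set TV}, c < d → 1 ≤ w → 2 * w < σ → w + 4 ≤ e → e2 ≤ e → e + 3 * σ + w + 8 ≤ 2 * e2 → RplG0 c d w σ m e P →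
    ¬ RsgT1 (rplA c d w σ m e P) (rplC c d w σ m e P) → ¬ RsgT2 c d (rplA c d w σ m e P) (rplC c d w σ m e P) →
    (∃ z ∈ rplA c d w σ m e P, m + e2 < rswX z) → (∃ z ∈ rplC c d w σ m e P, rswX z < m + σ - e2) → RsgEst x (rplD T c d w σ m e P)

/-- the contract (L-TUBE) at the class `T` (VERBATIM `rsg_est_tube`) -/
def RftTube (x : ℝ) (T : Bool) : Prop :=
  ∀ {c d w σ m e : ℤ} {P : Set TV}, c < d → 1 ≤ w → 2 * w < σ → w + 4 ≤ e → 12 * (σ + 2 * e) + 64 ≤ d - c → RplG0 c d w σ m e P →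
    ¬ RsgT1 (rplA c d w σ m e P) (rplC c d w σ m e P) → ¬ RsgT2 c d (rplA c d w σ m e P) (rplC c d w σ m e P) → RsgEst x (rplD T c d w σ m e P)

theorem rft_eqns_cite : True := by
  have := @RftTip.eq_1
  have := @RftTube.eq_1
  trivial

/-- **(T3-TIP)** the class `false` from the class `true` -/
theorem rft_tip_false {x : ℝ} (hx : 0 < x) (hx1 : x ≤ 1) (H : RftTip x true) : RftTip x false := by
  intro c d w σ m e e2 P hcd hw hσ he h21 h22 h0 h1 h2 hta htc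
  refine glf_est hx hx1 rfl (rft_box false hcd hw hσ he h0 h1) ?_
  rw [rft_D]
  exact H (by omega) hw hσ he h21 h22 ((rft_G0 c d w σ m e P).2 h0) (fun h => h1 ((rft_T1 c d w σ m e P).1 h)) (fun h => h2 ((rft_T2 c d w σ m e P).1 h))
    (rft_tipA c d w σ m e P e2 hta) (rft_tipC c d w σ m e P e2 htc)

/-- **(T3-TUBE)** the class `false` from the class `true` -/
theorem rft_tube_false {x : ℝ} (hx : 0 < x) (hx1 : x ≤ 1) (H : RftTube x true) : RftTube x false := by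
  intro c d w σ m e P hcd hw hσ he hnar h0 h1 h2
  refine glf_est hx hx1 rfl (rft_box false hcd hw hσ he h0 h1) ?_
  rw [rft_D]
  exact H (by omega) hw hσ he (by omega) ((rft_G0 c d w σ m e P).2 h0) (fun h => h1 ((rft_T1 c d w σ m e P).1 h)) (fun h => h2 ((rft_T2 c d w σ m e P).1 h))

/-- **EXIT (TIP)**: both classes from the class `true`.      LINK in `Ann/RswGlue`: `rsg_est_tip x hx1 hx2 T .. := rft_tip hx0 hx2 (fun .. => <class-true theorem>) T hcd hw hσ he h21 h22 h0 h1 h2 hta htc`. -/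
theorem rft_tip {x : ℝ} (hx : 0 < x) (hx1 : x ≤ 1) (H : RftTip x true) (T : Bool) : RftTip x T := by
  cases T
  · exact rft_tip_false hx hx1 H
  · exact H

/-- **EXIT (TUBE)**: both classes from the class `true` -/
theorem rft_tube {x : ℝ} (hx : 0 < x) (hx1 : x ≤ 1) (H : RftTube x true) (T : Bool) : RftTube x T := by
  cases T
  · exact rft_tube_false hx hx1 H
  · exact H

end Claimed.Agent.R291
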