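import Claimed.Agent.R291.Defs.RswStrip
import Claimed.Agent.R291.Pl.Deep
import Claimed.Agent.R291.Pl.Closed
import Claimed.Agent.R291.Glue.AdaptP

/-!
# Row 291 (S0539), unit ANN, block A3 PART II (L), Ann/RswTip : THE ASSEMBLY OF (L-TIP), CLASS `true`      (owner / assembler helper115; prefix `rtp_`)

TEX[annulus:RSW] TEX[annulus:gluing]      Post of 24 (07:56Z).   `rtp_est_true : RsgEst x D` for `D.T = true` is COMPILED from
* `gaq_three`   (31, `Glue/AdaptP` part 2)   three index places + `GlStrip` + `PclStrip` + `rows` + `hdis`  ⟹  the strip estimate      (inside: `gl_three` of 55, `pcl_three` of 187, `gl_maj_dich_amb` of 259, `gl_double` of 31)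
* `hxd_right`, `hxd_left`   (105, `Pl/Deep`)   two index places of the right axis with their RUNS + one index place of the left axis
* `pcl_c2_cells`   (187, `Pl/Closed`)   CLOSED C2: a CORE cell of the axis between the two runs separates the two SITE components of `Q ∩ ρ Q`
* `RtpGeo x D`   THE ONLY INTERFACE WITH THE RECORD: `strip : GlStrip ..` (producer 182), `pcl : PclStrip ..` (barriers; producer 173)
* `hcore`   the core cell of the right axis (a cell of the explored cluster `I` on the thick axis: none of its sites lies in `Q`)      (producer: record level, 269 / 182)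
PROVED HERE from `HxrPair` alone: `rtp_mem_M`, `rtp_hA`, `rtp_hC`, `rtp_Cb`, the boxes of the sites, `rows` (the mirror image of an extreme row leaves the box), `hdis` (one axis: closed C2; two axes: disjoint slabs).
-/

set_option autoImplicit false
set_option linter.unusedSectionVars false
set_option linter.unusedVariables false
set_option linter.unusedSimpArgs false

namespace Claimed.Agent.R291

open Relation Claims Claims.C0467

/-! ## §0 the interface with the record -/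

/-- **THE RECORD-LEVEL FACTS ON THE CLOSED STRIP** (the only interface between the record and (L)).
`strip` : producer 182 (`rdi_sc`, thickness);   `pcl` : producer 173 (barriers `PclBarL`, `PclBarR`, ends).   Site band = rows `y0 .. y1 + 1`, site box `xm ≤ X ≤ xM + 3` (both classes). -/
structure RtpGeo (x : ℝ) (D : RsgDat) : Prop where
  strip : GlStrip (rsgS x D) (rsgCb D) (rsgLa D) (rsgLc D) (rsgLd D) (rsgLb D)
  pcl : PclStrip D.y0 (D.y1 + 1) D.xm (D.xM + 3) (↑(rsgQ D) : Set TV) ↑(rsgLa D) ↑(rsgLc D) ↑(rsgLd D \ (rsgLa D ∪ rsgLc D)) ↑(rsgLb D \ (rsgLa D ∪ rsgLc D))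

/-! ## §1 the dictionary for the class `true` -/

section dict

variable {y0 y1 xm xM : ℤ} {a c : Set TV} {pa qa pc qc : TV}

/-- the strip data of class `true` -/
abbrev rtpD (y0 y1 xm xM : ℤ) (a c : Set TV) : RsgDat := ⟨true, y0, y1, xm, xM, a, c⟩

theorem rtp_mem_M (H : HxrPair y0 y1 xm xM a c pa qa pc qc) {z : TV} : z ∈ rsgM (rtpD y0 y1 xm xM a c) ↔ z ∈ hxrQ y0 y1 xm xM a c := by
  classical
  unfold rsgM
  rw [Finset.mem_filter]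
  refine ⟨fun h => h.2, fun h => ⟨rsg_box_mem ⟨(hxr_Q_box H z h).1, (hxr_Q_box H z h).2, h.1.1, h.1.2⟩, h⟩⟩

theorem rtp_mem_Q {z : TV} : z ∈ rsgQ (rtpD y0 y1 xm xM a c) ↔ ∃ w ∈ rsgM (rtpD y0 y1 xm xM a c), z ∈ cellV w := by
  unfold rsgQ
  rw [Finset.mem_biUnion]
  rfl

theorem rtp_cell_Q {w : TV} (hw : w ∈ rsgM (rtpD y0 y1 xm xM a c)) : cellV w ⊆ rsgQ (rtpD y0 y1 xm xM a c) :=
  fun z hz => rtp_mem_Q.2 ⟨w, hw, hz⟩

theorem rtp_mem_cell {w z : TV} : z ∈ cellV w ↔ (z.1 = w.1 ∧ z.2 = w.2) ∨ (z.1 = w.1 + 1 ∧ z.2 = w.2) ∨ (z.1 = w.1 ∧ z.2 = w.2 + 1) := by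
  obtain ⟨i, j⟩ := w
  obtain ⟨p, q⟩ := z
  simp [cellV, Prod.ext_iff]

/-- the clipped cells are boundary cells -/
theorem rtp_Cb : glCb (rsgQ (rtpD y0 y1 xm xM a c)) ⊆ rsgCb (rtpD y0 y1 xm xM a c) := by
  intro y hy
  obtain ⟨h1, h2⟩ := gl_mem_cb.1 hy
  exact Finset.mem_sdiff.2 ⟨h1, fun h => h2 (rtp_cell_Q h)⟩

/-- a site of `Q` in a cell of the solid left side lies on `La` -/
theorem rtp_hA (H : HxrPair y0 y1 xm xM a c pa qa pc qc) : ∀ t ∈ hxrAA y0 y1 xM a, ∀ s ∈ cellV t, s ∈ rsgQ (rtpD y0 y1 xm xM a c) →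
    s ∈ rsgLa (rtpD y0 y1 xm xM a c) := by
  classical
  intro t ht s hs hsQ
  obtain ⟨w, hw, hsw⟩ := rtp_mem_Q.1 hsQ
  have hwQ := (rtp_mem_M H).1 hw
  have hta : t ∈ a := by
    rcases (pcp_share w t).1 ⟨s, hsw, hs⟩ with e | e
    · exact absurd (e ▸ ht) (fun h => hwQ.2 (Or.inl h))
    · exact hxr_AA_bd H.A hwQ.1 (fun h => hwQ.2 (Or.inl h)) ht e
  unfold rsgLa rsgSide
  exact Finset.mem_filter.2 ⟨hsQ, t, hta, hs⟩

/-- a site of `Q` in a cell of the solid right side lies on `Lc` -/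
theorem rtp_hC (H : HxrPair y0 y1 xm xM a c pa qa pc qc) : ∀ t ∈ hxrCC y0 y1 xm c, ∀ s ∈ cellV t, s ∈ rsgQ (rtpD y0 y1 xm xM a c) →
    s ∈ rsgLc (rtpD y0 y1 xm xM a c) := by
  classical
  intro t ht s hs hsQ
  obtain ⟨w, hw, hsw⟩ := rtp_mem_Q.1 hsQ
  have hwQ := (rtp_mem_M H).1 hw
  have hta : t ∈ c := by
    rcases (pcp_share w t).1 ⟨s, hsw, hs⟩ with e | e
    · exact absurd (e ▸ ht) (fun h => hwQ.2 (Or.inr h))
    · exact hxr_CC_bd H.C hwQ.1 (fun h => hwQ.2 (Or.inr h)) ht e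
  unfold rsgLc rsgSide
  exact Finset.mem_filter.2 ⟨hsQ, t, hta, hs⟩

/-- the box of the sites -/
theorem rtp_Q_box (H : HxrPair y0 y1 xm xM a c pa qa pc qc) {z : TV} (hz : z ∈ rsgQ (rtpD y0 y1 xm xM a c)) :
    xm ≤ hxsX z ∧ hxsX z ≤ xM + 2 ∧ y0 ≤ z.2 ∧ z.2 ≤ y1 + 1 := by
  obtain ⟨w, hw, hzw⟩ := rtp_mem_Q.1 hz
  have hwQ := (rtp_mem_M H).1 hw
  obtain ⟨b1, b2⟩ := hxr_Q_box H w hwQ
  obtain ⟨r1, r2⟩ := hwQ.1
  unfold hxsX at *
  rcases rtp_mem_cell.1 hzw with h | h | h <;> omega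

/-- the sites of the bottom row -/
theorem rtp_Q_bot (H : HxrPair y0 y1 xm xM a c pa qa pc qc) {z : TV} (hz : z ∈ rsgQ (rtpD y0 y1 xm xM a c)) (h0 : z.2 = y0) :
    hxsX pa + 2 ≤ hxsX z ∧ hxsX z ≤ hxsX pc := by
  obtain ⟨w, hw, hzw⟩ := rtp_mem_Q.1 hz
  have hwQ := (rtp_mem_M H).1 hw
  obtain ⟨r1, r2⟩ := hwQ.1
  have hw0 : w.2 = y0 := by rcases rtp_mem_cell.1 hzw with h | h | h <;> omega
  have l1 : pa.1 < w.1 := by
    by_contra h
    exact hwQ.2 (Or.inl (hxr_AA_bot H.A hw0 (by omega)))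
  have l2 : w.1 < pc.1 := by
    by_contra h
    exact hwQ.2 (Or.inr (hxr_CC_bot H.C hw0 (by omega)))
  have e1 := H.A.p0
  have e2 := H.C.p0
  unfold hxsX
  rcases rtp_mem_cell.1 hzw with h | h | h <;> omega

/-- the sites of the top row -/
theorem rtp_Q_top (H : HxrPair y0 y1 xm xM a c pa qa pc qc) {z : TV} (hz : z ∈ rsgQ (rtpD y0 y1 xm xM a c)) (h1 : z.2 = y1 + 1) :
    hxsX qa + 2 ≤ hxsX z ∧ hxsX z ≤ hxsX qc := by
  obtain ⟨w, hw, hzw⟩ := rtp_mem_Q.1 hz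
  have hwQ := (rtp_mem_M H).1 hw
  obtain ⟨r1, r2⟩ := hwQ.1
  have hw0 : w.2 = y1 := by rcases rtp_mem_cell.1 hzw with h | h | h <;> omega
  have l1 : qa.1 < w.1 := by
    by_contra h
    exact hwQ.2 (Or.inl (hxr_AA_top H.A hw0 (by omega)))
  have l2 : w.1 < qc.1 := by
    by_contra h
    exact hwQ.2 (Or.inr (hxr_CC_top H.C hw0 (by omega)))
  have e1 := H.A.q1
  have e2 := H.C.q1
  unfold hxsX
  rcases rtp_mem_cell.1 hzw with h | h | h <;> omega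

/-- the reflection of the indices -/
theorem rtp_mir_c (μ : ℤ) : (glMirV (μ + 1)).c = hxsM μ := by
  funext p
  show (μ + 1 - p.1 - p.2 - 1, p.2) = (μ - p.1 - p.2, p.2)
  ext <;> simp; ring

theorem rtp_mir_f (μ : ℤ) : (glMirV (μ + 1)).f = hxsM (μ + 1) := rfl

theorem rtp_mir_X (μ : ℤ) (z : TV) : hxsX ((glMirV (μ + 1)).f z) = 2 * μ + 2 - hxsX z ∧ ((glMirV (μ + 1)).f z).2 = z.2 := by
  refine ⟨?_, rfl⟩
  show 2 * (μ + 1 - z.1 - z.2) + z.2 = 2 * μ + 2 - (2 * z.1 + z.2)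
  ring

/-- a place of 105 lies in `M` -/
theorem rtp_place_M (H : HxrPair y0 y1 xm xM a c pa qa pc qc) {ρ : TV → TV} {K : Set TV}
    (hK : HxrPlace y0 y1 (hxrAA y0 y1 xM a) (hxrCC y0 y1 xm c) ρ K) : K ⊆ (↑(rsgM (rtpD y0 y1 xm xM a c)) : Set TV) := by
  intro k hk
  refine Finset.mem_coe.2 ((rtp_mem_M H).2 ⟨hxr_place_sub hK hk, ?_⟩)
  rintro (h | h)
  · exact (hK.free k hk).1 h
  · exact (hK.free k hk).2.1 h

/-- **ROWS, right axis**: `Q ∩ ρ Q` misses the two extreme rows -/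
theorem rtp_rows_right (H : HxrPair y0 y1 xm xM a c pa qa pc qc) {μ : ℤ} (h1 : hxsX pc + xM < 2 * μ) (h2 : hxsX qc + xM < 2 * μ) {z : TV}
    (hz : z ∈ gapI (glMirV (μ + 1)) (rsgQ (rtpD y0 y1 xm xM a c))) : y0 < z.2 ∧ z.2 < y1 + 1 ∧ 2 * μ - xM ≤ hxsX z := by
  obtain ⟨hzQ, hzQ'⟩ := gap_mem_I.1 hz
  obtain ⟨b1, b2, b3, b4⟩ := rtp_Q_box H hzQ
  obtain ⟨c1, c2, _, _⟩ := rtp_Q_box H hzQ'
  obtain ⟨e1, _⟩ := rtp_mir_X μ z
  refine ⟨?_, ?_, by omega⟩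
  · by_contra h
    have := (rtp_Q_bot H hzQ (by omega)).2
    omega
  · by_contra h
    have := (rtp_Q_top H hzQ (by omega)).2
    omega

/-- **ROWS, left axis** -/
theorem rtp_rows_left (H : HxrPair y0 y1 xm xM a c pa qa pc qc) {μ : ℤ} (h1 : 2 * μ < hxsX pa + xm) (h2 : 2 * μ < hxsX qa + xm) {z : TV}
    (hz : z ∈ gapI (glMirV (μ + 1)) (rsgQ (rtpD y0 y1 xm xM a c))) : y0 < z.2 ∧ z.2 < y1 + 1 ∧ hxsX z ≤ 2 * μ + 2 - xm := by
  obtain ⟨hzQ, hzQ'⟩ := gap_mem_I.1 hz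
  obtain ⟨b1, b2, b3, b4⟩ := rtp_Q_box H hzQ
  obtain ⟨c1, c2, _, _⟩ := rtp_Q_box H hzQ'
  obtain ⟨e1, _⟩ := rtp_mir_X μ z
  refine ⟨?_, ?_, by omega⟩
  · by_contra h
    have := (rtp_Q_bot H hzQ (by omega)).1
    omega
  · by_contra h
    have := (rtp_Q_top H hzQ (by omega)).1
    omega

/-- `Q ∩ ρ Q` in the language of 187 -/
theorem rtp_I_coe (μ : ℤ) (Q : Finset TV) : (↑(gapI (glMirV (μ + 1)) Q) : Set TV) = {v | v ∈ (↑Q : Set TV) ∧ hxsM (μ + 1) v ∈ (↑Q : Set TV)} := by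
  ext v
  rw [Finset.mem_coe, gap_mem_I]
  rfl

/-- **CLOSED SEPARATION OF THE TWO PLACES OF ONE AXIS**: a core cell of the thick axis between the two runs -/
theorem rtp_c2 (H : HxrPair y0 y1 xm xM a c pa qa pc qc) (hs : TriSCOn (ZMod 2) tscG (↑(rsgQ (rtpD y0 y1 xm xM a c)) : Set TV))
    {T : Set TV} {μ sl su : ℤ} {K0 K1 : Set TV} {lo0 hi0 lo1 hi1 : ℤ}
    (R : HxdTwo y0 y1 (hxrAA y0 y1 xM a) (hxrCC y0 y1 xm c) T μ sl su K0 K1 lo0 hi0 lo1 hi1)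
    (hcore : ∃ i0 ∈ T, μ - 1 ≤ hxsX i0 ∧ hxsX i0 ≤ μ + 1 ∧ ∀ s ∈ cellV i0, s ∉ rsgQ (rtpD y0 y1 xm xM a c)) :
    ∀ z ∈ gapK (glMirV (μ + 1)) (rsgQ (rtpD y0 y1 xm xM a c)) (gapZ (gapF (rsgM (rtpD y0 y1 xm xM a c)) K0)),
      z ∉ gapK (glMirV (μ + 1)) (rsgQ (rtpD y0 y1 xm xM a c)) (gapZ (gapF (rsgM (rtpD y0 y1 xm xM a c)) K1)) := by
  classical
  obtain ⟨i0, hiT, hi1', hi2', hiQ⟩ := hcore
  obtain ⟨m1, m2⟩ := R.mid i0 hiT hi1' hi2'
  set Q := rsgQ (rtpD y0 y1 xm xM a c) with hQ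
  set M := rsgM (rtpD y0 y1 xm xM a c) with hM
  have hKM0 := rtp_place_M H R.p0
  have hKM1 := rtp_place_M H R.p1
  have e0 := gap_F_coe hKM0
  have e1 := gap_F_coe hKM1
  -- the two axis cells
  have hk0 : hxsAx μ hi0 ∈ K0 := R.run0 (hxs_Ax_mem R.le0 le_rfl)
  have hk1 : hxsAx μ lo1 ∈ K1 := R.run1 (hxs_Ax_mem le_rfl R.le1)
  have kq : ∀ K : Set TV, ∀ y ∈ gapF M K, cellV y ⊆ Q := fun K y hy => rtp_cell_Q (gap_mem_F.1 hy).1
  have ki : ∀ K : Set TV, HxrPlace y0 y1 (hxrAA y0 y1 xM a) (hxrCC y0 y1 xm c) (hxsM μ) K → ∀ y ∈ gapF M K, (glMirV (μ + 1)).c y ∈ gapF M K := by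
    intro K hK y hy
    rw [rtp_mir_c]
    have h := hK.inv y (gap_mem_F.1 hy).2
    exact gap_mem_F.2 ⟨Finset.mem_coe.1 (rtp_place_M H hK h), h⟩
  have conn : ∀ K : Set TV, HxrPlace y0 y1 (hxrAA y0 y1 xM a) (hxrCC y0 y1 xm c) (hxsM μ) K → ∀ u ∈ gapZ (gapF M K), ∀ v ∈ gapZ (gapF M K),
      TscR tscG (↑(gapI (glMirV (μ + 1)) Q) : Set TV) u v := by
    intro K hK u hu v hv
    have hc : TscConn tscG (↑(gapF M K) : Set TV) := by rw [gap_F_coe (rtp_place_M H hK)]; exact hK.conn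
    exact tsc_R_mono (Finset.coe_subset.2 (gap_Z_subI (kq K) (ki K hK))) (gap_Z_conn hc u (Finset.mem_coe.2 hu) v (Finset.mem_coe.2 hv))
  have self : ∀ k : TV, k ∈ cellV k := fun k => by simp [cellV]
  have s0 : hxsAx μ hi0 ∈ gapZ (gapF M K0) := gap_mem_Z.2 ⟨_, gap_mem_F.2 ⟨Finset.mem_coe.1 (hKM0 hk0), hk0⟩, self _⟩
  have s1 : hxsAx μ lo1 ∈ gapZ (gapF M K1) := gap_mem_Z.2 ⟨_, gap_mem_F.2 ⟨Finset.mem_coe.1 (hKM1 hk1), hk1⟩, self _⟩
  have mirc : ∀ k : TV, (μ + 1 - k.1 - k.2 - 1, k.2) = hxsM μ k := fun k => congrFun (rtp_mir_c μ) k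
  have key : ¬ TscR tscG (↑(gapI (glMirV (μ + 1)) Q) : Set TV) (hxsAx μ hi0) (hxsAx μ lo1) := by
    rw [rtp_I_coe]
    have X0 := hxs_Ax_X μ hi0
    have X1 := hxs_Ax_X μ lo1
    unfold hxsX at X0 X1 hi1' hi2'
    refine pcl_c2_cells hs (μ := μ + 1) (jb := y0 - 1) (k0 := hxsAx μ hi0) (k1 := hxsAx μ lo1) (i0 := i0) ?_ ?_ ⟨by omega, by omega⟩ ⟨by omega, by omega⟩
      ⟨by omega, by omega⟩ ?_ ?_ ?_ ?_ (fun s hs' h => hiQ s hs' (Finset.mem_coe.1 h)) m1 m2 (self _) (self _)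
    · intro h
      have h' := rtp_Q_box H (Finset.mem_coe.1 (h (hxs_Ax_mem (m := μ + 1) (le_refl (y0 - 1)) le_rfl)))
      have : (hxsAx (μ + 1) (y0 - 1)).2 = y0 - 1 := rfl
      omega
    · have := (R.p0.rows _ hk0).1
      omega
    · exact Finset.coe_subset.2 (rtp_cell_Q (Finset.mem_coe.1 (hKM0 hk0)))
    · rw [mirc]
      exact Finset.coe_subset.2 (rtp_cell_Q (Finset.mem_coe.1 (hKM0 (R.p0.inv _ hk0))))
    · exact Finset.coe_subset.2 (rtp_cell_Q (Finset.mem_coe.1 (hKM1 hk1)))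
    · rw [mirc]
      exact Finset.coe_subset.2 (rtp_cell_Q (Finset.mem_coe.1 (hKM1 (R.p1.inv _ hk1))))
  intro z hz hz'
  exact (gap_K_disj (fun k hk k' hk' hp => key (tsc_R_trans (conn K0 R.p0 _ s0 k hk) (tsc_R_trans hp (conn K1 R.p1 k' hk' _ s1)))) z hz z hz').1 rfl

end dict

/-! ## §2 the assembly -/

/-- **(L-TIP), class `true`** -/
theorem rtp_est_true (x : ℝ) (hx1 : 1 / Real.sqrt 2 ≤ x) (hx2 : x ≤ 1) {y0 y1 xm xM : ℤ} {a c : Set TV} {pa qa pc qc : TV}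
    (H : HxrPair y0 y1 xm xM a c pa qa pc qc) (hg : RtpGeo x (rtpD y0 y1 xm xM a c)) {μr μl : ℤ}
    (har : ∃ z ∈ a, μr ≤ hxsX z) (hcl : ∃ z ∈ c, hxsX z ≤ μl) (hr : μr + 1 ≤ xM) (hl : xm + 1 ≤ μl)
    (h1 : hxsX pc + xM < 2 * μr) (h2 : hxsX qc + xM < 2 * μr) (h3 : 2 * μl < hxsX pa + xm) (h4 : 2 * μl < hxsX qa + xm)
    (h5 : 2 * μl - xm + 2 < 2 * μr - xM)
    (hcore : ∃ i0 ∈ hxrAA y0 y1 xM a, μr - 1 ≤ hxsX i0 ∧ hxsX i0 ≤ μr + 1 ∧ ∀ s ∈ cellV i0, s ∉ rsgQ (rtpD y0 y1 xm xM a c)) :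
    RsgEst x (rtpD y0 y1 xm xM a c) := by
  classical
  have hx0 : 0 < x := lt_of_lt_of_le (by positivity) hx1
  have hh : 1 / 2 ≤ x ^ 2 := by
    have h0 : (0 : ℝ) ≤ 1 / Real.sqrt 2 := by positivity
    have h := mul_self_le_mul_self h0 hx1
    have e : 1 / Real.sqrt 2 * (1 / Real.sqrt 2) = 1 / 2 := by
      rw [div_mul_div_comm, Real.mul_self_sqrt (by norm_num)]
      norm_num
    rw [e] at h
    nlinarith
  set Q := rsgQ (rtpD y0 y1 xm xM a c) with hQ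
  set M := rsgM (rtpD y0 y1 xm xM a c) with hM
  have hS : GlStrip (clAmb x Q) (rsgCb (rtpD y0 y1 xm xM a c)) (rsgLa (rtpD y0 y1 xm xM a c)) (rsgLc (rtpD y0 y1 xm xM a c))
      (rsgLd (rtpD y0 y1 xm xM a c)) (rsgLb (rtpD y0 y1 xm xM a c)) := hg.strip
  have hs : TriSCOn (ZMod 2) tscG (↑Q : Set TV) := (pcp_amb_sc_iff x Q).1 hS.sc
  obtain ⟨K0, K1, lo0, hi0, lo1, hi1, R⟩ := hxd_right H har hr h1 h2
  obtain ⟨K2, _, _, _, _, _, Lf⟩ := hxd_left H hcl hl h3 h4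
  have hK : ∀ i : Fin 3, HxrPlace y0 y1 (hxrAA y0 y1 xM a) (hxrCC y0 y1 xm c) (hxsM ((![μr, μr, μl] : Fin 3 → ℤ) i)) ((![K0, K1, K2] : Fin 3 → Set TV) i) := by
    intro i
    fin_cases i
    · exact R.p0
    · exact R.p1
    · exact Lf.p0
  have hKM : ∀ i : Fin 3, (![K0, K1, K2] : Fin 3 → Set TV) i ⊆ (↑M : Set TV) := fun i => rtp_place_M H (hK i)
  have e : ∀ i : Fin 3, (↑(gapF M ((![K0, K1, K2] : Fin 3 → Set TV) i)) : Set TV) = (![K0, K1, K2] : Fin 3 → Set TV) i := fun i => gap_F_coe (hKM i)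
  have d01 := rtp_c2 H hs R hcore
  have dX : ∀ Z Z' : Finset TV, ∀ z ∈ gapK (glMirV (μr + 1)) Q Z, z ∉ gapK (glMirV (μl + 1)) Q Z' := by
    intro Z Z' z hz hz'
    have a1 := (rtp_rows_right H h1 h2 (gap_K_subI _ _ _ hz)).2.2
    have a2 := (rtp_rows_left H h3 h4 (gap_K_subI _ _ _ hz')).2.2
    omega
  obtain ⟨j, hj⟩ := gaq_three hx0 hx2 hh Q _ _ _ _ _ hS rtp_Cb hg.pcl (fun d hd => (Finset.mem_filter.1 hd).2) (fun b hb => (Finset.mem_filter.1 hb).2)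
    (hxrAA y0 y1 xM a) (hxrCC y0 y1 xm c) (rtp_hA H) (rtp_hC H) (fun i => glMirV ((![μr, μr, μl] : Fin 3 → ℤ) i + 1))
    (fun i => gapF M ((![K0, K1, K2] : Fin 3 → Set TV) i)) (fun i y hy => rtp_cell_Q (gap_mem_F.1 hy).1)
    (fun i => by rw [e i]; exact (hK i).conn)
    (fun i y hy => by
      rw [rtp_mir_c]
      have h := (hK i).inv y (gap_mem_F.1 hy).2
      exact gap_mem_F.2 ⟨Finset.mem_coe.1 (hKM i h), h⟩)
    (fun i P => by rw [e i, rtp_mir_c]; exact (hK i).dich P)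
    (by
      intro i z hz
      have hz' := gap_K_subI _ _ _ hz
      fin_cases i
      · exact ⟨(rtp_rows_right H h1 h2 hz').1, (rtp_rows_right H h1 h2 hz').2.1⟩
      · exact ⟨(rtp_rows_right H h1 h2 hz').1, (rtp_rows_right H h1 h2 hz').2.1⟩
      · exact ⟨(rtp_rows_left H h3 h4 hz').1, (rtp_rows_left H h3 h4 hz').2.1⟩)
    (by
      intro i j hij z hz hz'
      fin_cases i <;> fin_cases j
      · exact hij rfl
      · exact d01 z hz hz'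
      · exact dX _ _ z hz hz'
      · exact d01 z hz' hz
      · exact hij rfl
      · exact dX _ _ z hz hz'
      · exact dX _ _ z hz' hz
      · exact dX _ _ z hz' hz
      · exact hij rfl)
  exact ⟨gapF M ((![K0, K1, K2] : Fin 3 → Set TV) j), fun y hy => (gap_mem_F.1 hy).1, hj⟩

end Claimed.Agent.R291
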