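import Claimed.Agent.R291.Glue.AdaptP
import Claimed.Agent.R291.Defs.RswStrip
import Claimed.Agent.R291.Ann.RswGeo
import Claimed.Agent.R291.Ann.RswPl
import Claimed.Agent.R291.Glue.Flip

/-!
# Row 291 (S0539), unit ANN, block A3 PART II (L), Ann/RswTube : THE CONTRACT (L-TUBE) AT THE RECORD, BOTH CLASSES, AND THE CLASS STEP      (owner helper267; prefix `rtu_`)      no sorry

TEX[annulus:RSW] TEX[annulus:gluing]      Ruling of 24 (08:24Z, link (T2)).   This file does NOT import `Ann/RswGlue`.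
§1 class `true`, abstract pair: `rtu_mem_M`, `rtu_mem_Q`, `rtu_Q_box`, `rtu_rows`, `rtu_hA`, `rtu_hC`, `rtu_cb`, **`rtu_est`** : `HxrPair` + narrow box + `GlStrip` + `PclStrip` (any box bounds) ⟹ `RsgEst x ⟨true, ..⟩`
   (`gaq_three_set` of 31 + `hxr_tube_one` of 105 three times, at the heights `y0 + 2W + 8`, `y0 + 4W + 14`, `y0 + 6W + 20`, `W = xM - xm`; the three windows are disjoint by rows).
§2 the record: `rtu_x`, **`rtu_geo`** (`HxrPair` + `RsgGeo` at `rplD T ..`, both classes: `rpl_pair`, `rpl_look` of 206, `rgo_geoD` of 278), **`rtu_tube_true`** (`rgo_strip` of 278 / 182, `psb_rsg_strip` of 173).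
§3 the class `false` (reflection of 62, `Glue/Flip`, in the letters of 206): `rtu_flip_D`, `rtu_flip_A`, `rtu_flip_C`, `rtu_flip_G0`, `rtu_flip_T1`, `rtu_flip_T2`, **`rtu_flip_est`** (the flip step for ANY contract at the record),
   `rtu_tube_false`, **`rtu_tube`** = `rsg_est_tube` of `Ann/RswGlue` VERBATIM, **`rtu_tip_class`** = `rsg_est_tip` VERBATIM from its instance `T = true` given as a hypothesis.
-/

set_option autoImplicit false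
set_option linter.unusedSectionVars false
set_option linter.unusedVariables false
set_option linter.unusedSimpArgs false

namespace Claimed.Agent.R291

open Relation Claims Claims.C0467

section tube

variable {y0 y1 xm xM : ℤ} {a c : Set TV} {pa qa pc qc : TV}

theorem rtu_mem_M (H : HxrPair y0 y1 xm xM a c pa qa pc qc) {z : TV} : z ∈ rsgM ⟨true, y0, y1, xm, xM, a, c⟩ ↔ z ∈ hxrQ y0 y1 xm xM a c := by
  classical
  unfold rsgM
  rw [Finset.mem_filter]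
  refine ⟨fun h => h.2, fun h => ⟨rsg_box_mem ?_, h⟩⟩
  have h1 := hxr_Q_box H z h
  exact ⟨h1.1, h1.2, h.1.1, h.1.2⟩

theorem rtu_mem_Q {s : TV} : s ∈ rsgQ ⟨true, y0, y1, xm, xM, a, c⟩ ↔ ∃ m ∈ rsgM ⟨true, y0, y1, xm, xM, a, c⟩, s ∈ cellV m := by
  unfold rsgQ
  rw [Finset.mem_biUnion]
  rfl

/-- the sites of the strip lie in the box -/
theorem rtu_Q_box (H : HxrPair y0 y1 xm xM a c pa qa pc qc) {s : TV} (hs : s ∈ rsgQ ⟨true, y0, y1, xm, xM, a, c⟩) :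
    xm ≤ 2 * s.1 + s.2 ∧ 2 * s.1 + s.2 ≤ xM + 2 ∧ y0 ≤ s.2 ∧ s.2 ≤ y1 + 1 := by
  obtain ⟨m, hm, hsm⟩ := rtu_mem_Q.1 hs
  have hm' := (rtu_mem_M H).1 hm
  have h1 := hxr_Q_box H m hm'
  have h2 := hm'.1
  unfold hxsX at h1
  rw [pcp_mem_cell'] at hsm
  have h3 : y0 ≤ m.2 := h2.1
  have h4 : m.2 ≤ y1 := h2.2
  omega

/-- **the rhombus**: the rows of `Q ∩ ρ Q` for the mirror at 30 degrees through the height `h` -/
theorem rtu_rows (H : HxrPair y0 y1 xm xM a c pa qa pc qc) {h t : ℤ} (ht : xm + xM - 1 ≤ 2 * (2 * t + 3 * h) ∧ 2 * (2 * t + 3 * h) ≤ xm + xM + 3)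
    (Z : Finset TV) {z : TV} (hz : z ∈ gapK (glSwap t) (rsgQ ⟨true, y0, y1, xm, xM, a, c⟩) Z) :
    2 * h - (xM - xm) - 4 ≤ 2 * z.2 ∧ 2 * z.2 ≤ 2 * h + (xM - xm) + 4 := by
  classical
  unfold gapK gapI at hz
  obtain ⟨h1, h2⟩ := Finset.mem_filter.1 (Finset.mem_filter.1 hz).1
  have b1 := rtu_Q_box H h1
  have b2 := rtu_Q_box H h2
  rw [gl_swap_f] at b2
  simp only at b2
  omega

/-- a site of the strip in a cell of the solid left side lies on the left side -/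
theorem rtu_hA (H : HxrPair y0 y1 xm xM a c pa qa pc qc) : ∀ z ∈ hxrAA y0 y1 xM a, ∀ s ∈ cellV z, s ∈ rsgQ ⟨true, y0, y1, xm, xM, a, c⟩ →
    s ∈ rsgLa ⟨true, y0, y1, xm, xM, a, c⟩ := by
  classical
  intro z hz s hs hsQ
  obtain ⟨m, hm, hsm⟩ := rtu_mem_Q.1 hsQ
  have hm' := (rtu_mem_M H).1 hm
  have hmA : m ∉ hxrAA y0 y1 xM a := fun h => hm'.2 (Or.inl h)
  have hza : z ∈ a := by
    rcases (pcp_share m z).1 ⟨s, hsm, hs⟩ with e | e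
    · exact absurd (e ▸ hz) hmA
    · exact hxr_AA_bd H.A hm'.1 hmA hz e
  unfold rsgLa rsgSide
  exact Finset.mem_filter.2 ⟨hsQ, z, hza, hs⟩

theorem rtu_hC (H : HxrPair y0 y1 xm xM a c pa qa pc qc) : ∀ z ∈ hxrCC y0 y1 xm c, ∀ s ∈ cellV z, s ∈ rsgQ ⟨true, y0, y1, xm, xM, a, c⟩ →
    s ∈ rsgLc ⟨true, y0, y1, xm, xM, a, c⟩ := by
  classical
  intro z hz s hs hsQ
  obtain ⟨m, hm, hsm⟩ := rtu_mem_Q.1 hsQ
  have hm' := (rtu_mem_M H).1 hm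
  have hmA : m ∉ hxrCC y0 y1 xm c := fun h => hm'.2 (Or.inr h)
  have hza : z ∈ c := by
    rcases (pcp_share m z).1 ⟨s, hsm, hs⟩ with e | e
    · exact absurd (e ▸ hz) hmA
    · exact hxr_CC_bd H.C hm'.1 hmA hz e
  unfold rsgLc rsgSide
  exact Finset.mem_filter.2 ⟨hsQ, z, hza, hs⟩

theorem rtu_cb : glCb (rsgQ ⟨true, y0, y1, xm, xM, a, c⟩) ⊆ rsgCb ⟨true, y0, y1, xm, xM, a, c⟩ := by
  intro y hy
  obtain ⟨h1, h2⟩ := gl_mem_cb.1 hy
  unfold rsgCb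
  refine Finset.mem_sdiff.2 ⟨h1, fun hM => h2 fun s hs => rtu_mem_Q.2 ⟨y, hM, hs⟩⟩

/-- **(L-TUBE), class `true`**, from the strip facts of the record side -/
theorem rtu_est (x : ℝ) (hx0 : 0 < x) (hx1 : x ≤ 1) (hxh : 1 / 2 ≤ x ^ 2) (H : HxrPair y0 y1 xm xM a c pa qa pc qc) (hW : 12 * (xM - xm) + 64 ≤ y1 - y0)
    (hS : GlStrip (rsgS x ⟨true, y0, y1, xm, xM, a, c⟩) (rsgCb ⟨true, y0, y1, xm, xM, a, c⟩) (rsgLa ⟨true, y0, y1, xm, xM, a, c⟩)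
      (rsgLc ⟨true, y0, y1, xm, xM, a, c⟩) (rsgLd ⟨true, y0, y1, xm, xM, a, c⟩) (rsgLb ⟨true, y0, y1, xm, xM, a, c⟩)) {xm' xM' : ℤ}
    (hP : PclStrip y0 (y1 + 1) xm' xM' (↑(rsgQ ⟨true, y0, y1, xm, xM, a, c⟩) : Set TV) ↑(rsgLa ⟨true, y0, y1, xm, xM, a, c⟩) ↑(rsgLc ⟨true, y0, y1, xm, xM, a, c⟩)
      ↑(rsgLd ⟨true, y0, y1, xm, xM, a, c⟩ \ (rsgLa ⟨true, y0, y1, xm, xM, a, c⟩ ∪ rsgLc ⟨true, y0, y1, xm, xM, a, c⟩))
      ↑(rsgLb ⟨true, y0, y1, xm, xM, a, c⟩ \ (rsgLa ⟨true, y0, y1, xm, xM, a, c⟩ ∪ rsgLc ⟨true, y0, y1, xm, xM, a, c⟩))) :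
    RsgEst x ⟨true, y0, y1, xm, xM, a, c⟩ := by
  classical
  have hw : 0 ≤ xM - xm := by
    have := H.A.box pa H.A.pa
    omega
  have one : ∀ h : ℤ, y0 + 2 * (xM - xm) + 8 ≤ h → h + 2 * (xM - xm) + 8 ≤ y1 →
      ∃ (t : ℤ) (K : Set TV), HxrPlace y0 y1 (hxrAA y0 y1 xM a) (hxrCC y0 y1 xm c) (hxrSw t) K ∧
        (xm + xM - 1 ≤ 2 * (2 * t + 3 * h) ∧ 2 * (2 * t + 3 * h) ≤ xm + xM + 3) := by
    intro h h0 h1
    have ht : xm + xM - 1 ≤ 2 * (2 * ((xm + xM + 3 - 6 * h) / 4) + 3 * h) ∧ 2 * (2 * ((xm + xM + 3 - 6 * h) / 4) + 3 * h) ≤ xm + xM + 3 := by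
      constructor <;> omega
    obtain ⟨K, hK, -⟩ := hxr_tube_one H (h := h) (t := (xm + xM + 3 - 6 * h) / 4) ht h0 h1
    exact ⟨_, K, hK, ht⟩
  obtain ⟨t0, K0, k0, r0⟩ := one (y0 + 2 * (xM - xm) + 8) le_rfl (by omega)
  obtain ⟨t1, K1, k1, r1⟩ := one (y0 + 4 * (xM - xm) + 14) (by omega) (by omega)
  obtain ⟨t2, K2, k2, r2⟩ := one (y0 + 6 * (xM - xm) + 20) (by omega) (by omega)
  -- the three places, their heights
  obtain ⟨t, ht⟩ : ∃ t : Fin 3 → ℤ, t = ![t0, t1, t2] := ⟨_, rfl⟩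
  obtain ⟨K, hKd⟩ : ∃ K : Fin 3 → Set TV, K = ![K0, K1, K2] := ⟨_, rfl⟩
  obtain ⟨hh, hhd⟩ : ∃ hh : Fin 3 → ℤ, hh = ![y0 + 2 * (xM - xm) + 8, y0 + 4 * (xM - xm) + 14, y0 + 6 * (xM - xm) + 20] := ⟨_, rfl⟩
  have pl : ∀ i, HxrPlace y0 y1 (hxrAA y0 y1 xM a) (hxrCC y0 y1 xm c) (hxrSw (t i)) (K i) := by
    intro i
    subst ht hKd
    fin_cases i
    · exact k0
    · exact k1
    · exact k2
  have hti : ∀ i, xm + xM - 1 ≤ 2 * (2 * t i + 3 * hh i) ∧ 2 * (2 * t i + 3 * hh i) ≤ xm + xM + 3 := by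
    intro i
    subst ht hhd
    fin_cases i
    · exact r0
    · exact r1
    · exact r2
  have hhr : ∀ i, y0 + 2 * (xM - xm) + 8 ≤ hh i ∧ hh i ≤ y0 + 6 * (xM - xm) + 20 := by
    intro i
    subst hhd
    fin_cases i <;> simp <;> omega
  have hhs : ∀ i j, i ≠ j → hh i + 2 * (xM - xm) + 6 ≤ hh j ∨ hh j + 2 * (xM - xm) + 6 ≤ hh i := by
    intro i j hij
    subst hhd
    fin_cases i <;> fin_cases j <;> simp at hij ⊢ <;> omega
  have hKM : ∀ i, K i ⊆ (↑(rsgM ⟨true, y0, y1, xm, xM, a, c⟩) : Set TV) := by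
    intro i k hk
    have h1 := (pl i).rows k hk
    have h2 := (pl i).free k hk
    exact Finset.mem_coe.2 ((rtu_mem_M H).2 ⟨⟨h1.1.le, h1.2.le⟩, fun h => h.elim h2.1 h2.2.1⟩)
  exact gaq_three_set hx0 hx1 hxh (rsgQ ⟨true, y0, y1, xm, xM, a, c⟩) (rsgLa ⟨true, y0, y1, xm, xM, a, c⟩) (rsgLc ⟨true, y0, y1, xm, xM, a, c⟩)
    (rsgLd ⟨true, y0, y1, xm, xM, a, c⟩) (rsgLb ⟨true, y0, y1, xm, xM, a, c⟩) (rsgM ⟨true, y0, y1, xm, xM, a, c⟩) (rsgCb ⟨true, y0, y1, xm, xM, a, c⟩)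
    hS rtu_cb (fun y hy s hs => rtu_mem_Q.2 ⟨y, hy, hs⟩) hP
    (fun d hd => (Finset.mem_filter.1 hd).2) (fun b hb => (Finset.mem_filter.1 hb).2)
    (hxrAA y0 y1 xM a) (hxrCC y0 y1 xm c) (rtu_hA H) (rtu_hC H) (fun i => glSwap (t i)) K hKM (fun i => (pl i).conn) (fun i => (pl i).inv)
    (fun i => (pl i).dich)
    (fun i z hz => by
      have h1 := rtu_rows H (hti i) _ hz
      have h2 := hhr i
      constructor <;> omega)
    (fun i j hij z hz hz' => by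
      have h1 := rtu_rows H (hti i) _ hz
      have h2 := rtu_rows H (hti j) _ hz'
      rcases hhs i j hij with h3 | h3 <;> omega)

end tube


/-! ## §2 the record -/

section rec

variable {c d w σ m e : ℤ} {P : Set TV}

/-- the numerology of `x` -/
theorem rtu_x {x : ℝ} (hx1 : 1 / Real.sqrt 2 ≤ x) : 0 < x ∧ 1 / 2 ≤ x ^ 2 := by
  have h2 : (0 : ℝ) < Real.sqrt 2 := Real.sqrt_pos.2 (by norm_num)
  have h3 : 0 < 1 / Real.sqrt 2 := by positivity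
  refine ⟨lt_of_lt_of_le h3 hx1, ?_⟩
  have h4 : (1 / Real.sqrt 2) ^ 2 = 1 / 2 := by
    rw [div_pow, Real.sq_sqrt (by norm_num)]
    norm_num
  rw [← h4]
  exact pow_le_pow_left₀ h3.le hx1 2

/-- **THE GEOMETRY OF THE RECORD** (both classes): `RsgGeo` at `rplD`, with the pair -/
theorem rtu_geo (T : Bool) (hcd : c < d) (hw : 1 ≤ w) (hσ : 2 * w < σ) (he : w + 4 ≤ e) (h0 : RplG0 c d w σ m e P)
    (h1 : ¬ RsgT1 (rplA c d w σ m e P) (rplC c d w σ m e P)) (h2 : ¬ RsgT2 c d (rplA c d w σ m e P) (rplC c d w σ m e P)) :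
    ∃ pa qa pc qc, HxrPair c d (m - e) (m + σ + e) (rplA c d w σ m e P) (rplC c d w σ m e P) pa qa pc qc ∧ RsgGeo (rplD T c d w σ m e P) := by
  obtain ⟨pa, qa, pc, qc, H, f1, f2, f3, f4⟩ := rpl_pair hcd hw hσ he h0 h1
  refine ⟨pa, qa, pc, qc, H, _, _, m, m + σ, w, rgo_geoD T H (fun z hz => rpl_look hcd hw (by omega) he h0 hz) h2 f1.2.1 f2.2.1 f3.2.2 f4.2.2⟩

/-- **(L-TUBE), class `true`, at the record** = `rsg_est_tube` of `Ann/RswGlue` at `T = true` -/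
theorem rtu_tube_true (x : ℝ) (hx1 : 1 / Real.sqrt 2 ≤ x) (hx2 : x ≤ 1) (hcd : c < d) (hw : 1 ≤ w) (hσ : 2 * w < σ)
    (he : w + 4 ≤ e) (hnar : 12 * (σ + 2 * e) + 64 ≤ d - c) (h0 : RplG0 c d w σ m e P)
    (h1 : ¬ RsgT1 (rplA c d w σ m e P) (rplC c d w σ m e P)) (h2 : ¬ RsgT2 c d (rplA c d w σ m e P) (rplC c d w σ m e P)) :
    RsgEst x (rplD true c d w σ m e P) := by
  obtain ⟨pa, qa, pc, qc, H, hg⟩ := rtu_geo true hcd hw hσ he h0 h1 h2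
  obtain ⟨hx0, hxh⟩ := rtu_x hx1
  obtain ⟨I, J, ia, ic, w', G⟩ := id hg
  exact rtu_est x hx0 hx2 hxh H (by omega) (rgo_strip hx0 hx2 hxh hg) (psb_rsg_strip _ G.geo G.IR G.JR H)

/-! ## §3 the class `false`: the reflection of 62 (`Glue/Flip`) in the letters of 206 -/

/-- the reflected strip data of the record of `P` are the strip data of the record of the reflected set -/
theorem rtu_flip_D : glfD (rplD false c d w σ m e P) = rplD true (-d - 1) (-c - 1) w σ (m + 1) e (glfJ ⁻¹' P) := by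
  have h := glf_D_rec (m - e) (m + σ + e) c d w m (m + σ) P
  have e1 : m - e + 1 = m + 1 - e := by ring
  have e2 : m + σ + e + 1 = m + 1 + σ + e := by ring
  have e3 : m + σ + 1 = m + 1 + σ := by ring
  rw [e1, e2, e3] at h
  exact h

theorem rtu_flip_A : rplA (-d - 1) (-c - 1) w σ (m + 1) e (glfJ ⁻¹' P) = glfJ ⁻¹' rplA c d w σ m e P :=
  congrArg RsgDat.a (rtu_flip_D (c := c) (d := d) (w := w) (σ := σ) (m := m) (e := e) (P := P)).symm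

theorem rtu_flip_C : rplC (-d - 1) (-c - 1) w σ (m + 1) e (glfJ ⁻¹' P) = glfJ ⁻¹' rplC c d w σ m e P :=
  congrArg RsgDat.c (rtu_flip_D (c := c) (d := d) (w := w) (σ := σ) (m := m) (e := e) (P := P)).symm

theorem rtu_flip_G0 : RplG0 (-d - 1) (-c - 1) w σ (m + 1) e (glfJ ⁻¹' P) ↔ RplG0 c d w σ m e P := by
  have h1 := glf_clI (m - e) (m + σ + e) c d w m P
  have h2 := glf_clJ (m - e) (m + σ + e) c d w (m + σ) P
  have h3 := @glf_G0 (m - e) (m + σ + e) c d w m (m + σ) (rplI c d w σ m e P) (rplJ c d w σ m e P)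
  have e1 : m - e + 1 = m + 1 - e := by ring
  have e2 : m + σ + e + 1 = m + 1 + σ + e := by ring
  have e3 : m + σ + 1 = m + 1 + σ := by ring
  rw [e1, e2] at h1
  rw [e1, e2, e3] at h2 h3
  unfold RplG0
  rw [← h3]
  unfold rplI rplJ
  rw [h1, h2]

theorem rtu_flip_T1 : RsgT1 (rplA (-d - 1) (-c - 1) w σ (m + 1) e (glfJ ⁻¹' P)) (rplC (-d - 1) (-c - 1) w σ (m + 1) e (glfJ ⁻¹' P)) ↔
    RsgT1 (rplA c d w σ m e P) (rplC c d w σ m e P) := by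
  rw [rtu_flip_A, rtu_flip_C, glf_T1]

theorem rtu_flip_T2 : RsgT2 (-d - 1) (-c - 1) (rplA (-d - 1) (-c - 1) w σ (m + 1) e (glfJ ⁻¹' P)) (rplC (-d - 1) (-c - 1) w σ (m + 1) e (glfJ ⁻¹' P)) ↔
    RsgT2 c d (rplA c d w σ m e P) (rplC c d w σ m e P) := by
  rw [rtu_flip_A, rtu_flip_C, glf_T2]

/-- **THE FLIP STEP AT THE RECORD** (any contract): the estimate for the up cells at the reflected record gives the estimate for the down cells -/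
theorem rtu_flip_est (x : ℝ) (hx1 : 1 / Real.sqrt 2 ≤ x) (hx2 : x ≤ 1) (hcd : c < d) (hw : 1 ≤ w) (hσ : 2 * w < σ) (he : w + 4 ≤ e)
    (h0 : RplG0 c d w σ m e P) (h1 : ¬ RsgT1 (rplA c d w σ m e P) (rplC c d w σ m e P))
    (hE : RsgEst x (rplD true (-d - 1) (-c - 1) w σ (m + 1) e (glfJ ⁻¹' P))) : RsgEst x (rplD false c d w σ m e P) := by
  obtain ⟨pa, qa, pc, qc, H, -⟩ := rpl_pair hcd hw hσ he h0 h1
  refine glf_est (rtu_x hx1).1 hx2 rfl (glf_box_of_pair (D := rplD false c d w σ m e P) H) ?_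
  rw [rtu_flip_D]
  exact hE

/-- **(L-TUBE), class `false`, at the record** -/
theorem rtu_tube_false (x : ℝ) (hx1 : 1 / Real.sqrt 2 ≤ x) (hx2 : x ≤ 1) (hcd : c < d) (hw : 1 ≤ w) (hσ : 2 * w < σ)
    (he : w + 4 ≤ e) (hnar : 12 * (σ + 2 * e) + 64 ≤ d - c) (h0 : RplG0 c d w σ m e P)
    (h1 : ¬ RsgT1 (rplA c d w σ m e P) (rplC c d w σ m e P)) (h2 : ¬ RsgT2 c d (rplA c d w σ m e P) (rplC c d w σ m e P)) :
    RsgEst x (rplD false c d w σ m e P) :=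
  rtu_flip_est x hx1 hx2 hcd hw hσ he h0 h1
    (rtu_tube_true x hx1 hx2 (by omega) hw hσ he (by omega) (rtu_flip_G0.2 h0) (fun h => h1 (rtu_flip_T1.1 h)) (fun h => h2 (rtu_flip_T2.1 h)))

/-- **(L-TUBE)** = `rsg_est_tube` of `Ann/RswGlue`, VERBATIM -/
theorem rtu_tube (x : ℝ) (hx1 : 1 / Real.sqrt 2 ≤ x) (hx2 : x ≤ 1) (T : Bool) {c d w σ m e : ℤ} {P : Set TV} (hcd : c < d) (hw : 1 ≤ w) (hσ : 2 * w < σ)
    (he : w + 4 ≤ e) (hnar : 12 * (σ + 2 * e) + 64 ≤ d - c) (h0 : RplG0 c d w σ m e P)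
    (h1 : ¬ RsgT1 (rplA c d w σ m e P) (rplC c d w σ m e P)) (h2 : ¬ RsgT2 c d (rplA c d w σ m e P) (rplC c d w σ m e P)) : RsgEst x (rplD T c d w σ m e P) := by
  cases T
  · exact rtu_tube_false x hx1 hx2 hcd hw hσ he hnar h0 h1 h2
  · exact rtu_tube_true x hx1 hx2 hcd hw hσ he hnar h0 h1 h2

/-- **(L-TIP): THE CLASS STEP** = `rsg_est_tip` of `Ann/RswGlue`, VERBATIM, from its instance `T = true` (as a hypothesis) -/
theorem rtu_tip_class (x : ℝ) (hx1 : 1 / Real.sqrt 2 ≤ x) (hx2 : x ≤ 1)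
    (htrue : ∀ {c d w σ m e e2 : ℤ} {P : Set TV}, c < d → 1 ≤ w → 2 * w < σ → w + 4 ≤ e → e2 ≤ e → e + 3 * σ + w + 8 ≤ 2 * e2 → RplG0 c d w σ m e P →
      ¬ RsgT1 (rplA c d w σ m e P) (rplC c d w σ m e P) → ¬ RsgT2 c d (rplA c d w σ m e P) (rplC c d w σ m e P) →
      (∃ z ∈ rplA c d w σ m e P, m + e2 < rswX z) → (∃ z ∈ rplC c d w σ m e P, rswX z < m + σ - e2) → RsgEst x (rplD true c d w σ m e P))
    (T : Bool) {c d w σ m e e2 : ℤ} {P : Set TV} (hcd : c < d) (hw : 1 ≤ w) (hσ : 2 * w < σ)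
    (he : w + 4 ≤ e) (h21 : e2 ≤ e) (h22 : e + 3 * σ + w + 8 ≤ 2 * e2) (h0 : RplG0 c d w σ m e P)
    (h1 : ¬ RsgT1 (rplA c d w σ m e P) (rplC c d w σ m e P)) (h2 : ¬ RsgT2 c d (rplA c d w σ m e P) (rplC c d w σ m e P))
    (hta : ∃ z ∈ rplA c d w σ m e P, m + e2 < rswX z) (htc : ∃ z ∈ rplC c d w σ m e P, rswX z < m + σ - e2) : RsgEst x (rplD T c d w σ m e P) := by
  cases T
  · refine rtu_flip_est x hx1 hx2 hcd hw hσ he h0 h1
      (htrue (by omega) hw hσ he h21 h22 (rtu_flip_G0.2 h0) (fun h => h1 (rtu_flip_T1.1 h)) (fun h => h2 (rtu_flip_T2.1 h)) ?_ ?_)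
    · obtain ⟨z, hz, hX⟩ := hta
      obtain ⟨z', hz', hX'⟩ := glf_tip_ge (a := rplA c d w σ m e P) (μ := m + e2 + 1) ⟨z, hz, hX⟩
      rw [rtu_flip_A]
      refine ⟨z', hz', ?_⟩
      have e0 : hxsX z' = rswX z' := rfl
      omega
    · obtain ⟨z, hz, hX⟩ := htc
      obtain ⟨z', hz', hX'⟩ := glf_tip_le (a := rplC c d w σ m e P) (μ := m + σ - e2 - 1) ⟨z, hz, by have e0 : hxsX z = rswX z := rfl; omega⟩
      rw [rtu_flip_C]
      refine ⟨z', hz', ?_⟩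
      have e0 : hxsX z' = rswX z' := rfl
      omega
  · exact htrue hcd hw hσ he h21 h22 h0 h1 h2 hta htc

end rec

end Claimed.Agent.R291
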