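import Claimed.Agent.R291.Ann.LenOrd
import Claimed.Agent.R291.Ann.PortsCl
import Claimed.Agent.R291.Glue.Place

/-!
# Row 291 (S0539), Ann/RswWall : BLOCK A3, PART II (c), CHAIN STEP 5 (case T3 of helper36's design of 07:00Z), ABSTRACT      (owner helper180, second cutter; prefix `rwl_` / `rwl` / `Rwl`)

THE CHAIN UNDER ONE RECORD, for ANY system `S` (relative disk `LorDisk S Bm` of helper20: the mixed cylinder by `lor_cyl`), ANY legal history `rec` (the record), ANY set `O` of cells (the box), ANY set `M ⊆ O` of FRESH cells (the strip):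
    `rec`  ≥  `h1 = rwlH1` = `rec` + minus wall next to `M`            (`lor_order`)
    `h1`   ~  `(SQ, glH0)`,  `SQ = rwlSQ S M qc` = `S` CLIPPED to `R = sites(M)`      (`prc_two_amb` of 116, retained part `(R, M)`, ports `rwlP` on both sides)
    the estimate in `(SQ, glH0)` (`gl_three` of 55),      `J ≤ F` under `h1`.
Same wall as in `Ann/LenSE` (helper20): `rwlEo` = cells off `O` touching `R`;  `rwlXw` = those without a plus pin of `rec` (they become open-minus);  `rwlXp` = the others (they stay unobserved);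
`rwlNm` = new minus pins = sites of `rwlXw` + sites of `R` on `rwlEo` which are not plus pins;      `rwlP = R ∩ sites(rwlXp)` = THE PORTS.
**`RwlGeo S rec O M La Lc Ld Lb`** = all that the chain asks from the geometry (8 fields, no planarity, no law).
**`rwl_main`** : `RwlGeo` + `c Z_SQ(H0) ≤ N_SQ(H0; J)` + `J` local, `≥ 0` + `J ≤ F` under `h1` + `F` increasing  ⟹  `c / 2^(2 (|P| - 1)) · Z(rec) ≤ N(rec; F)`.
**`rwl_join`** : the same with `J` = indicator of `GlJoinC SQ (Kc ∩ open-plus) La Lc`, `Kc ⊆ M` (the conclusion of `gl_three`), and `|P| ≤ 4`: constant `c / 64`.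
`rwl_tau` : statuses of the cells of `M` in `SQ` and in `S` coincide;   `rwl_cbL` = field `cbL` of `GlStrip SQ`;   `rwl_h1_holds` : `h1 ⟹ rec`;   `rwl_SQ_ok`, `rwl_H0_pos` (feasibility of the strip law), `rwl_feas1` (feasibility of `h1`): NO feasibility hypothesis is left to the user.
-/

set_option autoImplicit false
set_option linter.unusedSectionVars false
set_option linter.unusedVariables false

namespace Claimed.Agent.R291

section abstract

variable {V Y : Type} [DecidableEq V] [DecidableEq Y]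

/-! ## 0. vocabulary -/

/-- the cells off the box which touch the retained sites -/
def rwlEo (S : ClSys V Y) (O M : Finset Y) : Finset Y := S.C.filter (fun w => w ∉ O ∧ ∃ v ∈ S.sv w, v ∈ lseSv S M)

/-- THE WALL: outer cells touching the retained sites, without any plus pin of the record -/
def rwlXw (S : ClSys V Y) (rec : ClCon V Y) (O M : Finset Y) : Finset Y := (rwlEo S O M).filter (fun w => ∀ v ∈ S.sv w, v ∉ rec.Bp)

/-- the outer cells touching the retained sites which contain a plus pin of the record (they stay unobserved) -/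
def rwlXp (S : ClSys V Y) (rec : ClCon V Y) (O M : Finset Y) : Finset Y := rwlEo S O M \ rwlXw S rec O M

/-- the new minus pins -/
def rwlNm (S : ClSys V Y) (rec : ClCon V Y) (O M : Finset Y) : Finset V :=
  lseSv S (rwlXw S rec O M) ∪ ((lseSv S M ∩ lseSv S (rwlEo S O M)) \ rec.Bp)

/-- **the ports** -/
def rwlP (S : ClSys V Y) (rec : ClCon V Y) (O M : Finset Y) : Finset V := lseSv S M ∩ lseSv S (rwlXp S rec O M)

/-- `h1` = the record + the wall -/
def rwlH1 (S : ClSys V Y) (rec : ClCon V Y) (O M : Finset Y) : ClCon V Y := lseAdd rec ∅ (rwlNm S rec O M) ∅ (rwlXw S rec O M)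

/-- **the closed strip system**: `S` clipped to the sites of `M`; a clipped cell gets the parameter `qc` -/
def rwlSQ (S : ClSys V Y) (M : Finset Y) (qc : ℝ) : ClSys V Y :=
  ⟨lseSv S M, S.C.filter (fun y => ∃ v ∈ S.sv y, v ∈ lseSv S M), fun y => S.sv y ∩ lseSv S M, fun y => if S.sv y ⊆ lseSv S M then S.q y else qc⟩

/-- the boundary cells of the strip system -/
def rwlCb (S : ClSys V Y) (M : Finset Y) (qc : ℝ) : Finset Y := (rwlSQ S M qc).C \ M

/-- **what the chain asks from the geometry** -/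
structure RwlGeo (S : ClSys V Y) (rec : ClCon V Y) (O M : Finset Y) (La Lc Ld Lb : Finset V) : Prop where
  MO : M ⊆ O
  OC : O ⊆ S.C
  /-- the cells of `M` are fresh -/
  fresh : ∀ y ∈ M, y ∉ rec.Op ∧ y ∉ rec.Om ∧ y ∉ rec.Cl
  /-- no outer cell which touches the strip is recorded closed -/
  out : ∀ y ∈ rwlEo S O M, y ∉ rec.Cl
  /-- a cell of the box off `M` which touches the strip is an open-plus cell of the record (a cell of one of the two layers) -/
  ext : ∀ w ∈ O, w ∉ M → (∃ v ∈ S.sv w, v ∈ lseSv S M) → w ∈ rec.Op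
  eq : rec.Eq = ∅
  /-- the plus pins of the record on the strip are the two plus sides -/
  bp : rec.Bp ∩ lseSv S M = La ∪ Lc
  /-- no minus pin of the record on the strip -/
  bm : ∀ v ∈ rec.Bm, v ∉ lseSv S M
  /-- the sites of the strip on the outer cells, off the plus sides, are the two ends -/
  ends : (lseSv S M ∩ lseSv S (rwlEo S O M)) \ rec.Bp = glEnd La Lc Ld Lb

theorem rwl_eqns_cite : True := by
  have := @rwlEo.eq_1
  have := @rwlXw.eq_1
  have := @rwlXp.eq_1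
  have := @rwlNm.eq_1
  have := @rwlP.eq_1
  have := @rwlH1.eq_1
  have := @rwlSQ.eq_1
  have := @rwlCb.eq_1
  trivial

/-! ## 1. the abstract chain -/

/-- **THE CHAIN under one record** (no geometry): `rec ≥ h1` (order), `h1 ~ (SQ, H0)` (ports, two ambients), the estimate in `(SQ, H0)`, `J ≤ F` under `h1`. -/
theorem rwl_chain (S SQ : ClSys V Y) {Bm : Finset V} (hS : LorDisk S Bm) (rec h1 H0 : ClCon V Y)
    (lrec : ClLegal S rec) (lh1 : ClLegal S h1) (mrec : Bm ⊆ rec.Bm) (mh1 : Bm ⊆ h1.Bm) (hle : ClLe h1 rec)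
    {R : Finset V} {YR : Finset Y} {P1 P2 : Finset V}
    (s1 : PrcSplit SQ H0 R YR ∅ P1) (s2 : PrcSplit S h1 R YR ∅ P2)
    (hsv : ∀ y ∈ YR, SQ.sv y = S.sv y) (hq : ∀ y ∈ YR, SQ.q y = S.q y) (hK : prcKR H0 R YR ∅ = prcKR h1 R YR ∅)
    {J : ClCfg V Y → ℝ} (hJl : PrcLoc R YR J) (hJ0 : ∀ ω, 0 ≤ J ω)
    {c : ℝ} (h3 : c * SQ.Z (H0.Holds SQ) ≤ SQ.N (H0.Holds SQ) J)
    {F : ClCfg V Y → ℝ} (hF : ClMono S F) (hJF : ∀ ω ∈ S.cfgs, h1.Holds S ω → J ω ≤ F ω)
    (z1 : 0 < SQ.Z (H0.Holds SQ)) (z2 : 0 < S.Z (rec.Holds S) → 0 < S.Z (h1.Holds S)) :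
    c / 2 ^ ((P1.card - 1) + (P2.card - 1)) * S.Z (rec.Holds S) ≤ S.N (rec.Holds S) F := by
  have hO : ClOk S := hS.toClOk
  by_cases hz : S.Z (rec.Holds S) = 0
  · rw [dis_N_zero _ hO _ hz F, hz, mul_zero]
  have hZr : 0 < S.Z (rec.Holds S) := lt_of_le_of_ne (dis_Z_nonneg _ hO _) (Ne.symm hz)
  have hZ1 := z2 hZr
  set k : ℝ := 2 ^ ((P1.card - 1) + (P2.card - 1)) with hk
  have hk0 : 0 < k := by positivity
  have p := prc_two_amb s1 s2 hsv hq hK hJl hJ0
  rw [← hk] at p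
  have a1 : c * S.Z (h1.Holds S) ≤ k * S.N (h1.Holds S) J := by
    have : (c * S.Z (h1.Holds S)) * SQ.Z (H0.Holds SQ) ≤ (k * S.N (h1.Holds S) J) * SQ.Z (H0.Holds SQ) := by
      calc (c * S.Z (h1.Holds S)) * SQ.Z (H0.Holds SQ) = (c * SQ.Z (H0.Holds SQ)) * S.Z (h1.Holds S) := by ring
        _ ≤ SQ.N (H0.Holds SQ) J * S.Z (h1.Holds S) := mul_le_mul_of_nonneg_right h3 hZ1.le
        _ ≤ k * (SQ.Z (H0.Holds SQ) * S.N (h1.Holds S) J) := p
        _ = (k * S.N (h1.Holds S) J) * SQ.Z (H0.Holds SQ) := by ring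
    exact le_of_mul_le_mul_right this z1
  have a2 : S.N (h1.Holds S) J ≤ S.N (h1.Holds S) F := dis_N_mono S hO _ hJF
  have o := lor_order S hS h1 rec lh1 lrec mh1 mrec hle F hF
  have a3 : (c / k * S.Z (rec.Holds S)) * S.Z (h1.Holds S) ≤ S.N (rec.Holds S) F * S.Z (h1.Holds S) := by
    calc (c / k * S.Z (rec.Holds S)) * S.Z (h1.Holds S) = (c * S.Z (h1.Holds S)) / k * S.Z (rec.Holds S) := by ring
      _ ≤ (k * S.N (h1.Holds S) J) / k * S.Z (rec.Holds S) :=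
          mul_le_mul_of_nonneg_right (div_le_div_of_nonneg_right a1 hk0.le) hZr.le
      _ = S.N (h1.Holds S) J * S.Z (rec.Holds S) := by field_simp
      _ ≤ S.N (h1.Holds S) F * S.Z (rec.Holds S) := mul_le_mul_of_nonneg_right a2 hZr.le
      _ ≤ S.Z (h1.Holds S) * S.N (rec.Holds S) F := o
      _ = S.N (rec.Holds S) F * S.Z (h1.Holds S) := by ring
  exact le_of_mul_le_mul_right a3 hZ1

/-! ## 2. the wall -/

section facts

variable {S : ClSys V Y} {rec : ClCon V Y} {O M : Finset Y} {La Lc Ld Lb : Finset V} {qc : ℝ}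

theorem rwl_mem_Eo {w : Y} : w ∈ rwlEo S O M ↔ w ∈ S.C ∧ w ∉ O ∧ ∃ v ∈ S.sv w, v ∈ lseSv S M := by
  unfold rwlEo; rw [Finset.mem_filter]

theorem rwl_mem_Xw {w : Y} : w ∈ rwlXw S rec O M ↔ w ∈ rwlEo S O M ∧ ∀ v ∈ S.sv w, v ∉ rec.Bp := by
  unfold rwlXw; rw [Finset.mem_filter]

theorem rwl_Xw_sub_C : rwlXw S rec O M ⊆ S.C := fun _ hw => (rwl_mem_Eo.1 (rwl_mem_Xw.1 hw).1).1

theorem rwl_Eo_cases {w : Y} (hw : w ∈ rwlEo S O M) : w ∈ rwlXw S rec O M ∨ w ∈ rwlXp S rec O M := by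
  by_cases h : w ∈ rwlXw S rec O M
  · exact Or.inl h
  · exact Or.inr (Finset.mem_sdiff.2 ⟨hw, h⟩)

theorem rwl_Xw_sv_Nm : lseSv S (rwlXw S rec O M) ⊆ rwlNm S rec O M := by
  unfold rwlNm; exact Finset.subset_union_left

theorem rwl_Nm_not_bp {v : V} (hv : v ∈ rwlNm S rec O M) : v ∉ rec.Bp := by
  unfold rwlNm at hv
  rcases Finset.mem_union.1 hv with h | h
  · obtain ⟨w, hw, hvw⟩ := lse_mem_sv.1 h
    exact (rwl_mem_Xw.1 hw).2 v hvw
  · exact (Finset.mem_sdiff.1 h).2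

/-- the new minus pins on the strip -/
theorem rwl_Nm_R : rwlNm S rec O M ∩ lseSv S M = (lseSv S M ∩ lseSv S (rwlEo S O M)) \ rec.Bp := by
  ext v
  constructor
  · intro hv
    obtain ⟨h1, h2⟩ := Finset.mem_inter.1 hv
    refine Finset.mem_sdiff.2 ⟨Finset.mem_inter.2 ⟨h2, ?_⟩, rwl_Nm_not_bp h1⟩
    unfold rwlNm at h1
    rcases Finset.mem_union.1 h1 with h | h
    · obtain ⟨w, hw, hvw⟩ := lse_mem_sv.1 h
      exact lse_mem_sv.2 ⟨w, (rwl_mem_Xw.1 hw).1, hvw⟩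
    · exact (Finset.mem_inter.1 (Finset.mem_sdiff.1 h).1).2
  · intro hv
    refine Finset.mem_inter.2 ⟨?_, (Finset.mem_inter.1 (Finset.mem_sdiff.1 hv).1).1⟩
    unfold rwlNm
    exact Finset.mem_union_right _ hv

theorem rwl_legal1 (hK : ClLegal S rec) : ClLegal S (rwlH1 S rec O M) :=
  lse_add_legal S hK (by unfold lseSv; simp) rwl_Xw_sv_Nm

theorem rwl_le1 : ClLe (rwlH1 S rec O M) rec where
  bp := by show rec.Bp ∪ ∅ ⊆ rec.Bp; rw [Finset.union_empty]
  bm := Finset.subset_union_left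
  op := by show rec.Op ∪ ∅ ⊆ rec.Op; rw [Finset.union_empty]
  om := Finset.subset_union_left
  cl1 := Finset.subset_union_left
  cl2 := Finset.subset_union_left
  eq := rfl

theorem rwl_feas1 (hS : ClOk S) (hK : ClLegal S rec) (hG : RwlGeo S rec O M La Lc Ld Lb) (hZ : 0 < S.Z (rec.Holds S)) :
    0 < S.Z ((rwlH1 S rec O M).Holds S) := by
  have f0 : ClFeas S rec := dis_feas_conv S hS _ hK hZ
  refine dis_feas S hS _ (rwl_legal1 hK) ?_
  refine lse_add_feas S hK f0 (Finset.empty_subset _) (by unfold lseSv; simp) rwl_Xw_sv_Nm (Finset.empty_subset _) rwl_Xw_sub_C ?_ hS.ne ?_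
  · rw [Finset.union_empty, Finset.disjoint_union_right]
    exact ⟨f0.dis, Finset.disjoint_right.2 fun v hv => rwl_Nm_not_bp hv⟩
  · intro y hy
    rw [Finset.empty_union] at hy
    exact hG.out y (rwl_mem_Xw.1 hy).1

/-- an exterior cell which touches the strip: a plus cell of the record, or an outer cell -/
theorem rwl_ext_cases (hG : RwlGeo S rec O M La Lc Ld Lb) {w : Y} (hw : w ∈ S.C) (hwM : w ∉ M) {v : V} (hv : v ∈ S.sv w) (hvR : v ∈ lseSv S M) :
    w ∈ rec.Op ∨ w ∈ rwlEo S O M := by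
  by_cases hO : w ∈ O
  · exact Or.inl (hG.ext w hO hwM ⟨v, hv, hvR⟩)
  · exact Or.inr (rwl_mem_Eo.2 ⟨hw, hO, v, hv, hvR⟩)

/-- the retained part `(R, M)` of the ambient under `h1` -/
theorem rwl_split1 (hS : ClOk S) (hK : ClLegal S rec) (hG : RwlGeo S rec O M La Lc Ld Lb) :
    PrcSplit S (rwlH1 S rec O M) (lseSv S M) M ∅ (rwlP S rec O M) where
  RA := fun v hv => by
    obtain ⟨y, hy, hvy⟩ := lse_mem_sv.1 hv
    exact hS.sub y (hG.OC (hG.MO hy)) hvy
  YC := hG.MO.trans hG.OC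
  sub := hS.sub
  q0 := fun y hy => (hS.q0 y hy).le
  q1 := hS.q1
  cellR := fun y hy v hv => lse_mem_sv.2 ⟨y, hy, hv⟩
  pinX := by
    intro w hw hwM v hv
    obtain ⟨hv1, hvR⟩ := Finset.mem_inter.1 hv
    show v ∈ (rec.Bp ∪ ∅) ∪ (rec.Bm ∪ rwlNm S rec O M)
    rw [Finset.union_empty]
    by_cases hb : v ∈ rec.Bp
    · exact Finset.mem_union_left _ hb
    · refine Finset.mem_union_right _ ?_
      rcases rwl_ext_cases hG hw hwM hv1 hvR with h | h
      · rcases Finset.mem_union.1 (hK.full w hw (Finset.mem_union_left _ (Finset.mem_union_left _ h)) hv1) with h' | h'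
        · exact absurd h' hb
        · exact Finset.mem_union_left _ h'
      · refine Finset.mem_union_right _ ?_
        unfold rwlNm
        exact Finset.mem_union_right _ (Finset.mem_sdiff.2 ⟨Finset.mem_inter.2 ⟨hvR, lse_mem_sv.2 ⟨w, h, hv1⟩⟩, hb⟩)
  portC := by
    intro w hw hwM
    by_cases ht : ∃ v ∈ S.sv w, v ∈ lseSv S M
    · obtain ⟨v, hv, hvR⟩ := ht
      rcases rwl_ext_cases hG hw hwM hv hvR with h | h
      · exact Or.inl (Finset.mem_union_left _ (Finset.mem_union_left _ h))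
      · rcases rwl_Eo_cases (rec := rec) h with h' | h'
        · exact Or.inl (Finset.mem_union_right _ (Finset.mem_union_right _ h'))
        · refine Or.inr fun u hu => ?_
          obtain ⟨hu1, huR⟩ := Finset.mem_inter.1 hu
          exact Finset.mem_inter.2 ⟨huR, lse_mem_sv.2 ⟨w, h', hu1⟩⟩
    · refine Or.inr fun u hu => ?_
      obtain ⟨hu1, huR⟩ := Finset.mem_inter.1 hu
      exact absurd ⟨u, hu1, huR⟩ ht
  eqR := Finset.empty_subset _
  eqR_in := fun e he => absurd he (Finset.notMem_empty e)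
  portE := fun e he => by
    have : e ∈ rec.Eq := he
    rw [hG.eq] at this
    exact absurd this (Finset.notMem_empty e)
  eqA := fun e he => by
    have : e ∈ rec.Eq := he
    rw [hG.eq] at this
    exact absurd this (Finset.notMem_empty e)
  wp := hK.wp
  wm := hK.wm

/-! ## 3. the clipped system -/

theorem rwl_SQ_A : (rwlSQ S M qc).A = lseSv S M := rfl

theorem rwl_SQ_sv (y : Y) : (rwlSQ S M qc).sv y = S.sv y ∩ lseSv S M := rfl

theorem rwl_mem_SQ_C {y : Y} : y ∈ (rwlSQ S M qc).C ↔ y ∈ S.C ∧ ∃ v ∈ S.sv y, v ∈ lseSv S M := by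
  show y ∈ S.C.filter _ ↔ _
  rw [Finset.mem_filter]

theorem rwl_sv_M {y : Y} (hy : y ∈ M) : (rwlSQ S M qc).sv y = S.sv y :=
  Finset.inter_eq_left.2 fun v hv => lse_mem_sv.2 ⟨y, hy, hv⟩

theorem rwl_q_M {y : Y} (hy : y ∈ M) : (rwlSQ S M qc).q y = S.q y :=
  if_pos fun v hv => lse_mem_sv.2 ⟨y, hy, hv⟩

/-- statuses of the cells of the strip: clipped system = ambient -/
theorem rwl_tau (ω : ClCfg V Y) {y : Y} (hy : y ∈ M) : clTau (rwlSQ S M qc) ω y = clTau S ω y := by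
  unfold clTau
  rw [rwl_sv_M hy]

theorem rwl_SQ_ok (hS : ClOk S) (h0 : 0 < qc) (h1 : qc ≤ 1) : ClOk (rwlSQ S M qc) where
  sub := fun y _ => Finset.inter_subset_right
  ne := fun y hy => by
    obtain ⟨_, v, hv, hvR⟩ := rwl_mem_SQ_C.1 hy
    exact ⟨v, Finset.mem_inter.2 ⟨hv, hvR⟩⟩
  q0 := fun y hy => by
    show 0 < if S.sv y ⊆ lseSv S M then S.q y else qc
    split_ifs
    · exact hS.q0 y (rwl_mem_SQ_C.1 hy).1
    · exact h0
  q1 := fun y hy => by
    show (if S.sv y ⊆ lseSv S M then S.q y else qc) ≤ 1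
    split_ifs
    · exact hS.q1 y (rwl_mem_SQ_C.1 hy).1
    · exact h1

theorem rwl_M_sub_SQ (hS : ClOk S) (hG : RwlGeo S rec O M La Lc Ld Lb) : M ⊆ (rwlSQ S M qc).C := fun y hy => by
  have hyC := hG.OC (hG.MO hy)
  obtain ⟨v, hv⟩ := hS.ne y hyC
  exact rwl_mem_SQ_C.2 ⟨hyC, v, hv, lse_mem_sv.2 ⟨y, hy, hv⟩⟩

theorem rwl_LaLc_sub (hG : RwlGeo S rec O M La Lc Ld Lb) : La ∪ Lc ⊆ lseSv S M := by
  rw [← hG.bp]; exact Finset.inter_subset_right

theorem rwl_end_sub (hG : RwlGeo S rec O M La Lc Ld Lb) : glEnd La Lc Ld Lb ⊆ lseSv S M := by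
  rw [← hG.ends]; exact Finset.sdiff_subset.trans Finset.inter_subset_left

/-- a boundary cell of the strip system: all its (clipped) sites are plus sides, or it is an outer cell -/
theorem rwl_Cb_cases (hS : ClOk S) (hK : ClLegal S rec) (hf : ClFeas S rec) (hG : RwlGeo S rec O M La Lc Ld Lb) {y : Y} (hy : y ∈ rwlCb S M qc) :
    (rwlSQ S M qc).sv y ⊆ La ∪ Lc ∨ y ∈ rwlEo S O M := by
  obtain ⟨h1, h2⟩ := Finset.mem_sdiff.1 hy
  obtain ⟨hyC, v, hv, hvR⟩ := rwl_mem_SQ_C.1 h1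
  rcases rwl_ext_cases hG hyC h2 hv hvR with h | h
  · left
    intro u hu
    obtain ⟨hu1, huR⟩ := Finset.mem_inter.1 hu
    rw [← hG.bp]
    exact Finset.mem_inter.2 ⟨hf.op y h hu1, huR⟩
  · exact Or.inr h

/-- the retained part `(R, M)` of the strip system under the strip law -/
theorem rwl_split0 (hS : ClOk S) (hK : ClLegal S rec) (hf : ClFeas S rec) (hG : RwlGeo S rec O M La Lc Ld Lb) (h0 : 0 < qc) (h1 : qc ≤ 1) :
    PrcSplit (rwlSQ S M qc) (glH0 (rwlSQ S M qc) (rwlCb S M qc) La Lc Ld Lb) (lseSv S M) M ∅ (rwlP S rec O M) where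
  RA := Finset.Subset.refl _
  YC := rwl_M_sub_SQ hS hG
  sub := (rwl_SQ_ok hS h0 h1).sub
  q0 := fun y hy => ((rwl_SQ_ok hS h0 h1).q0 y hy).le
  q1 := (rwl_SQ_ok hS h0 h1).q1
  cellR := fun y _ => Finset.inter_subset_right
  pinX := by
    intro y hy hyM v hv
    have hv1 : v ∈ (rwlSQ S M qc).sv y := (Finset.mem_inter.1 hv).1
    show v ∈ (La ∪ Lc) ∪ glEnd La Lc Ld Lb
    rcases rwl_Cb_cases hS hK hf hG (Finset.mem_sdiff.2 ⟨hy, hyM⟩) with h | h
    · exact Finset.mem_union_left _ (h hv1)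
    · obtain ⟨hu1, huR⟩ := Finset.mem_inter.1 hv1
      by_cases hb : v ∈ rec.Bp
      · refine Finset.mem_union_left _ ?_
        rw [← hG.bp]
        exact Finset.mem_inter.2 ⟨hb, huR⟩
      · refine Finset.mem_union_right _ ?_
        rw [← hG.ends]
        exact Finset.mem_sdiff.2 ⟨Finset.mem_inter.2 ⟨huR, lse_mem_sv.2 ⟨y, h, hu1⟩⟩, hb⟩
  portC := by
    intro y hy hyM
    have hyCb : y ∈ rwlCb S M qc := Finset.mem_sdiff.2 ⟨hy, hyM⟩
    rcases rwl_Cb_cases hS hK hf hG hyCb with h | h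
    · exact Or.inl (Finset.mem_union_left _ (Finset.mem_filter.2 ⟨hyCb, h⟩))
    · rcases rwl_Eo_cases (rec := rec) h with h' | h'
      · refine Or.inl (Finset.mem_union_right _ (Finset.mem_filter.2 ⟨hyCb, fun v hv => ?_⟩))
        obtain ⟨hu1, huR⟩ := Finset.mem_inter.1 hv
        rw [← hG.ends]
        exact Finset.mem_sdiff.2 ⟨Finset.mem_inter.2 ⟨huR, lse_mem_sv.2 ⟨y, h, hu1⟩⟩, (rwl_mem_Xw.1 h').2 v hu1⟩
      · refine Or.inr fun u hu => ?_
        obtain ⟨hu1, huR⟩ := Finset.mem_inter.1 (Finset.mem_inter.1 hu).1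
        exact Finset.mem_inter.2 ⟨huR, lse_mem_sv.2 ⟨y, h', hu1⟩⟩
  eqR := Finset.empty_subset _
  eqR_in := fun e he => absurd he (Finset.notMem_empty e)
  portE := fun e he => absurd he (Finset.notMem_empty e)
  eqA := fun e he => absurd he (Finset.notMem_empty e)
  wp := rfl
  wm := rfl

/-- field `cbL` of `GlStrip` for the clipped system -/
theorem rwl_cbL (hS : ClOk S) (hK : ClLegal S rec) (hf : ClFeas S rec) (hG : RwlGeo S rec O M La Lc Ld Lb) (h0 : 0 < qc) (h1 : qc ≤ 1) :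
    ∀ y ∈ rwlCb S M qc, (rwlSQ S M qc).sv y ⊆ La ∪ Lc ∪ Ld ∪ Lb := by
  intro y hy v hv
  obtain ⟨a1, a2⟩ := Finset.mem_sdiff.1 hy
  have hvR : v ∈ lseSv S M := (Finset.mem_inter.1 hv).2
  have := (rwl_split0 hS hK hf hG h0 h1).pinX y a1 a2 (Finset.mem_inter.2 ⟨hv, hvR⟩)
  have h' : v ∈ (La ∪ Lc) ∪ glEnd La Lc Ld Lb := this
  unfold glEnd at h'
  simp only [Finset.mem_union, Finset.mem_sdiff] at h' ⊢
  tauto

/-- `h1` contains the record -/
theorem rwl_h1_holds {ω : ClCfg V Y} (h : (rwlH1 S rec O M).Holds S ω) : rec.Holds S ω := by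
  obtain ⟨a1, a2, a3, a4, a5, a6, a7, a8⟩ := h
  exact ⟨fun v hv => a1 (Finset.mem_union_left _ hv), fun v hv => a2 v (Finset.mem_union_left _ hv), a3,
    fun y hy => a4 y (Finset.mem_union_left _ hy), fun y hy => a5 y (Finset.mem_union_left _ hy), a6, a7, a8⟩

/-- the strip law is feasible -/
theorem rwl_H0_pos (hS : ClOk S) (hG : RwlGeo S rec O M La Lc Ld Lb) (h0 : 0 < qc) (h1 : qc ≤ 1) :
    0 < (rwlSQ S M qc).Z ((glH0 (rwlSQ S M qc) (rwlCb S M qc) La Lc Ld Lb).Holds (rwlSQ S M qc)) := by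
  have hO := rwl_SQ_ok (S := S) (M := M) hS h0 h1
  have hd : Disjoint (La ∪ Lc) (glEnd La Lc Ld Lb) := by
    unfold glEnd; exact Finset.disjoint_sdiff
  refine dis_feas _ hO _ (gl_H0_legal _ _ _ _ _ _) ⟨rwl_LaLc_sub hG, hd, ?_, ?_, ?_, ?_, ?_, ?_, ?_, ?_⟩
  · exact (Finset.filter_subset _ _).trans Finset.sdiff_subset
  · exact (Finset.filter_subset _ _).trans Finset.sdiff_subset
  · exact fun y hy => (Finset.mem_filter.1 hy).2
  · exact fun y hy => (Finset.mem_filter.1 hy).2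
  · exact fun y hy => absurd hy (Finset.notMem_empty y)
  · refine Finset.disjoint_left.2 fun y h1 h2 => ?_
    obtain ⟨hy, a1⟩ := Finset.mem_filter.1 h1
    obtain ⟨_, a2⟩ := Finset.mem_filter.1 h2
    obtain ⟨v, hv⟩ := hO.ne y (Finset.mem_sdiff.1 hy).1
    exact Finset.disjoint_left.1 hd (a1 hv) (a2 hv)
  · exact Finset.disjoint_empty_right _
  · exact Finset.disjoint_empty_right _

/-- the two laws have the same retained data -/
theorem rwl_same (hG : RwlGeo S rec O M La Lc Ld Lb) :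
    prcKR (glH0 (rwlSQ S M qc) (rwlCb S M qc) La Lc Ld Lb) (lseSv S M) M ∅ = prcKR (rwlH1 S rec O M) (lseSv S M) M ∅ := by
  have e1 : (La ∪ Lc) ∩ lseSv S M = (rec.Bp ∪ ∅) ∩ lseSv S M := by
    rw [Finset.union_empty, hG.bp]
    exact Finset.inter_eq_left.2 (rwl_LaLc_sub hG)
  have e2 : glEnd La Lc Ld Lb ∩ lseSv S M = (rec.Bm ∪ rwlNm S rec O M) ∩ lseSv S M := by
    rw [Finset.union_inter_distrib_right, rwl_Nm_R, hG.ends]
    have : rec.Bm ∩ lseSv S M = ∅ := Finset.eq_empty_of_forall_notMem fun v hv =>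
      hG.bm v (Finset.mem_inter.1 hv).1 (Finset.mem_inter.1 hv).2
    rw [this, Finset.empty_union]
    exact Finset.inter_eq_left.2 (rwl_end_sub hG)
  have c0 : ∀ p : Y → Prop, [DecidablePred p] → (rwlCb S M qc).filter p ∩ M = ∅ := fun p _ =>
    Finset.eq_empty_of_forall_notMem fun y hy =>
      (Finset.mem_sdiff.1 (Finset.mem_filter.1 (Finset.mem_inter.1 hy).1).1).2 (Finset.mem_inter.1 hy).2
  have e3 : (rec.Op ∪ ∅) ∩ M = ∅ := Finset.eq_empty_of_forall_notMem fun y hy => by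
    rw [Finset.union_empty] at hy
    exact (hG.fresh y (Finset.mem_inter.1 hy).2).1 (Finset.mem_inter.1 hy).1
  have e4 : (rec.Om ∪ rwlXw S rec O M) ∩ M = ∅ := Finset.eq_empty_of_forall_notMem fun y hy => by
    obtain ⟨h1, h2⟩ := Finset.mem_inter.1 hy
    rcases Finset.mem_union.1 h1 with h | h
    · exact (hG.fresh y h2).2.1 h
    · exact (rwl_mem_Eo.1 (rwl_mem_Xw.1 h).1).2.1 (hG.MO h2)
  have e5 : rec.Cl ∩ M = ∅ := Finset.eq_empty_of_forall_notMem fun y hy =>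
    (hG.fresh y (Finset.mem_inter.1 hy).2).2.2 (Finset.mem_inter.1 hy).1
  unfold prcKR
  show (⟨(La ∪ Lc) ∩ lseSv S M, glEnd La Lc Ld Lb ∩ lseSv S M, ∅, (rwlCb S M qc).filter _ ∩ M, (rwlCb S M qc).filter _ ∩ M, ∅ ∩ M, ∅, ∅⟩ : ClCon V Y)
    = ⟨(rec.Bp ∪ ∅) ∩ lseSv S M, (rec.Bm ∪ rwlNm S rec O M) ∩ lseSv S M, ∅, (rec.Op ∪ ∅) ∩ M, (rec.Om ∪ rwlXw S rec O M) ∩ M, rec.Cl ∩ M, ∅, ∅⟩
  rw [e1, e2, c0, c0, e3, e4, e5, Finset.empty_inter]

end facts

/-! ## 4. THE CHAIN WITH THE WALL -/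

/-- **chain step 5**: the estimate in the closed strip system gives the estimate under the record -/
theorem rwl_main (S : ClSys V Y) {Bm : Finset V} (hS : LorDisk S Bm) (rec : ClCon V Y) (lrec : ClLegal S rec) (mrec : Bm ⊆ rec.Bm)
    (O M : Finset Y) (La Lc Ld Lb : Finset V) (hG : RwlGeo S rec O M La Lc Ld Lb) {qc : ℝ} (h0 : 0 < qc) (h1 : qc ≤ 1)
    {J : ClCfg V Y → ℝ} (hJl : PrcLoc (lseSv S M) M J) (hJ0 : ∀ ω, 0 ≤ J ω) {c : ℝ}
    (h3 : c * (rwlSQ S M qc).Z ((glH0 (rwlSQ S M qc) (rwlCb S M qc) La Lc Ld Lb).Holds (rwlSQ S M qc))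
      ≤ (rwlSQ S M qc).N ((glH0 (rwlSQ S M qc) (rwlCb S M qc) La Lc Ld Lb).Holds (rwlSQ S M qc)) J)
    {F : ClCfg V Y → ℝ} (hF : ClMono S F) (hJF : ∀ ω ∈ S.cfgs, (rwlH1 S rec O M).Holds S ω → J ω ≤ F ω) :
    c / 2 ^ (((rwlP S rec O M).card - 1) + ((rwlP S rec O M).card - 1)) * S.Z (rec.Holds S) ≤ S.N (rec.Holds S) F := by
  have hO : ClOk S := hS.toClOk
  by_cases hz : S.Z (rec.Holds S) = 0
  · rw [dis_N_zero _ hO _ hz F, hz, mul_zero]
  have hZr : 0 < S.Z (rec.Holds S) := lt_of_le_of_ne (dis_Z_nonneg _ hO _) (Ne.symm hz)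
  have f0 : ClFeas S rec := dis_feas_conv S hO _ lrec hZr
  exact rwl_chain S (rwlSQ S M qc) hS rec (rwlH1 S rec O M) _ lrec (rwl_legal1 lrec) mrec (mrec.trans Finset.subset_union_left) rwl_le1
    (rwl_split0 hO lrec f0 hG h0 h1) (rwl_split1 hO lrec hG) (fun y hy => rwl_sv_M hy) (fun y hy => rwl_q_M hy) (rwl_same hG) hJl hJ0 h3 hF hJF
    (rwl_H0_pos hO hG h0 h1) (rwl_feas1 hO lrec hG)

/-- the conclusion of `gl_three` reads the strip only -/
theorem rwl_join_loc (S : ClSys V Y) (M Kc : Finset Y) (hKc : Kc ⊆ M) (qc : ℝ) (La Lc : Finset V) :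
    PrcLoc (lseSv S M) M (glInd (fun ω => GlJoinC (rwlSQ S M qc) (↑Kc ∩ glOn (rwlSQ S M qc) 1 ω) La Lc)) := by
  intro ω ω' hB hO
  have ht : ∀ y ∈ Kc, clTau (rwlSQ S M qc) ω y = clTau (rwlSQ S M qc) ω' y := by
    intro y hy
    have hyM := hKc hy
    have a1 : y ∈ ω.O ↔ y ∈ ω'.O := by
      have := Finset.ext_iff.1 hO y
      simpa only [Finset.mem_inter, hyM, and_true] using this
    have a2 : (rwlSQ S M qc).sv y ⊆ ω.B ↔ (rwlSQ S M qc).sv y ⊆ ω'.B := by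
      have hs : (rwlSQ S M qc).sv y ⊆ lseSv S M := Finset.inter_subset_right
      constructor
      · intro h u hu
        exact (Finset.mem_inter.1 ((Finset.ext_iff.1 hB u).1 (Finset.mem_inter.2 ⟨h hu, hs hu⟩))).1
      · intro h u hu
        exact (Finset.mem_inter.1 ((Finset.ext_iff.1 hB u).2 (Finset.mem_inter.2 ⟨h hu, hs hu⟩))).1
    unfold clTau
    simp only [a1, a2]
  have e : (↑Kc ∩ glOn (rwlSQ S M qc) 1 ω : Set Y) = ↑Kc ∩ glOn (rwlSQ S M qc) 1 ω' := by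
    ext y
    simp only [Set.mem_inter_iff, Finset.mem_coe, glOn, Set.mem_ofPred_eq]
    constructor
    · rintro ⟨h1, h2, h3⟩
      exact ⟨h1, h2, by rw [← ht y h1]; exact h3⟩
    · rintro ⟨h1, h2, h3⟩
      exact ⟨h1, h2, by rw [ht y h1]; exact h3⟩
  have e' : GlJoinC (rwlSQ S M qc) (↑Kc ∩ glOn (rwlSQ S M qc) 1 ω) La Lc ↔ GlJoinC (rwlSQ S M qc) (↑Kc ∩ glOn (rwlSQ S M qc) 1 ω') La Lc := by
    rw [e]
  unfold glInd
  by_cases h : GlJoinC (rwlSQ S M qc) (↑Kc ∩ glOn (rwlSQ S M qc) 1 ω) La Lc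
  · rw [if_pos h, if_pos (e'.1 h)]
  · rw [if_neg h, if_neg fun h' => h (e'.2 h')]

theorem rwl_ind_nonneg (L : ClCfg V Y → Prop) (ω : ClCfg V Y) : 0 ≤ glInd L ω := by
  unfold glInd; split_ifs <;> norm_num

/-- **chain step 5 in the shape of `RsrSE`**: `gl_three` in the closed strip system, at most 4 ports, "join ⟹ `F`" under `h1` -/
theorem rwl_join (S : ClSys V Y) {Bm : Finset V} (hS : LorDisk S Bm) (rec : ClCon V Y) (lrec : ClLegal S rec) (mrec : Bm ⊆ rec.Bm)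
    (O M : Finset Y) (La Lc Ld Lb : Finset V) (hG : RwlGeo S rec O M La Lc Ld Lb) {qc : ℝ} (h0 : 0 < qc) (h1 : qc ≤ 1)
    (hP : (rwlP S rec O M).card ≤ 4) (Kc : Finset Y) (hKc : Kc ⊆ M) {c : ℝ} (hc : 0 ≤ c)
    (h3 : c * (rwlSQ S M qc).Z ((glH0 (rwlSQ S M qc) (rwlCb S M qc) La Lc Ld Lb).Holds (rwlSQ S M qc))
      ≤ (rwlSQ S M qc).N ((glH0 (rwlSQ S M qc) (rwlCb S M qc) La Lc Ld Lb).Holds (rwlSQ S M qc))
        (glInd (fun ω => GlJoinC (rwlSQ S M qc) (↑Kc ∩ glOn (rwlSQ S M qc) 1 ω) La Lc)))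
    {F : ClCfg V Y → Prop} (hF : ClMonoP S F)
    (hJF : ∀ ω ∈ S.cfgs, (rwlH1 S rec O M).Holds S ω → GlJoinC (rwlSQ S M qc) (↑Kc ∩ glOn (rwlSQ S M qc) 1 ω) La Lc → F ω) :
    c / 64 * S.Z (rec.Holds S) ≤ S.N (rec.Holds S) (lenInd F) := by
  have hO : ClOk S := hS.toClOk
  have m := rwl_main S hS rec lrec mrec O M La Lc Ld Lb hG h0 h1 (rwl_join_loc S M Kc hKc qc La Lc) (rwl_ind_nonneg _) h3 (len_ind_mono S hF)
    (fun ω hω hh => by
      by_cases hj : GlJoinC (rwlSQ S M qc) (↑Kc ∩ glOn (rwlSQ S M qc) 1 ω) La Lc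
      · rw [len_ind_pos (hJF ω hω hh hj)]
        unfold glInd; split_ifs <;> norm_num
      · have : glInd (fun ω => GlJoinC (rwlSQ S M qc) (↑Kc ∩ glOn (rwlSQ S M qc) 1 ω) La Lc) ω = 0 := by
          unfold glInd; rw [if_neg hj]
        rw [this]
        exact len_ind_nonneg _ _)
  refine le_trans (mul_le_mul_of_nonneg_right ?_ (dis_Z_nonneg S hO _)) m
  have hp : (2 : ℝ) ^ (((rwlP S rec O M).card - 1) + ((rwlP S rec O M).card - 1)) ≤ 64 := by
    calc (2 : ℝ) ^ (((rwlP S rec O M).card - 1) + ((rwlP S rec O M).card - 1)) ≤ 2 ^ 6 :=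
          pow_le_pow_right₀ (by norm_num) (by omega)
      _ = 64 := by norm_num
  exact div_le_div_of_nonneg_left hc (by positivity) hp

end abstract

end Claimed.Agent.R291
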