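import Claimed.Agent.R291.Defs.Seed

/-!
# Row 291 (S0539), Ann/SeedDet : A4, THE DETERMINISTIC HALF      (owner helper83; prefix `sd_`)

Model free: sets `X ⊆ ℤ × ℤ` of cell indices, `TscR tscG` paths, the planar kit `Pl/SetForm` (112), `Tool/TriSCLat` (147).   Design: `origin/helper83:notes/R291/A4_83.md` Sec. 2.
* D1 `sd_sub`            a path from `g ≤ c` to `g ≥ d` contains a crossing of the slab `c ≤ g ≤ d` (`g` = any coordinate which moves by at most one along an edge); `sd_sub_snd`, `sd_sub_fst`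
* D2 `sd_H_iff`, `sd_V_iff`      path form = dual form in a box (112)
* D3 `sd_H_inc`, … `sd_blk_rows`, `sd_up_*`, `sd_tr_*`      monotonicity, locality, covariance
* D4 `sd_blk_H` (S3 of 147: a blocked band gives `H⁺` of every box whose rows contain it), `sd_blk_sub` (S4: a blocked sub-band blocks the band), `sd_H_narrow`, `sd_V_short`
* D5 `sd_wind_det`       WINDING CLOSURE (S5): `H⁺(R₁) ∧ H⁺(R₂) ∧ V⁺(Q₁) ∧ V⁺(Q₂) ⟹ Blk`
* D6 `sd_ext`            EXTRACTION (TEX l.692-706): a vertical crossing of a band of height `m` gives `V⁺(6m × m)` or `H⁺(4m × m)` in one of `L/m + 6` windows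
* D7 `sd_alt`            BAND ALTERNATIVE (TEX[annulus:duality]), deterministic part
* D8 `sd_e3_vert`        (E3) of 193 in a box `w × 3r` + `H⁺` of the two outer thirds ⟹ `V⁺` of the middle third
-/

set_option autoImplicit false
set_option linter.unusedSectionVars false
set_option linter.unusedVariables false

namespace Claimed.Agent.R291

open Claims Claims.C0467 Relation

/-! ### D1: crossing sub-paths -/

/-- **D1**.   PLAN: induction along the path with the invariant "found, or `g w < c`, or (`c ≤ g w ≤ d` and `w` is joined inside the slab to a site with `g = c`)". -/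
theorem sd_sub (g : TV → ℤ) (hg : ∀ a b : TV, triAdj a b → g b ≤ g a + 1 ∧ g a ≤ g b + 1) {S : Set TV} {u v : TV} (hu : u ∈ S)
    (h : TscR tscG S u v) {c d : ℤ} (hcd : c ≤ d) (huc : g u ≤ c) (hvd : d ≤ g v) :
    ∃ u' v' : TV, u' ∈ S ∧ g u' = c ∧ g v' = d ∧ TscR tscG (S ∩ {p | c ≤ g p ∧ g p ≤ d}) u' v' := by
  have enter : ∀ w : TV, w ∈ S → g w = c →
      (∃ u' v' : TV, u' ∈ S ∧ g u' = c ∧ g v' = d ∧ TscR tscG (S ∩ {p | c ≤ g p ∧ g p ≤ d}) u' v') ∨ g w < c ∨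
        (c ≤ g w ∧ g w < d ∧ ∃ u' : TV, u' ∈ S ∧ g u' = c ∧ TscR tscG (S ∩ {p | c ≤ g p ∧ g p ≤ d}) u' w) := by
    intro w hw hwc
    rcases hcd.eq_or_lt with rfl | hlt
    · exact Or.inl ⟨w, w, hw, hwc, hwc, tsc_R_refl _⟩
    · exact Or.inr (Or.inr ⟨hwc.ge, by omega, w, hw, hwc, tsc_R_refl _⟩)
  have inv : (∃ u' v' : TV, u' ∈ S ∧ g u' = c ∧ g v' = d ∧ TscR tscG (S ∩ {p | c ≤ g p ∧ g p ≤ d}) u' v') ∨ g v < c ∨
      (c ≤ g v ∧ g v < d ∧ ∃ u' : TV, u' ∈ S ∧ g u' = c ∧ TscR tscG (S ∩ {p | c ≤ g p ∧ g p ≤ d}) u' v) := by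
    clear hvd
    induction h with
    | refl =>
      rcases huc.eq_or_lt with he | hlt
      · exact enter u hu he
      · exact Or.inr (Or.inl hlt)
    | @tail w w' _ hbc ih =>
      obtain ⟨hadj, hw, hw'⟩ := hbc
      obtain ⟨g1, g2⟩ := hg w w' hadj
      rcases ih with hf | hlt | ⟨h1, h2, u', hu', hu'c, hR⟩
      · exact Or.inl hf
      · rcases (show g w' ≤ c by omega).eq_or_lt with he | hlt'
        · exact enter w' hw' he
        · exact Or.inr (Or.inl hlt')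
      · by_cases hlow : g w' < c
        · exact Or.inr (Or.inl hlow)
        · have hR' : TscR tscG (S ∩ {p | c ≤ g p ∧ g p ≤ d}) u' w' :=
            hR.tail ⟨hadj, ⟨hw, h1, h2.le⟩, ⟨hw', by omega, by omega⟩⟩
          by_cases hd : g w' = d
          · exact Or.inl ⟨u', w', hu', hu'c, hd, hR'⟩
          · exact Or.inr (Or.inr ⟨by omega, by omega, u', hu', hu'c, hR'⟩)
  rcases inv with hf | hlt | ⟨_, h2, _⟩
  · exact hf
  · omega
  · omega

theorem sd_sub_snd {S : Set TV} {u v : TV} (hu : u ∈ S) (h : TscR tscG S u v) {c d : ℤ} (hcd : c ≤ d) (huc : u.2 ≤ c) (hvd : d ≤ v.2) :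
    ∃ u' v' : TV, u' ∈ S ∧ u'.2 = c ∧ v'.2 = d ∧ TscR tscG (S ∩ plsBand c d) u' v' :=
  sd_sub (fun p => p.2) (fun _ _ hab => tsc_adj_snd hab) hu h hcd huc hvd

theorem sd_sub_fst {S : Set TV} {u v : TV} (hu : u ∈ S) (h : TscR tscG S u v) {a b : ℤ} (hab : a ≤ b) (hua : u.1 ≤ a) (hvb : b ≤ v.1) :
    ∃ u' v' : TV, u' ∈ S ∧ u'.1 = a ∧ v'.1 = b ∧ TscR tscG (S ∩ {p | a ≤ p.1 ∧ p.1 ≤ b}) u' v' :=
  sd_sub (fun p => p.1) (fun _ _ hab => tsc_adj_fst hab) hu h hab hua hvb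

/-! ### D2: the two forms in a box -/

theorem sd_H_iff {a b c d : ℤ} (hab : a ≤ b) (hcd : c ≤ d) (X : Set TV) : SdH a b c d X ↔ SdLR a b c d X := by
  exact (pls_box_iff hab hcd X).symm

theorem sd_V_iff {a b c d : ℤ} (hab : a ≤ b) (hcd : c ≤ d) (X : Set TV) : SdV a b c d X ↔ SdTB a b c d X := by
  exact (pls_box_iff' hab hcd X).symm

/-! ### D3: monotonicity, locality, covariance -/

theorem sd_TB_mono {a b c d : ℤ} {P P' : Set TV} (h : P ⊆ P') (hp : SdTB a b c d P) : SdTB a b c d P' := by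
  obtain ⟨u, v, hu, h1, h2, hR⟩ := hp
  exact ⟨u, v, ⟨hu.1, h hu.2⟩, h1, h2, tsc_R_mono (Set.inter_subset_inter_right _ h) hR⟩

theorem sd_LR_mono {a b c d : ℤ} {P P' : Set TV} (h : P ⊆ P') (hp : SdLR a b c d P) : SdLR a b c d P' := by
  obtain ⟨u, v, hu, h1, h2, hR⟩ := hp
  exact ⟨u, v, ⟨hu.1, h hu.2⟩, h1, h2, tsc_R_mono (Set.inter_subset_inter_right _ h) hR⟩

theorem sd_VX_mono {c d : ℤ} {P P' : Set TV} (h : P ⊆ P') (hp : SdVX c d P) : SdVX c d P' := by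
  obtain ⟨u, v, hu, h1, h2, hR⟩ := hp
  exact ⟨u, v, ⟨hu.1, h hu.2⟩, h1, h2, tsc_R_mono (Set.inter_subset_inter_right _ h) hR⟩

theorem sd_H_inc (a b c d : ℤ) : SdInc (SdH a b c d) := fun _ _ h hX hp => hX (sd_TB_mono (Set.compl_subset_compl.2 h) hp)

theorem sd_V_inc (a b c d : ℤ) : SdInc (SdV a b c d) := fun _ _ h hX hp => hX (sd_LR_mono (Set.compl_subset_compl.2 h) hp)

theorem sd_blk_inc (c d : ℤ) : SdInc (SdBlk c d) := fun _ _ h hX hp => hX (sd_VX_mono (Set.compl_subset_compl.2 h) hp)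

/-- the trace of the complement on a subset of the band -/
theorem sd_rows_aux {c d : ℤ} {X X' B : Set TV} (hB : B ⊆ plsBand c d) (h : X ∩ plsBand c d = X' ∩ plsBand c d) : B ∩ Xᶜ = B ∩ X'ᶜ := by
  ext z
  constructor
  · rintro ⟨h1, h2⟩
    exact ⟨h1, fun h3 => h2 ((h.symm ▸ (⟨h3, hB h1⟩ : z ∈ X' ∩ plsBand c d) : z ∈ X ∩ plsBand c d)).1⟩
  · rintro ⟨h1, h2⟩
    exact ⟨h1, fun h3 => h2 ((h ▸ (⟨h3, hB h1⟩ : z ∈ X ∩ plsBand c d) : z ∈ X' ∩ plsBand c d)).1⟩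

theorem sd_box_band (a b c d : ℤ) : tscBox a b c d ⊆ plsBand c d := fun _ hz => ⟨hz.2.2.1, hz.2.2.2⟩

theorem sd_H_rows (a b c d : ℤ) : SdRows c d (SdH a b c d) := by
  intro X X' h
  unfold SdH SdTB
  rw [sd_rows_aux (sd_box_band a b c d) h]

theorem sd_V_rows (a b c d : ℤ) : SdRows c d (SdV a b c d) := by
  intro X X' h
  unfold SdV SdLR
  rw [sd_rows_aux (sd_box_band a b c d) h]

theorem sd_blk_rows (c d : ℤ) : SdRows c d (SdBlk c d) := by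
  intro X X' h
  unfold SdBlk SdVX
  rw [sd_rows_aux (subset_refl _) h]

/-- translation of a path -/
theorem sd_R_tr (t : TV) {s s' : Set TV} (h : ∀ z ∈ s, z + t ∈ s') {x y : TV} (hR : TscR tscG s x y) : TscR tscG s' (x + t) (y + t) := by
  induction hR with
  | refl => exact tsc_R_refl _
  | tail _ hbc ih => exact ih.tail ⟨(lat_adj_shift t).2 hbc.1, h _ hbc.2.1, h _ hbc.2.2⟩

theorem sd_TB_tr (e : TV) (a b c d : ℤ) (X : Set TV) :
    SdTB a b c d {y | y + e ∈ X}ᶜ ↔ SdTB (a + e.1) (b + e.1) (c + e.2) (d + e.2) Xᶜ := by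
  constructor
  · rintro ⟨u, v, hu, h1, h2, hR⟩
    have hs : ∀ z ∈ tscBox a b c d ∩ {y | y + e ∈ X}ᶜ, z + e ∈ tscBox (a + e.1) (b + e.1) (c + e.2) (d + e.2) ∩ Xᶜ := by
      rintro z ⟨⟨z1, z2, z3, z4⟩, z5⟩
      exact ⟨⟨by simp only [Prod.fst_add]; omega, by simp only [Prod.fst_add]; omega, by simp only [Prod.snd_add]; omega,
        by simp only [Prod.snd_add]; omega⟩, z5⟩
    exact ⟨u + e, v + e, hs u hu, by simp only [Prod.snd_add]; omega, by simp only [Prod.snd_add]; omega, sd_R_tr e hs hR⟩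
  · rintro ⟨u, v, hu, h1, h2, hR⟩
    have hs : ∀ z ∈ tscBox (a + e.1) (b + e.1) (c + e.2) (d + e.2) ∩ Xᶜ, z + -e ∈ tscBox a b c d ∩ {y | y + e ∈ X}ᶜ := by
      rintro z ⟨⟨z1, z2, z3, z4⟩, z5⟩
      refine ⟨⟨by simp only [Prod.fst_add, Prod.fst_neg]; omega, by simp only [Prod.fst_add, Prod.fst_neg]; omega,
        by simp only [Prod.snd_add, Prod.snd_neg]; omega, by simp only [Prod.snd_add, Prod.snd_neg]; omega⟩, ?_⟩
      intro h
      apply z5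
      simpa using h
    exact ⟨u + -e, v + -e, hs u hu, by simp only [Prod.snd_add, Prod.snd_neg]; omega, by simp only [Prod.snd_add, Prod.snd_neg]; omega,
      sd_R_tr (-e) hs hR⟩

theorem sd_LR_tr (e : TV) (a b c d : ℤ) (X : Set TV) :
    SdLR a b c d {y | y + e ∈ X}ᶜ ↔ SdLR (a + e.1) (b + e.1) (c + e.2) (d + e.2) Xᶜ := by
  constructor
  · rintro ⟨u, v, hu, h1, h2, hR⟩
    have hs : ∀ z ∈ tscBox a b c d ∩ {y | y + e ∈ X}ᶜ, z + e ∈ tscBox (a + e.1) (b + e.1) (c + e.2) (d + e.2) ∩ Xᶜ := by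
      rintro z ⟨⟨z1, z2, z3, z4⟩, z5⟩
      exact ⟨⟨by simp only [Prod.fst_add]; omega, by simp only [Prod.fst_add]; omega, by simp only [Prod.snd_add]; omega,
        by simp only [Prod.snd_add]; omega⟩, z5⟩
    exact ⟨u + e, v + e, hs u hu, by simp only [Prod.fst_add]; omega, by simp only [Prod.fst_add]; omega, sd_R_tr e hs hR⟩
  · rintro ⟨u, v, hu, h1, h2, hR⟩
    have hs : ∀ z ∈ tscBox (a + e.1) (b + e.1) (c + e.2) (d + e.2) ∩ Xᶜ, z + -e ∈ tscBox a b c d ∩ {y | y + e ∈ X}ᶜ := by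
      rintro z ⟨⟨z1, z2, z3, z4⟩, z5⟩
      refine ⟨⟨by simp only [Prod.fst_add, Prod.fst_neg]; omega, by simp only [Prod.fst_add, Prod.fst_neg]; omega,
        by simp only [Prod.snd_add, Prod.snd_neg]; omega, by simp only [Prod.snd_add, Prod.snd_neg]; omega⟩, ?_⟩
      intro h
      apply z5
      simpa using h
    exact ⟨u + -e, v + -e, hs u hu, by simp only [Prod.fst_add, Prod.fst_neg]; omega, by simp only [Prod.fst_add, Prod.fst_neg]; omega,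
      sd_R_tr (-e) hs hR⟩

theorem sd_tr_H (e : TV) (a b c d : ℤ) : sdTr e (SdH a b c d) = SdH (a + e.1) (b + e.1) (c + e.2) (d + e.2) := by
  funext X
  unfold sdTr SdH
  rw [sd_TB_tr]

theorem sd_tr_V (e : TV) (a b c d : ℤ) : sdTr e (SdV a b c d) = SdV (a + e.1) (b + e.1) (c + e.2) (d + e.2) := by
  funext X
  unfold sdTr SdV
  rw [sd_LR_tr]

theorem sd_up_blk (t c d : ℤ) : sdUp t (SdBlk c d) = SdBlk (c + t) (d + t) := by
  funext X
  unfold sdUp sdTr SdBlk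
  congr 1
  apply propext
  constructor
  · rintro ⟨u, v, hu, h1, h2, hR⟩
    have hs : ∀ z ∈ plsBand c d ∩ {y | y + ((0 : ℤ), t) ∈ X}ᶜ, z + ((0 : ℤ), t) ∈ plsBand (c + t) (d + t) ∩ Xᶜ := by
      rintro z ⟨⟨z3, z4⟩, z5⟩
      exact ⟨⟨by simp only [Prod.snd_add]; omega, by simp only [Prod.snd_add]; omega⟩, z5⟩
    exact ⟨u + (0, t), v + (0, t), hs u hu, by simp only [Prod.snd_add]; omega, by simp only [Prod.snd_add]; omega, sd_R_tr _ hs hR⟩
  · rintro ⟨u, v, hu, h1, h2, hR⟩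
    have hs : ∀ z ∈ plsBand (c + t) (d + t) ∩ Xᶜ, z + -((0 : ℤ), t) ∈ plsBand c d ∩ {y | y + ((0 : ℤ), t) ∈ X}ᶜ := by
      rintro z ⟨⟨z3, z4⟩, z5⟩
      refine ⟨⟨by simp only [Prod.snd_add, Prod.snd_neg]; omega, by simp only [Prod.snd_add, Prod.snd_neg]; omega⟩, ?_⟩
      intro h
      apply z5
      have h' : z + -((0 : ℤ), t) + ((0 : ℤ), t) ∈ X := h
      rwa [neg_add_cancel_right] at h'
    exact ⟨u + -(0, t), v + -(0, t), hs u hu, by simp only [Prod.snd_add, Prod.snd_neg]; omega, by simp only [Prod.snd_add, Prod.snd_neg]; omega,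
      sd_R_tr _ hs hR⟩

theorem sd_tr_inc (e : TV) {E : Set TV → Prop} (h : SdInc E) : SdInc (sdTr e E) :=
  fun _ _ hX hE => h _ _ (fun _ hy => hX hy) hE

theorem sd_tr_tr (e e' : TV) (E : Set TV → Prop) : sdTr e (sdTr e' E) = sdTr (e + e') E := by
  funext X
  unfold sdTr
  congr 1
  ext y
  show y + e' + e ∈ X ↔ y + (e + e') ∈ X
  rw [add_assoc, add_comm e' e]

theorem sd_per_set {L : ℤ} {X : Set TV} (hX : PlsPer L X) (k : ℤ) : {y | y + (k * L, (0 : ℤ)) ∈ X} = X := by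
  ext y
  exact pls_per_mul hX k y

/-- periodicity: `H⁺` of a box and of its translate by a period -/
theorem sd_H_per {L : ℤ} {X : Set TV} (hX : PlsPer L X) (k a b c d : ℤ) : SdH (a + k * L) (b + k * L) c d X ↔ SdH a b c d X := by
  have h := congrFun (sd_tr_H (k * L, 0) a b c d) X
  unfold sdTr at h
  rw [sd_per_set hX k] at h
  simp only [add_zero] at h
  rw [h]

theorem sd_V_per {L : ℤ} {X : Set TV} (hX : PlsPer L X) (k a b c d : ℤ) : SdV (a + k * L) (b + k * L) c d X ↔ SdV a b c d X := by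
  have h := congrFun (sd_tr_V (k * L, 0) a b c d) X
  unfold sdTr at h
  rw [sd_per_set hX k] at h
  simp only [add_zero] at h
  rw [h]

/-! ### D4 -/

/-- S3: a blocked band gives `H⁺` of every box whose rows contain the band -/
theorem sd_blk_H {a b c d c' d' : ℤ} (hcd : c ≤ d) (h1 : c' ≤ c) (h2 : d ≤ d') {X : Set TV} (h : SdBlk c d X) : SdH a b c' d' X := by
  rintro ⟨u, v, hu, hu2, hv2, hR⟩
  obtain ⟨u', v', hu', e1, e2, hR'⟩ := sd_sub_snd hu hR hcd (by omega) (by omega)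
  refine h ⟨u', v', ⟨⟨by omega, by omega⟩, hu'.2⟩, e1, e2, tsc_R_mono ?_ hR'⟩
  rintro z ⟨⟨_, z2⟩, z3⟩
  exact ⟨z3, z2⟩

/-- S4: a blocked sub-band blocks the band -/
theorem sd_blk_sub {c d c' d' : ℤ} (hcd : c' ≤ d') (h1 : c ≤ c') (h2 : d' ≤ d) {X : Set TV} (h : SdBlk c' d' X) : SdBlk c d X := by
  rintro ⟨u, v, hu, hu2, hv2, hR⟩
  obtain ⟨u', v', hu', e1, e2, hR'⟩ := sd_sub_snd hu hR hcd (by omega) (by omega)
  refine h ⟨u', v', ⟨⟨by omega, by omega⟩, hu'.2⟩, e1, e2, tsc_R_mono ?_ hR'⟩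
  rintro z ⟨⟨_, z2⟩, z3⟩
  exact ⟨z3, z2⟩

/-- `H⁺` of a box gives `H⁺` of every narrower box with the same rows -/
theorem sd_H_narrow {a b a' b' c d : ℤ} (h1 : a ≤ a') (h2 : b' ≤ b) {X : Set TV} (h : SdH a b c d X) : SdH a' b' c d X := by
  rintro ⟨u, v, hu, hu2, hv2, hR⟩
  have hs : tscBox a' b' c d ∩ Xᶜ ⊆ tscBox a b c d ∩ Xᶜ := by
    rintro z ⟨⟨z1, z2, z3, z4⟩, z5⟩
    exact ⟨⟨by omega, by omega, z3, z4⟩, z5⟩
  exact h ⟨u, v, hs hu, hu2, hv2, tsc_R_mono hs hR⟩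

/-- `V⁺` of a box gives `V⁺` of every box with the same columns and fewer rows -/
theorem sd_V_short {a b c d c' d' : ℤ} (h1 : c ≤ c') (h2 : d' ≤ d) {X : Set TV} (h : SdV a b c d X) : SdV a b c' d' X := by
  rintro ⟨u, v, hu, hu2, hv2, hR⟩
  have hs : tscBox a b c' d' ∩ Xᶜ ⊆ tscBox a b c d ∩ Xᶜ := by
    rintro z ⟨⟨z1, z2, z3, z4⟩, z5⟩
    exact ⟨⟨z1, z2, by omega, by omega⟩, z5⟩
  exact h ⟨u, v, hs hu, hu2, hv2, tsc_R_mono hs hR⟩

/-! ### D5: the winding closure -/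

/-- a connected set inside the rows `c..d` which is not crossed... : if no path off `X` crosses the box `[l, r] × [c, d]` from left to right, then a connected part of `Xᶜ` in the band lies to the left of `r`
or to the right of `l` -/
theorem sd_sep_col {l r c d : ℤ} (hlr : l ≤ r) {X : Set TV} (hV : SdV l r c d X) {u : TV} (hu : u ∈ plsBand c d ∩ Xᶜ) :
    (∀ w, TscR tscG (plsBand c d ∩ Xᶜ) u w → w.1 ≤ r) ∨ (∀ w, TscR tscG (plsBand c d ∩ Xᶜ) u w → l ≤ w.1) := by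
  by_contra hcon
  rw [not_or] at hcon
  obtain ⟨hc1, hc2⟩ := hcon
  simp only [not_forall] at hc1 hc2
  obtain ⟨w1, hw1, hw1'⟩ := hc1
  obtain ⟨w2, hw2, hw2'⟩ := hc2
  have hR : TscR tscG (plsBand c d ∩ Xᶜ) w2 w1 := tsc_R_trans (tsc_R_symm hw2) hw1
  obtain ⟨u', v', hu', e1, e2, hR'⟩ := sd_sub_fst (tsc_R_mem hw2 hu) hR hlr (by omega) (by omega)
  refine hV ⟨u', v', ⟨⟨by omega, by omega, hu'.1.1, hu'.1.2⟩, hu'.2⟩, e1, e2, tsc_R_mono ?_ hR'⟩
  rintro z ⟨⟨⟨z1, z2⟩, z3⟩, z4, z5⟩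
  exact ⟨⟨z4, z5, z1, z2⟩, z3⟩

/-- a path stays in every set which contains the component of its first site -/
theorem sd_R_restrict {s t : Set TV} {u v : TV} (h : ∀ w, TscR tscG s u w → w ∈ t) (hR : TscR tscG s u v) : TscR tscG (s ∩ t) u v := by
  induction hR with
  | refl => exact tsc_R_refl _
  | @tail w w' hw hbc ih =>
    exact ih.tail ⟨hbc.1, ⟨hbc.2.1, h w hw⟩, ⟨hbc.2.2, h w' (hw.tail hbc)⟩⟩

/-- normalisation of the first column -/
theorem sd_norm {L : ℤ} (hL : 0 < L) (a x : ℤ) : ∃ k : ℤ, a ≤ x + k * L ∧ x + k * L < a + L := by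
  refine ⟨-((x - a) / L), ?_, ?_⟩
  · have h1 := Int.emod_nonneg (x - a) hL.ne'
    have h2 := Int.emod_add_mul_ediv (x - a) L
    nlinarith
  · have h1 := Int.emod_lt_of_pos (x - a) hL
    have h2 := Int.emod_add_mul_ediv (x - a) L
    nlinarith

/-- a vertical crossing whose component lies in the columns `a..b` is a crossing of the box -/
theorem sd_TB_of_comp {a b c d : ℤ} {P : Set TV} {u v : TV} (hu : u ∈ plsBand c d ∩ P) (hc : u.2 = c) (hd : v.2 = d)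
    (hR : TscR tscG (plsBand c d ∩ P) u v) (h : ∀ w, TscR tscG (plsBand c d ∩ P) u w → a ≤ w.1 ∧ w.1 ≤ b) : SdTB a b c d P := by
  have h0 := h u (tsc_R_refl _)
  refine ⟨u, v, ⟨⟨h0.1, h0.2, hu.1.1, hu.1.2⟩, hu.2⟩, hc, hd, tsc_R_mono ?_ (sd_R_restrict (t := {w | a ≤ w.1 ∧ w.1 ≤ b}) h hR)⟩
  rintro z ⟨⟨⟨z1, z2⟩, z3⟩, z4, z5⟩
  exact ⟨⟨z4, z5, z1, z2⟩, z3⟩

/-- **D5, WINDING CLOSURE** (S5 of 147; replaces the last two paragraphs of the proof of TEX[annulus:winding]).   `R₁ = [a₁, b₁]`, `R₂ = [a₂, b₂]` cover the circle, `Q₁ = [a₂, b₁]`, `Q₂ = [a₁ + L, b₂]` are the overlaps.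
PLAN: normalise the first site of a crossing to `a₁ ≤ u.1 < a₁ + L`; `sd_sep_col` for the four overlaps `Q₁ - L`, `Q₂ - L`, `Q₁`, `Q₂`: the component lies in `R₂ - L`, `R₁` or `R₂`. -/
theorem sd_wind_det {L a₁ b₁ a₂ b₂ c d : ℤ} (hL : 0 < L) (h1 : a₁ < a₂) (h2 : a₂ ≤ b₁) (h3 : b₁ < a₁ + L) (h4 : a₁ + L ≤ b₂) (h5 : b₂ < a₂ + L)
    {X : Set TV} (hX : PlsPer L X) (hR1 : SdH a₁ b₁ c d X) (hR2 : SdH a₂ b₂ c d X) (hQ1 : SdV a₂ b₁ c d X) (hQ2 : SdV (a₁ + L) b₂ c d X) :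
    SdBlk c d X := by
  rintro ⟨u0, v0, hu0, hc0, hd0, hR0⟩
  have hper : PlsPer L (plsBand c d ∩ Xᶜ) := pls_per_inter (pls_per_band L c d) (pls_per_compl hX)
  obtain ⟨k, hk1, hk2⟩ := sd_norm hL a₁ u0.1
  set u : TV := u0 + (k * L, 0) with hu
  set v : TV := v0 + (k * L, 0) with hv
  have hR : TscR tscG (plsBand c d ∩ Xᶜ) u v := pls_R_shift hper k hR0
  have hum : u ∈ plsBand c d ∩ Xᶜ := (pls_per_mul hper k u0).2 hu0
  have hc : u.2 = c := by simp [hu, hc0]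
  have hd : v.2 = d := by simp [hv, hd0]
  have hu1 : u.1 = u0.1 + k * L := by simp [hu]
  have hself := tsc_R_refl (G := tscG) (s := plsBand c d ∩ Xᶜ) u
  -- the shifted overlaps and the shifted box
  have hQ1' : SdV (a₂ + -1 * L) (b₁ + -1 * L) c d X := (sd_V_per hX (-1) a₂ b₁ c d).2 hQ1
  have hQ2' : SdV (a₁ + L + -1 * L) (b₂ + -1 * L) c d X := (sd_V_per hX (-1) (a₁ + L) b₂ c d).2 hQ2
  have hR2' : SdH (a₂ + -1 * L) (b₂ + -1 * L) c d X := (sd_H_per hX (-1) a₂ b₂ c d).2 hR2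
  have s1 := sd_sep_col (by omega) hQ2 hum
  have s2 := sd_sep_col (by omega) hQ1' hum
  have s3 := sd_sep_col (by omega) hQ2' hum
  have s4 := sd_sep_col (by omega) hQ1 hum
  have t1 : ∀ w, TscR tscG (plsBand c d ∩ Xᶜ) u w → w.1 ≤ b₂ := by
    rcases s1 with s | s
    · exact s
    · have := s u hself; omega
  have t2 : ∀ w, TscR tscG (plsBand c d ∩ Xᶜ) u w → a₂ + -1 * L ≤ w.1 := by
    rcases s2 with s | s
    · have := s u hself; omega
    · exact s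
  rcases s3 with s | s
  · exact hR2' (sd_TB_of_comp hum hc hd hR fun w hw => ⟨t2 w hw, s w hw⟩)
  · rcases s4 with s' | s'
    · exact hR1 (sd_TB_of_comp hum hc hd hR fun w hw => ⟨by have := s w hw; omega, s' w hw⟩)
    · exact hR2 (sd_TB_of_comp hum hc hd hR fun w hw => ⟨s' w hw, t1 w hw⟩)

/-! ### D6: extraction -/

/-- discrete intermediate value -/
theorem sd_ivt (A : ℤ → Prop) (s : ℤ) : ∀ n : ℕ, ¬ A s → A (s + n) → ∃ t : ℤ, s ≤ t ∧ t < s + n ∧ ¬ A t ∧ A (t + 1) := by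
  intro n
  induction n with
  | zero =>
    intro h1 h2
    rw [Nat.cast_zero, add_zero] at h2
    exact absurd h2 h1
  | succ n ih =>
    intro h1 h2
    by_cases h : A (s + n)
    · obtain ⟨t, t1, t2, t3, t4⟩ := ih h1 h
      exact ⟨t, t1, by push_cast; omega, t3, t4⟩
    · refine ⟨s + n, by omega, by push_cast; omega, h, ?_⟩
      have e : s + (n : ℤ) + 1 = s + ((n + 1 : ℕ) : ℤ) := by push_cast; ring
      rw [e]
      exact h2

/-- **D6, EXTRACTION**.   PLAN (no minimum over the path): normalise `4 m ≤ u.1 < L + 4 m`, `t₁ = u.1 / m`; `C` = the component of `u`.   If for some `t ∈ [t₁ - 4, t₁ + 1]` the component has a site in a column `≤ t m` and a site in a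
column `≥ (t + 4) m`: `sd_sub_fst` + `sd_H_iff`.   Otherwise `t₀` = the largest `t ≤ t₁` with `C ⊆ {t m < column}`: `C ⊆ (t₀ m, (t₀ + 5) m)`: `sd_V_iff`. -/
theorem sd_ext {L m : ℕ} (hL : 1 ≤ L) (hm : 1 ≤ m) {X : Set TV} (hX : PlsPer L X) (h : SdVX 0 m X) :
    ∃ j : ℕ, j < L / m + 6 ∧ (SdV ((j : ℤ) * m) ((j : ℤ) * m + 6 * m) 0 m X ∨ SdH ((j : ℤ) * m) ((j : ℤ) * m + 4 * m) 0 m X) := by
  obtain ⟨u0, v0, hu0, hc0, hd0, hR0⟩ := h
  have hL' : (0 : ℤ) < L := by exact_mod_cast hL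
  have hm' : (0 : ℤ) < m := by exact_mod_cast hm
  have hper : PlsPer L (plsBand 0 m ∩ X) := pls_per_inter (pls_per_band L 0 m) hX
  obtain ⟨k, hk1, hk2⟩ := sd_norm hL' (4 * m) u0.1
  set u : TV := u0 + (k * L, 0) with hu
  set v : TV := v0 + (k * L, 0) with hv
  have hR : TscR tscG (plsBand 0 m ∩ X) u v := pls_R_shift hper k hR0
  have hum : u ∈ plsBand 0 m ∩ X := (pls_per_mul hper k u0).2 hu0
  have hc : u.2 = 0 := by simp [hu, hc0]
  have hd : v.2 = m := by simp [hv, hd0]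
  have hu1 : u.1 = u0.1 + k * L := by simp [hu]
  have hself := tsc_R_refl (G := tscG) (s := plsBand 0 m ∩ X) u
  set t₁ : ℤ := u.1 / m with ht₁
  have q1 : t₁ * m ≤ u.1 := Int.ediv_mul_le _ hm'.ne'
  have q2 : u.1 < (t₁ + 1) * m := Int.lt_ediv_add_one_mul_self _ hm'
  have q3 : 4 ≤ t₁ := by
    rw [ht₁]
    exact Int.le_ediv_of_mul_le hm' (by omega)
  have q4 : t₁ - 4 ≤ ((L / m : ℕ) : ℤ) := by
    rw [Int.natCast_div]
    refine Int.le_ediv_of_mul_le hm' ?_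
    nlinarith
  -- the two outputs
  have outH : ∀ t : ℤ, t₁ - 4 ≤ t → t ≤ t₁ + 1 → (∃ w, TscR tscG (plsBand 0 m ∩ X) u w ∧ w.1 ≤ t * m) →
      (∃ w, TscR tscG (plsBand 0 m ∩ X) u w ∧ (t + 4) * m ≤ w.1) →
      ∃ j : ℕ, j < L / m + 6 ∧ (SdV ((j : ℤ) * m) ((j : ℤ) * m + 6 * m) 0 m X ∨ SdH ((j : ℤ) * m) ((j : ℤ) * m + 4 * m) 0 m X) := by
    rintro t ht1 ht2 ⟨w1, hw1, hw1'⟩ ⟨w2, hw2, hw2'⟩
    refine ⟨t.toNat, by omega, Or.inr ?_⟩
    rw [Int.toNat_of_nonneg (by omega), sd_H_iff (by nlinarith) (by omega)]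
    obtain ⟨u', v', hu', e1, e2, hR'⟩ := sd_sub_fst (tsc_R_mem hw1 hum) (tsc_R_trans (tsc_R_symm hw1) hw2)
      (a := t * m) (b := t * m + 4 * m) (by nlinarith) hw1' (by nlinarith)
    refine ⟨u', v', ⟨⟨by omega, by omega, hu'.1.1, hu'.1.2⟩, hu'.2⟩, e1, e2, tsc_R_mono ?_ hR'⟩
    rintro z ⟨⟨⟨z1, z2⟩, z3⟩, z4, z5⟩
    exact ⟨⟨z4, z5, z1, z2⟩, z3⟩
  by_cases hA : ∃ w, TscR tscG (plsBand 0 m ∩ X) u w ∧ w.1 ≤ (t₁ - 4) * m
  · exact outH (t₁ - 4) le_rfl (by omega) hA ⟨u, hself, by nlinarith⟩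
  obtain ⟨t, t1, t2, t3, t4⟩ := sd_ivt (fun t => ∃ w, TscR tscG (plsBand 0 m ∩ X) u w ∧ w.1 ≤ t * m) (t₁ - 4) 5 hA
    ⟨u, hself, by push_cast; nlinarith⟩
  by_cases hB : ∃ w, TscR tscG (plsBand 0 m ∩ X) u w ∧ (t + 1 + 4) * m ≤ w.1
  · exact outH (t + 1) (by omega) (by push_cast at t2; omega) t4 hB
  refine ⟨t.toNat, by push_cast at t2; omega, Or.inl ?_⟩
  rw [Int.toNat_of_nonneg (by omega), sd_V_iff (by nlinarith) (by omega)]
  refine sd_TB_of_comp hum hc hd hR fun w hw => ⟨?_, ?_⟩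
  · by_contra hcon
    exact t3 ⟨w, hw, by omega⟩
  · by_contra hcon
    exact hB ⟨w, hw, by nlinarith⟩

/-! ### D7: the band alternative -/

/-- two colours which are never adjacent: membership in the first one is constant along a path inside their union -/
theorem sd_one_sign {A B s : Set TV} (hs : s ⊆ A ∪ B) (hAB : ∀ y y' : TV, triAdj y y' → y ∈ A → y' ∈ B → False) {u v : TV}
    (hR : TscR tscG s u v) : u ∈ A ↔ v ∈ A := by
  refine propext_iff.1 (tsc_R_const (G := tscG) (s := s) (fun y => y ∈ A) (fun a b hab => propext ?_) hR)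
  obtain ⟨hadj, ha, hb⟩ := hab
  constructor
  · intro h
    rcases hs hb with h' | h'
    · exact h'
    · exact (hAB a b hadj h h').elim
  · intro h
    rcases hs ha with h' | h'
    · exact h'
    · exact (hAB b a (lat_adj_symm hadj) h h').elim

/-- **D7, BAND ALTERNATIVE**, deterministic part (S1 of 147).   `Bp, Bm` = open cells of the first colour, `Wp, Wm` = open cells of the second colour.
PLAN: `P = Bp ∪ Bm`; a crossing path inside `P` has one sign (`tsc_R_const`); otherwise `pls_cyl_set` gives a connected blocking `M ⊆ Wp ∪ Wm`, which has one sign. -/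
theorem sd_alt {L : ℤ} (hL : 0 < L) {c d : ℤ} (hcd : c ≤ d) {Bp Bm Wp Wm : Set TV} (hBp : PlsPer L Bp) (hBm : PlsPer L Bm)
    (hcov : ∀ y ∈ plsBand c d, y ∈ Bp ∨ y ∈ Bm ∨ y ∈ Wp ∨ y ∈ Wm)
    (hB : ∀ y y' : TV, triAdj y y' → y ∈ Bp → y' ∈ Bm → False) (hW : ∀ y y' : TV, triAdj y y' → y ∈ Wp → y' ∈ Wm → False) :
    SdVX c d Bp ∨ SdVX c d Bm ∨ SdBlk c d Wp ∨ SdBlk c d Wm := by
  have hP : PlsPer L (Bp ∪ Bm) := fun u => or_congr (hBp u) (hBm u)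
  by_cases hx : ∃ u v : ℤ × ℤ, u ∈ plsBand c d ∩ (Bp ∪ Bm) ∧ u.2 = c ∧ v.2 = d ∧ TscR tscG (plsBand c d ∩ (Bp ∪ Bm)) u v
  · obtain ⟨u, v, hu, hc, hd, hR⟩ := hx
    have hsign : ∀ w, TscR tscG (plsBand c d ∩ (Bp ∪ Bm)) u w → (u ∈ Bp ↔ w ∈ Bp) :=
      fun w hw => sd_one_sign (Set.inter_subset_right) hB hw
    by_cases hup : u ∈ Bp
    · left
      refine ⟨u, v, ⟨hu.1, hup⟩, hc, hd, tsc_R_mono ?_ (sd_R_restrict (t := Bp) (fun w hw => (hsign w hw).1 hup) hR)⟩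
      rintro z ⟨⟨z1, _⟩, z2⟩
      exact ⟨z1, z2⟩
    · right; left
      have hm : ∀ w, TscR tscG (plsBand c d ∩ (Bp ∪ Bm)) u w → w ∈ Bm := by
        intro w hw
        rcases (tsc_R_mem hw hu).2 with h | h
        · exact absurd ((hsign w hw).2 h) hup
        · exact h
      refine ⟨u, v, ⟨hu.1, hm u (tsc_R_refl _)⟩, hc, hd, tsc_R_mono ?_ (sd_R_restrict (t := Bm) hm hR)⟩
      rintro z ⟨⟨z1, _⟩, z2⟩
      exact ⟨z1, z2⟩
  · right; right
    obtain ⟨M, hM, ⟨z0, hz0⟩, hconn, _, hblock⟩ := pls_cyl_set hL hcd hP hx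
    have hMW : M ⊆ Wp ∪ Wm := by
      intro z hz
      have h1 := hM hz
      rcases hcov z h1.1 with h | h | h | h
      · exact absurd (Or.inl h) h1.2
      · exact absurd (Or.inr h) h1.2
      · exact Or.inl h
      · exact Or.inr h
    by_cases hzp : z0 ∈ Wp
    · left
      rintro ⟨u, v, hu, hc, hd, hR⟩
      obtain ⟨w, hw1, hw2⟩ := hblock _ u v hu hR hc.le hd.ge
      exact hw2.2 ((sd_one_sign hMW hW (hconn z0 hz0 w hw1)).1 hzp)
    · right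
      rintro ⟨u, v, hu, hc, hd, hR⟩
      obtain ⟨w, hw1, hw2⟩ := hblock _ u v hu hR hc.le hd.ge
      rcases hMW hw1 with h | h
      · exact hzp ((sd_one_sign hMW hW (hconn z0 hz0 w hw1)).2 h)
      · exact hw2.2 h

/-! ### D8: (E3) gives a vertical crossing -/

/-- (E3) of 193 (`A2_lengthening_193.md` Sec. 1) in my vocabulary: a cluster off `X` in the box which touches its two short sides touches its top row or its bottom row -/
def SdE3 (a b c d : ℤ) (X : Set TV) : Prop :=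
  ∀ l r v : TV, l ∈ tscBox a b c d ∩ Xᶜ → l.1 = a → r.1 = b → TscR tscG (tscBox a b c d ∩ Xᶜ) l v → TscR tscG (tscBox a b c d ∩ Xᶜ) v r →
    ∃ t : TV, (t.2 = c ∨ t.2 = d) ∧ TscR tscG (tscBox a b c d ∩ Xᶜ) v t

/-- **D8**: rows `c ≤ c₁ ≤ d₁ ≤ d`: `H⁺` below, `H⁺` above and (E3) give `V⁺` of the middle box -/
theorem sd_e3_vert {a b c c₁ d₁ d : ℤ} (h1 : c ≤ c₁) (h2 : c₁ ≤ d₁) (h3 : d₁ ≤ d) {X : Set TV} (hE : SdE3 a b c d X) (hlo : SdH a b c c₁ X) (hhi : SdH a b d₁ d X) :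
    SdV a b c₁ d₁ X := by
  rintro ⟨l, r, hl, hla, hrb, hR⟩
  have hs : tscBox a b c₁ d₁ ∩ Xᶜ ⊆ tscBox a b c d ∩ Xᶜ := by
    rintro z ⟨⟨z1, z2, z3, z4⟩, z5⟩
    exact ⟨⟨z1, z2, by omega, by omega⟩, z5⟩
  obtain ⟨t, ht, hRt⟩ := hE l r l (hs hl) hla hrb (tsc_R_refl _) (tsc_R_mono hs hR)
  have htm := tsc_R_mem hRt (hs hl)
  rcases ht with ht | ht
  · obtain ⟨u', v', hu', e1, e2, hR'⟩ := sd_sub_snd htm (tsc_R_symm hRt) h1 ht.le hl.1.2.2.1
    refine hlo ⟨u', v', ⟨⟨hu'.1.1, hu'.1.2.1, by omega, by omega⟩, hu'.2⟩, e1, e2, tsc_R_mono ?_ hR'⟩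
    rintro z ⟨⟨⟨z1, z2, _, _⟩, z3⟩, z4, z5⟩
    exact ⟨⟨z1, z2, z4, z5⟩, z3⟩
  · obtain ⟨u', v', hu', e1, e2, hR'⟩ := sd_sub_snd (hs hl) hRt h3 hl.1.2.2.2 ht.ge
    refine hhi ⟨u', v', ⟨⟨hu'.1.1, hu'.1.2.1, by omega, by omega⟩, hu'.2⟩, e1, e2, tsc_R_mono ?_ hR'⟩
    rintro z ⟨⟨⟨z1, z2, _, _⟩, z3⟩, z4, z5⟩
    exact ⟨⟨z1, z2, z4, z5⟩, z3⟩

theorem sd_det_eqns_cite : True := by
  have := @SdE3.eq_1
  trivial

end Claimed.Agent.R291
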