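import Claimed.Agent.R291.Exit.AnnRen
import Claimed.Agent.R291.Exit.AnnD
import Claimed.Agent.R291.Ann.Poly
import Claimed.Agent.R291.Ann.Chain

/-!
# Row 291 (S0539), Ann/Top : THEOREM 2.3 FROM THE EXITS OF THE BLOCKS A5, A6 AND (POLY), (R3)      (owner helper121; prefix `ann_`)

TEX[thm:circuit-input] in the WEAK form consumed by DIS (146, sec2_146.md (T23)): ONE ratio, `n ≥ n0`, set form.
LOGIC (ruling 121, 15 Oct 06:45Z, route of helper12; the quadratic recursion of `η` is neither proved nor needed):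
  (POLY2) `ann_poly_rad`   `(η(4t, 4bt) / (21 t)^4)^J ≤ 1 - π(n', κ t)`  for every `n' < 2 R t`:  a circuit of non-plus pieces of scale `t` round `Λ_{2Rt}`      (inequality, scale by scale, any far ratio `b`)
  (R3)    `ann_chain` at `(t, κ₁ t, κ₂ t)`     ⟹   `ann_U_eta` :  `(1/4) (η(4t, 28t) / (21 t)^4)^J ≤ U(t, 2Kt)`   for ALL `t ≥ 1`, `2K ≥ κ₂`
  (REC)   A5 `exit_ann_ren_U` : `U(N) ≤ C U(n)²` for `ρ n ≤ N ≤ ρ² n`.   If `C U(n₁) ≤ 1/2` then `C U(N) ≤ 2^{-2^j}` on `[ρ^j n₁, ρ^{j+1} n₁]`  (`ann_rec_all`)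
  ⟹ `η(4t, 28t)` decays faster than every power of `t`, for ALL `t`   ⟹  A6 `exit_ann_D` with `ρ = 3`, `r_k = 4 · 3^k T` : False.      Hence `C U(n, 2Kn) > 1/2` for all `n ≥ n0`.
-/

set_option autoImplicit false

namespace Claimed.Agent.R291

open Filter Topology

/-! ### arithmetic -/

theorem ann_super_ev (a ε : ℝ) (ha : 0 ≤ a) (hε : 0 < ε) : ∃ k0 : ℕ, ∀ k, k0 ≤ k → a ^ k * (1 / 2 : ℝ) ^ (2 ^ k) < ε := by
  obtain ⟨j, hj⟩ := pow_unbounded_of_one_lt a (one_lt_two : (1 : ℝ) < 2)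
  have h1 : Tendsto (fun n : ℕ => (n : ℝ) ^ j / (2 : ℝ) ^ n) atTop (𝓝 0) :=
    tendsto_pow_const_div_const_pow_of_one_lt j one_lt_two
  have h2 : Tendsto (fun k : ℕ => 2 ^ k) atTop atTop := tendsto_pow_atTop_atTop_of_one_lt (by norm_num)
  have h3 := (h1.comp h2).eventually (gt_mem_nhds hε)
  obtain ⟨k0, hk0⟩ := eventually_atTop.1 h3
  refine ⟨k0, fun k hk => lt_of_le_of_lt ?_ (hk0 k hk)⟩
  simp only [Function.comp]
  rw [one_div, inv_pow, ← div_eq_mul_inv]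
  refine div_le_div_of_nonneg_right ?_ (by positivity)
  calc a ^ k ≤ ((2 : ℝ) ^ j) ^ k := pow_le_pow_left₀ ha hj.le k
    _ = (((2 ^ k : ℕ) : ℝ)) ^ j := by push_cast; rw [← pow_mul, ← pow_mul, mul_comm]

/-- every scale `t ≥ ρ n₁` lies in a window -/
theorem ann_scale_ex (ρ n1 t : ℕ) (hρ : 2 ≤ ρ) (h1 : 1 ≤ n1) (ht : ρ * n1 ≤ t) :
    ∃ j, ρ ^ (j + 1) * n1 ≤ t ∧ t ≤ ρ ^ (j + 2) * n1 := by
  have hex : ∃ i, t < ρ ^ i * n1 := ⟨t, lt_of_lt_of_le (Nat.lt_pow_self (by omega)) (Nat.le_mul_of_pos_right _ h1)⟩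
  classical
  have hf := Nat.find_spec hex
  have hm := fun i => Nat.find_min hex (m := i)
  set i := Nat.find hex with hi
  rcases i with _ | _ | j
  · exfalso
    rw [pow_zero, one_mul] at hf
    have : n1 ≤ ρ * n1 := Nat.le_mul_of_pos_left _ (by omega)
    omega
  · exfalso
    rw [zero_add, pow_one] at hf
    omega
  · exact ⟨j, not_lt.1 (hm (j + 1) (by omega)), hf.le⟩

/-- (REC) on windows: decay on ALL scales -/
theorem ann_rec_all (u : ℕ → ℝ) (ρ : ℕ) (C : ℝ) (n0 n1 : ℕ) (hρ : 2 ≤ ρ) (hC : 0 < C) (h0 : ∀ n, 0 ≤ u n)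
    (hrec : ∀ n N, n0 ≤ n → ρ * n ≤ N → N ≤ ρ ^ 2 * n → u N ≤ C * u n ^ 2) (hn : n0 ≤ n1) (h1 : 1 ≤ n1) (hs : C * u n1 ≤ 1 / 2) :
    ∀ j N, ρ ^ (j + 1) * n1 ≤ N → N ≤ ρ ^ (j + 2) * n1 → C * u N ≤ (1 / 2 : ℝ) ^ (2 ^ (j + 1)) := by
  have step : ∀ n N, n0 ≤ n → ρ * n ≤ N → N ≤ ρ ^ 2 * n → ∀ δ : ℝ, C * u n ≤ δ → C * u N ≤ δ ^ 2 := by
    intro n N a b c δ hδ
    calc C * u N ≤ C * (C * u n ^ 2) := mul_le_mul_of_nonneg_left (hrec n N a b c) hC.le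
      _ = (C * u n) ^ 2 := by ring
      _ ≤ δ ^ 2 := pow_le_pow_left₀ (mul_nonneg hC.le (h0 n)) hδ 2
  intro j
  induction j with
  | zero =>
    intro N a b
    have := step n1 N hn (by simpa using a) (by simpa using b) _ hs
    simpa using this
  | succ j ih =>
    intro N a b
    have hρ0 : 0 < ρ := by omega
    have hlow : ρ ^ (j + 1) * n1 ≤ N / ρ := by
      rw [Nat.le_div_iff_mul_le hρ0]
      calc ρ ^ (j + 1) * n1 * ρ = ρ ^ (j + 1 + 1) * n1 := by rw [pow_succ ρ (j + 1)]; ring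
        _ ≤ N := a
    have hup : N / ρ ≤ ρ ^ (j + 2) * n1 := by
      refine Nat.div_le_of_le_mul ?_
      calc N ≤ ρ ^ (j + 1 + 2) * n1 := b
        _ = ρ * (ρ ^ (j + 2) * n1) := by rw [show j + 1 + 2 = (j + 2) + 1 by ring, pow_succ ρ (j + 2)]; ring
    have hpos : 1 ≤ ρ ^ (j + 1) * n1 := Nat.mul_pos (pow_pos hρ0 _) h1
    have hn1 : n1 ≤ ρ ^ (j + 1) * n1 := Nat.le_mul_of_pos_left _ (pow_pos hρ0 _)
    have hd1 : ρ * (N / ρ) ≤ N := Nat.mul_div_le N ρ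
    have hd2 : N < ρ * (N / ρ + 1) := by
      have := Nat.lt_mul_div_succ N hρ0
      simpa using this
    have hd3 : N ≤ ρ ^ 2 * (N / ρ) := by
      have : 1 ≤ N / ρ := hpos.trans hlow
      nlinarith
    have := step (N / ρ) N (hn.trans (hn1.trans hlow)) hd1 hd3 _ (ih (N / ρ) hlow hup)
    rw [← pow_mul, ← pow_succ] at this
    exact this

/-- **the dichotomy, new form**: (REC) on windows, a polynomial comparison `e ≲ u` at every scale, and "`e` does not decay faster than every power along `3^k T`" give a uniform lower bound of `u` -/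
theorem ann_dich2 (u e : ℕ → ℝ) (ρ : ℕ) (C : ℝ) (J n0 : ℕ) (hρ : 2 ≤ ρ) (hC : 0 < C) (h0 : ∀ n, 0 ≤ u n)
    (hrec : ∀ n N, n0 ≤ n → ρ * n ≤ N → N ≤ ρ ^ 2 * n → u N ≤ C * u n ^ 2)
    (hpoly : ∀ t : ℕ, 1 ≤ t → 1 / 4 * (e t / (21 * (t : ℝ)) ^ 4) ^ J ≤ u t)
    (hD : ∀ T : ℕ, 1 ≤ T → ¬ ∀ A : ℕ, ∃ k0, ∀ k, k0 ≤ k → e (3 ^ k * T) ≤ (1 / ((4 * (3 ^ k * T) : ℕ) : ℝ)) ^ A) :
    ∀ n, n0 ≤ n → 1 ≤ n → 1 / 2 < C * u n := by
  intro n1 hn h1
  by_contra hcon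
  rw [not_lt] at hcon
  have hall := ann_rec_all u ρ C n0 n1 hρ hC h0 hrec hn h1 hcon
  have hρ0 : 0 < ρ := by omega
  have hT : 1 ≤ ρ * n1 := Nat.mul_pos hρ0 h1
  refine hD (ρ * n1) hT (fun A => ?_)
  obtain ⟨D, hDdef⟩ : ∃ D, D = (A + 4) * J := ⟨_, rfl⟩
  have hρR : (0 : ℝ) < ρ := by exact_mod_cast hρ0
  have hnR : (0 : ℝ) < n1 := by exact_mod_cast h1
  obtain ⟨K0, hK0⟩ := ann_super_ev ((ρ : ℝ) ^ D) (C / (4 * (21 * (ρ : ℝ) * n1) ^ D)) (by positivity) (by positivity)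
  refine ⟨ρ ^ K0, fun k hk => ?_⟩
  by_contra hlt
  rw [not_le] at hlt
  set t := 3 ^ k * (ρ * n1) with ht
  have ht1 : 1 ≤ t := Nat.mul_pos (pow_pos (by norm_num) _) hT
  have htge : ρ * n1 ≤ t := Nat.le_mul_of_pos_left _ (pow_pos (by norm_num) _)
  obtain ⟨j, hj1, hj2⟩ := ann_scale_ex ρ n1 t hρ h1 htge
  have hu := hall j t hj1 hj2
  have hp := hpoly t ht1
  have htR : (0 : ℝ) < t := by exact_mod_cast ht1
  -- `j + 1 ≥ K0`
  have hjK : K0 ≤ j + 1 := by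
    by_contra hc
    have a1 : 3 ^ k * (ρ * n1) ≤ ρ ^ (j + 1) * (ρ * n1) := by
      calc 3 ^ k * (ρ * n1) = t := ht.symm
        _ ≤ ρ ^ (j + 2) * n1 := hj2
        _ = ρ ^ (j + 1) * (ρ * n1) := by rw [pow_succ ρ (j + 1)]; ring
    have a2 : 3 ^ k ≤ ρ ^ (j + 1) := Nat.le_of_mul_le_mul_right a1 hT
    have a3 : ρ ^ (j + 1) ≤ ρ ^ K0 := Nat.pow_le_pow_right hρ0 (by omega)
    have a4 : k < 3 ^ k := Nat.lt_pow_self (by norm_num)
    omega
  have hsm := hK0 (j + 1) hjK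
  -- lower bound of `e t / (21 t)^4`
  have b1 : (1 / (21 * (t : ℝ))) ^ (A + 4) ≤ e t / (21 * (t : ℝ)) ^ 4 := by
    rw [le_div_iff₀ (by positivity)]
    have c1 : (1 / (21 * (t : ℝ))) ^ (A + 4) * (21 * (t : ℝ)) ^ 4 = (1 / (21 * (t : ℝ))) ^ A := by
      rw [pow_add, mul_assoc, ← mul_pow, one_div_mul_cancel (by positivity), one_pow, mul_one]
    rw [c1]
    refine le_trans (pow_le_pow_left₀ (by positivity) ?_ A) hlt.le
    refine one_div_le_one_div_of_le (by positivity) ?_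
    push_cast
    linarith
  have b2 : (1 / (21 * (t : ℝ))) ^ D ≤ (e t / (21 * (t : ℝ)) ^ 4) ^ J := by
    rw [hDdef, pow_mul]
    exact pow_le_pow_left₀ (by positivity) b1 J
  have b3 : (t : ℝ) ≤ (ρ : ℝ) ^ (j + 1) * ((ρ : ℝ) * n1) := by
    have : t ≤ ρ ^ (j + 1) * (ρ * n1) := by
      calc t ≤ ρ ^ (j + 2) * n1 := hj2
        _ = ρ ^ (j + 1) * (ρ * n1) := by rw [pow_succ ρ (j + 1)]; ring
    exact_mod_cast this
  have b4 : 1 / (((ρ : ℝ) ^ D) ^ (j + 1) * (21 * (ρ : ℝ) * n1) ^ D) ≤ (1 / (21 * (t : ℝ))) ^ D := by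
    rw [one_div_pow]
    refine one_div_le_one_div_of_le (by positivity) ?_
    rw [← pow_mul, mul_comm D (j + 1), pow_mul, ← mul_pow]
    refine pow_le_pow_left₀ (by positivity) ?_ D
    calc 21 * (t : ℝ) ≤ 21 * ((ρ : ℝ) ^ (j + 1) * ((ρ : ℝ) * n1)) := by linarith
      _ = (ρ : ℝ) ^ (j + 1) * (21 * (ρ : ℝ) * n1) := by ring
  have b5 : C * (1 / 4 * (1 / (((ρ : ℝ) ^ D) ^ (j + 1) * (21 * (ρ : ℝ) * n1) ^ D))) ≤ (1 / 2 : ℝ) ^ (2 ^ (j + 1)) := by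
    refine le_trans (mul_le_mul_of_nonneg_left ?_ hC.le) hu
    refine le_trans ?_ hp
    exact mul_le_mul_of_nonneg_left (b4.trans b2) (by norm_num)
  have hpos : (0 : ℝ) < ((ρ : ℝ) ^ D) ^ (j + 1) := by positivity
  have b6 : C / (4 * (21 * (ρ : ℝ) * n1) ^ D) ≤ ((ρ : ℝ) ^ D) ^ (j + 1) * (1 / 2 : ℝ) ^ (2 ^ (j + 1)) := by
    have := mul_le_mul_of_nonneg_left b5 hpos.le
    refine le_trans (le_of_eq ?_) this
    field_simp
  linarith

/-! ### monotonicity in the domain (T2) -/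

/-- T2 for probabilities: `P^-_D ≤ P^-_{D'}` on increasing events of `D ⊆ D'` -/
theorem ann_dom_minus (x : ℝ) (hx0 : 0 < x) (hx2 : x ≤ 1) (D D' : Finset TV) (hDD : D ⊆ D') (L : ClCfg TV TV → Prop)
    (hL : ClMonoP (clInn x D) L) (hLl : ClLocP D (latCellsIn D) L) : anP x false D L ≤ anP x false D' L := by
  classical
  have hf : 0 < (clInn x D).Z (fun ω => CuPin false (amLay D) ω ∧ (clFree : ClCon TV TV).Holds (clInn x D) ω) := by
    have := ann_Z_pos x hx0 hx2 false D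
    have e : (fun ω => CuPin false (amLay D) ω ∧ (clFree : ClCon TV TV).Holds (clInn x D) ω) = DamPin (latBd D) false := by
      funext ω
      rw [anc_free_holds]
      exact propext (ann_pin_iff false D ω)
    rw [e]
    exact this
  have key := am_pl_dom_minus x hx0 hx2 D D' hDD clFree (anc_free_legal _) (anc_free_in _ _) hf (fun ω => if L ω then 1 else 0)
    (by
      intro ω ω' h1 h2
      beta_reduce
      by_cases a : L ω
      · rw [if_pos a, if_pos (hL ω ω' h1 h2 a)]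
      · rw [if_neg a]
        split_ifs <;> norm_num)
    (by
      intro ω ω' h1 h2 h3
      have := hLl ω ω' h1 h2 h3
      simp only [this])
  rw [anc_free_holds, anc_free_holds] at key
  rw [ann_P_am, ann_P_am]
  exact key

/-- `U(n, M)` increases with the domain (T2) -/
theorem ann_U_mono (x : ℝ) (hx0 : 0 < x) (hx2 : x ≤ 1) (n M M' : ℕ) (h1 : n < M) (h2 : M ≤ M') :
    anU x n M ≤ anU x n M' := by
  unfold anU
  refine (ann_dom_minus x hx0 hx2 (latBall 0 M) (latBall 0 M') (plh_ball_mono 0 h2) _ (dis_sep_mono _ _ _ _)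
    (ann_sep_loc x _ _ _ true)).trans ?_
  exact ann_P_mono x hx0 hx2 _ _ _ _ (fun ω h => ann_sub_sep x _ _ _ (plh_ball_mono 0 h2) (plh_ball_mono 0 h1.le) ω h)

/-! ### (POLY2) -/

/-- **(POLY2)**, one scale: a circuit of non-plus pieces of scale `t` round `Λ_{n'}`, `n' < 2 R t` -/
theorem ann_poly_rad (x : ℝ) (hx0 : 0 < x) (hx2 : x ≤ 1) (b : ℕ) (hb : 4 ≤ b) (R J kap : ℕ) (hRk : R ≤ kap)
    (hgeo : ∀ s : ℕ, 1 ≤ s → ∀ z z' : TV, latN z ≤ 5 * s → latN z' ≤ 5 * s → s ≤ latN (z' - z) →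
      ∃ G : List PlgMap, G.length ≤ J ∧ (∀ g ∈ G, latN (g.app 0) ≤ kap * s) ∧
        ∀ X : Set TV, (∀ g ∈ G, TscR tscG (X ∩ {p | ∃ u, latN u ≤ 5 * s ∧ g.app u = p}) (g.app z) (g.app z')) →
          ∀ u w, latN u ≤ R * s → (kap + 5) * s < latN w → ¬ TscR tscG Xᶜ u w)
    (t n' : ℕ) (ht : 1 ≤ t) (hn' : n' + 1 ≤ R * (2 * t)) (hη : 0 < anEta x (4 * t) (b * (4 * t))) :
    (anEta x (4 * t) (b * (4 * t)) / (21 * (t : ℝ)) ^ 4) ^ J ≤ 1 - anPi x n' ((2 * kap + 4 * b + 13) * t) := by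
  set η0 := anEta x (4 * t) (b * (4 * t)) with hη0
  set M := b * (4 * t) with hM
  set N := (2 * kap + 4 * b + 13) * t with hN
  have hMt : 8 * t + 1 ≤ M := by rw [hM]; nlinarith
  obtain ⟨z, z', hz, hz', hv, hp⟩ := ann_pigeon x hx0 hx2 t M ht hMt hη
  obtain ⟨G, hG1, hG2, hG3⟩ := hgeo (2 * t) (by omega) z z' hz hz' hv
  set p := anP x true (latBall 0 M) (AnJoin (anB (5 * (2 * t))) z z') with hpdef
  have ht0 : (0 : ℝ) < (21 * (t : ℝ)) ^ 4 := by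
    have : (0 : ℝ) < t := by exact_mod_cast ht
    positivity
  have hr : η0 / (21 * (t : ℝ)) ^ 4 ≤ p := by
    rw [div_le_iff₀ ht0, mul_comm]
    exact hp
  have hr0 : 0 ≤ η0 / (21 * (t : ℝ)) ^ 4 := by positivity
  have hp1 : p ≤ 1 := ann_P_le_one x hx0 hx2 _ _ _
  -- each copy in the big domain
  have hcopy : ∀ g ∈ G, p ≤ anP x true (latBall 0 N)
      (AnJoin {q | ∃ u, latN u ≤ 5 * (2 * t) ∧ g.app u = q} (g.app z) (g.app z')) := by
    intro g hg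
    rw [hpdef, ← ann_join_iso x g (latBall 0 M) (5 * (2 * t)) z z']
    refine ann_join_dom x hx0 hx2 _ _ (ann_site_ball g M (kap * (2 * t)) N (hG2 g hg) ?_) _
      (ann_site_cells g (5 * (2 * t)) M ?_) _ _
    · rw [hM, hN]; nlinarith
    · rw [hM]; nlinarith
  have hcells : ∀ g ∈ G, ∀ y ∈ {q : TV | ∃ u, latN u ≤ 5 * (2 * t) ∧ g.app u = q}, cellV y ⊆ latBall 0 N := by
    intro g hg y hy
    refine (ann_site_cells g (5 * (2 * t)) M ?_ y hy).trans (ann_site_ball g M (kap * (2 * t)) N (hG2 g hg) ?_)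
    · rw [hM]; nlinarith
    · rw [hM, hN]; nlinarith
  have hfkg := ann_join_fkg x hx0 hx2 (latBall 0 N) G (fun g => {q | ∃ u, latN u ≤ 5 * (2 * t) ∧ g.app u = q})
    (fun g => g.app z) (fun g => g.app z') hcells
  -- the product
  have hprod : p ^ G.length ≤ (G.map (fun g => anP x true (latBall 0 N)
      (AnJoin {q | ∃ u, latN u ≤ 5 * (2 * t) ∧ g.app u = q} (g.app z) (g.app z')))).prod := by
    have hp0 : 0 ≤ p := hr0.trans hr
    clear hfkg hG1 hG3 hcells hG2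
    induction G with
    | nil => simp
    | cons g G ih =>
      rw [List.length_cons, pow_succ, List.map_cons, List.prod_cons, mul_comm]
      exact mul_le_mul (hcopy g (List.mem_cons_self)) (ih fun g' hg' => hcopy g' (List.mem_cons_of_mem _ hg'))
        (pow_nonneg hp0 _) (hp0.trans (hcopy g (List.mem_cons_self)))
  -- the event blocks
  have hblock : anP x true (latBall 0 N) (fun ω => ∀ g ∈ G, AnJoin {q | ∃ u, latN u ≤ 5 * (2 * t) ∧ g.app u = q} (g.app z) (g.app z') ω) ≤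
      anP x true (latBall 0 N) (fun ω => ¬ CuCon (clInn x (latBall 0 N)) true ω (latBall 0 n') (latBd (latBall 0 N))) := by
    refine ann_P_mono x hx0 hx2 _ _ _ _ (fun ω hω => ?_)
    refine ann_block x n' (R * (2 * t)) ((kap + 5) * (2 * t)) N hn' ?_ ?_ ω (hG3 _ hω)
    · rw [hN]; nlinarith
    · have : R * (2 * t) ≤ kap * (2 * t) := Nat.mul_le_mul_right _ hRk
      rw [hN]; nlinarith
  rw [ann_P_compl x hx0 hx2] at hblock
  calc (η0 / (21 * (t : ℝ)) ^ 4) ^ J ≤ (η0 / (21 * (t : ℝ)) ^ 4) ^ G.length :=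
        pow_le_pow_of_le_one hr0 (hr.trans hp1) hG1
    _ ≤ p ^ G.length := pow_le_pow_left₀ hr0 hr _
    _ ≤ _ := hprod
    _ ≤ _ := hfkg
    _ ≤ _ := hblock

/-! ### the top -/

theorem ann_x_pos {x : ℝ} (hx1 : 1 / Real.sqrt 2 ≤ x) : 0 < x := lt_of_lt_of_le (by positivity) hx1

/-- **`U` dominates a power of `η`, at every scale** ((POLY2) twice + (R3)) -/
theorem ann_U_eta (x : ℝ) (hx1 : 1 / Real.sqrt 2 ≤ x) (hx2 : x ≤ 1) (b : ℕ) (hb : 4 ≤ b) :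
    ∃ κ J : ℕ, 2 ≤ κ ∧ ∀ K t : ℕ, κ ≤ 2 * K → 1 ≤ t →
      1 / 4 * (anEta x (4 * t) (b * (4 * t)) / (21 * (t : ℝ)) ^ 4) ^ J ≤ anU x t (2 * K * t) := by
  have hx0 := ann_x_pos hx1
  obtain ⟨J1, kap1, hR1, hgeo1⟩ := plg_geo_rad 5 1
  obtain ⟨κ1, hκ1⟩ : ∃ κ1, κ1 = 2 * kap1 + 4 * b + 13 := ⟨_, rfl⟩
  obtain ⟨J2, kap2, hR2, hgeo2⟩ := plg_geo_rad 5 κ1
  obtain ⟨κ2, hκ2⟩ : ∃ κ2, κ2 = 2 * kap2 + 4 * b + 13 := ⟨_, rfl⟩
  refine ⟨κ2, J1 + J2 + 1, by omega, fun K t hK ht => ?_⟩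
  have hU0 : 0 ≤ anU x t (2 * K * t) := ann_P_nonneg x hx0 hx2 _ _ _
  have hη0 : 0 ≤ anEta x (4 * t) (b * (4 * t)) := ann_P_nonneg x hx0 hx2 _ _ _
  rcases hη0.eq_or_lt with h0 | hη
  · rw [← h0, zero_div, zero_pow (by omega), mul_zero]
    exact hU0
  have q1 := ann_poly_rad x hx0 hx2 b hb 1 J1 kap1 hR1 hgeo1 t t ht (by omega) hη
  have q2 := ann_poly_rad x hx0 hx2 b hb κ1 J2 kap2 hR2 hgeo2 t (κ1 * t + 1) ht (by nlinarith) hη
  rw [← hκ1] at q1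
  rw [← hκ2] at q2
  have htR : (1 : ℝ) ≤ t := by exact_mod_cast ht
  have ht4 : (0 : ℝ) < (21 * (t : ℝ)) ^ 4 := by positivity
  have hp0' : 0 ≤ anEta x (4 * t) (b * (4 * t)) / (21 * (t : ℝ)) ^ 4 := div_nonneg hη.le ht4.le
  have hp1' : anEta x (4 * t) (b * (4 * t)) / (21 * (t : ℝ)) ^ 4 ≤ 1 := by
    rw [div_le_one ht4]
    refine (ann_P_le_one x hx0 hx2 _ _ _).trans ?_
    exact one_le_pow₀ (by linarith)
  obtain ⟨p, hp⟩ : ∃ p, p = anEta x (4 * t) (b * (4 * t)) / (21 * (t : ℝ)) ^ 4 := ⟨_, rfl⟩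
  rw [← hp] at q1 q2 hp0' hp1' ⊢
  have hp0 := hp0'
  have hp1 := hp1'
  have hch := ann_chain x hx1 hx2 t (κ1 * t) (κ2 * t) ht (by nlinarith) (by nlinarith)
  have hmono := ann_U_mono x hx0 hx2 t (κ2 * t) (2 * K * t) (by nlinarith) (Nat.mul_le_mul_right t hK)
  refine le_trans ?_ (hch.trans hmono)
  have e : p ^ (J1 + J2 + 1) ≤ p ^ J2 * p ^ J1 := by
    rw [← pow_add]
    exact pow_le_pow_of_le_one hp0 hp1 (by omega)
  have := mul_le_mul q2 q1 (pow_nonneg hp0 _) ((pow_nonneg hp0 _).trans q2)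
  nlinarith

/-- **Theorem 2.3, weak form** -/
theorem ann_top (x : ℝ) (hx1 : 1 / Real.sqrt 2 ≤ x) (hx2 : x ≤ 1) :
    ∃ (κ n0 : ℕ) (c : ℝ), 2 ≤ κ ∧ 0 < c ∧ ∀ n : ℕ, n0 ≤ n → c ≤ anU x n (κ * n) := by
  have hx0 := ann_x_pos hx1
  obtain ⟨κ, J, hκ, P⟩ := ann_U_eta x hx1 hx2 7 (by norm_num)
  obtain ⟨K0, R⟩ := exit_ann_ren_U x hx1 hx2
  obtain ⟨ρ, C, n2, hρ, hC, R⟩ := R (max K0 κ) (le_max_left _ _)
  set K := max K0 κ with hK
  have hK1 : κ ≤ K := le_max_right _ _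
  have key := ann_dich2 (fun n => anU x n (2 * K * n)) (fun t => anEta x (4 * t) (7 * (4 * t))) ρ C J n2 hρ hC
    (fun n => ann_P_nonneg x hx0 hx2 _ _ _) R (fun t ht => P K t (by omega) ht)
    (fun T hT hdec => exit_ann_D x hx0 hx2 3 (fun k => 4 * (3 ^ k * T))
      (by simpa using (by omega : 1 ≤ 4 * T))
      (fun k => le_of_eq (by rw [pow_succ]; ring)) (fun k => le_of_eq (by rw [pow_succ]; ring)) hdec)
  refine ⟨2 * K, max n2 1, 1 / (2 * C), by omega, by positivity, fun n hn => ?_⟩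
  have := key n (le_trans (le_max_left _ _) hn) (le_trans (le_max_right _ _) hn)
  rw [div_le_iff₀ (by positivity)]
  linarith

end Claimed.Agent.R291
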